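import Vale.Agent.P157.Base

/-!
# P157: analytic lemmas on log-partition functions and Gaussian laws
-/

namespace Vale.Agent.P157.AnL

open Finset MeasureTheory ProbabilityTheory Filter Topology
open scoped BigOperators

section gen
variable {Z : Type*} [MeasurableSpace Z] {μ : Measure Z} [IsProbabilityMeasure μ]

theorem int_exp_pos {u : Z → ℝ} (h : Integrable (fun z => Real.exp (u z)) μ) :
    0 < ∫ z, Real.exp (u z) ∂μ := integral_exp_pos h

theorem int_bd {u : Z → ℝ} {b : ℝ} (hu : Measurable u) (hb : ∀ z, |u z| ≤ b) : Integrable u μ :=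
  Integrable.of_bound hu.aestronglyMeasurable b (Eventually.of_forall hb)

theorem int_exp_bd {u : Z → ℝ} {b : ℝ} (hu : Measurable u) (hb : ∀ z, |u z| ≤ b) :
    Integrable (fun z => Real.exp (u z)) μ :=
  int_bd (b := Real.exp b) hu.exp fun z => by
    rw [abs_of_pos (Real.exp_pos _)]; exact Real.exp_le_exp.2 (abs_le.1 (hb z)).2

/-- Jensen -/
theorem int_le_log {u : Z → ℝ} (h1 : Integrable u μ) (h2 : Integrable (fun z => Real.exp (u z)) μ) :
    ∫ z, u z ∂μ ≤ Real.log (∫ z, Real.exp (u z) ∂μ) := by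
  have hp := int_exp_pos h2
  set A := ∫ z, Real.exp (u z) ∂μ
  have : ∫ z, u z ∂μ ≤ ∫ z, (Real.exp (u z) / A + (Real.log A - 1)) ∂μ := by
    refine integral_mono h1 ((h2.div_const A).add (integrable_const _)) fun z => ?_
    have := Real.add_one_le_exp (u z - Real.log A)
    rw [Real.exp_sub, Real.exp_log hp] at this
    simp only
    linarith
  rw [integral_add (h2.div_const A) (integrable_const _), integral_div, div_self hp.ne'] at this
  simpa using this

theorem log_int_mono {u w : Z → ℝ} {c : ℝ} (h1 : Integrable (fun z => Real.exp (u z)) μ)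
    (h2 : Integrable (fun z => Real.exp (w z)) μ) (h : ∀ z, u z ≤ w z + c) :
    Real.log (∫ z, Real.exp (u z) ∂μ) ≤ Real.log (∫ z, Real.exp (w z) ∂μ) + c := by
  rw [Real.log_le_iff_le_exp (int_exp_pos h1), Real.exp_add, Real.exp_log (int_exp_pos h2),
    ← integral_mul_const]
  exact integral_mono h1 (h2.mul_const _) fun z => by
    simp only [← Real.exp_add]; exact Real.exp_le_exp.2 (h z)

theorem log_int_lip {u w : Z → ℝ} {c a : ℝ} (ha : 0 < a)
    (h1 : Integrable (fun z => Real.exp (a * u z)) μ)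
    (h2 : Integrable (fun z => Real.exp (a * w z)) μ) (h : ∀ z, |u z - w z| ≤ c) :
    |Real.log (∫ z, Real.exp (a * u z) ∂μ) / a - Real.log (∫ z, Real.exp (a * w z) ∂μ) / a| ≤ c := by
  have e1 := log_int_mono (c := a * c) h1 h2 fun z => by nlinarith [abs_le.1 (h z)]
  have e2 := log_int_mono (c := a * c) h2 h1 fun z => by nlinarith [abs_le.1 (h z)]
  rw [← sub_div, abs_div, abs_of_pos ha, div_le_iff₀ ha, abs_le]
  constructor <;> linarith

theorem abs_log_int_le {u : Z → ℝ} {b : ℝ} (hu : Measurable u) (hb : ∀ z, |u z| ≤ b) :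
    |Real.log (∫ z, Real.exp (u z) ∂μ)| ≤ b := by
  have := log_int_lip (μ := μ) (u := u) (w := fun _ => 0) one_pos (by simpa using int_exp_bd hu hb)
    (by simp) (by simpa using hb)
  simpa using this

/-- Hoelder -/
theorem holder_log {u w : Z → ℝ} {b t : ℝ} (hu : Measurable u) (hw : Measurable w)
    (h1 : ∀ z, |u z| ≤ b) (h2 : ∀ z, |w z| ≤ b) (h0 : 0 ≤ t) (ht : t ≤ 1) :
    Real.log (∫ z, Real.exp ((1 - t) * u z + t * w z) ∂μ) ≤
      (1 - t) * Real.log (∫ z, Real.exp (u z) ∂μ) + t * Real.log (∫ z, Real.exp (w z) ∂μ) := by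
  have i1 : Integrable (fun z => Real.exp (u z)) μ := int_exp_bd hu h1
  have i2 : Integrable (fun z => Real.exp (w z)) μ := int_exp_bd hw h2
  have i3 : Integrable (fun z => Real.exp ((1 - t) * u z + t * w z)) μ :=
    int_exp_bd (b := b) (by fun_prop) fun z => by
      rw [abs_le]; constructor <;> nlinarith [abs_le.1 (h1 z), abs_le.1 (h2 z)]
  have p1 := int_exp_pos i1
  have p2 := int_exp_pos i2
  set A := ∫ z, Real.exp (u z) ∂μ
  set B := ∫ z, Real.exp (w z) ∂μ
  rw [Real.log_le_iff_le_exp (int_exp_pos i3)]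
  set m := (1 - t) * Real.log A + t * Real.log B
  have : ∫ z, Real.exp ((1 - t) * u z + t * w z) ∂μ ≤ ∫ z, Real.exp m *
      ((1 - t) * (Real.exp (u z) / A) + t * (Real.exp (w z) / B)) ∂μ := by
    refine integral_mono i3 ((((i1.div_const A).const_mul _).add
      ((i2.div_const B).const_mul _)).const_mul _) fun z => ?_
    have := convexOn_exp.2 (Set.mem_univ (u z - Real.log A)) (Set.mem_univ (w z - Real.log B))
      (sub_nonneg.2 ht) h0 (by ring)
    simp only [smul_eq_mul, Real.exp_sub, Real.exp_log p1, Real.exp_log p2] at this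
    have e : (1 - t) * u z + t * w z =
      m + ((1 - t) * (u z - Real.log A) + t * (w z - Real.log B)) := by simp only [m]; ring
    simp only
    rw [e, Real.exp_add]
    exact mul_le_mul_of_nonneg_left this (Real.exp_pos _).le
  rw [integral_const_mul, integral_add ((i1.div_const A).const_mul _) ((i2.div_const B).const_mul _),
    integral_const_mul, integral_const_mul, integral_div, integral_div, div_self p1.ne',
    div_self p2.ne'] at this
  simpa using this

/-- power means -/
theorem pow_mean {u : Z → ℝ} {b a : ℝ} (hu : Measurable u) (h1 : ∀ z, |u z| ≤ b) (h0 : 0 < a)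
    (ha : a ≤ 1) :
    Real.log (∫ z, Real.exp (a * u z) ∂μ) / a ≤ Real.log (∫ z, Real.exp (u z) ∂μ) := by
  have hb : ∀ z : Z, |(0 : ℝ)| ≤ b := fun z => by simpa using (abs_nonneg _).trans (h1 z)
  have := holder_log (μ := μ) (u := fun _ => 0) measurable_const hu hb h1 h0.le ha
  rw [div_le_iff₀' h0]
  simpa using this

theorem meas_log_int {G : Type*} [MeasurableSpace G] {H : G → Z → ℝ}
    (hH : Measurable (Function.uncurry H)) :
    Measurable fun g => Real.log (∫ z, Real.exp (H g z) ∂μ) :=
  (StronglyMeasurable.integral_prod_right (f := fun g z => Real.exp (H g z))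
    hH.exp.stronglyMeasurable).measurable.log

end gen

theorem int_exp_gam (t : ℝ) : Integrable (fun z => Real.exp (t * z)) gam :=
  integrable_exp_mul_gaussianReal t

theorem mgf_gam (t : ℝ) : ∫ z, Real.exp (t * z) ∂gam = Real.exp (t ^ 2 / 2) := by
  have := congrFun (mgf_fun_id_gaussianReal (μ := 0) (v := 1)) t
  simpa [mgf, gam] using this

theorem exp_abs_le (t x : ℝ) : Real.exp (t * |x|) ≤ Real.exp (t * x) + Real.exp (-t * x) := by
  rcases abs_choice x with h | h <;> rw [h]
  · linarith [Real.exp_pos (-t * x)]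
  · rw [show t * -x = -t * x by ring]; linarith [Real.exp_pos (t * x)]

theorem ze_pos {n l : ℕ} (h : l ≤ n) : 0 < ze n l := by
  rw [ze, sub_pos, div_lt_one (by positivity)]
  exact_mod_cast Nat.lt_succ_of_le h

theorem ze_le_one (n l : ℕ) : ze n l ≤ 1 := by
  rw [ze]; exact sub_le_self _ (by positivity)

/-- restriction of an i.i.d. family along an injection -/
theorem mp_comp {ι ι' X : Type*} [Fintype ι] [Fintype ι'] [MeasurableSpace X] (ν : Measure X)
    [IsProbabilityMeasure ν] {e : ι → ι'} (he : Function.Injective e) :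
    MeasurePreserving (fun (g : ι' → X) i => g (e i)) (Measure.pi fun _ => ν)
      (Measure.pi fun _ => ν) := by
  classical
  refine ⟨by fun_prop, (Measure.pi_eq fun s hs => ?_).symm⟩
  rw [Measure.map_apply (by fun_prop) (MeasurableSet.univ_pi hs)]
  have : (fun (g : ι' → X) i => g (e i)) ⁻¹' Set.univ.pi s =
      Set.univ.pi (Function.extend e s fun _ => Set.univ) := by
    ext g
    simp only [Set.mem_preimage, Set.mem_pi, Set.mem_univ, true_imp_iff]
    refine ⟨fun h i' => ?_, fun h i => by simpa only [he.extend_apply] using h (e i)⟩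
    by_cases h1 : ∃ i, e i = i'
    · obtain ⟨i, rfl⟩ := h1
      rw [he.extend_apply]; exact h i
    · rw [Function.extend_apply' _ _ _ h1]; trivial
  rw [this, Measure.pi_pi]
  symm
  refine Fintype.prod_of_injective e he _ _ (fun i' hi' => ?_) fun i => by rw [he.extend_apply]
  rw [Function.extend_apply' _ _ _ hi', measure_univ]

theorem mp_lin {I : Type} [Fintype I] {y : I → ℝ} (h : ∑ i, y i ^ 2 = 1) :
    MeasurePreserving (fun g : I → ℝ => ∑ i, g i * y i) (gI I) gam := by
  refine ⟨by fun_prop, Measure.ext_of_charFun (funext fun t => ?_)⟩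
  rw [charFun_apply_real, integral_map (Measurable.aemeasurable (by fun_prop)) (by fun_prop)]
  have e : ∀ g : I → ℝ, Complex.exp (t * ((∑ i, g i * y i : ℝ) : ℂ) * Complex.I) =
      ∏ i, Complex.exp ((t * y i : ℝ) * g i * Complex.I) := fun g => by
    rw [← Complex.exp_sum]
    push_cast
    simp only [mul_sum, sum_mul]
    congr 1
    exact sum_congr rfl fun j _ => by ring
  simp only [e]
  rw [gI, integral_fintype_prod_eq_prod (fun i (z : ℝ) => Complex.exp ((t * y i : ℝ) * z * Complex.I))]
  simp only [← charFun_apply_real, gam, charFun_gaussianReal]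
  rw [← Complex.exp_sum]
  congr 1
  have h' : ∑ i, (y i : ℂ) ^ 2 = 1 := by exact_mod_cast h
  have : ∀ i, ((t * y i : ℝ) : ℂ) * ((0 : ℝ) : ℂ) * Complex.I - (((1 : NNReal) : ℝ) : ℂ) *
      ((t * y i : ℝ) : ℂ) ^ 2 / 2 = -(t : ℂ) ^ 2 / 2 * (y i : ℂ) ^ 2 := fun i => by
    push_cast; ring
  simp only [this, ← mul_sum, h']
  push_cast; ring

theorem mp_neg : MeasurePreserving (fun z : ℝ => -z) gam gam :=
  ⟨measurable_neg, by simpa [gam] using gaussianReal_map_neg (μ := 0) (v := 1)⟩

/-- Gaussian convolution -/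
theorem gam_conv {φ : ℝ → ℝ} {b : ℝ} (hφ : Measurable φ) (hb : ∀ x, |φ x| ≤ b) {s v : ℝ}
    (hs : 0 ≤ s) (hv : 0 ≤ v) (x : ℝ) :
    ∫ z, ∫ z', φ (x + √v * z + √s * z') ∂gam ∂gam = ∫ z, φ (x + √(s + v) * z) ∂gam := by
  have m : ∀ w : ℝ, (hw : 0 ≤ w) → gam.map (√w * ·) = gaussianReal 0 (.mk w hw) := fun w hw => by
    rw [gam, gaussianReal_map_const_mul]
    congr 1
    · simp
    · ext; simp [Real.sq_sqrt hw]
  have h1 := gaussianReal_conv_gaussianReal (m₁ := 0) (m₂ := 0) (v₁ := .mk v hv) (v₂ := .mk s hs)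
  have h2 : gaussianReal (0 + 0) (.mk v hv + .mk s hs) = gam.map (√(s + v) * ·) := by
    rw [m _ (add_nonneg hs hv)]
    congr 1
    · simp
    · ext; simp [add_comm]
  rw [h2, ← m v hv, ← m s hs, Measure.conv, Measure.map_prod_map _ _ (by fun_prop) (by fun_prop),
    Measure.map_map (by fun_prop) (by fun_prop)] at h1
  have h3 : Measurable fun y => φ (x + y) := by fun_prop
  rw [← integral_map (μ := gam) (φ := (√(s + v) * ·)) (f := fun y => φ (x + y)) (by fun_prop)
    h3.aestronglyMeasurable, ← h1, integral_map (by fun_prop) h3.aestronglyMeasurable,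
    integral_prod _ (int_bd (by fun_prop) fun _ => hb _)]
  simp [add_assoc]

end Vale.Agent.P157.AnL
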