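import Vale.Agent.P157.Defs
import Vale.Agent.P168.Sign

/-!
# P157: finite hierarchical systems, signs, layers
-/

namespace Vale.Agent.P157

open Vale.Agent.P168 Vale.Agent.P168.PW Finset MeasureTheory
open scoped BigOperators

variable {Ω Ω' : Type} [Fintype Ω] [Fintype Ω']

/-- The weight of one level. -/
noncomputable def wt (n : ℕ) : ℝ := 1 / ((n : ℝ) + 1)

/-- Tilted chain. -/
noncomputable def Tn (n : ℕ) (P : Ch Ω) (G : Ω → ℝ) : Ch Ω := T (al n) P 0 G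

/-- Free energy at the top, as a function of the top state. -/
noncomputable def Xn (n : ℕ) (P : Ch Ω) (G : Ω → ℝ) : Ω → ℝ := X (al n) P 0 G (n + 1)

/-- Averaged free energy. -/
noncomputable def Fr (n : ℕ) (P : Ch Ω) (ρ : PW Ω) (G : Ω → ℝ) : ℝ := ρ.E (Xn n P G)

/-- Average of a function of the state at height `j`. -/
noncomputable def Eh (n : ℕ) (P : Ch Ω) (ρ : PW Ω) (j : ℕ) (F : Ω → ℝ) : ℝ :=
  ρ.E (A P j (n + 1) F)

/-- Average over two replicas branching at height `j`. -/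
noncomputable def E2 (n : ℕ) (P : Ch Ω) (ρ : PW Ω) (j : ℕ) (F : Ω → Ω → ℝ) : ℝ :=
  Eh n P ρ j fun ω => A P 0 j (fun x => A P 0 j (fun y => F x y) ω) ω

/-- Weighted size of a family of two-replica functions. -/
noncomputable def dev (n : ℕ) (P : Ch Ω) (ρ : PW Ω) (F : ℕ → Ω → Ω → ℝ) : ℝ :=
  wt n * ∑ j ∈ Icc 1 (n + 1), E2 n P ρ j fun x y => |F j x y|

/-- Cumulative profile. -/
noncomputable def cum (n : ℕ) (q : ℕ → ℝ) (l : ℕ) : ℝ := wt n * ∑ j ∈ Icc 1 l, q j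

/-- Overlap of feature vectors. -/
noncomputable def ov {I : Type} [Fintype I] (u : I → Ω → ℝ) (N : ℝ) (x y : Ω) : ℝ :=
  (∑ i, u i x * u i y) / N

/-- Overlap profile. -/
noncomputable def prof (n : ℕ) (P : Ch Ω) (ρ : PW Ω) (R : Ω → Ω → ℝ) (j : ℕ) : ℝ := E2 n P ρ j R

section basic
variable {n : ℕ} {P : Ch Ω} {ρ : PW Ω} {j : ℕ}

theorem wt_pos (n : ℕ) : 0 < wt n := by unfold wt; positivity

theorem wt_le_one (n : ℕ) : wt n ≤ 1 := by
  rw [wt, div_le_one (by positivity)]; simp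

theorem wt_mul (n : ℕ) : wt n * ((n : ℝ) + 1) = 1 := by
  rw [wt]; field_simp

theorem wt_sum (n : ℕ) (c : ℝ) : wt n * ∑ _j ∈ Icc 1 (n + 1), c = c := by
  simp only [sum_const, Nat.card_Icc, Nat.add_sub_cancel, nsmul_eq_mul]
  push_cast
  rw [← mul_assoc, wt_mul, one_mul]

theorem al_le_one (n : ℕ) : al n 0 ≤ 1 := (al_zero n).le

theorem al_eq_ze {l : ℕ} (h : l ≤ n) : al n l = ze n l := al_of_le h

theorem al_sub {l : ℕ} (h : l < n) : al n l - al n (l + 1) = wt n := by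
  rw [al_of_le h.le, al_of_le h, wt]; push_cast; ring

theorem al_top (n : ℕ) : al n n = wt n := by
  rw [al_of_le le_rfl, wt]; field_simp; ring

theorem al_top' (n : ℕ) : al n (n + 1) = wt n := by
  rw [← al_top]; simp [al]

theorem Rs_al (F G : Ω → ℝ) {p : ℕ} (hp : p ≤ n) (ω : Ω) :
    Rs (al n) P 0 F G (p + 1) ω = A P 0 (p + 1) (fun x => F x * G x) ω -
      wt n * ∑ j ∈ Icc 1 p, A P j (p + 1) (fun x => A P 0 j F x * A P 0 j G x) ω -
      al n p * (A P 0 (p + 1) F ω * A P 0 (p + 1) G ω) := by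
  have h1 : ∑ j ∈ Icc 1 p, A P j (p + 1) (fun x => A P 0 j F x * A P 0 j G x) ω =
      ∑ i ∈ Ico 0 p, A P (i + 1) (p + 1)
        (fun x => A P 0 (i + 1) F x * A P 0 (i + 1) G x) ω := by
    rw [sum_Ico_add' (fun j => A P j (p + 1) (fun x => A P 0 j F x * A P 0 j G x) ω) 0 p 1]
    rfl
  rw [Rs, al_zero, one_mul, sum_Ico_succ_top (Nat.zero_le p), A_of_le (le_refl (p + 1)), h1,
    mul_sum, sum_congr rfl (g := fun i => wt n *
      A P (i + 1) (p + 1) (fun x => A P 0 (i + 1) F x * A P 0 (i + 1) G x) ω)]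
  · ring
  · intro i hi
    rw [al_sub (by simp at hi; omega)]

theorem Rs_top (F G : Ω → ℝ) (ω : Ω) :
    Rs (al n) P 0 F G (n + 1) ω = A P 0 (n + 1) (fun x => F x * G x) ω -
      wt n * ∑ j ∈ Icc 1 (n + 1), A P j (n + 1) (fun x => A P 0 j F x * A P 0 j G x) ω := by
  rw [Rs_al F G le_rfl, al_top, sum_Icc_succ_top (Nat.le_add_left 1 n), A_of_le (le_refl (n + 1))]
  ring

theorem Tn_Tn (G G' : Ω → ℝ) : Tn n (Tn n P G) G' = Tn n P fun ω => G ω + G' ω := T_T G G'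

theorem Tn_zero : Tn n P (fun _ => 0) = P := T_const (al_pos n) 0

theorem Tn_add_const (G : Ω → ℝ) (c : ℝ) : Tn n P (fun ω => G ω + c) = Tn n P G := by
  rw [← Tn_Tn]; exact T_const (al_pos n) c

theorem Xn_add (G G' : Ω → ℝ) (ω : Ω) :
    Xn n P (fun ω => G ω + G' ω) ω = Xn n P G ω + Xn n (Tn n P G) G' ω := by
  simp only [Xn, X_add, Tn]

theorem Fr_add (G G' : Ω → ℝ) :
    Fr n P ρ (fun ω => G ω + G' ω) = Fr n P ρ G + Fr n (Tn n P G) ρ G' := by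
  simp only [Fr]; rw [← E_add]; exact E_congr _ (Xn_add G G')

theorem Fr_const (c : ℝ) : Fr n P ρ (fun _ => c) = c := by
  simp only [Fr, Xn, X_const (al_pos n), E_const]

theorem Fr_add_const (G : Ω → ℝ) (c : ℝ) : Fr n P ρ (fun ω => G ω + c) = Fr n P ρ G + c := by
  rw [Fr_add, Fr_const]

theorem Fr_mono {G G' : Ω → ℝ} (h : ∀ ω, G ω ≤ G' ω) : Fr n P ρ G ≤ Fr n P ρ G' :=
  E_mono _ (X_mono (al_pos n) h _)

theorem abs_Fr_sub_le {G G' : Ω → ℝ} {c : ℝ} (h : ∀ ω, |G ω - G' ω| ≤ c) :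
    |Fr n P ρ G - Fr n P ρ G'| ≤ c :=
  abs_E_sub_le_const _ (abs_X_sub_le (al_pos n) h _)

theorem abs_Fr_le {G : Ω → ℝ} {c : ℝ} (h : ∀ ω, |G ω| ≤ c) : |Fr n P ρ G| ≤ c :=
  abs_E_le_const _ (abs_X_le (al_pos n) h _)

theorem Eh_le_Fr (G : Ω → ℝ) : Eh n P ρ 0 G ≤ Fr n P ρ G := E_mono _ (A_le_X (al_pos n) G _)

theorem Fr_le_log (G : Ω → ℝ) : Fr n P ρ G ≤ Real.log (Eh n P ρ 0 fun ω => Real.exp (G ω)) := by
  have h1 : ∀ ω, Xn n P G ω ≤ Real.log (A P 0 (n + 1) (fun ω => Real.exp (G ω)) ω) := fun ω => by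
    have := X_le_lam (P := P) (j := 0) (al_pos n) one_pos G (n + 1)
      (fun i _ _ => (al_anti n (Nat.zero_le i)).trans (al_le_one n)) ω
    simpa [lam, A, Xn] using this
  refine (E_mono _ h1).trans ?_
  have h2 := E_le_lam one_pos ρ fun ω => Real.log (A P 0 (n + 1) (fun ω => Real.exp (G ω)) ω)
  refine h2.trans (le_of_eq ?_)
  simp only [lam, one_mul, div_one, Eh]
  congr 1
  exact E_congr _ fun ω => Real.exp_log (E_pos _ fun _ => Real.exp_pos _)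

theorem Eh_congr {F G : Ω → ℝ} (h : ∀ x, F x = G x) : Eh n P ρ j F = Eh n P ρ j G := by
  rw [funext h]
theorem Eh_const (c : ℝ) : Eh n P ρ j (fun _ => c) = c := by simp [Eh, A_const]
theorem Eh_add (F G : Ω → ℝ) :
    Eh n P ρ j (fun x => F x + G x) = Eh n P ρ j F + Eh n P ρ j G := by
  simp only [Eh]; rw [← E_add]; exact E_congr _ (A_add F G)
theorem Eh_sub (F G : Ω → ℝ) :
    Eh n P ρ j (fun x => F x - G x) = Eh n P ρ j F - Eh n P ρ j G := by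
  simp only [Eh]; rw [← E_sub]; exact E_congr _ (A_sub F G)
theorem Eh_const_mul (c : ℝ) (F : Ω → ℝ) :
    Eh n P ρ j (fun x => c * F x) = c * Eh n P ρ j F := by
  simp only [Eh]; rw [← E_const_mul]; exact E_congr _ (A_const_mul c F)
theorem Eh_neg (F : Ω → ℝ) : Eh n P ρ j (fun x => -F x) = -Eh n P ρ j F := by
  simpa using Eh_const_mul (n := n) (P := P) (ρ := ρ) (j := j) (-1) F
theorem A_sum {ι : Type*} (s : Finset ι) (F : ι → Ω → ℝ) {p : ℕ} (ω : Ω) :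
    A P j p (fun x => ∑ i ∈ s, F i x) ω = ∑ i ∈ s, A P j p (F i) ω := E_sum _ _ _
theorem Eh_sum {ι : Type*} (s : Finset ι) (F : ι → Ω → ℝ) :
    Eh n P ρ j (fun x => ∑ i ∈ s, F i x) = ∑ i ∈ s, Eh n P ρ j (F i) := by
  simp only [Eh]; rw [← E_sum]; exact E_congr _ (A_sum s F)
theorem Eh_mono {F G : Ω → ℝ} (h : ∀ x, F x ≤ G x) : Eh n P ρ j F ≤ Eh n P ρ j G :=
  E_mono _ (A_mono h)
theorem Eh_nonneg {F : Ω → ℝ} (h : ∀ x, 0 ≤ F x) : 0 ≤ Eh n P ρ j F := E_nonneg _ (A_nonneg h)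
theorem Eh_le_const {F : Ω → ℝ} {c : ℝ} (h : ∀ x, F x ≤ c) : Eh n P ρ j F ≤ c :=
  E_le_const _ (A_le_const h)
theorem abs_Eh_le (F : Ω → ℝ) : |Eh n P ρ j F| ≤ Eh n P ρ j fun x => |F x| :=
  (abs_E_le _ _).trans (E_mono _ (abs_A_le_A F))
theorem abs_Eh_le_const {F : Ω → ℝ} {c : ℝ} (h : ∀ x, |F x| ≤ c) : |Eh n P ρ j F| ≤ c :=
  (abs_Eh_le F).trans (Eh_le_const h)
theorem Eh_A {i : ℕ} (hi : i ≤ j) (hj : j ≤ n + 1) (F : Ω → ℝ) :
    Eh n P ρ j (A P i j F) = Eh n P ρ i F := by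
  simp only [Eh, A_A hi F _ hj]
theorem Eh_sq_le (F : Ω → ℝ) : Eh n P ρ j F ^ 2 ≤ Eh n P ρ j fun x => F x ^ 2 :=
  (E_sq_le _ _).trans (E_mono _ fun _ => E_sq_le _ _)

theorem E2_congr {F G : Ω → Ω → ℝ} (h : ∀ x y, F x y = G x y) :
    E2 n P ρ j F = E2 n P ρ j G := by
  rw [show F = G from funext fun x => funext (h x)]
theorem E2_const (c : ℝ) : E2 n P ρ j (fun _ _ => c) = c := by simp [E2, A_const', Eh_const]
theorem E2_add (F G : Ω → Ω → ℝ) :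
    E2 n P ρ j (fun x y => F x y + G x y) = E2 n P ρ j F + E2 n P ρ j G := by
  simp only [E2, A_add, Eh_add]
theorem E2_sub (F G : Ω → Ω → ℝ) :
    E2 n P ρ j (fun x y => F x y - G x y) = E2 n P ρ j F - E2 n P ρ j G := by
  simp only [E2, A_sub, Eh_sub]
theorem E2_const_mul (c : ℝ) (F : Ω → Ω → ℝ) :
    E2 n P ρ j (fun x y => c * F x y) = c * E2 n P ρ j F := by
  simp only [E2, A_const_mul, Eh_const_mul]
theorem E2_sum {ι : Type*} (s : Finset ι) (F : ι → Ω → Ω → ℝ) :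
    E2 n P ρ j (fun x y => ∑ i ∈ s, F i x y) = ∑ i ∈ s, E2 n P ρ j (F i) := by
  simp only [E2, A_sum, Eh_sum]
theorem E2_mono {F G : Ω → Ω → ℝ} (h : ∀ x y, F x y ≤ G x y) : E2 n P ρ j F ≤ E2 n P ρ j G :=
  Eh_mono fun ω => A_mono (fun x => A_mono (h x) ω) ω
theorem E2_nonneg {F : Ω → Ω → ℝ} (h : ∀ x y, 0 ≤ F x y) : 0 ≤ E2 n P ρ j F := by
  simpa [E2_const] using E2_mono (n := n) (P := P) (ρ := ρ) (j := j) (F := fun _ _ => 0) h
theorem E2_le_const {F : Ω → Ω → ℝ} {c : ℝ} (h : ∀ x y, F x y ≤ c) : E2 n P ρ j F ≤ c := by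
  simpa [E2_const] using E2_mono (n := n) (P := P) (ρ := ρ) (j := j) (G := fun _ _ => c) h
theorem abs_E2_le (F : Ω → Ω → ℝ) : |E2 n P ρ j F| ≤ E2 n P ρ j fun x y => |F x y| :=
  (abs_Eh_le _).trans (Eh_mono fun ω =>
    (abs_A_le_A _ _).trans (A_mono (fun _ => abs_A_le_A _ _) ω))
theorem E2_mul (F G : Ω → ℝ) :
    E2 n P ρ j (fun x y => F x * G y) = Eh n P ρ j fun ω => A P 0 j F ω * A P 0 j G ω := by
  simp only [E2, A_const_mul, A_mul_const]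
theorem E2_fst (hj : j ≤ n + 1) (F : Ω → ℝ) : E2 n P ρ j (fun x _ => F x) = Eh n P ρ 0 F := by
  simp only [E2, A_const']; exact Eh_A (Nat.zero_le j) hj F
theorem E2_snd (hj : j ≤ n + 1) (F : Ω → ℝ) : E2 n P ρ j (fun _ y => F y) = Eh n P ρ 0 F := by
  simp only [E2, A_const']; exact Eh_A (Nat.zero_le j) hj F

theorem E2_sq_anti {i : ℕ} (hi : i ≤ j) (hj : j ≤ n + 1) (F : Ω → ℝ) :
    E2 n P ρ j (fun x y => F x * F y) ≤ E2 n P ρ i fun x y => F x * F y := by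
  rw [E2_mul, E2_mul, ← Eh_A hi hj]
  refine Eh_mono fun ω => ?_
  rw [← A_A' (Nat.zero_le i) hi, ← sq]
  have := E_sq_le (B P i j ω) (A P 0 i F)
  simp only [sq] at this ⊢
  exact this

theorem E2_sq_nonneg (F : Ω → ℝ) : 0 ≤ E2 n P ρ j fun x y => F x * F y := by
  rw [E2_mul]; exact Eh_nonneg fun ω => mul_self_nonneg _

section ov
variable {I : Type} [Fintype I] {u : I → Ω → ℝ} {N : ℝ}

theorem prof_ov (j : ℕ) :
    prof n P ρ (ov u N) j = (∑ i, E2 n P ρ j fun x y => u i x * u i y) / N := by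
  rw [← E2_sum, div_eq_inv_mul, ← E2_const_mul]
  exact E2_congr fun x y => by rw [ov, div_eq_inv_mul]

theorem prof_nonneg (hN : 0 ≤ N) (j : ℕ) : 0 ≤ prof n P ρ (ov u N) j := by
  rw [prof_ov]; exact div_nonneg (sum_nonneg fun i _ => E2_sq_nonneg _) hN

theorem prof_anti (hN : 0 ≤ N) {i : ℕ} (hi : i ≤ j) (hj : j ≤ n + 1) :
    prof n P ρ (ov u N) j ≤ prof n P ρ (ov u N) i := by
  rw [prof_ov, prof_ov]
  exact div_le_div_of_nonneg_right (sum_le_sum fun k _ => E2_sq_anti hi hj _) hN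

omit [Fintype Ω] in
theorem abs_ov_le (hN : 0 < N) {c : ℝ} (h : ∀ ω, ∑ i, u i ω ^ 2 ≤ c * N) (x y : Ω) :
    |ov u N x y| ≤ c := by
  rw [ov, abs_div, abs_of_pos hN, div_le_iff₀ hN]
  refine (abs_sum_le_sum_abs _ _).trans ?_
  have : ∀ i, |u i x * u i y| ≤ (u i x ^ 2 + u i y ^ 2) / 2 := fun i => by
    rw [abs_le]; constructor <;> nlinarith [sq_nonneg (u i x + u i y), sq_nonneg (u i x - u i y)]
  refine (sum_le_sum fun i _ => this i).trans ?_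
  rw [← sum_div, sum_add_distrib]
  linarith [h x, h y]

theorem prof_le (hN : 0 < N) {c : ℝ} (h : ∀ ω, ∑ i, u i ω ^ 2 ≤ c * N) (j : ℕ) :
    prof n P ρ (ov u N) j ≤ c :=
  E2_le_const fun x y => (le_abs_self _).trans (abs_ov_le hN h x y)

theorem prof_mono (hN : 0 ≤ N) : Mono n (prof n P ρ (ov u N)) :=
  ⟨fun _ hj => prof_anti hN (Nat.le_succ _) (by omega), prof_nonneg hN _⟩

end ov

theorem dev_nonneg (F : ℕ → Ω → Ω → ℝ) : 0 ≤ dev n P ρ F :=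
  mul_nonneg (wt_pos n).le (sum_nonneg fun _ _ => E2_nonneg fun _ _ => abs_nonneg _)

theorem dev_mono {F G : ℕ → Ω → Ω → ℝ} (h : ∀ j, 1 ≤ j → j ≤ n + 1 → ∀ x y, |F j x y| ≤ |G j x y|) :
    dev n P ρ F ≤ dev n P ρ G :=
  mul_le_mul_of_nonneg_left (sum_le_sum fun j hj =>
    E2_mono (h j (mem_Icc.mp hj).1 (mem_Icc.mp hj).2)) (wt_pos n).le

theorem dev_le_add {F G H : ℕ → Ω → Ω → ℝ}
    (h : ∀ j, 1 ≤ j → j ≤ n + 1 → ∀ x y, |F j x y| ≤ |G j x y| + |H j x y|) :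
    dev n P ρ F ≤ dev n P ρ G + dev n P ρ H := by
  rw [dev, dev, dev, ← mul_add, ← sum_add_distrib]
  refine mul_le_mul_of_nonneg_left (sum_le_sum fun j hj => ?_) (wt_pos n).le
  rw [← E2_add]
  exact E2_mono (h j (mem_Icc.mp hj).1 (mem_Icc.mp hj).2)

theorem dev_const_mul (c : ℝ) (F : ℕ → Ω → Ω → ℝ) :
    dev n P ρ (fun j x y => c * F j x y) = |c| * dev n P ρ F := by
  simp only [dev, abs_mul, E2_const_mul, ← mul_sum]; ring

theorem dev_const (c : ℝ) : dev n P ρ (fun _ _ _ => c) = |c| := by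
  simp only [dev, E2_const, wt_sum]

theorem dev_fst (F : Ω → ℝ) : dev n P ρ (fun _ x _ => F x) = Eh n P ρ 0 fun x => |F x| := by
  rw [dev, sum_congr rfl fun j hj => E2_fst (mem_Icc.mp hj).2 fun x => |F x|, wt_sum]

theorem dev_snd (F : Ω → ℝ) : dev n P ρ (fun _ _ y => F y) = Eh n P ρ 0 fun x => |F x| := by
  rw [dev, sum_congr rfl fun j hj => E2_snd (mem_Icc.mp hj).2 fun x => |F x|, wt_sum]

theorem abs_sum_E2_le (F : ℕ → Ω → Ω → ℝ) {l : ℕ} (hl : l ≤ n + 1) :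
    |wt n * ∑ j ∈ Icc 1 l, E2 n P ρ j (F j)| ≤ dev n P ρ F := by
  rw [abs_mul, abs_of_pos (wt_pos n), dev]
  refine mul_le_mul_of_nonneg_left ((abs_sum_le_sum_abs _ _).trans ?_) (wt_pos n).le
  refine (sum_le_sum fun j _ => abs_E2_le (F j)).trans
    (sum_le_sum_of_subset_of_nonneg (Icc_subset_Icc_right hl) fun j _ _ =>
      E2_nonneg fun _ _ => abs_nonneg _)

theorem abs_cum_prof_sub_le (R : Ω → Ω → ℝ) (q : ℕ → ℝ) {l : ℕ} (hl : l ≤ n + 1) :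
    |cum n (prof n P ρ R) l - cum n q l| ≤ dev n P ρ fun j x y => R x y - q j := by
  refine le_trans (le_of_eq ?_) (abs_sum_E2_le _ hl)
  simp only [cum, prof, E2_sub, E2_const, sum_sub_distrib, mul_sub]

theorem cum_zero (q : ℕ → ℝ) : cum n q 0 = 0 := by simp [cum]

theorem cum_succ (q : ℕ → ℝ) (l : ℕ) : cum n q (l + 1) = cum n q l + wt n * q (l + 1) := by
  simp only [cum, sum_Icc_succ_top (Nat.le_add_left 1 l), mul_add]

theorem sum_vr (q : ℕ → ℝ) : ∑ l ∈ range (n + 2), vr n q l = q 0 := by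
  rw [sum_range_succ, sum_congr rfl (g := fun l => q l - q (l + 1)), sum_range_sub']
  · simp [vr]
  · intro l hl; simp only [mem_range] at hl; rw [vr, if_pos (by omega)]

theorem vr_nonneg {q : ℕ → ℝ} (h : Mono n q) {l : ℕ} (hl : l ≤ n + 1) : 0 ≤ vr n q l := by
  unfold vr
  split_ifs with h1
  · linarith [h.1 l h1]
  · rw [show l = n + 1 by omega]; exact h.2

theorem sum_vr_ge (q : ℕ → ℝ) {j : ℕ} (hj : j ≤ n + 1) :
    ∑ l ∈ range (n + 2) with j ≤ l, vr n q l = q j := by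
  induction hj using Nat.decreasingInduction with
  | self =>
    rw [show (range (n + 2)).filter (fun l => n + 1 ≤ l) = {n + 1} by
      ext l; simp; omega]
    simp [vr]
  | of_succ j hj ih =>
    rw [show (range (n + 2)).filter (fun l => j ≤ l) =
      insert j ((range (n + 2)).filter fun l => j + 1 ≤ l) by ext l; simp; omega,
      sum_insert (by simp), ih, vr, if_pos (by omega)]
    ring

theorem sum_vr_cum (p q : ℕ → ℝ) :
    ∑ l ∈ range (n + 2), vr n q l * cum n p l = wt n * ∑ j ∈ Icc 1 (n + 1), p j * q j := by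
  simp only [cum, mul_sum]
  rw [sum_comm' (t' := Icc 1 (n + 1)) (s' := fun j => (range (n + 2)).filter fun l => j ≤ l)]
  · refine sum_congr rfl fun j hj => ?_
    rw [← sum_mul, sum_vr_ge q (mem_Icc.mp hj).2]; ring
  · intro l j; simp; omega

theorem Mono.anti {q : ℕ → ℝ} (h : Mono n q) {i : ℕ} (hi : i ≤ j) (hj : j ≤ n + 1) :
    q j ≤ q i := by
  induction j, hi using Nat.le_induction with
  | base => exact le_rfl
  | succ j hij ih => exact (h.1 j (by omega)).trans (ih (by omega))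

theorem Mono.nonneg {q : ℕ → ℝ} (h : Mono n q) (hj : j ≤ n + 1) : 0 ≤ q j :=
  h.2.trans (h.anti hj le_rfl)

theorem Adm.le_one {p : ℕ → ℝ} (h : Adm n p) (hj : j ≤ n + 1) : p j ≤ 1 :=
  h.1 ▸ h.2.anti (Nat.zero_le j) hj

end basic

/-! ### Embeddings of systems -/

/-- `g` maps the system `(P', ρ')` onto the system `(P, ρ)`. -/
structure Emb (g : Ω' → Ω) (P' : Ch Ω') (ρ' : PW Ω') (P : Ch Ω) (ρ : PW Ω) : Prop where
  mor : Mor 0 g P' P
  top : ∀ F : Ω → ℝ, ρ'.E (fun x => F (g x)) = ρ.E F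

section emb
variable {n : ℕ} {g : Ω' → Ω} {P' : Ch Ω'} {ρ' : PW Ω'} {P : Ch Ω} {ρ : PW Ω}

theorem Emb.Tn (h : Emb g P' ρ' P ρ) (G : Ω → ℝ) :
    Emb g (Tn n P' fun x => G (g x)) ρ' (Tn n P G) ρ := ⟨h.mor.T le_rfl G, h.top⟩

theorem Emb.Xn (h : Emb g P' ρ' P ρ) (G : Ω → ℝ) (ω : Ω') :
    Xn n P' (fun x => G (g x)) ω = Xn n P G (g ω) := congrFun (h.mor.X G _) ω

theorem Emb.Fr (h : Emb g P' ρ' P ρ) (G : Ω → ℝ) :
    Fr n P' ρ' (fun x => G (g x)) = Fr n P ρ G := by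
  rw [Vale.Agent.P157.Fr, Vale.Agent.P157.Fr, ← h.top]; exact E_congr _ (h.Xn G)

theorem Emb.A (h : Emb g P' ρ' P ρ) (j p : ℕ) (F : Ω → ℝ) (ω : Ω') :
    A P' j p (fun x => F (g x)) ω = A P j p F (g ω) :=
  congrFun ((h.mor.mono (Nat.zero_le j)).A F p) ω

theorem Emb.Eh (h : Emb g P' ρ' P ρ) (j : ℕ) (F : Ω → ℝ) :
    Eh n P' ρ' j (fun x => F (g x)) = Eh n P ρ j F := by
  rw [Vale.Agent.P157.Eh, Vale.Agent.P157.Eh, ← h.top]; exact E_congr _ (h.A j _ F)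

theorem Emb.E2 (h : Emb g P' ρ' P ρ) (j : ℕ) (F : Ω → Ω → ℝ) :
    E2 n P' ρ' j (fun x y => F (g x) (g y)) = E2 n P ρ j F := by
  rw [Vale.Agent.P157.E2, Vale.Agent.P157.E2, ← h.Eh]
  refine Eh_congr fun ω => ?_
  rw [← h.A]
  exact A_fun_congr (fun x => h.A 0 j (F (g x)) ω) ω

theorem Emb.dev (h : Emb g P' ρ' P ρ) (F : ℕ → Ω → Ω → ℝ) :
    dev n P' ρ' (fun j x y => F j (g x) (g y)) = dev n P ρ F := by
  simp only [Vale.Agent.P157.dev]
  congr 1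
  exact sum_congr rfl fun j _ => h.E2 j fun x y => |F j x y|

end emb

/-! ### Signs -/

/-- `τ` is a fair sign drawn at step `l`, independent of everything invariant under `π`. -/
structure Sy (l : ℕ) (τ : Ω → Bool) (π : Ω → Ω) (P : Ch Ω) (ρ : PW Ω) : Prop where
  self : ∀ ω, τ (π ω) = !τ ω
  emb : Emb π P ρ P ρ
  res : ∀ ω (F : Ω → ℝ), (P l ω).E (fun x => F (π x)) = (P l ω).E F
  frz : ∀ i < l, ∀ ω, Supp (P i ω) fun x => τ x = τ ω

/-- A family of signs. -/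
structure Fam (Λ Ω : Type) where
  τ : Λ → Ω → Bool
  π : Λ → Ω → Ω
  lv : Λ → ℕ

variable {Λ Λ' : Type}

structure Fam.Ok (s : Fam Λ Ω) (P : Ch Ω) (ρ : PW Ω) : Prop where
  sy : ∀ l, Sy (s.lv l) (s.τ l) (s.π l) P ρ
  ne : ∀ l l', l ≠ l' → ∀ ω, s.τ l' (s.π l ω) = s.τ l' ω

/-- Invariance under all the flips of the family. -/
def Fam.Inv {β : Type} (s : Fam Λ Ω) (F : Ω → β) : Prop := ∀ l ω, F (s.π l ω) = F ω

/-- Subfamily. -/
def Fam.comap (s : Fam Λ Ω) (e : Λ' → Λ) : Fam Λ' Ω where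
  τ := fun l => s.τ (e l)
  π := fun l => s.π (e l)
  lv := fun l => s.lv (e l)

theorem Fam.Ok.comap {s : Fam Λ Ω} {P : Ch Ω} {ρ : PW Ω} (h : s.Ok P ρ) {e : Λ' → Λ}
    (he : Function.Injective e) : (s.comap e).Ok P ρ :=
  ⟨fun l => h.sy (e l), fun _ _ hl => h.ne _ _ (he.ne hl)⟩

section sy
variable {n l : ℕ} {τ : Ω → Bool} {π : Ω → Ω} {P : Ch Ω} {ρ : PW Ω}

theorem Sy.Tn (h : Sy l τ π P ρ) {G : Ω → ℝ} (hG : ∀ ω, G (π ω) = G ω) :
    Sy l τ π (Tn n P G) ρ where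
  self := h.self
  emb := by simpa only [hG] using h.emb.Tn (n := n) G
  res := fun ω F => by
    have hX := h.emb.mor.X (a := al n) G l
    simp only [hG] at hX
    simp only [Vale.Agent.P157.Tn, T_of_le (Nat.zero_le l), E_tilt]
    rw [← h.res ω fun x => Real.exp (al n l * X (al n) P 0 G l x) * F x]
    congr 2
    funext x
    rw [congrFun hX x]
  frz := fun i hi ω => by
    simp only [Vale.Agent.P157.Tn, T_of_le (Nat.zero_le i)]; exact (h.frz i hi ω).tilt _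

theorem Fam.Ok.Tn {s : Fam Λ Ω} (h : s.Ok P ρ) {G : Ω → ℝ} (hG : s.Inv G) :
    s.Ok (Tn n P G) ρ := ⟨fun l => (h.sy l).Tn (hG l), h.ne⟩

theorem Sy.A_inv (h : Sy l τ π P ρ) {F : Ω → ℝ} (hF : ∀ ω, F (π ω) = F ω) (j p : ℕ) (ω : Ω) :
    A P j p F (π ω) = A P j p F ω := by
  rw [← h.emb.A]; simp only [hF]

theorem Sy.A_frozen (h : Sy l τ π P ρ) {j p : ℕ} (hp : p ≤ l) (F : Ω → ℝ) (ω : Ω) :
    A P j p (fun x => sp (τ x) * F x) ω = sp (τ ω) * A P j p F ω := by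
  rw [← A_const_mul]
  refine A_local (S := fun x => τ x = τ ω) (m := l) (fun i hi x hx => ?_)
    (fun x hx => by rw [hx]) p hp ω rfl
  have := h.frz i hi x
  rwa [hx] at this

/-- Odd functions average to zero above the level of the sign. -/
theorem Sy.A_odd (h : Sy l τ π P ρ) {j p : ℕ} (hj : j ≤ l) (hp : l + 1 ≤ p) {F : Ω → ℝ}
    (hF : ∀ ω, F (π ω) = -F ω) (ω : Ω) : A P j p F ω = 0 := by
  rw [← A_A' (i := l + 1) (by omega) hp]
  have : ∀ x, A P j (l + 1) F x = 0 := fun x => by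
    rw [A_succ hj]
    have h1 := h.res x (A P j l F)
    have h2 : ∀ y, A P j l F (π y) = -A P j l F y := fun y => by
      rw [← h.emb.A, ← A_neg]; simp only [hF]
    simp only [h2, E_neg] at h1
    linarith
  simp only [this, A_const']

theorem Sy.A_kill (h : Sy l τ π P ρ) {j p : ℕ} (hj : j ≤ l) (hp : l + 1 ≤ p) {F : Ω → ℝ}
    (hF : ∀ ω, F (π ω) = F ω) (ω : Ω) : A P j p (fun x => sp (τ x) * F x) ω = 0 :=
  h.A_odd hj hp (fun ω => by rw [h.self, sp_not, hF]; ring) ω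

theorem Sy.Eh_odd (h : Sy l τ π P ρ) (j : ℕ) {F : Ω → ℝ} (hF : ∀ ω, F (π ω) = -F ω) :
    Eh n P ρ j F = 0 := by
  have := h.emb.Eh (n := n) j F
  simp only [hF, Eh_neg] at this
  linarith

end sy

/-! ### Smooth functions, fields, layers -/

/-- `F 0` has `k` derivatives `F 1, ..., F k`, all bounded by `c`. -/
def Sm (c : ℝ) (k : ℕ) (F : ℕ → ℝ → ℝ) : Prop :=
  (∀ i < k, ∀ x, HasDerivAt (F i) (F (i + 1) x) x) ∧ ∀ i, 1 ≤ i → i ≤ k → ∀ x, |F i x| ≤ c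

section fld
variable {n : ℕ} {I : Type} [Fintype I]

/-- The field of level `l`. -/
noncomputable def fld (s : Fam (Fin (n + 1) × I) Ω) (u : I → Ω → ℝ) (l : Fin (n + 1)) (ω : Ω) : ℝ :=
  ∑ i, sp (s.τ (l, i) ω) * u i ω

/-- A linear combination of energies. -/
noncomputable def tot {J : Type} [Fintype J] (L : J → Ω → ℝ) (β : J → ℝ) (ω : Ω) : ℝ :=
  ∑ l, β l * L l ω

/-- Hypotheses on a hierarchical field. -/
structure FS (s : Fam (Fin (n + 1) × I) Ω) (u : I → Ω → ℝ) (cu : ℝ) (P : Ch Ω) (ρ : PW Ω) :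
    Prop where
  ok : s.Ok P ρ
  lv : ∀ l i, s.lv (l, i) = l
  inv : ∀ i, s.Inv (u i)
  bd : ∀ i ω, |u i ω| ≤ cu

end fld

/-- Data for a layered interpolation. -/
structure Lay (K : ℕ) (Ω 𝒜 Λ : Type) where
  s : Fam (Fin K × Λ) Ω
  lv : Λ → ℕ
  pa : Λ → 𝒜
  ty : Λ → Bool
  u : Λ → Ω → ℝ
  S : 𝒜 → Ω → ℝ
  φ : 𝒜 → Ω → ℕ → ℝ → ℝ
  R : Bool → Ω → ℝ

namespace Lay
variable {K : ℕ} {𝒜 : Type} [Fintype 𝒜] [DecidableEq 𝒜] [Fintype Λ] (L : Lay K Ω 𝒜 Λ)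

/-- The argument of `φ a` when layer `k` carries the terms of type `C k`. -/
noncomputable def Z (C : Fin K → Option Bool) (a : 𝒜) (ω : Ω) : ℝ :=
  L.S a ω + ∑ k, ∑ l with L.pa l = a ∧ C k = some (L.ty l),
    sp (L.s.τ (k, l) ω) * L.u l ω / Real.sqrt K

/-- The energy of the configuration `C`. -/
noncomputable def G (C : Fin K → Option Bool) (ω : Ω) : ℝ :=
  ∑ a, (L.φ a ω 0 (L.Z C a ω) - L.φ a ω 0 (L.S a ω)) +
    (∑ k, (C k).elim 0 fun β => L.R β ω) / K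

/-- First derivative times coefficient. -/
noncomputable def d1 (C : Fin K → Option Bool) (l : Λ) (ω : Ω) : ℝ :=
  L.φ (L.pa l) ω 1 (L.Z C (L.pa l) ω) * L.u l ω

/-- Second derivative times squared coefficient. -/
noncomputable def d2 (C : Fin K → Option Bool) (l : Λ) (ω : Ω) : ℝ :=
  L.φ (L.pa l) ω 2 (L.Z C (L.pa l) ω) * L.u l ω ^ 2

/-- The rate of change of the free energy when a layer of type `β` is added to `C`. -/
noncomputable def inc (n : ℕ) (P : Ch Ω) (ρ : PW Ω) (C : Fin K → Option Bool) (β : Bool) : ℝ :=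
  Eh n (Tn n P (L.G C)) ρ 0 (fun ω => L.R β ω +
      (∑ l with L.ty l = β, (L.d2 C l ω + L.d1 C l ω ^ 2)) / 2) -
    wt n * (∑ j ∈ Icc 1 (n + 1), E2 n (Tn n P (L.G C)) ρ j fun x y =>
      ∑ l with L.ty l = β ∧ j ≤ L.lv l, L.d1 C l x * L.d1 C l y) / 2

structure Ok (c W : ℝ) (P : Ch Ω) (ρ : PW Ω) : Prop where
  ok : L.s.Ok P ρ
  lv : ∀ k l, L.s.lv (k, l) = L.lv l
  inv_u : ∀ l, L.s.Inv (L.u l)
  inv_S : ∀ a, L.s.Inv (L.S a)
  inv_φ : ∀ a, L.s.Inv (L.φ a)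
  inv_R : ∀ β, L.s.Inv (L.R β)
  sm : ∀ a ω, Sm c 3 (L.φ a ω)
  bd_u : ∀ ω, ∑ l, L.u l ω ^ 2 ≤ W
  bd_R : ∀ β ω, |L.R β ω| ≤ W

end Lay

/-! ### The universe of signs -/

/-- Configurations with signs. -/
abbrev U (S Λ : Type) := S × (Λ → Bool)

section univ
variable {S : Type} [Fintype S] [Fintype Λ] [DecidableEq Λ]

/-- The configuration is drawn at step `0`, sign `l` at step `lv l`. -/
noncomputable def PU (μ : PW S) (lv : Λ → ℕ) : Ch (U S Λ) :=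
  prodCh (fun p σ => if p = 0 then μ else PW.pure σ)
    (piCh fun l => fun p b => if p = lv l then unif Bool else PW.pure b)

noncomputable def ρU (μ : PW S) (Λ : Type) [Fintype Λ] [DecidableEq Λ] : PW (U S Λ) :=
  μ.prod (unif (Λ → Bool))

/-- Free energy of a universe. -/
noncomputable def FU (n : ℕ) (μ : PW S) (lv : Λ → ℕ) (G : U S Λ → ℝ) : ℝ :=
  Fr n (PU μ lv) (ρU μ Λ) G

/-- The signs of a universe. -/
def famU (S : Type) (lv : Λ → ℕ) : Fam Λ (U S Λ) where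
  τ := fun l ω => ω.2 l
  π := fun l ω => (ω.1, Function.update ω.2 l (!ω.2 l))
  lv := lv

end univ

/-- Normalized sum of signs. -/
noncomputable def Wk {κ : Type} [Fintype κ] (ξ : κ → Bool) : ℝ :=
  (∑ k, sp (ξ k)) / Real.sqrt (Fintype.card κ)

/-- Sign indices of a two-family hierarchical field. -/
abbrev L2 (n : ℕ) (J κ1 κ2 : Type) := (Fin (n + 2) × J × κ1) ⊕ (Fin (n + 1) × J × κ2)

def lv2 {n : ℕ} {J κ1 κ2 : Type} : L2 n J κ1 κ2 → ℕ :=
  Sum.elim (fun l => l.1) fun l => l.1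

/-- The two-family hierarchical field. -/
noncomputable def hh {n : ℕ} {J κ1 κ2 : Type} [Fintype κ1] [Fintype κ2] (v β : ℕ → ℝ)
    (ξ : L2 n J κ1 κ2 → Bool) (i : J) : ℝ :=
  ∑ l : Fin (n + 2), Real.sqrt (v l) * Wk (fun k => ξ (Sum.inl (l, i, k))) +
    ∑ l : Fin (n + 1), β l * Wk fun k => ξ (Sum.inr (l, i, k))

/-- Total variance of the two-family field. -/
noncomputable def tv (n : ℕ) (v β : ℕ → ℝ) (l : ℕ) : ℝ := v l + if l ≤ n then β l ^ 2 else 0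

/-- Free energy of a block spin in a two-family field. -/
noncomputable def psi2 (n : ℕ) {D J : Type} [Fintype D] [Fintype J] [DecidableEq J] (ν : PW D)
    (θ : D → J → ℝ) (K1 K2 : ℕ) (v β : ℕ → ℝ) : ℝ :=
  FU n ν (lv2 : L2 n J (Fin K1) (Fin K2) → ℕ) fun ω => ∑ i, hh v β ω.2 i * θ ω.1 i

/-- Random-walk version of the scalar recursion. -/
noncomputable def phiK (n K : ℕ) (v : ℕ → ℝ) (G : ℝ → ℝ) : ℝ :=
  FU n (PW.pure ()) (fun l : Fin K × Fin (n + 2) => (l.2 : ℕ)) fun ω =>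
    G (∑ l : Fin (n + 2), Real.sqrt (v l) * Wk fun k => ω.2 (k, l))

/-- The quadratic penalty. -/
noncomputable def pen (n : ℕ) (p v : ℕ → ℝ) : ℝ :=
  (∑ l ∈ range (n + 2), v l * (1 - cum n p l)) / 2

/-- A point of the averaging window. -/
noncomputable def win {J : Type} {R : ℕ} (β0 : J → ℝ) (h : ℝ) (z : J → Fin R) (j : J) : ℝ :=
  β0 j + h * (z j : ℕ)

section cav
variable {𝒜 J : Type} [Fintype 𝒜] [Fintype J] (φ : 𝒜 → Ω → ℕ → ℝ → ℝ) (S : 𝒜 → Ω → ℝ)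

/-- The diagonal compensator of a cavity step. -/
noncomputable def cavV (d e : ℝ) (ω : Ω) : ℝ :=
  d * e ^ 2 / 2 * ∑ a, (φ a ω 2 (S a ω) + φ a ω 1 (S a ω) ^ 2)

/-- The overlap of the pattern responses. -/
noncomputable def ovy (e : ℝ) (x y : Ω) : ℝ := e ^ 2 * ∑ a, φ a x 1 (S a x) * φ a y 1 (S a y)

/-- The compensated energy change of a cavity step with noise `g`. -/
noncomputable def cavG (d e : ℝ) (t : J → Ω → ℝ) (g : 𝒜 → J → Ω → ℝ) (ω : Ω) : ℝ :=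
  ∑ a, (φ a ω 0 (S a ω + e * ∑ i, g a i ω * t i ω) - φ a ω 0 (S a ω)) - cavV φ S d e ω

end cav

/-! ### Gaussian averages -/

instance : IsProbabilityMeasure gam := by unfold gam; infer_instance

/-- Independent standard Gaussians. -/
noncomputable def gI (I : Type) [Fintype I] : Measure (I → ℝ) := Measure.pi fun _ => gam

noncomputable def gM (𝒜 I : Type) [Fintype 𝒜] [Fintype I] : Measure (𝒜 → I → ℝ) :=
  Measure.pi fun _ => gI I

instance (I : Type) [Fintype I] : IsProbabilityMeasure (gI I) := by unfold gI; infer_instance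
instance (𝒜 I : Type) [Fintype 𝒜] [Fintype I] : IsProbabilityMeasure (gM 𝒜 I) := by
  unfold gM; infer_instance

/-- Expected log partition function of a perceptron with feature map `x`. -/
noncomputable def gZ {S I : Type} [MeasurableSpace S] [Fintype I] (μ : Measure S) (x : S → I → ℝ)
    (f : ℝ → ℝ) (𝒜 : Type) [Fintype 𝒜] : ℝ :=
  ∫ g, Real.log (∫ σ, Real.exp (∑ a, f (∑ i, g a i * x σ i)) ∂μ) ∂(gM 𝒜 I)

/-- The same for a finite configuration space. -/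
noncomputable def fZ {S I : Type} [Fintype S] [Fintype I] (μ : PW S) (x : S → I → ℝ)
    (f : ℝ → ℝ) (𝒜 : Type) [Fintype 𝒜] : ℝ :=
  ∫ g, Real.log (μ.E fun σ => Real.exp (∑ a, f (∑ i, g a i * x σ i))) ∂(gM 𝒜 I)

/-- The vector recursion. -/
noncomputable def casI {I : Type} [Fintype I] (n : ℕ) (v : ℕ → ℝ) (G : (I → ℝ) → ℝ) :
    ℕ → (I → ℝ) → ℝ
  | 0 => G
  | l + 1 => fun x => Real.log (∫ z, Real.exp (ze n l *
      casI n v G l (fun i => x i + Real.sqrt (v l) * z i)) ∂(gI I)) / ze n l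

noncomputable def CasI {I : Type} [Fintype I] (n : ℕ) (v : ℕ → ℝ) (G : (I → ℝ) → ℝ) : ℝ :=
  ∫ z, casI n v G (n + 1) (fun i => Real.sqrt (v (n + 1)) * z i) ∂(gI I)

/-- The log-cosh function. -/
noncomputable def lc (x : ℝ) : ℝ := Real.log (Real.cosh x)

/-- The measure attached to finite weights. -/
noncomputable def toM {S : Type} [Fintype S] [MeasurableSpace S] (μ : PW S) : Measure S :=
  Measure.sum fun a => ENNReal.ofReal (μ.w a) • Measure.dirac a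

/-- Direction of a vector. -/
noncomputable def dir {I : Type} [Fintype I] (y : I → ℝ) (i : I) : ℝ :=
  y i / Real.sqrt (∑ k, y k ^ 2)

/-- Log Laplace transform of the uniform law on the sphere of radius `sqrt d`. -/
noncomputable def lz (d : ℕ) (h : Fin d → ℝ) : ℝ :=
  Real.log (∫ y, Real.exp (∑ i, h i * (Real.sqrt d * dir y i)) ∂(gI (Fin d)))

/-- The single-block hypothesis of the lower bound. -/
def HL (n : ℕ) (α : ℝ) (f : ℝ → ℝ) {D J : Type} [Fintype D] [Fintype J] [DecidableEq J]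
    (ν : PW D) (θ : D → J → ℝ) (d L ε V : ℝ) : Prop :=
  ∃ K0 : ℕ, ∀ K1, K0 ≤ K1 → ∀ K2, K0 ≤ K2 → ∀ v β : ℕ → ℝ, (∀ l, l ≤ n + 1 → 0 ≤ v l) →
    ∑ l ∈ range (n + 2), tv n v β l ≤ V → ∃ (p : ℕ → ℝ) (s : ℝ), Adm n p ∧
      L ≤ α * Cas n (vr n p) f + s ∧
      d * (s + pen n p (tv n v β) - ε) ≤ psi2 n ν θ K1 K2 v β ∧
      ∀ β' : ℕ → ℝ, ∑ l ∈ range (n + 2), tv n v β' l ≤ V →
        psi2 n ν θ K1 K2 v β' ≤ d * (s + pen n p (tv n v β') + ε)

end Vale.Agent.P157
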