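import Vale.Agent.P157.Base

/-!
# P157: integration by parts for sign fields
-/

namespace Vale.Agent.P157

open Vale.Agent.P168 Vale.Agent.P168.PW Finset MeasureTheory Filter Topology
open scoped BigOperators

variable {Ω : Type} [Fintype Ω] {n : ℕ} {P : Ch Ω} {ρ : PW Ω}

theorem Eh_lin_zero {Λ : Type} [Fintype Λ] {s : Fam Λ Ω} (h : s.Ok P ρ) {u : Λ → Ω → ℝ}
    (hu : ∀ l, s.Inv (u l)) (j : ℕ) : Eh n P ρ j (fun ω => ∑ l, sp (s.τ l ω) * u l ω) = 0 := by
  rw [Eh_sum]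
  exact sum_eq_zero fun l _ => (h.sy l).Eh_odd j fun ω => by
    rw [(h.sy l).self, sp_not, hu l l]; ring

theorem linmom {Λ : Type} [Fintype Λ] {s : Fam Λ Ω} (h : s.Ok P ρ) {u : Λ → Ω → ℝ}
    (hu : ∀ l, s.Inv (u l)) {W : ℝ} (hW : ∀ ω, ∑ l, u l ω ^ 2 ≤ W) :
    Eh n P ρ 0 (fun ω => Real.exp (∑ l, sp (s.τ l ω) * u l ω)) ≤ Real.exp (W / 2) := by
  classical
  have key : ∀ t : Finset Λ, Eh n P ρ 0 (fun ω =>
      Real.exp (∑ l ∈ t, (sp (s.τ l ω) * u l ω - u l ω ^ 2 / 2))) ≤ 1 := by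
    intro t
    induction t using Finset.induction_on with
    | empty => simp [Eh_const]
    | insert l t hl ih =>
      refine le_trans ?_ ih
      set F : Ω → ℝ := fun ω =>
        Real.exp (∑ l ∈ insert l t, (sp (s.τ l ω) * u l ω - u l ω ^ 2 / 2)) with hF
      have e := (h.sy l).emb.Eh (n := n) 0 F
      have e2 : Eh n P ρ 0 F = Eh n P ρ 0 fun ω => 1 / 2 * (F ω + F (s.π l ω)) := by
        rw [Eh_const_mul, Eh_add, e]; ring
      rw [e2]
      refine Eh_mono fun ω => ?_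
      have e3 : ∑ l' ∈ t, (sp (s.τ l' (s.π l ω)) * u l' (s.π l ω) - u l' (s.π l ω) ^ 2 / 2) =
          ∑ l' ∈ t, (sp (s.τ l' ω) * u l' ω - u l' ω ^ 2 / 2) :=
        sum_congr rfl fun l' hl' => by
          rw [h.ne l l' (fun e => hl (e ▸ hl')), hu l' l]
      simp only [hF, sum_insert hl, e3, (h.sy l).self, sp_not, hu l l ω, Real.exp_add,
        Real.exp_sub]
      have h1 := Real.cosh_le_exp_half_sq (sp (s.τ l ω) * u l ω)
      rw [Real.cosh_eq, mul_pow, sq (sp _), sp_sq, one_mul] at h1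
      have h2 := Real.exp_pos (u l ω ^ 2 / 2)
      have h3 := Real.exp_pos (∑ l' ∈ t, (sp (s.τ l' ω) * u l' ω - u l' ω ^ 2 / 2))
      rw [neg_mul, ← add_mul, ← add_div, ← mul_assoc]
      refine mul_le_of_le_one_left h3.le ?_
      rw [← mul_div_assoc, div_le_one h2]
      linarith
  calc _ ≤ Eh n P ρ 0 (fun ω => Real.exp (W / 2) *
        Real.exp (∑ l, (sp (s.τ l ω) * u l ω - u l ω ^ 2 / 2))) := Eh_mono fun ω => by
        rw [← Real.exp_add, sum_sub_distrib, ← sum_div]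
        exact Real.exp_le_exp.2 (by linarith [hW ω])
    _ ≤ _ := by
        rw [Eh_const_mul]
        exact mul_le_of_le_one_right (Real.exp_pos _).le (key univ)

/-- The response of two functions carrying the same sign. -/
theorem Rs_sign {l : ℕ} {τ : Ω → Bool} {π : Ω → Ω} (h : Sy l τ π P ρ) {u v : Ω → ℝ}
    (hu : ∀ ω, u (π ω) = u ω) {p : ℕ} (hp : l < p) (hp' : p ≤ n + 1) (ω : Ω) :
    Rs (al n) P 0 (fun x => sp (τ x) * u x) (fun x => sp (τ x) * v x) p ω =
      A P 0 p (fun x => u x * v x) ω -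
        wt n * ∑ j ∈ Icc 1 l, A P j p (fun x => A P 0 j u x * A P 0 j v x) ω := by
  obtain ⟨p, rfl⟩ : ∃ q, p = q + 1 := ⟨p - 1, by omega⟩
  rw [Rs_al _ _ (by omega), h.A_kill (Nat.zero_le l) hp hu, zero_mul, mul_zero, sub_zero]
  congr 1
  · exact A_fun_congr (fun x => by rw [mul_mul_mul_comm, sp_sq, one_mul]) ω
  congr 1
  rw [← sum_subset (Icc_subset_Icc_right (show l ≤ p by omega))]
  · refine sum_congr rfl fun j hj => A_fun_congr (fun x => ?_) ω
    rw [h.A_frozen (mem_Icc.1 hj).2, h.A_frozen (mem_Icc.1 hj).2, mul_mul_mul_comm, sp_sq,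
      one_mul]
  · intro j h1 h2
    simp only [mem_Icc] at h1 h2
    rw [A_fun_congr (G := fun _ => 0), A_const']
    intro x
    rw [h.A_kill (Nat.zero_le l) (by omega) hu, zero_mul]

theorem wt_sum_le {l : ℕ} (hl : l ≤ n + 1) {z : ℕ → ℝ} {c : ℝ} (hc : 0 ≤ c)
    (hz : ∀ j ∈ Icc 1 l, |z j| ≤ c) : |wt n * ∑ j ∈ Icc 1 l, z j| ≤ c := by
  rw [abs_mul, abs_of_pos (wt_pos n), ← wt_sum n c]
  refine mul_le_mul_of_nonneg_left ((abs_sum_le_sum_abs _ _).trans ?_) (wt_pos n).le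
  exact (sum_le_sum hz).trans
    (sum_le_sum_of_subset_of_nonneg (Icc_subset_Icc_right hl) fun _ _ _ => hc)

/-- Integration by parts in one sign. -/
theorem ibp_one {l : ℕ} {τ : Ω → Bool} {π : Ω → Ω} (h : Sy l τ π P ρ) {u : Ω → ℝ} {cu b : ℝ}
    (hu : ∀ ω, u (π ω) = u ω) (hc : ∀ ω, |u ω| ≤ cu) (hb : |b| * cu ≤ 1 / 2) {p : ℕ}
    (hp : l < p) (hp' : p ≤ n + 1) (ω : Ω) :
    |A (Tn n P fun x => b * (sp (τ x) * u x)) 0 p (fun x => sp (τ x) * u x) ω -
      b * (A (Tn n P fun x => b * (sp (τ x) * u x)) 0 p (fun x => u x ^ 2) ω -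
        wt n * ∑ j ∈ Icc 1 l, A (Tn n P fun x => b * (sp (τ x) * u x)) j p
          (fun x => A (Tn n P fun x => b * (sp (τ x) * u x)) 0 j u x ^ 2) ω)| ≤
      100 * b ^ 2 * cu ^ 3 := by
  have hc0 : 0 ≤ cu := (abs_nonneg _).trans (hc ω)
  set g : Ω → ℝ := fun x => sp (τ x) * u x with hg
  have hgπ : ∀ x, g (π x) = -g x := fun x => by simp only [hg, h.self, sp_not, hu]; ring
  have hgc : ∀ x, |g x| ≤ cu := fun x => by simpa only [hg, abs_mul, abs_sp, one_mul] using hc x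
  have hbg : ∀ x, |b * g x| ≤ |b| * cu := fun x => abs_mul_le' le_rfl (hgc x)
  have near : ∀ s : ℝ, |s| ≤ 1 → Near 0 (8 * (|b| * cu)) (Tn n P fun x => s * (b * g x)) P :=
    fun s hs => near_T (al_pos n) (al_anti n) (al_le_one n)
      (fun x => by simpa using abs_mul_le' hs (hbg x)) hb
  obtain ⟨s, hs, e⟩ := exists_deriv_of_odd
    (Θ := fun s => A (Tn n P fun x => s * (b * g x)) 0 p g ω)
    (Θ' := fun s => Rs (al n) (Tn n P fun x => s * (b * g x)) 0 g (fun x => b * g x) p ω)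
    (fun s => by
      have := hasDerivAt_A_T (P := P) (j := 0) (al_pos n) (ψ := fun s x => s * (b * g x))
        (G := fun _ => g) (ψ' := fun x => b * g x) (G' := fun _ => 0) (s := s)
        (fun x => by simpa using (hasDerivAt_id s).mul_const (b * g x))
        (fun x => hasDerivAt_const _ _) le_rfl p (Nat.zero_le p) ω
      rwa [A_const', zero_add, A_of_le le_rfl] at this)
    (by
      have := congrFun (A_T_resample (a := al n) (j := 0) h.emb.mor h.res le_rfl (Nat.zero_le l)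
        (fun x => 1 * (b * g x)) g p hp) ω
      simp only [hgπ, A_neg] at this
      simp only [Tn]
      rw [← this, neg_neg]
      congr 2
      funext x; ring)
  have h1 := (near s hs).Rs (al_pos n) (al_anti n) (al_le_one n) (by positivity) (Nat.zero_le p)
    (G := g) (G' := g) (d := 0) (d' := 0) hgc hbg hbg (by simp) (by simp) ω
  rw [← e, Rs_const_mul_right, Rs_sign h hu hp hp'] at h1
  have n1 := near 1 (by simp)
  simp only [one_mul] at h1 n1
  set P1 := Tn n P fun x => b * g x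
  have h2 := n1.A le_rfl p (F' := fun x => u x ^ 2) (F := fun x => u x * u x) (d := 0)
    (fun x => abs_mul_le' (hc x) (hc x)) (fun x => by simp [sq]) ω
  have h3 := wt_sum_le (n := n) (l := l) (by omega)
    (z := fun j => A P1 j p (fun x => A P1 0 j u x ^ 2) ω -
      A P j p (fun x => A P 0 j u x * A P 0 j u x) ω)
    (c := 8 * (|b| * cu) * (cu * cu) + (8 * (|b| * cu) * cu * cu + cu * (8 * (|b| * cu) * cu)))
    (by positivity) fun j _ => n1.A (Nat.zero_le j) p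
      (fun x => abs_mul_le' (abs_A_le hc x) (abs_A_le hc x))
      (fun x => by
        rw [sq]
        exact abs_mul_sub_mul_le (abs_A_le hc x) (abs_A_le hc x) (n1 0 le_rfl j u cu hc x)
          (n1 0 le_rfl j u cu hc x)) ω
  rw [sum_sub_distrib, mul_sub] at h3
  have h4 := abs_mul_le' (le_refl |b|) ((abs_sub _ _).trans (add_le_add h2 h3))
  have e2 : b ^ 2 = |b| * |b| := by rw [← sq, sq_abs]
  have h5 : 0 ≤ |b| * |b| * cu ^ 3 := by positivity
  rw [e2]
  rw [abs_le] at h1 h4 ⊢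
  constructor <;> nlinarith [h1.1, h1.2, h4.1, h4.2]

variable {I : Type} [Fintype I] {s : Fam (Fin (n + 1) × I) Ω} {u : I → Ω → ℝ} {cu : ℝ}

open Classical in
/-- The energy with one sign removed. -/
noncomputable def cavE (s : Fam (Fin (n + 1) × I) Ω) (u : I → Ω → ℝ) (β : Fin (n + 1) → ℝ)
    (q0 : Fin (n + 1) × I) (ω : Ω) : ℝ :=
  ∑ q ∈ univ.erase q0, β q.1 * (sp (s.τ q ω) * u q.2 ω)

omit [Fintype Ω] in
theorem tot_eq_cavE (β : Fin (n + 1) → ℝ) (q : Fin (n + 1) × I) :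
    tot (fld s u) β = fun ω => cavE s u β q ω + β q.1 * (sp (s.τ q ω) * u q.2 ω) := by
  classical
  funext ω
  rw [cavE, sum_erase_add _ _ (mem_univ q), Fintype.sum_prod_type]
  simp only [tot, fld, mul_sum]

theorem FS.cavE_inv (h : FS s u cu P ρ) (β : Fin (n + 1) → ℝ) (q : Fin (n + 1) × I) (ω : Ω) :
    cavE s u β q (s.π q ω) = cavE s u β q ω := by
  classical
  exact sum_congr rfl fun q' hq => by
    rw [h.ok.ne q q' (ne_of_mem_erase hq).symm, h.inv q'.2 q]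

theorem FS.sy_cav (h : FS s u cu P ρ) (β : Fin (n + 1) → ℝ) (q : Fin (n + 1) × I) :
    Sy q.1 (s.τ q) (s.π q) (Tn n P (cavE s u β q)) ρ := by
  have := (h.ok.sy q).Tn (n := n) (h.cavE_inv β q)
  rwa [show s.lv q = q.1 from h.lv q.1 q.2] at this

theorem Tn_tot (β : Fin (n + 1) → ℝ) (q : Fin (n + 1) × I) :
    Tn n P (tot (fld s u) β) =
      Tn n (Tn n P (cavE s u β q)) fun ω => β q.1 * (sp (s.τ q ω) * u q.2 ω) := by
  rw [Tn_Tn, tot_eq_cavE β q]

theorem ibp_pt (h : FS s u cu P ρ) (β : Fin (n + 1) → ℝ) (l : Fin (n + 1))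
    (hb : |β l| * cu ≤ 1 / 2) {p : ℕ} (hp : (l : ℕ) < p) (hp' : p ≤ n + 1) (ω : Ω) :
    |A (Tn n P (tot (fld s u) β)) 0 p (fld s u l) ω -
      β l * (A (Tn n P (tot (fld s u) β)) 0 p (fun x => ∑ i, u i x ^ 2) ω -
        wt n * ∑ j ∈ Icc 1 (l : ℕ), A (Tn n P (tot (fld s u) β)) j p
          (fun x => ∑ i, A (Tn n P (tot (fld s u) β)) 0 j (u i) x ^ 2) ω)| ≤
      100 * β l ^ 2 * cu ^ 3 * Fintype.card I := by
  have key := fun i => ibp_one (n := n) (h.sy_cav β (l, i)) (h.inv i (l, i)) (h.bd i) hb hp hp' ω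
  simp only [← Tn_tot β (l, _)] at key
  have := (abs_sum_le_sum_abs _ _).trans (sum_le_sum fun i (_ : i ∈ univ) => key i)
  rw [sum_const, card_univ, nsmul_eq_mul, mul_comm] at this
  refine le_trans (le_of_eq (congrArg _ ?_)) this
  simp only [show fld s u l = fun ω => ∑ i, sp (s.τ (l, i) ω) * u i ω from rfl, A_sum,
    sum_sub_distrib, ← mul_sum]
  rw [sum_comm]

theorem ibp_avg (h : FS s u cu P ρ) (β : Fin (n + 1) → ℝ) (l : Fin (n + 1))
    (hb : |β l| * cu ≤ 1 / 2) {N : ℝ} (hN : 0 < N) :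
    |Eh n (Tn n P (tot (fld s u) β)) ρ 0 (fld s u l) -
      β l * (Eh n (Tn n P (tot (fld s u) β)) ρ 0 (fun x => ∑ i, u i x ^ 2) -
        N * cum n (prof n (Tn n P (tot (fld s u) β)) ρ (ov u N)) l)| ≤
      100 * β l ^ 2 * cu ^ 3 * Fintype.card I := by
  have := abs_E_le_const ρ (ibp_pt h β l hb l.2 le_rfl)
  convert this using 2
  rw [E_sub, E_const_mul, E_sub, E_const_mul, E_sum]
  simp only [cum, prof_ov, E2_mul, ← Eh_sum, ← sq, ← sum_div]
  congr 3
  field_simp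
  rfl

end Vale.Agent.P157
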