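import Vale.Agent.P157.CavX

/-!
# P157: the two cavity terms
-/

namespace Vale.Agent.P157

open Vale.Agent.P168 Vale.Agent.P168.PW Finset MeasureTheory Filter Topology
open scoped BigOperators

theorem wt_sum_cav {n : ℕ} {z : ℕ → ℝ} {c : ℝ} (hz : ∀ j ∈ Icc 1 (n + 1), |z j| ≤ c) :
    |wt n * ∑ j ∈ Icc 1 (n + 1), z j| ≤ c := by
  rw [abs_mul, abs_of_pos (wt_pos n), ← wt_sum n c]
  exact mul_le_mul_of_nonneg_left ((abs_sum_le_sum_abs _ _).trans (sum_le_sum hz)) (wt_pos n).le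

theorem cav_est {n : ℕ} {Ω 𝒜 J : Type} [Fintype Ω] [Fintype 𝒜] [Fintype J] {P' : Ch Ω} {ρ : PW Ω}
    {t : J → Ω → ℝ} {S Z : 𝒜 → Ω → ℝ} {φ : 𝒜 → Ω → ℕ → ℝ → ℝ} {c d e V T : ℝ} {q : ℕ → ℝ}
    {B F : ℕ → Ω → Ω → ℝ} (hc : 1 ≤ c) (hd : 0 ≤ d) (hV : 0 ≤ V) (sm : ∀ a ω, Sm c 3 (φ a ω))
    (ht : ∀ ω, ∑ i, t i ω ^ 2 = d) (hq : ∀ j, 1 ≤ j → j ≤ n + 1 → |q j| ≤ V)
    (hB : ∀ j, 1 ≤ j → j ≤ n + 1 → ∀ x y, |∑ i, t i x * t i y - B j x y| ≤ d * |F j x y|)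
    (w1 : dev n P' ρ F ≤ T) (w2 : (dev n P' ρ fun j x y => ovy φ S e x y - q j) ≤ T)
    (w3 : Eh n P' ρ 0 (dlCav S Z e) ≤ T) :
    |Eh n P' ρ 0 (fun ω => cavV φ Z d e ω - cavV φ S d e ω) -
      wt n * (∑ j ∈ Icc 1 (n + 1), E2 n P' ρ j fun x y =>
        (∑ i, t i x * t i y) * ovy φ Z e x y) / 2 -
      -(wt n * (∑ j ∈ Icc 1 (n + 1), E2 n P' ρ j fun x y => q j * B j x y) / 2)| ≤
      (5 * d * c ^ 2 + d + V * d + 1) * T := by
  have u1 : |Eh n P' ρ 0 fun ω => cavV φ Z d e ω - cavV φ S d e ω| ≤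
      3 * d * c ^ 2 * Eh n P' ρ 0 (dlCav S Z e) := by
    rw [← Eh_const_mul]
    exact (abs_Eh_le _).trans (Eh_mono (cavV_sub_le hc hd sm))
  have u2 := abs_sum_E2_le (n := n) (P := P') (ρ := ρ)
    (fun j x y => (∑ i, t i x * t i y) * ovy φ Z e x y - q j * B j x y) le_rfl
  have u3 := dev_le_add (n := n) (P := P') (ρ := ρ)
    (F := fun j x y => (∑ i, t i x * t i y) * ovy φ Z e x y - q j * B j x y)
    (G := fun j x y => d * (ovy φ Z e x y - q j)) (H := fun j x y => V * d * F j x y)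
    fun j a b x y => by
      have v1 : |∑ i, t i x * t i y| ≤ d := by
        simpa [ov] using abs_ov_le (u := t) one_pos (c := d) (fun ω => by simp [ht]) x y
      have v2 := abs_mul_le' v1 (le_refl |ovy φ Z e x y - q j|)
      have v3 := abs_mul_le' (hq j a b) (hB j a b x y)
      rw [abs_mul, abs_mul, abs_of_nonneg hd, abs_of_nonneg (mul_nonneg hV hd), mul_assoc]
      refine le_trans (le_of_eq (congrArg _ (by ring)))
        ((abs_add_le _ _).trans (add_le_add v2 v3))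
  rw [dev_const_mul, dev_const_mul, abs_of_nonneg hd, abs_of_nonneg (mul_nonneg hV hd)] at u3
  have u4 := dev_ovy_le (n := n) (P := P') (ρ := ρ) (S := S) (Z := Z) (e := e) sm q
  simp only [E2_sub, sum_sub_distrib, mul_sub] at u2
  have hT0 : 0 ≤ T := (dev_nonneg _).trans w1
  have x1 := mul_le_mul_of_nonneg_left w3 (show 0 ≤ d * c ^ 2 by positivity)
  have x2 := mul_le_mul_of_nonneg_left w2 hd
  have x3 := mul_le_mul_of_nonneg_left w1 (mul_nonneg hV hd)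
  have x4 := mul_le_mul_of_nonneg_left u4 hd
  have x5 := mul_nonneg hd hT0
  have x6 := mul_nonneg (mul_nonneg hV hd) hT0
  rw [abs_le] at u1 u2 ⊢
  constructor <;> linarith [u1.1, u1.2, u2.1, u2.2]

theorem cav_gen (c α V d W θ : ℝ) (hc : 1 ≤ c) (hθ : 0 < θ) : ∃ C : ℝ, 0 ≤ C ∧ ∀ m : ℕ,
    ∃ K0 : ℕ, ∀ K, K0 ≤ K → ∀ (n : ℕ) (Ω 𝒜 J Λ : Type) [Fintype Ω] [Fintype 𝒜] [Fintype J]
      [Fintype Λ] (P : Ch Ω) (ρ : PW Ω) (s : Fam (Fin K × ((𝒜 × J) ⊕ Λ)) Ω) (t : J → Ω → ℝ)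
      (S : 𝒜 → Ω → ℝ) (φ : 𝒜 → Ω → ℕ → ℝ → ℝ) (e : ℝ) (w : Λ → Ω → ℝ) (lv : Λ → ℕ) (r : ℝ)
      (q : ℕ → ℝ) (B F : ℕ → Ω → Ω → ℝ),
      Fintype.card ((𝒜 × J) ⊕ Λ) ≤ m → s.Ok P ρ →
      (∀ k a, s.lv (k, Sum.inl a) = n + 1) → (∀ k l, s.lv (k, Sum.inr l) = lv l) →
      (∀ i, s.Inv (t i)) → (∀ a, s.Inv (S a)) → (∀ a, s.Inv (φ a)) → (∀ l, s.Inv (w l)) →
      (∀ a ω, Sm c 3 (φ a ω)) → (∀ ω, ∑ i, t i ω ^ 2 = d) → 0 ≤ e →
      e ^ 2 * Fintype.card 𝒜 ≤ α → (∀ ω, ∑ l, w l ω ^ 2 ≤ W) → |r| ≤ W →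
      (∀ j, 1 ≤ j → j ≤ n + 1 → |q j| ≤ V) → (∀ j, 1 ≤ j → j ≤ n + 1 → ∀ x y, |F j x y| ≤ 2) →
      (∀ j, 1 ≤ j → j ≤ n + 1 → ∀ x y, |∑ i, t i x * t i y - B j x y| ≤ d * |F j x y|) →
      (∀ P' : Ch Ω, Eh n P' ρ 0 (fun ω => r + (∑ l, w l ω ^ 2) / 2) -
        wt n * (∑ j ∈ Icc 1 (n + 1), E2 n P' ρ j fun x y =>
          ∑ l with j ≤ lv l, w l x * w l y) / 2 =
        -(wt n * (∑ j ∈ Icc 1 (n + 1), E2 n P' ρ j fun x y => q j * B j x y) / 2)) →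
      |Fr n P ρ (cavG φ S d e t fun a i ω => Wk fun k => s.τ (k, Sum.inl (a, i)) ω) -
        Fr n P ρ (fun ω => ∑ l, Wk (fun k => s.τ (k, Sum.inr l) ω) * w l ω + r)| ≤
        θ + C * (e + dev n P ρ F + dev n P ρ fun j x y => ovy φ S e x y - q j) := by
  set W' := |α| * |d| * c ^ 2 + W
  set a := 5 * |d| * c ^ 2 + |d| + |V| * |d| + 1 with ha
  have ha0 : 0 < a := by positivity
  obtain ⟨C, hC, h1⟩ := lay_tr_cav c W' (|α| + |α| * c ^ 2 + |V| + 2) (θ / 2 / a) (by positivity)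
  refine ⟨C * a * (|α| + |W'| + 1), by positivity, fun m => ?_⟩
  obtain ⟨K1, h1⟩ := h1 m
  obtain ⟨K2, h2⟩ := int_le c W' (θ / 2) (by positivity) m
  refine ⟨max (max K1 K2) 1, fun K hK n Ω 𝒜 J Λ _ _ _ _ P ρ s t S φ e w lv r q B F hm hs l1 l2 it
    iS iφ iw sm ht he hα hw hr hq hF hB hf => ?_⟩
  classical
  simp only [max_le_iff] at hK
  have ok := cavL_ok hc hs l1 l2 it iS iφ iw sm ht hα hw hr
  obtain ⟨ω0⟩ := ρ.nonempty
  have hd : 0 ≤ d := ht ω0 ▸ sum_nonneg fun _ _ => sq_nonneg _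
  have hα0 : 0 ≤ α := le_trans (by positivity) hα
  have hV : 0 ≤ V := (abs_nonneg _).trans (hq 1 le_rfl (by omega))
  have h1 := h1 K hK.1.1 n Ω _ _ P ρ _ hm ok
  have h2 := h2 K hK.1.2 n Ω _ _ P ρ _ hm ok
  rw [← cavL_true n s t S φ d e w lv r hK.2, ← cavL_false n s t S φ d e w lv r hK.2]
  rw [abs_of_nonneg hd, abs_of_nonneg hV] at ha
  rw [abs_of_nonneg hα0, abs_of_nonneg hV] at h1
  rw [abs_of_nonneg hα0]
  set D1 := dev n P ρ F
  set D2 := dev n P ρ fun j x y => ovy φ S e x y - q j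
  have key : ∀ D, |(cavL n s t S φ d e w lv r).inc n P ρ D true -
      (cavL n s t S φ d e w lv r).inc n P ρ D false| ≤
      θ / 2 + C * a * (α + |W'| + 1) * (e + D1 + D2) := by
    intro D
    have sh := shift (n := n) ok D
    have t1 := h1 D F fun j a b x y => (hF j a b x y).trans (by nlinarith)
    have t2 := h1 D (fun j x y => ovy φ S e x y - q j) fun j a b x y =>
      (abs_sub _ _).trans (by linarith [abs_ovy_le (S := S) sm hα x y, hq j a b])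
    rw [cavL_inc_true n s t S φ d e w lv r P ρ D ht, cavL_inc_false, hf]
    set Z := fun a => (cavL n s t S φ d e w lv r).Z D (some a) with hZ
    have t3 := h1 D (fun _ x _ => dlCav S Z e x) fun j a b x y => by
      rw [abs_of_nonneg (dlCav_nonneg x)]
      exact (dlCav_le hα x).trans (by nlinarith)
    rw [dev_fst, dev_fst] at t3
    simp only [abs_of_nonneg (dlCav_nonneg _)] at t3
    have t4 : Eh n P ρ 0 (dlCav S Z e) ≤ e * (α + |W'|) := by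
      refine (Eh_mono (dlCav_le' he hα)).trans ?_
      rw [Eh_const_mul, Eh_add, Eh_const]
      gcongr
      refine le_trans (Eh_mono fun ω => ?_) (sh.trans (le_abs_self _))
      rw [Fintype.sum_option]
      exact le_add_of_nonneg_left (sq_nonneg _)
    generalize Tn n P _ = P' at *
    have hD1 : 0 ≤ D1 := dev_nonneg _
    have hD2 : 0 ≤ D2 := dev_nonneg _
    have hW := abs_nonneg W'
    set T := θ / 2 / a + C * (α + |W'| + 1) * (e + D1 + D2) with hT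
    have e1 : θ / 2 + C * a * (α + |W'| + 1) * (e + D1 + D2) = a * T := by
      rw [hT]; field_simp
    have w1 : dev n P' ρ F ≤ T := t1.trans (by
      rw [hT, mul_assoc]; gcongr; nlinarith)
    have w2 : (dev n P' ρ fun j x y => ovy φ S e x y - q j) ≤ T := t2.trans (by
      rw [hT, mul_assoc]; gcongr; nlinarith)
    have w3 : Eh n P' ρ 0 (dlCav S Z e) ≤ T := t3.trans (by
      rw [hT, mul_assoc]; gcongr; nlinarith)
    rw [e1, ha]
    exact cav_est hc hd hV sm ht hq hB w1 w2 w3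
  have a1 := h2 true _ fun D => (le_abs_self _).trans (key D)
  have a2 := h2 false _ fun D => ((le_abs_self _).trans_eq (abs_sub_comm _ _)).trans (key D)
  simp only [Bool.not_true, Bool.not_false] at a1 a2
  rw [abs_le]
  constructor <;> linarith

/-- Adding an empty family of signs. -/
def emCav {K : ℕ} {Λ : Type} (x : Fin K × (Λ ⊕ Empty)) : Fin K × Λ :=
  (x.1, x.2.elim id Empty.elim)

theorem emCav_inj {K : ℕ} {Λ : Type} : Function.Injective (emCav (K := K) (Λ := Λ)) := by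
  rintro ⟨k, a | ⟨⟨⟩⟩⟩ ⟨k', a' | ⟨⟨⟩⟩⟩ h
  simpa [emCav] using h

theorem cavA (c α V d θ : ℝ) (hθ : 0 < θ) : ∃ C : ℝ, 0 ≤ C ∧ ∀ n m : ℕ, ∃ K0 : ℕ, ∀ K, K0 ≤ K →
    ∀ (Ω 𝒜 J : Type) [Fintype Ω] [Fintype 𝒜] [Fintype J] (P : Ch Ω) (ρ : PW Ω)
      (s : Fam (Fin K × ((𝒜 × J) ⊕ (Fin (n + 2) × J))) Ω) (t : J → Ω → ℝ) (S : 𝒜 → Ω → ℝ)
      (φ : 𝒜 → Ω → ℕ → ℝ → ℝ) (e : ℝ) (q : ℕ → ℝ),
      Fintype.card 𝒜 ≤ m → Fintype.card J ≤ m → s.Ok P ρ →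
      (∀ k a, s.lv (k, Sum.inl a) = n + 1) → (∀ k l i, s.lv (k, Sum.inr (l, i)) = l) →
      (∀ i, s.Inv (t i)) → (∀ a, s.Inv (S a)) → (∀ a, s.Inv (φ a)) → (∀ a ω, Sm c 3 (φ a ω)) →
      (∀ ω, ∑ i, t i ω ^ 2 = d) → 0 ≤ e → e ^ 2 * Fintype.card 𝒜 ≤ α → Mono n q → q 0 ≤ V →
      |Fr n P ρ (cavG φ S d e t fun a i ω => Wk fun k => s.τ (k, Sum.inl (a, i)) ω) -
        Fr n P ρ (fun ω => ∑ i, (∑ l : Fin (n + 2),
          Real.sqrt (vr n q l) * Wk fun k => s.τ (k, Sum.inr (l, i)) ω) * t i ω - d * q 0 / 2)| ≤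
        θ + C * (e + dev n P ρ fun j x y => ovy φ S e x y - q j) := by
  obtain ⟨C, hC, h⟩ := cav_gen (max c 1) α V d (|V| * |d|) θ (le_max_right _ _) hθ
  refine ⟨C, hC, fun n m => ?_⟩
  obtain ⟨K0, h⟩ := h (m * m + (n + 2) * m)
  refine ⟨K0, fun K hK Ω 𝒜 J _ _ _ P ρ s t S φ e q m1 m2 hs l1 l2 it iS iφ sm ht he hα hq hV => ?_⟩
  obtain ⟨ω0⟩ := ρ.nonempty
  have hd : 0 ≤ d := ht ω0 ▸ sum_nonneg fun _ _ => sq_nonneg _
  have hq0 : 0 ≤ q 0 := hq.nonneg (by omega)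
  have hv : ∀ l : Fin (n + 2), 0 ≤ vr n q l := fun l => vr_nonneg hq (by omega)
  have e1 : ∀ ω, ∑ l : Fin (n + 2) × J, (Real.sqrt (vr n q l.1) * t l.2 ω) ^ 2 = q 0 * d := by
    intro ω
    simp only [Fintype.sum_prod_type, mul_pow, Real.sq_sqrt (hv _), ← mul_sum, ht, ← sum_mul]
    rw [Fin.sum_univ_eq_sum_range (vr n q), sum_vr]
  have e2 : q 0 * d ≤ |V| * |d| := by
    rw [abs_of_nonneg hd]; exact mul_le_mul_of_nonneg_right (hV.trans (le_abs_self _)) hd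
  have := h K hK n Ω 𝒜 J (Fin (n + 2) × J) P ρ s t S φ e
    (fun l ω => Real.sqrt (vr n q l.1) * t l.2 ω) (fun l => l.1) (-(d * q 0 / 2)) q
    (fun _ x y => ∑ i, t i x * t i y) (fun _ _ _ => 0)
    (by simpa using Nat.add_le_add (Nat.mul_le_mul m1 m2) (Nat.mul_le_mul_left _ m2))
    hs l1 (fun k l => l2 k l.1 l.2) it iS iφ (fun l k ω => congrArg (_ * ·) (it l.2 k ω))
    (fun a ω => (sm a ω).mono_cav (le_max_left _ _)) ht he hα (fun ω => (e1 ω).trans_le e2)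
    (by rw [abs_neg, abs_of_nonneg (by positivity)]; nlinarith)
    (fun j _ hj => by
      rw [abs_of_nonneg (hq.nonneg hj)]; exact (hq.anti (Nat.zero_le j) hj).trans hV)
    (by simp) (by simp) (fun P' => by
      rw [Eh_congr (G := fun _ => 0) fun ω => by rw [e1]; ring, Eh_const, zero_sub]
      refine congrArg (fun z => -(wt n * z / 2))
        (sum_congr rfl fun j hj => E2_congr fun x y => ?_)
      rw [← sum_vr_ge q (mem_Icc.1 hj).2, sum_filter, sum_filter, Fintype.sum_prod_type,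
        ← Fin.sum_univ_eq_sum_range (fun l => if j ≤ l then vr n q l else 0), sum_mul]
      refine sum_congr rfl fun l _ => ?_
      split_ifs
      · rw [mul_sum]
        exact sum_congr rfl fun i _ => by rw [mul_mul_mul_comm, Real.mul_self_sqrt (hv l)]
      · simp)
  rw [dev_const, abs_zero, add_zero] at this
  convert this using 5 with ω
  rw [Fintype.sum_prod_type, sum_comm, sub_eq_add_neg]
  congr 1
  refine sum_congr rfl fun i _ => ?_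
  rw [sum_mul]
  exact sum_congr rfl fun l _ => by ring

theorem cavB (c α V d θ : ℝ) (hd : 0 < d) (hθ : 0 < θ) : ∃ C : ℝ, 0 ≤ C ∧ ∀ n m : ℕ, ∃ K0 : ℕ,
    ∀ K, K0 ≤ K → ∀ (Ω 𝒜 J : Type) [Fintype Ω] [Fintype 𝒜] [Fintype J] (P : Ch Ω) (ρ : PW Ω)
      (s : Fam (Fin K × (𝒜 × J)) Ω) (t : J → Ω → ℝ) (S : 𝒜 → Ω → ℝ)
      (φ : 𝒜 → Ω → ℕ → ℝ → ℝ) (e : ℝ) (p q : ℕ → ℝ),
      Fintype.card 𝒜 ≤ m → Fintype.card J ≤ m → s.Ok P ρ → (∀ k a, s.lv (k, a) = n + 1) →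
      (∀ i, s.Inv (t i)) → (∀ a, s.Inv (S a)) → (∀ a, s.Inv (φ a)) → (∀ a ω, Sm c 3 (φ a ω)) →
      (∀ ω, ∑ i, t i ω ^ 2 = d) → 0 ≤ e → e ^ 2 * Fintype.card 𝒜 ≤ α →
      (∀ j, 1 ≤ j → j ≤ n + 1 → |p j| ≤ 1) → (∀ j, 1 ≤ j → j ≤ n + 1 → |q j| ≤ V) →
      Fr n P ρ (cavG φ S d e t fun a i ω => Wk fun k => s.τ (k, (a, i)) ω) ≤
        -(d / 2 * (wt n * ∑ j ∈ Icc 1 (n + 1), p j * q j)) +
        (θ + C * (e + dev n P ρ (fun j x y => ov t d x y - p j) +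
          dev n P ρ fun j x y => ovy φ S e x y - q j)) := by
  obtain ⟨C, hC, h⟩ := cav_gen (max c 1) α V d (|V| * d) θ (le_max_right _ _) hθ
  refine ⟨C, hC, fun n m => ?_⟩
  obtain ⟨K0, h⟩ := h (m * m)
  refine ⟨K0, fun K hK Ω 𝒜 J _ _ _ P ρ s t S φ e p q m1 m2 hs l1 it iS iφ sm ht he hα hp hq => ?_⟩
  have := h K hK n Ω 𝒜 J Empty P ρ (s.comap emCav) t S φ e (fun l => l.elim) (fun l => l.elim)
    (-(d / 2 * (wt n * ∑ j ∈ Icc 1 (n + 1), p j * q j))) q (fun j _ _ => d * p j)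
    (fun j x y => ov t d x y - p j) (by simpa using Nat.mul_le_mul m1 m2)
    (hs.comap emCav_inj) (fun k a => l1 k a) (fun k l => l.elim) (fun i k => it i _)
    (fun i k => iS i _) (fun i k => iφ i _) (fun l => l.elim)
    (fun a ω => (sm a ω).mono_cav (le_max_left _ _)) ht he hα (fun ω => by simp; positivity)
    (by
      have := wt_sum_cav (n := n) (z := fun j => p j * q j) (c := 1 * |V|) fun j hj =>
        abs_mul_le' (hp j (mem_Icc.1 hj).1 (mem_Icc.1 hj).2)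
          ((hq j (mem_Icc.1 hj).1 (mem_Icc.1 hj).2).trans (le_abs_self _))
      rw [abs_neg, abs_mul, abs_of_pos (half_pos hd)]
      nlinarith [abs_nonneg V])
    hq (fun j a b x y => (abs_sub _ _).trans (by
      linarith [hp j a b, abs_ov_le (u := t) hd (c := 1) (fun ω => by simp [ht]) x y]))
    (fun j _ _ x y => le_of_eq (by
      rw [← abs_of_pos hd, ← abs_mul, abs_of_pos hd, ov]; congr 1; field_simp))
    (fun P' => by
      simp only [univ_eq_empty, sum_empty, filter_empty, E2_const, Eh_const, sum_const_zero,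
        mul_comm (q _), mul_assoc, ← mul_sum]
      ring)
  simp only [univ_eq_empty, sum_empty, zero_add, Fr_const] at this
  exact sub_le_iff_le_add'.1 ((le_abs_self _).trans this)

theorem cavM (c α d r : ℝ) : ∃ M : ℝ, ∀ n m : ℕ, ∃ K0 : ℕ,
    ∀ K, K0 ≤ K → ∀ (Ω 𝒜 J : Type) [Fintype Ω] [Fintype 𝒜] [Fintype J] (P : Ch Ω) (ρ : PW Ω)
      (s : Fam (Fin K × (𝒜 × J)) Ω) (t : J → Ω → ℝ) (S : 𝒜 → Ω → ℝ)
      (φ : 𝒜 → Ω → ℕ → ℝ → ℝ) (e : ℝ),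
      Fintype.card 𝒜 ≤ m → Fintype.card J ≤ m → s.Ok P ρ → (∀ k a, s.lv (k, a) = n + 1) →
      (∀ i, s.Inv (t i)) → (∀ a, s.Inv (S a)) → (∀ a, s.Inv (φ a)) → (∀ a ω, Sm c 3 (φ a ω)) →
      (∀ ω, ∑ i, t i ω ^ 2 = d) → e ^ 2 * Fintype.card 𝒜 ≤ α →
      Eh n P ρ 0 (fun ω => Real.exp
        (r * cavG φ S d e t (fun a i ω => Wk fun k => s.τ (k, (a, i)) ω) ω)) ≤ M := by
  obtain ⟨M, h⟩ := mom (max c 1) (|α| * |d| * (max c 1) ^ 2 + 0) r
  refine ⟨M, fun n m => ?_⟩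
  obtain ⟨K0, h⟩ := h (m * m)
  refine ⟨max K0 1, fun K hK Ω 𝒜 J _ _ _ P ρ s t S φ e m1 m2 hs l1 it iS iφ sm ht hα => ?_⟩
  classical
  have := h K (le_of_max_le_left hK) n Ω _ _ P ρ _ (by simpa using Nat.mul_le_mul m1 m2)
    (cavL_ok (n := n) (s := s.comap emCav) (w := fun l => l.elim) (lv := fun l => l.elim) (r := 0)
      (le_max_right c 1) (hs.comap emCav_inj) (fun k a => l1 k a) (fun k l => l.elim)
      (fun i k => it i _) (fun i k => iS i _) (fun i k => iφ i _) (fun l => l.elim)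
      (fun a ω => (sm a ω).mono_cav (le_max_left _ _)) ht hα (fun ω => by simp) (by simp))
    fun _ => some true
  rw [cavL_true _ _ _ _ _ _ _ _ _ _ (le_of_max_le_right hK)] at this
  exact this

end Vale.Agent.P157
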