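import Vale.Agent.P157.Base

/-!
# P157: change of measure and concentration of energies
-/

namespace Vale.Agent.P157

open Vale.Agent.P168 Vale.Agent.P168.PW Finset MeasureTheory Filter Topology
open scoped BigOperators

section
variable {Ω : Type} [Fintype Ω] {P : Ch Ω} {a : ℕ → ℝ}

/-- the weight of the change of measure -/
noncomputable def psiDens (G : Ω → ℝ) (x : Ω) : ℝ := Real.exp (4 * G x) + Real.exp (-4 * G x)

theorem psi_posDens (G : Ω → ℝ) (p : ℕ) (ω : Ω) : 0 < A P 0 p (psiDens G) ω :=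
  E_pos _ fun _ => add_pos (Real.exp_pos _) (Real.exp_pos _)

theorem X_psiDens (ha : ∀ i, 0 < a i) (ha1 : ∀ i, a i ≤ 1) (G : Ω → ℝ) (p : ℕ) (ω : Ω) :
    |4 * X a P 0 G p ω| ≤ Real.log (A P 0 p (psiDens G) ω) := by
  rw [abs_le, neg_le, Real.le_log_iff_exp_le (psi_posDens G p ω),
    Real.le_log_iff_exp_le (psi_posDens G p ω)]
  constructor
  · have := A_le_X (P := P) (j := 0) ha G p ω
    refine le_trans ?_ ((exp_E_le _ fun x => -4 * G x).trans
      (E_mono _ fun x => le_add_of_nonneg_left (Real.exp_pos _).le))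
    rw [E_const_mul, Real.exp_le_exp]
    unfold A at this
    linarith
  · exact ((le_lam_iff four_pos _ _ _).1 (X_le_lam ha four_pos G p
      (fun i _ _ => (ha1 i).trans (by norm_num)) ω)).trans
      (E_mono _ fun x => le_add_of_nonneg_right (Real.exp_pos _).le)

theorem oneDens (ha : ∀ i, 0 < a i) (ha' : Antitone a) (ha1 : a 0 ≤ 1) (G F : Ω → ℝ) {i p : ℕ}
    (hp : i ≤ p) (ω : Ω) :
    A (T a P 0 G) i p F ω ^ 2 ≤ A P 0 p (psiDens G) ω * A P i p (fun x => F x ^ 2) ω := by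
  have h1 : ∀ i, a i ≤ 1 := fun i => (ha' (Nat.zero_le i)).trans ha1
  have hX := fun p ω => abs_le.1 (X_psiDens (P := P) ha h1 G p ω)
  have key : ∀ p, i ≤ p → ∀ ω, A (T a P 0 G) i p F ω ^ 2 ≤
      Real.exp ((a i - a p / 2) * Real.log (A P 0 p (psiDens G) ω) - 2 * a p * X a P 0 G p ω) *
        A P i p (fun x => F x ^ 2) ω := by
    intro p hp
    induction p, hp using Nat.le_induction with
    | base =>
      intro ω
      rw [A_of_le le_rfl, A_of_le le_rfl]
      exact le_mul_of_one_le_left (sq_nonneg _) (Real.one_le_exp (by nlinarith [ha i, hX i ω]))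
    | succ p hp ih =>
      intro ω
      have t0 : 0 < a i - a p / 2 := by linarith [ha' hp, ha p]
      have t1 : a i - a p / 2 ≤ 1 := by linarith [h1 i, ha p]
      set m := fun x => Real.log (A P 0 p (psiDens G) x)
      set u := fun x => Real.exp ((a i - a p / 2) * m x / 2 - a p * X a P 0 G p x)
      have cs := (P p ω).E_mul_sq_le
        (fun x => Real.exp ((a i - a p / 2) * m x / 2 - a p * X a P 0 G (p + 1) ω))
        fun x => A (T a P 0 G) i p F x / u x
      rw [A_succ hp, A_succ hp, T_of_le (Nat.zero_le p), E_tilt_lam (ha p), ← X_succ (Nat.zero_le p)]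
      refine (le_of_eq (congrArg (· ^ 2) (E_congr _ fun x => ?_))).trans (cs.trans
        (mul_le_mul ?_ (E_mono _ fun x => ?_) (E_nonneg _ fun _ => sq_nonneg _) (Real.exp_pos _).le))
      · rw [mul_div_left_comm, ← Real.exp_sub, mul_comm]
        congr 2
        ring
      · have l := (lam_le_iff t0 _ _ _).1 (lam_mono_exp t0 t1 (P p ω) m)
        have e : lam 1 (P p ω) m = Real.log (A P 0 (p + 1) (psiDens G) ω) := by
          rw [lam, div_one, A_succ (Nat.zero_le p)]
          exact congrArg _ (E_congr _ fun x => by rw [one_mul, Real.exp_log (psi_posDens G p x)])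
        rw [E_congr _ (G := fun x => Real.exp ((a i - a p / 2) * m x) *
          Real.exp (-(2 * a p * X a P 0 G (p + 1) ω))) fun x => by
            rw [← Real.exp_add, ← Real.exp_nat_mul]; congr 1; push_cast; ring, E_mul_const]
        refine (mul_le_mul_of_nonneg_right l (Real.exp_pos _).le).trans ?_
        rw [← Real.exp_add, Real.exp_le_exp, e]
        nlinarith [ha' (Nat.le_succ p), hX (p + 1) ω]
      · rw [div_pow, div_le_iff₀ (pow_pos (Real.exp_pos _) 2), mul_comm, ← Real.exp_nat_mul]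
        refine (ih x).trans_eq ?_
        congr 2
        push_cast
        ring
  refine (key p hp ω).trans (mul_le_mul_of_nonneg_right ?_ (A_nonneg (fun _ => sq_nonneg _) ω))
  rw [← Real.le_log_iff_exp_le (psi_posDens G p ω)]
  nlinarith [hX p ω, ha p, h1 i]

theorem amgmDens {u x y s : ℝ} (hs : 0 < s) (hx : 0 ≤ x) (hy : 0 ≤ y) (h : u ^ 2 ≤ x * y) :
    u ≤ s * x + y / (4 * s) := by
  refine (abs_le_of_sq_le_sq' (h.trans ?_) (by positivity)).2
  have : s * x * (y / (4 * s)) = x * y / 4 := by field_simp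
  nlinarith [sq_nonneg (s * x - y / (4 * s))]

end

theorem tr (M c θ : ℝ) (hθ : 0 < θ) : ∃ C : ℝ, 0 ≤ C ∧
    ∀ (n : ℕ) (Ω : Type) [Fintype Ω] (P : Ch Ω) (ρ : PW Ω) (G : Ω → ℝ) (F : ℕ → Ω → Ω → ℝ),
      Eh n P ρ 0 (fun ω => Real.exp (16 * G ω)) ≤ M →
      Eh n P ρ 0 (fun ω => Real.exp (-16 * G ω)) ≤ M →
      (∀ j, 1 ≤ j → j ≤ n + 1 → ∀ x y, |F j x y| ≤ c) →
      dev n (Tn n P G) ρ F ≤ θ + C * dev n P ρ F := by
  obtain ⟨K, hK, hK'⟩ : ∃ K : ℝ, 0 < K ∧ 16 * M ≤ K := ⟨16 * |M| + 1, by positivity, by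
    linarith [le_abs_self M]⟩
  obtain ⟨s, hs, hs'⟩ : ∃ s : ℝ, 0 < s ∧ s * K = θ / 2 := ⟨θ / 2 / K, by positivity, by field_simp⟩
  obtain ⟨t, ht, ht'⟩ : ∃ t : ℝ, 0 < t ∧ t * K / (4 * s) = θ / 2 :=
    ⟨θ / 2 * (4 * s) / K, by positivity, by field_simp⟩
  refine ⟨|c| ^ 3 / (4 * t) / (4 * s), by positivity, fun n Ω _ P ρ G F h1 h2 hF => ?_⟩
  have one := fun F {i p} hp => oneDens (P := P) (al_pos n) (al_anti n) (al_le_one n) G F (i := i)
    (p := p) hp
  have p1 : ∀ x, 1 ≤ psiDens G x := fun x => by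
    linarith [Real.add_one_le_exp (4 * G x), Real.add_one_le_exp (-4 * G x), psiDens.eq_1 G x]
  have p4 : Eh n P ρ 0 (fun x => (psiDens G x ^ 2) ^ 2) ≤ K := by
    refine (Eh_mono (G := fun x => 8 * (Real.exp (16 * G x) + Real.exp (-16 * G x)))
      fun x => ?_).trans (by rw [Eh_const_mul, Eh_add]; linarith)
    have := add_pow_le (Real.exp_pos (4 * G x)).le (Real.exp_pos (-4 * G x)).le 4
    rw [← Real.exp_nat_mul, ← Real.exp_nat_mul] at this
    rw [← pow_mul, psiDens, show 16 * G x = (4 : ℕ) * (4 * G x) by push_cast; ring,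
      show -16 * G x = (4 : ℕ) * (-4 * G x) by push_cast; ring]
    exact this.trans_eq (by norm_num)
  rw [← wt_sum n θ, dev, dev, mul_left_comm, ← mul_add, mul_sum _ _ (_ / _), ← sum_add_distrib]
  refine mul_le_mul_of_nonneg_left (sum_le_sum fun j hj => ?_) (wt_pos n).le
  obtain ⟨j1, j2⟩ := mem_Icc.1 hj
  have hc := fun x y => (hF j j1 j2 x y).trans (le_abs_self c)
  have hV : ∀ ω, A (Tn n P G) 0 j (fun x => A (Tn n P G) 0 j (fun y => |F j x y|) ω) ω ^ 2 ≤
      t * A P 0 j (fun x => (psiDens G x ^ 2) ^ 2) ω +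
        |c| ^ 3 / (4 * t) * A P 0 j (fun x => A P 0 j (fun y => |F j x y|) ω) ω := fun ω => by
    have m0 := (psi_posDens (P := P) G j ω).le
    have q0 : 0 ≤ A P 0 j (fun x => A P 0 j (fun y => |F j x y|) ω) ω :=
      A_nonneg (fun x => A_nonneg (fun _ => abs_nonneg _) ω) ω
    have q1 : A P 0 j (fun x => A P 0 j (fun y => |F j x y|) ω) ω ≤ |c| :=
      A_le_const (fun x => A_le_const (hc x) ω) ω
    have m4 : (A P 0 j (psiDens G) ω ^ 2) ^ 2 ≤ A P 0 j (fun x => (psiDens G x ^ 2) ^ 2) ω :=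
      (pow_le_pow_left₀ (sq_nonneg _) (E_sq_le _ _) 2).trans (E_sq_le _ _)
    refine (one _ (Nat.zero_le j) ω).trans ((mul_le_mul_of_nonneg_left (A_mono (G := fun x =>
      A P 0 j (psiDens G) ω * |c| * A P 0 j (fun y => |F j x y|) ω) (fun x =>
        (one _ (Nat.zero_le j) ω).trans ?_) ω) m0).trans ?_)
    · rw [mul_assoc, ← A_const_mul |c|]
      exact mul_le_mul_of_nonneg_left (A_mono (fun y => by nlinarith [hc x y, abs_nonneg (F j x y)]) ω) m0
    · rw [A_const_mul, div_mul_eq_mul_div]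
      refine amgmDens ht ((sq_nonneg _).trans m4) (by positivity) ?_
      generalize A P 0 j (fun x => A P 0 j (fun y => |F j x y|) ω) ω = q at *
      calc _ = (A P 0 j (psiDens G) ω ^ 2) ^ 2 * (|c| ^ 2 * q * q) := by ring
        _ ≤ _ := mul_le_mul m4 (by rw [pow_succ _ 2, mul_right_comm _ |c|]; gcongr) (by positivity)
          ((sq_nonneg _).trans m4)
  refine (E_mono _ fun ω => amgmDens hs (psi_posDens G _ ω).le (A_nonneg (fun _ => sq_nonneg _) ω)
    (one _ j2 ω)).trans ?_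
  rw [E_add, E_const_mul, E_div_const]
  have a1 : ρ.E (A P 0 (n + 1) (psiDens G)) ≤ K := (Eh_mono fun x => by
    nlinarith [p1 x, one_le_pow₀ (n := 3) (p1 x)]).trans p4
  have a2 := Eh_mono (n := n) (P := P) (ρ := ρ) (j := j) hV
  rw [Eh_add, Eh_const_mul, Eh_const_mul, Eh_A (Nat.zero_le j) j2] at a2
  have a3 := div_le_div_of_nonneg_right (a2.trans (add_le_add_left
    (mul_le_mul_of_nonneg_left p4 ht.le) _)) (by positivity : 0 ≤ 4 * s)
  rw [add_div, ht', mul_div_right_comm] at a3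
  have := mul_le_mul_of_nonneg_left a1 hs.le
  unfold E2 Eh Tn at *
  linarith

theorem lamDens {α : Type} [Fintype α] {w : ℝ} (hw : 0 < w) (μ : PW α) (Y : α → ℝ) :
    μ.E (fun x => |Y x - μ.E Y|) ≤ lam w μ Y + lam w μ (fun x => -Y x) + 1 / w := by
  have h1 := (le_lam_iff hw μ (fun x => Y x + -μ.E Y) 0).1
    (le_trans (by simp [E_add]) (E_le_lam hw _ _))
  have h2 := (le_lam_iff hw μ (fun x => -Y x + μ.E Y) 0).1
    (le_trans (by simp [E_add, E_neg]) (E_le_lam hw _ _))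
  have h3 := (μ.exp_E_le fun x => w * |Y x - μ.E Y|).trans (μ.E_mono (G := fun x =>
    Real.exp (w * (Y x + -μ.E Y)) + Real.exp (w * (-Y x + μ.E Y))) fun x => by
      rcases abs_cases (Y x - μ.E Y) with h | h <;> rw [h.1]
      · exact le_add_of_nonneg_right (Real.exp_pos _).le
      · rw [neg_sub, sub_eq_neg_add]; exact le_add_of_nonneg_left (Real.exp_pos _).le)
  rw [E_add, E_const_mul] at h3
  rw [mul_zero, Real.exp_zero] at h1 h2
  rw [← exp_lam hw, lam_add_const hw] at h1 h2 h3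
  rw [← exp_lam hw, lam_add_const hw] at h3
  have h4 := h3.trans (show _ ≤ Real.exp (w * (lam w μ Y + -μ.E Y)) *
      Real.exp (w * (lam w μ (fun x => -Y x) + μ.E Y)) * Real.exp 1 by
    nlinarith [Real.add_one_le_exp 1, mul_nonneg (sub_nonneg.2 h1) (sub_nonneg.2 h2),
      mul_pos (zero_lt_one.trans_le h1) (zero_lt_one.trans_le h2)])
  rw [← Real.exp_add, ← Real.exp_add, Real.exp_le_exp] at h4
  rw [← mul_le_mul_iff_right₀ hw, mul_add _ _ (1 / w), mul_one_div_cancel hw.ne']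
  linarith

theorem ptDens {n : ℕ} {Ω : Type} [Fintype Ω] (P : Ch Ω) (ρ : PW Ω) (G L : Ω → ℝ) {h fl : ℝ}
    (hh : 0 < h) (hf : ∀ s : ℝ, |s| ≤ h → ρ.E (fun x => |Xn n P (fun ω => G ω + s * L ω) x -
      Fr n P ρ fun ω => G ω + s * L ω|) ≤ fl) :
    h * Eh n (Tn n P G) ρ 0 (fun x => |L x - Eh n (Tn n P G) ρ 0 L|) ≤
      2 * (Fr n P ρ (fun ω => G ω + h * L ω) + Fr n P ρ (fun ω => G ω + -h * L ω) - 2 * Fr n P ρ G) +
        (3 * fl + (n + 1)) := by
  have f0 := hf 0 (by simpa using hh.le)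
  have f1 := hf h (abs_of_pos hh).le
  have f2 := hf (-h) (by rw [abs_neg, abs_of_pos hh])
  simp only [zero_mul, add_zero] at f0
  have e1 : ∀ s : ℝ, s * Eh n (Tn n P G) ρ 0 L ≤ Fr n P ρ (fun ω => G ω + s * L ω) - Fr n P ρ G :=
    fun s => by rw [Fr_add, ← Eh_const_mul, add_sub_cancel_left]; exact Eh_le_Fr _
  have e2 : ∀ (s : ℝ) ω, s * A (Tn n P G) 0 (n + 1) L ω ≤
      Xn n P (fun ω => G ω + s * L ω) ω - Xn n P G ω :=
    fun s ω => by rw [Xn_add, ← A_const_mul, add_sub_cancel_left]; exact A_le_X (al_pos n) _ _ ω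
  have e3 : ∀ (s : ℝ) ω, lam (wt n) (B (Tn n P G) 0 (n + 1) ω) (fun x => s * L x) ≤
      Xn n P (fun ω => G ω + s * L ω) ω - Xn n P G ω := fun s ω => by
    rw [Xn_add, add_sub_cancel_left]; exact lam_le_X (wt_pos n) _ _ (fun i _ _ => al_ge n i) ω
  rw [Eh, ← E_const_mul]
  refine (E_mono _ (G := fun ω => Xn n P (fun ω => G ω + h * L ω) ω +
    Xn n P (fun ω => G ω + -h * L ω) ω - 2 * Xn n P G ω + ((n + 1) +
    (Fr n P ρ (fun ω => G ω + h * L ω) + Fr n P ρ (fun ω => G ω + -h * L ω) - 2 * Fr n P ρ G)) +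
    (|Xn n P G ω - Fr n P ρ G| +
      |Xn n P (fun ω => G ω + h * L ω) ω - Fr n P ρ fun ω => G ω + h * L ω| +
      |Xn n P (fun ω => G ω + -h * L ω) ω - Fr n P ρ fun ω => G ω + -h * L ω|))
    fun ω => ?_).trans ?_
  · have l := lamDens (wt_pos n) (B (Tn n P G) 0 (n + 1) ω) fun x => h * L x
    simp only [E_const_mul, ← mul_sub, abs_mul, abs_of_pos hh, ← neg_mul, wt, one_div_one_div] at l
    have t := mul_le_mul_of_nonneg_left (A_mono (P := Tn n P G) (j := 0) (p := n + 1) (fun x =>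
      abs_sub_le (L x) (A (Tn n P G) 0 (n + 1) L ω) (Eh n (Tn n P G) ρ 0 L)) ω) hh.le
    rw [A_add, A_const', mul_add, ← abs_of_pos hh, ← abs_mul, abs_of_pos hh, mul_sub] at t
    have := e3 h ω
    have := e3 (-h) ω
    have := e1 h
    have := e1 (-h)
    have := e2 h ω
    have := e2 (-h) ω
    have := abs_nonneg (Xn n P (fun ω => G ω + h * L ω) ω - Fr n P ρ fun ω => G ω + h * L ω)
    have := le_abs_self (Xn n P (fun ω => G ω + h * L ω) ω - Fr n P ρ fun ω => G ω + h * L ω)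
    have := abs_nonneg (Xn n P (fun ω => G ω + -h * L ω) ω - Fr n P ρ fun ω => G ω + -h * L ω)
    have := le_abs_self (Xn n P (fun ω => G ω + -h * L ω) ω - Fr n P ρ fun ω => G ω + -h * L ω)
    have := neg_abs_le (Xn n P G ω - Fr n P ρ G)
    unfold A wt at *
    rcases abs_cases (h * (B (Tn n P G) 0 (n + 1) ω).E L - h * Eh n (Tn n P G) ρ 0 L) with k | k <;>
      linarith [k.1]
  · simp only [E_add, E_sub, E_const, E_const_mul]
    unfold Fr at *
    linarith

theorem tot_updDens {Ω J : Type} [Fintype J] [DecidableEq J] (L : J → Ω → ℝ) (β : J → ℝ) (l : J)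
    (x s : ℝ) (ω : Ω) :
    tot L (Function.update β l (x + s)) ω = tot L (Function.update β l x) ω + s * L l ω := by
  rw [tot, tot, ← Fintype.sum_pi_single' l (s * L l ω), ← sum_add_distrib]
  refine sum_congr rfl fun j _ => ?_
  by_cases e : j = l
  · subst e; simp [add_mul]
  · simp [e]

theorem kap {n : ℕ} {Ω J : Type} [Fintype Ω] [Fintype J] [DecidableEq J] (P : Ch Ω) (ρ : PW Ω)
    (H : Ω → ℝ) (L : J → Ω → ℝ) (β0 : J → ℝ) {h Lp fl : ℝ} (hh : 0 < h) {R : ℕ} [NeZero R] (l : J)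
    (hL : ∀ β : J → ℝ, (∀ j, β0 j - h ≤ β j ∧ β j ≤ β0 j + h * R) →
      |Eh n (Tn n P fun ω => H ω + tot L β ω) ρ 0 (L l)| ≤ Lp)
    (hf : ∀ β : J → ℝ, (∀ j, β0 j - h ≤ β j ∧ β j ≤ β0 j + h * R) →
      ρ.E (fun x => |Xn n P (fun ω => H ω + tot L β ω) x -
        Fr n P ρ fun ω => H ω + tot L β ω|) ≤ fl) :
    (unif (J → Fin R)).E (fun z => Eh n (Tn n P fun ω => H ω + tot L (win β0 h z) ω) ρ 0
      fun x => |L l x - Eh n (Tn n P fun ω => H ω + tot L (win β0 h z) ω) ρ 0 (L l)|) ≤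
      4 * Lp / R + (4 * fl + (n + 1)) / h := by
  have hR : (0 : ℝ) < R := Nat.cast_pos.2 (NeZero.pos R)
  have zr : ∀ u : Fin R, (0 : ℝ) ≤ (u : ℕ) ∧ ((u : ℕ) : ℝ) + 1 ≤ R := fun u =>
    ⟨Nat.cast_nonneg _, by exact_mod_cast u.2⟩
  have rg : ∀ (z : J → Fin R) (x : ℝ), β0 l - h ≤ x → x ≤ β0 l + h * R → ∀ j,
      β0 j - h ≤ Function.update (win β0 h z) l x j ∧
        Function.update (win β0 h z) l x j ≤ β0 j + h * R := fun z x a b j => by
    by_cases e : j = l
    · subst e; simpa using ⟨by linarith, b⟩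
    · rw [Function.update_of_ne e, win]
      constructor <;> nlinarith [zr (z j)]
  let ψ : (J → Fin R) → ℝ → ℝ := fun z u =>
    Fr n P ρ fun ω => H ω + tot L (Function.update (win β0 h z) l (β0 l + h * u)) ω
  have sh : ∀ z (u s : ℝ), ψ z (u + s) = Fr n P ρ fun ω =>
      (H ω + tot L (Function.update (win β0 h z) l (β0 l + h * u)) ω) + (s * h) * L l ω :=
    fun z u s => by simp only [ψ, mul_add, ← add_assoc, tot_updDens L _ l _ (h * s), mul_comm s h]
  have up : ∀ z : J → Fin R, Function.update (win β0 h z) l (β0 l + h * (z l : ℕ)) = win β0 h z :=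
    fun z => Function.update_eq_self l (win β0 h z)
  have fl0 : 0 ≤ fl := (E_nonneg _ fun _ => abs_nonneg _).trans
    (hf β0 fun j => ⟨by linarith, le_add_of_nonneg_right (by positivity)⟩)
  have k2 : (unif (J → Fin R)).E (fun z => ψ z ((z l : ℕ) + 1) + ψ z ((z l : ℕ) + -1) -
      2 * ψ z (z l : ℕ)) ≤ 2 * (h * Lp) / R := by
    rw [← pi_unif, ← E_pi_update _ l]
    refine E_le_const _ fun z => ?_
    have e : ∀ u, ψ (Function.update z l u) = ψ z := fun u => funext fun x => by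
      have : Function.update (win β0 h (Function.update z l u)) l (β0 l + h * x) =
          Function.update (win β0 h z) l (β0 l + h * x) := funext fun j => by
        by_cases k : j = l
        · subst k; simp
        · simp [win, Function.update_of_ne k]
      simp only [ψ, this]
    have d : ∀ u s : ℝ, -1 ≤ u → u ≤ R → |s| = 1 → ψ z u - ψ z (u + s) ≤ h * Lp := fun u s a b c => by
      have := abs_le.1 (mul_le_mul_of_nonneg_left (hL _ (rg z (β0 l + h * u) (by nlinarith)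
        (by nlinarith))) (abs_nonneg (s * h)) |>.trans' (abs_mul _ _).le)
      rw [abs_mul, c, one_mul, abs_of_pos hh, ← Eh_const_mul] at this
      rw [sh, Fr_add]
      linarith [this.1.trans (Eh_le_Fr _)]
    simp only [e, Function.update_self, E_unif]
    rw [expect_eq_sum_div_card, card_univ, Fintype.card_fin]
    gcongr
    rw [Fin.sum_univ_eq_sum_range (fun k : ℕ => ψ z (k + 1) + ψ z (k + -1) - 2 * ψ z k),
      sum_congr rfl (g := fun k : ℕ => (ψ z (k + 1 : ℕ) - ψ z ((k + 1 : ℕ) + -1)) -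
        (ψ z k - ψ z (k + -1))) fun k _ => by push_cast; rw [add_neg_cancel_right]; ring,
      sum_range_sub fun k : ℕ => ψ z k - ψ z (k + -1)]
    have d1 := d R (-1) (by linarith) le_rfl (by simp)
    have d2 := d (-1) 1 le_rfl (by linarith) (by simp)
    simp only [neg_add_cancel, Nat.cast_zero, zero_add] at d2 ⊢
    linarith
  rw [← mul_le_mul_iff_right₀ hh, ← E_const_mul]
  refine (E_mono _ (G := fun z => 2 * (ψ z ((z l : ℕ) + 1) + ψ z ((z l : ℕ) + -1) -
    2 * ψ z (z l : ℕ)) + (3 * fl + (n + 1))) fun z => ?_).trans ?_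
  · simp only [sh, ψ, up, one_mul, neg_mul]
    simpa only [neg_mul] using ptDens P ρ _ (L l) hh fun s hs => by
      have := hf _ (rg z (β0 l + h * (z l : ℕ) + s) (by nlinarith [zr (z l), abs_le.1 hs])
        (by nlinarith [zr (z l), abs_le.1 hs]))
      simpa only [tot_updDens L _ l _ s, up, ← add_assoc] using this
  · rw [E_add_const, E_const_mul, mul_add, mul_div_cancel₀ _ hh.ne', ← mul_div_assoc]
    rw [mul_div_assoc] at k2
    rw [show h * (4 * Lp) / R = 4 * (h * Lp / R) by ring]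
    linarith

end Vale.Agent.P157
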