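import Vale.Agent.P157.Int
import Vale.Agent.P157.Dens

/-!
# P157: the layered system of a cavity step
-/

namespace Vale.Agent.P157

open Vale.Agent.P168 Vale.Agent.P168.PW Finset MeasureTheory Filter Topology
open scoped BigOperators

/-- The identity and its derivatives. -/
def idCav (i : ℕ) (x : ℝ) : ℝ := if i = 0 then x else if i = 1 then 1 else 0

theorem sm_idCav {c : ℝ} (hc : 1 ≤ c) : Sm c 3 idCav := by
  refine ⟨fun i hi x => ?_, fun i h1 _ x => ?_⟩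
  · interval_cases i
    · exact hasDerivAt_id x
    · exact hasDerivAt_const x 1
    · exact hasDerivAt_const x 0
  · rw [idCav, if_neg (by omega)]
    split_ifs <;> simp <;> linarith

theorem Sm.mono_cav {c c' : ℝ} {k : ℕ} {F : ℕ → ℝ → ℝ} (h : Sm c k F) (hc : c ≤ c') : Sm c' k F :=
  ⟨h.1, fun i h1 h2 x => (h.2 i h1 h2 x).trans hc⟩

theorem Sm.lip_cav {c : ℝ} {k : ℕ} {F : ℕ → ℝ → ℝ} (h : Sm c k F) {i : ℕ} (h1 : 1 ≤ i)
    (h2 : i < k) (x y : ℝ) : |F i x - F i y| ≤ 2 * c * min |x - y| 1 := by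
  have hc : 0 ≤ c := (abs_nonneg _).trans (h.2 i h1 h2.le x)
  rw [mul_min_of_nonneg _ _ (by linarith), le_min_iff]
  constructor
  · have := Convex.norm_image_sub_le_of_norm_hasDerivWithin_le (f := F i) (f' := F (i + 1))
      (s := Set.univ) (C := c) (fun z _ => (h.1 i h2 z).hasDerivWithinAt)
      (fun z _ => h.2 (i + 1) (by omega) h2 z) convex_univ (Set.mem_univ y) (Set.mem_univ x)
    simp only [Real.norm_eq_abs] at this
    nlinarith [abs_nonneg (x - y)]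
  · linarith [abs_sub (F i x) (F i y), h.2 i h1 h2.le x, h.2 i h1 h2.le y]

variable {K n : ℕ} {Ω 𝒜 J Λ : Type} [Fintype Ω] [Fintype 𝒜] [Fintype J] [Fintype Λ]

section ana
variable {φ : 𝒜 → Ω → ℕ → ℝ → ℝ} {S Z : 𝒜 → Ω → ℝ} {c d e α : ℝ}

/-- Truncated size of a shift. -/
noncomputable def dlCav (S Z : 𝒜 → Ω → ℝ) (e : ℝ) (ω : Ω) : ℝ :=
  e ^ 2 * ∑ a, min |Z a ω - S a ω| 1

omit [Fintype Ω] in
theorem dlCav_nonneg (ω : Ω) : 0 ≤ dlCav S Z e ω :=
  mul_nonneg (sq_nonneg e) (sum_nonneg fun _ _ => le_min (abs_nonneg _) zero_le_one)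

omit [Fintype Ω] in
theorem dlCav_le (hα : e ^ 2 * Fintype.card 𝒜 ≤ α) (ω : Ω) : dlCav S Z e ω ≤ α := by
  refine le_trans (mul_le_mul_of_nonneg_left ?_ (sq_nonneg e)) hα
  simpa using sum_le_sum (s := univ) fun a _ => min_le_right |Z a ω - S a ω| 1

omit [Fintype Ω] in
theorem dlCav_le' (he : 0 ≤ e) (hα : e ^ 2 * Fintype.card 𝒜 ≤ α) (ω : Ω) :
    dlCav S Z e ω ≤ e * (α + ∑ a, (Z a ω - S a ω) ^ 2) := by
  have : dlCav S Z e ω ≤ e * ∑ a, (e ^ 2 + (Z a ω - S a ω) ^ 2) := by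
    rw [dlCav, mul_sum, mul_sum]
    refine sum_le_sum fun a _ => ?_
    have h1 := min_le_left |Z a ω - S a ω| 1
    rw [← sq_abs (Z a ω - S a ω)]
    have h2 : e * min |Z a ω - S a ω| 1 ≤ e ^ 2 + |Z a ω - S a ω| ^ 2 := by
      nlinarith [sq_nonneg (e - |Z a ω - S a ω|), abs_nonneg (Z a ω - S a ω)]
    nlinarith
  refine this.trans (mul_le_mul_of_nonneg_left ?_ he)
  rw [sum_add_distrib, sum_const, card_univ, nsmul_eq_mul]
  linarith

omit [Fintype Ω] in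
theorem cavV_sub_le (hc : 1 ≤ c) (hd : 0 ≤ d) (hs : ∀ a ω, Sm c 3 (φ a ω)) (ω : Ω) :
    |cavV φ Z d e ω - cavV φ S d e ω| ≤ 3 * d * c ^ 2 * dlCav S Z e ω := by
  rw [cavV, cavV, ← mul_sub, ← sum_sub_distrib, abs_mul, abs_of_nonneg (by positivity), dlCav]
  have : |∑ a, (φ a ω 2 (Z a ω) + φ a ω 1 (Z a ω) ^ 2 - (φ a ω 2 (S a ω) + φ a ω 1 (S a ω) ^ 2))|
      ≤ 6 * c ^ 2 * ∑ a, min |Z a ω - S a ω| 1 := by
    rw [mul_sum]
    refine (abs_sum_le_sum_abs _ _).trans (sum_le_sum fun a _ => ?_)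
    have h1 := (hs a ω).lip_cav (i := 1) le_rfl (by norm_num) (Z a ω) (S a ω)
    have h2 := (hs a ω).lip_cav (i := 2) (by norm_num) (by norm_num) (Z a ω) (S a ω)
    have h3 := abs_mul_sub_mul_le ((hs a ω).2 1 le_rfl (by norm_num) (Z a ω))
      ((hs a ω).2 1 le_rfl (by norm_num) (S a ω)) h1 h1
    have h4 : 0 ≤ min |Z a ω - S a ω| 1 := le_min (abs_nonneg _) zero_le_one
    have h5 : c * min |Z a ω - S a ω| 1 ≤ c ^ 2 * min |Z a ω - S a ω| 1 := by
      gcongr; nlinarith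
    rw [add_sub_add_comm, sq, sq (φ a ω 1 _)]
    refine (abs_add_le _ _).trans ?_
    nlinarith
  refine (mul_le_mul_of_nonneg_left this (by positivity)).trans (le_of_eq (by ring))

omit [Fintype Ω] in
theorem ovy_sub_le (hs : ∀ a ω, Sm c 3 (φ a ω)) (x y : Ω) :
    |ovy φ Z e x y - ovy φ S e x y| ≤ 2 * c ^ 2 * dlCav S Z e x + 2 * c ^ 2 * dlCav S Z e y := by
  rw [ovy, ovy, ← mul_sub, ← sum_sub_distrib, abs_mul, abs_of_nonneg (sq_nonneg e), dlCav, dlCav,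
    mul_left_comm, mul_left_comm (2 * c ^ 2), ← mul_add, mul_sum, mul_sum, ← sum_add_distrib]
  refine mul_le_mul_of_nonneg_left
    ((abs_sum_le_sum_abs _ _).trans (sum_le_sum fun a _ => ?_)) (sq_nonneg e)
  refine (abs_mul_sub_mul_le ((hs a y).2 1 le_rfl (by norm_num) (Z a y))
      ((hs a x).2 1 le_rfl (by norm_num) (S a x))
      ((hs a x).lip_cav (i := 1) le_rfl (by norm_num) (Z a x) (S a x))
      ((hs a y).lip_cav (i := 1) le_rfl (by norm_num) (Z a y) (S a y))).trans (le_of_eq (by ring))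

omit [Fintype Ω] in
theorem abs_ovy_le (hs : ∀ a ω, Sm c 3 (φ a ω)) (hα : e ^ 2 * Fintype.card 𝒜 ≤ α) (x y : Ω) :
    |ovy φ S e x y| ≤ α * c ^ 2 := by
  rw [ovy, abs_mul, abs_of_nonneg (sq_nonneg e)]
  have : |∑ a, φ a x 1 (S a x) * φ a y 1 (S a y)| ≤ Fintype.card 𝒜 * c ^ 2 := by
    refine (abs_sum_le_sum_abs _ _).trans ?_
    simpa [sq] using sum_le_sum (s := univ) fun a _ => abs_mul_le'
      ((hs a x).2 1 le_rfl (by norm_num) (S a x)) ((hs a y).2 1 le_rfl (by norm_num) (S a y))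
  refine (mul_le_mul_of_nonneg_left this (sq_nonneg e)).trans ?_
  rw [← mul_assoc]
  exact mul_le_mul_of_nonneg_right hα (sq_nonneg c)

omit [Fintype Ω] in
theorem abs_cavV_le (hc : 1 ≤ c) (hd : 0 ≤ d) (hs : ∀ a ω, Sm c 3 (φ a ω))
    (hα : e ^ 2 * Fintype.card 𝒜 ≤ α) (ω : Ω) : |cavV φ S d e ω| ≤ α * d * c ^ 2 := by
  rw [cavV, abs_mul, abs_of_nonneg (by positivity)]
  have : |∑ a, (φ a ω 2 (S a ω) + φ a ω 1 (S a ω) ^ 2)| ≤ Fintype.card 𝒜 * (2 * c ^ 2) := by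
    refine (abs_sum_le_sum_abs _ _).trans ?_
    have : ∀ a, |φ a ω 2 (S a ω) + φ a ω 1 (S a ω) ^ 2| ≤ 2 * c ^ 2 := fun a => by
      have h1 := (hs a ω).2 1 le_rfl (by norm_num) (S a ω)
      have h2 := (hs a ω).2 2 (by norm_num) (by norm_num) (S a ω)
      have h3 := abs_mul_le' h1 h1
      refine (abs_add_le _ _).trans ?_
      rw [sq]
      nlinarith
    simpa using sum_le_sum (s := univ) fun a _ => this a
  refine (mul_le_mul_of_nonneg_left this (by positivity)).trans ?_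
  have := mul_le_mul_of_nonneg_right hα (show 0 ≤ d * c ^ 2 by positivity)
  nlinarith

theorem dev_ovy_le {P : Ch Ω} {ρ : PW Ω} (hs : ∀ a ω, Sm c 3 (φ a ω)) (q : ℕ → ℝ) :
    dev n P ρ (fun j x y => ovy φ Z e x y - q j) ≤ 4 * c ^ 2 * Eh n P ρ 0 (dlCav S Z e) +
      dev n P ρ fun j x y => ovy φ S e x y - q j := by
  have h0 : ∀ x, |2 * c ^ 2 * dlCav S Z e x| = 2 * c ^ 2 * dlCav S Z e x := fun x =>
    abs_of_nonneg (mul_nonneg (by positivity) (dlCav_nonneg x))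
  refine (dev_le_add (G := fun _ x y => ovy φ Z e x y - ovy φ S e x y)
    (H := fun j x y => ovy φ S e x y - q j) fun j _ _ x y => abs_sub_le _ _ _).trans ?_
  have := dev_le_add (n := n) (P := P) (ρ := ρ) (F := fun _ x y => ovy φ Z e x y - ovy φ S e x y)
    (G := fun _ x _ => 2 * c ^ 2 * dlCav S Z e x) (H := fun _ _ y => 2 * c ^ 2 * dlCav S Z e y)
    fun j _ _ x y => by rw [h0, h0]; exact ovy_sub_le hs x y
  rw [dev_fst, dev_snd] at this
  simp only [h0, Eh_const_mul] at this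
  linarith

end ana

section lay
variable [DecidableEq 𝒜] (n) (s : Fam (Fin K × ((𝒜 × J) ⊕ Λ)) Ω) (t : J → Ω → ℝ) (S : 𝒜 → Ω → ℝ)
  (φ : 𝒜 → Ω → ℕ → ℝ → ℝ) (d e : ℝ) (w : Λ → Ω → ℝ) (lv : Λ → ℕ) (r : ℝ)

/-- The layered system interpolating between cavity noise and an external field. -/
noncomputable def cavL : Lay K Ω (Option 𝒜) ((𝒜 × J) ⊕ Λ) where
  s := s
  lv := Sum.elim (fun _ => n + 1) lv
  pa := Sum.elim (fun a => some a.1) fun _ => none
  ty := Sum.isLeft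
  u := Sum.elim (fun a ω => e * t a.2 ω) w
  S := fun a => a.elim (fun _ => 0) S
  φ := fun a => a.elim (fun _ => idCav) φ
  R := fun β ω => if β then -cavV φ S d e ω else r

section proj
omit [Fintype Ω] [Fintype J] [Fintype Λ] [DecidableEq 𝒜]
theorem cavL_s : (cavL n s t S φ d e w lv r).s = s := rfl
theorem cavL_lv1 (a) : (cavL n s t S φ d e w lv r).lv (.inl a) = n + 1 := rfl
theorem cavL_lv2 (a) : (cavL n s t S φ d e w lv r).lv (.inr a) = lv a := rfl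
theorem cavL_pa1 (a) : (cavL n s t S φ d e w lv r).pa (.inl a) = some a.1 := rfl
theorem cavL_pa2 (a) : (cavL n s t S φ d e w lv r).pa (.inr a) = none := rfl
theorem cavL_ty1 (a) : (cavL n s t S φ d e w lv r).ty (.inl a) = true := rfl
theorem cavL_ty2 (a) : (cavL n s t S φ d e w lv r).ty (.inr a) = false := rfl
theorem cavL_u1 (a ω) : (cavL n s t S φ d e w lv r).u (.inl a) ω = e * t a.2 ω := rfl
theorem cavL_u2 (a) : (cavL n s t S φ d e w lv r).u (.inr a) = w a := rfl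
theorem cavL_S1 (a) : (cavL n s t S φ d e w lv r).S (some a) = S a := rfl
theorem cavL_S2 (ω) : (cavL n s t S φ d e w lv r).S none ω = 0 := rfl
theorem cavL_φ1 (a) : (cavL n s t S φ d e w lv r).φ (some a) = φ a := rfl
theorem cavL_φ2 (ω) : (cavL n s t S φ d e w lv r).φ none ω = idCav := rfl
theorem cavL_R1 (ω) : (cavL n s t S φ d e w lv r).R true ω = -cavV φ S d e ω := rfl
theorem cavL_R2 (ω) : (cavL n s t S φ d e w lv r).R false ω = r := rfl
end proj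

attribute [local simp] cavL_s cavL_lv1 cavL_lv2 cavL_pa1 cavL_pa2 cavL_ty1 cavL_ty2 cavL_u1 cavL_u2
  cavL_S1 cavL_S2 cavL_φ1 cavL_φ2 cavL_R1 cavL_R2

omit [Fintype Ω] in
theorem cavL_true (hK : 1 ≤ K) : (cavL n s t S φ d e w lv r).G (fun _ => some true) =
    cavG φ S d e t fun a i ω => Wk fun k => s.τ (k, Sum.inl (a, i)) ω := by
  funext ω
  have hK' : (K : ℝ) ≠ 0 := by positivity
  simp only [Lay.G, Lay.Z, cavG, Fintype.sum_option, sum_filter, Fintype.sum_sum_type,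
    Fintype.sum_prod_type, Wk]
  simp [mul_div_cancel_left₀ _ hK', sub_eq_add_neg, neg_div]
  refine sum_congr rfl fun a _ => ?_
  congr 3
  rw [sum_comm, mul_sum]
  refine sum_congr rfl fun i _ => ?_
  rw [← sum_div, ← sum_mul]; ring

omit [Fintype Ω] in
theorem cavL_false (hK : 1 ≤ K) : (cavL n s t S φ d e w lv r).G (fun _ => some false) =
    fun ω => ∑ l, Wk (fun k => s.τ (k, Sum.inr l) ω) * w l ω + r := by
  funext ω
  have hK' : (K : ℝ) ≠ 0 := by positivity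
  simp only [Lay.G, Lay.Z, Fintype.sum_option, sum_filter, Fintype.sum_sum_type,
    Fintype.sum_prod_type, Wk]
  simp [mul_div_cancel_left₀ _ hK', idCav]
  rw [sum_comm]
  refine sum_congr rfl fun i _ => ?_
  rw [← sum_div, ← sum_mul]; ring

variable (P : Ch Ω) (ρ : PW Ω) (C : Fin K → Option Bool)

theorem cavL_inc_true (ht : ∀ ω, ∑ i, t i ω ^ 2 = d) :
    (cavL n s t S φ d e w lv r).inc n P ρ C true =
      Eh n (Tn n P ((cavL n s t S φ d e w lv r).G C)) ρ 0 (fun ω =>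
        cavV φ (fun a => (cavL n s t S φ d e w lv r).Z C (some a)) d e ω - cavV φ S d e ω) -
      wt n * (∑ j ∈ Icc 1 (n + 1), E2 n (Tn n P ((cavL n s t S φ d e w lv r).G C)) ρ j fun x y =>
        (∑ i, t i x * t i y) * ovy φ (fun a => (cavL n s t S φ d e w lv r).Z C (some a)) e x y) /
          2 := by
  rw [Lay.inc]
  generalize Tn n P _ = P'
  simp only [Lay.d1, Lay.d2]
  generalize (cavL n s t S φ d e w lv r).Z C = Z
  congr 1
  · refine Eh_congr fun ω => ?_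
    simp only [sum_filter, Fintype.sum_sum_type, Fintype.sum_prod_type]
    simp [cavV]
    rw [neg_add_eq_sub]
    congr 1
    rw [← ht ω, mul_sum, sum_div]
    refine sum_congr rfl fun a _ => ?_
    rw [sum_mul, sum_div, sum_div, sum_mul]
    exact sum_congr rfl fun i _ => by ring
  · refine congrArg (fun z => wt n * z / 2) (sum_congr rfl fun j hj => E2_congr fun x y => ?_)
    simp only [sum_filter, Fintype.sum_sum_type, Fintype.sum_prod_type]
    simp [ovy, (mem_Icc.1 hj).2]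
    rw [mul_sum, mul_sum]
    refine sum_congr rfl fun a _ => ?_
    rw [sum_mul]
    exact sum_congr rfl fun i _ => by ring

theorem cavL_inc_false :
    (cavL n s t S φ d e w lv r).inc n P ρ C false =
      Eh n (Tn n P ((cavL n s t S φ d e w lv r).G C)) ρ 0 (fun ω => r + (∑ l, w l ω ^ 2) / 2) -
      wt n * (∑ j ∈ Icc 1 (n + 1), E2 n (Tn n P ((cavL n s t S φ d e w lv r).G C)) ρ j fun x y =>
        ∑ l with j ≤ lv l, w l x * w l y) / 2 := by
  rw [Lay.inc]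
  generalize Tn n P _ = P'
  simp only [Lay.d1, Lay.d2]
  generalize (cavL n s t S φ d e w lv r).Z C = Z
  simp only [sum_filter, Fintype.sum_sum_type, Fintype.sum_prod_type]
  simp [idCav]

variable {n s t S φ d e w lv r P ρ} {c α W : ℝ}

omit [DecidableEq 𝒜] in
theorem cavL_ok (hc : 1 ≤ c) (h : s.Ok P ρ) (l1 : ∀ k a, s.lv (k, Sum.inl a) = n + 1)
    (l2 : ∀ k l, s.lv (k, Sum.inr l) = lv l) (it : ∀ i, s.Inv (t i)) (iS : ∀ a, s.Inv (S a))
    (iφ : ∀ a, s.Inv (φ a)) (iw : ∀ l, s.Inv (w l)) (hs : ∀ a ω, Sm c 3 (φ a ω))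
    (ht : ∀ ω, ∑ i, t i ω ^ 2 = d) (hα : e ^ 2 * Fintype.card 𝒜 ≤ α)
    (hw : ∀ ω, ∑ l, w l ω ^ 2 ≤ W) (hr : |r| ≤ W) :
    (cavL n s t S φ d e w lv r).Ok c (|α| * |d| * c ^ 2 + W) P ρ := by
  obtain ⟨ω0⟩ := ρ.nonempty
  have hd : 0 ≤ d := ht ω0 ▸ sum_nonneg fun _ _ => sq_nonneg _
  have hα0 : 0 ≤ α := le_trans (by positivity) hα
  have hW : 0 ≤ W := (abs_nonneg _).trans hr
  rw [abs_of_nonneg hd, abs_of_nonneg hα0]
  refine ⟨h, ?_, ?_, ?_, ?_, ?_, ?_, fun ω => ?_, ?_⟩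
  · rintro k (a | l)
    exacts [l1 k a, l2 k l]
  · rintro (a | l) q ω
    · exact congrArg (e * ·) (it a.2 q ω)
    · exact iw l q ω
  · rintro (_ | a) q ω
    exacts [rfl, iS a q ω]
  · rintro (_ | a) q ω
    exacts [rfl, iφ a q ω]
  · rintro (_ | _) q ω
    · rfl
    · simp only [cavL, cavV, if_true, iS _ q ω, iφ _ q ω]
  · rintro (_ | a) ω
    exacts [sm_idCav hc, hs a ω]
  · simp only [cavL, Fintype.sum_sum_type, Fintype.sum_prod_type, Sum.elim_inl, Sum.elim_inr,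
      mul_pow, ← mul_sum, ht, sum_const, card_univ, nsmul_eq_mul]
    have h1 := mul_le_mul_of_nonneg_right hα hd
    have h2 : α * d * 1 ≤ α * d * c ^ 2 := by gcongr; nlinarith
    linarith [hw ω]
  · rintro (_ | _) ω
    · exact le_add_of_nonneg_of_le (by positivity) hr
    · simp only [cavL, if_true, abs_neg]
      exact le_add_of_le_of_nonneg (abs_cavV_le hc hd hs hα ω) hW

end lay

/-- Control of the tilted measures along a layered interpolation. -/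
theorem lay_tr_cav (c W b θ : ℝ) (hθ : 0 < θ) : ∃ C : ℝ, 0 ≤ C ∧ ∀ m : ℕ, ∃ K0 : ℕ, ∀ K, K0 ≤ K →
    ∀ (n : ℕ) (Ω 𝒜 Λ : Type) [Fintype Ω] [Fintype 𝒜] [DecidableEq 𝒜] [Fintype Λ]
      (P : Ch Ω) (ρ : PW Ω) (L : Lay K Ω 𝒜 Λ), Fintype.card Λ ≤ m → L.Ok c W P ρ →
      ∀ (D : Fin K → Option Bool) (F : ℕ → Ω → Ω → ℝ),
      (∀ j, 1 ≤ j → j ≤ n + 1 → ∀ x y, |F j x y| ≤ b) →
      dev n (Tn n P (L.G D)) ρ F ≤ θ + C * dev n P ρ F := by
  obtain ⟨M1, h1⟩ := mom c W 16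
  obtain ⟨M2, h2⟩ := mom c W (-16)
  obtain ⟨C, hC, h3⟩ := tr (max M1 M2) b θ hθ
  refine ⟨C, hC, fun m => ?_⟩
  obtain ⟨K1, h1⟩ := h1 m
  obtain ⟨K2, h2⟩ := h2 m
  refine ⟨max K1 K2, fun K hK n Ω 𝒜 Λ _ _ _ _ P ρ L hm hL D F hF => h3 n Ω P ρ _ F ?_ ?_ hF⟩
  · exact (h1 K (le_of_max_le_left hK) n Ω 𝒜 Λ P ρ L hm hL D).trans (le_max_left _ _)
  · exact (h2 K (le_of_max_le_right hK) n Ω 𝒜 Λ P ρ L hm hL D).trans (le_max_right _ _)

end Vale.Agent.P157
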