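import Vale.Agent.P157.CltA

/-!
# P157: uniform central limit theorem for sums of signs
-/

namespace Vale.Agent.P157

open Vale.Agent.P168 Vale.Agent.P168.PW Finset MeasureTheory Filter Topology
open Vale.Agent.P157.AnL Vale.Agent.P157.CltA
open scoped BigOperators

theorem lip_nonnegClt {L : ℝ} {Y : ℝ → ℝ} (hY : ∀ x y, |Y x - Y y| ≤ L * |x - y|) : 0 ≤ L := by
  simpa using (abs_nonneg _).trans (hY 1 0)

theorem lip_LpClt {L : ℝ} {Y : ℝ → ℝ} (hY : ∀ x y, |Y x - Y y| ≤ L * |x - y|) : Lp |L| Y :=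
  fun x y => (hY x y).trans ((mul_le_mul_of_nonneg_right (le_abs_self L) (abs_nonneg _)).trans
    (le_mul_of_one_le_right (by positivity) (Real.one_le_exp (by positivity))))

theorem abs_exp_subClt (u w : ℝ) :
    |Real.exp u - Real.exp w| ≤ |u - w| * Real.exp (|u| + |w|) := by
  wlog h : w ≤ u generalizing u w
  · rw [abs_sub_comm, abs_sub_comm u, add_comm]; exact this w u (le_of_not_ge h)
  rw [abs_of_nonneg (sub_nonneg.2 (Real.exp_le_exp.2 h)), abs_of_nonneg (sub_nonneg.2 h)]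
  have h1 := Real.add_one_le_exp (w - u)
  rw [Real.exp_sub, le_div_iff₀ (Real.exp_pos u)] at h1
  have h2 : Real.exp u ≤ Real.exp (|u| + |w|) :=
    Real.exp_le_exp.2 (by linarith [le_abs_self u, abs_nonneg w])
  nlinarith [mul_le_mul_of_nonneg_left h2 (sub_nonneg.2 h)]

theorem abs_log_subClt {A B c : ℝ} (hc : 0 < c) (hA : c ≤ A) (hB : c ≤ B) :
    |Real.log A - Real.log B| ≤ |A - B| / c := by
  have key : ∀ {A B : ℝ}, c ≤ A → c ≤ B → Real.log A - Real.log B ≤ |A - B| / c := by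
    intro A B hA hB
    have hB0 := hc.trans_le hB
    rw [← Real.log_div (hc.trans_le hA).ne' hB0.ne']
    refine (Real.log_le_sub_one_of_pos (div_pos (hc.trans_le hA) hB0)).trans ?_
    rw [div_sub_one hB0.ne']
    exact (div_le_div_of_nonneg_right (le_abs_self _) hB0.le).trans (by gcongr)
  rw [abs_le]
  refine ⟨?_, key hA hB⟩
  have := key hB hA
  rw [abs_sub_comm] at this
  linarith

theorem clt_E (L V ε : ℝ) (hε : 0 < ε) : ∃ δ0 : ℝ, 0 < δ0 ∧
    ∀ (κ : Type) [Fintype κ] [DecidableEq κ] (δ v : ℝ) (Y : ℝ → ℝ), |δ| ≤ δ0 →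
      |Fintype.card κ * δ ^ 2 - v| ≤ δ0 → 0 ≤ v → v ≤ V → (∀ x y, |Y x - Y y| ≤ L * |x - y|) →
      |(unif (κ → Bool)).E (fun ξ => Y (δ * ∑ k, sp (ξ k))) - ∫ z, Y (Real.sqrt v * z) ∂gam| ≤ ε := by
  obtain ⟨δ0, h0, h⟩ := clt_G (abs_nonneg L) V hε
  exact ⟨δ0, h0, fun κ _ _ δ v Y h1 h2 h3 h4 h5 => h κ δ v Y h1 h2 h3 h4 (lip_LpClt h5)⟩

theorem clt_lam (a L V ε : ℝ) (ha : 0 < a) (hε : 0 < ε) : ∃ δ0 : ℝ, 0 < δ0 ∧
    ∀ (κ : Type) [Fintype κ] [DecidableEq κ] (δ v : ℝ) (Y : ℝ → ℝ), |δ| ≤ δ0 →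
      |Fintype.card κ * δ ^ 2 - v| ≤ δ0 → 0 ≤ v → v ≤ V → (∀ x y, |Y x - Y y| ≤ L * |x - y|) →
      |lam a (unif (κ → Bool)) (fun ξ => Y (δ * ∑ k, sp (ξ k))) -
        Real.log (∫ z, Real.exp (a * Y (Real.sqrt v * z)) ∂gam) / a| ≤ ε := by
  set C := a * |L| with hC
  have hC0 : 0 ≤ C := by positivity
  set c := Real.exp (-(C * √V * (2 * Real.exp (1 ^ 2 / 2)))) / 2 with hc
  have hc0 : 0 < c := by positivity
  obtain ⟨δ0, h0, h⟩ := clt_G hC0 V (ε := min c (ε * a * c)) (by positivity)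
  refine ⟨δ0, h0, fun κ _ _ δ v Y h1 h2 h3 h4 h5 => ?_⟩
  have hL : ∀ x y, |a * (Y x - Y y)| ≤ C * |x - y| := fun x y => by
    rw [abs_mul, abs_of_pos ha, hC, mul_assoc, abs_of_nonneg (lip_nonnegClt h5)]
    exact mul_le_mul_of_nonneg_left (h5 x y) ha.le
  have hG : Lp C fun x => Real.exp (a * (Y x - Y 0)) := fun x y => by
    refine (abs_exp_subClt _ _).trans ?_
    have e1 := hL x 0
    have e2 := hL y 0
    rw [sub_zero] at e1 e2
    rw [← mul_sub, sub_sub_sub_cancel_right, mul_add]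
    gcongr
    exact hL x y
  have h6 := h κ δ v _ h1 h2 h3 h4 hG
  have i1 : Integrable (fun z => Real.exp (a * (Y (√v * z) - Y 0))) gam :=
    (hG.scale hC0 le_rfl).int (by positivity) sub_gam
  have i2 : Integrable (fun z => a * (Y (√v * z) - Y 0)) gam :=
    ((((lip_LpClt h5).scale (abs_nonneg _) le_rfl).int (by positivity) sub_gam).sub
      (integrable_const _)).const_mul a
  have h7 : 2 * c ≤ ∫ z, Real.exp (a * (Y (√v * z) - Y 0)) ∂gam := by
    have b1 := int_le_log i2 i1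
    have b2 : ∫ z, -(C * √V * Real.exp (1 * |z|)) ∂gam ≤ ∫ z, a * (Y (√v * z) - Y 0) ∂gam := by
      refine integral_mono ((sub_gam.abs 1).1.const_mul _).neg i2 fun z => ?_
      have e1 := (abs_le.1 (hL (√v * z) 0)).1
      rw [sub_zero, abs_mul, abs_of_nonneg (Real.sqrt_nonneg v), ← mul_assoc] at e1
      refine le_trans (neg_le_neg ?_) e1
      rw [one_mul]
      gcongr
      exact abs_le_exp z
    rw [integral_neg, integral_const_mul] at b2
    rw [hc, mul_div_cancel₀ _ two_ne_zero, ← Real.le_log_iff_exp_le (int_exp_pos i1)]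
    have b3 := mul_le_mul_of_nonneg_left (sub_gam.abs 1).2 (mul_nonneg hC0 (Real.sqrt_nonneg V))
    linarith
  have h8 := abs_log_subClt hc0 (A := (unif (κ → Bool)).E fun ξ =>
    Real.exp (a * (Y (δ * ∑ k, sp (ξ k)) - Y 0))) (by
      linarith [(abs_le.1 h6).1, min_le_left c (ε * a * c)]) (le_trans (by linarith) h7)
  have h9 : lam a (unif (κ → Bool)) (fun ξ => Y (δ * ∑ k, sp (ξ k))) =
      Real.log ((unif (κ → Bool)).E fun ξ =>
        Real.exp (a * (Y (δ * ∑ k, sp (ξ k)) - Y 0))) / a + Y 0 := by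
    rw [← lam, ← lam_add_const ha]; simp
  have h10 : Real.log (∫ z, Real.exp (a * Y (√v * z)) ∂gam) / a =
      Real.log (∫ z, Real.exp (a * (Y (√v * z) - Y 0)) ∂gam) / a + Y 0 := by
    have e : ∀ z, Real.exp (a * Y (√v * z)) =
        Real.exp (a * (Y (√v * z) - Y 0)) * Real.exp (a * Y 0) := fun z => by
      rw [← Real.exp_add]; congr 1; ring
    simp only [e]
    rw [integral_mul_const, Real.log_mul (int_exp_pos i1).ne' (Real.exp_pos _).ne', Real.log_exp]
    field_simp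
  rw [h9, h10, add_sub_add_right_eq_sub, ← sub_div, abs_div, abs_of_pos ha, div_le_iff₀ ha]
  refine h8.trans ?_
  rw [div_le_iff₀ hc0]
  exact h6.trans (min_le_right _ _)

theorem integrable_lip {L : ℝ} {Y : ℝ → ℝ} (hY : ∀ x y, |Y x - Y y| ≤ L * |x - y|) :
    Integrable Y gam ∧ ∀ a : ℝ, Integrable (fun z => Real.exp (a * Y z)) gam := by
  refine ⟨(lip_LpClt hY).int (abs_nonneg _) sub_gam, fun a => ?_⟩
  have hc := (lip_LpClt hY).cont
  refine ((sub_gam.abs (|a| * L)).1.const_mul (Real.exp (a * Y 0))).mono' (by fun_prop)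
    (Eventually.of_forall fun z => ?_)
  rw [Real.norm_of_nonneg (Real.exp_pos _).le, ← Real.exp_add, Real.exp_le_exp]
  have h1 := mul_le_mul_of_nonneg_left (hY z 0) (abs_nonneg a)
  rw [← abs_mul, sub_zero, ← mul_assoc] at h1
  linarith [le_abs_self (a * (Y z - Y 0))]

theorem integrable_lipI {I : Type} [Fintype I] {L : ℝ} {Y : (I → ℝ) → ℝ}
    (hY : ∀ x y, |Y x - Y y| ≤ L * ∑ i, |x i - y i|) :
    Integrable Y (gI I) ∧ ∀ a : ℝ, Integrable (fun z => Real.exp (a * Y z)) (gI I) := by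
  have hc : Continuous Y := by
    refine continuous_iff_continuousAt.2 fun y => tendsto_iff_dist_tendsto_zero.2 ?_
    have : Continuous fun x : I → ℝ => L * ∑ i, |x i - y i| := by fun_prop
    refine squeeze_zero (fun _ => dist_nonneg) (fun x => hY x y) ?_
    simpa using this.tendsto y
  have hi : ∀ t : ℝ, Integrable (fun z : I → ℝ => Real.exp (t * ∑ i, |z i|)) (gI I) := fun t => by
    simp only [mul_sum, Real.exp_sum]
    exact Integrable.fintype_prod (f := fun _ z => Real.exp (t * |z|)) fun _ => (sub_gam.abs t).1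
  have h0 : ∀ z, |Y z - Y 0| ≤ L * ∑ i, |z i| := fun z => by simpa using hY z 0
  refine ⟨((hi L).add (integrable_const |Y 0|)).mono' hc.aestronglyMeasurable
    (Eventually.of_forall fun z => ?_), fun a => ((hi (|a| * L)).const_mul
      (Real.exp (a * Y 0))).mono' (by fun_prop) (Eventually.of_forall fun z => ?_)⟩
  · have := abs_sub_abs_le_abs_sub (Y z) (Y 0)
    have h1 := Real.add_one_le_exp (L * ∑ i, |z i|)
    simp only [Real.norm_eq_abs, Pi.add_apply]
    linarith [h0 z]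
  · rw [Real.norm_of_nonneg (Real.exp_pos _).le, ← Real.exp_add, Real.exp_le_exp]
    have h1 := mul_le_mul_of_nonneg_left (h0 z) (abs_nonneg a)
    rw [← abs_mul, ← mul_assoc] at h1
    linarith [le_abs_self (a * (Y z - Y 0))]

theorem cas_lip {L : ℝ} {G : ℝ → ℝ} (hG : ∀ x y, |G x - G y| ≤ L * |x - y|) (n : ℕ) (v : ℕ → ℝ)
    {l : ℕ} (hl : l ≤ n + 1) (x y : ℝ) : |cas n v G l x - cas n v G l y| ≤ L * |x - y| := by
  induction l generalizing x y with
  | zero => exact hG x y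
  | succ l ih =>
    have ih' := ih (by omega)
    have hi : ∀ x, Integrable (fun z => Real.exp (ze n l * cas n v G l (x + √(v l) * z))) gam :=
      fun x => (integrable_lip (L := L * √(v l)) fun z z' => by
        refine (ih' _ _).trans (le_of_eq ?_)
        rw [add_sub_add_left_eq_sub, ← mul_sub, abs_mul, abs_of_nonneg (Real.sqrt_nonneg _),
          mul_assoc]).2 _
    exact log_int_lip (ze_pos (by omega)) (hi x) (hi y) fun z => (ih' _ _).trans (by simp)

theorem casI_lip {I : Type} [Fintype I] {L : ℝ} {G : (I → ℝ) → ℝ}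
    (hG : ∀ x y, |G x - G y| ≤ L * ∑ i, |x i - y i|) (n : ℕ) (v : ℕ → ℝ)
    {l : ℕ} (hl : l ≤ n + 1) (x y : I → ℝ) :
    |casI n v G l x - casI n v G l y| ≤ L * ∑ i, |x i - y i| := by
  induction l generalizing x y with
  | zero => exact hG x y
  | succ l ih =>
    have ih' := ih (by omega)
    have hi : ∀ x : I → ℝ, Integrable (fun z : I → ℝ =>
        Real.exp (ze n l * casI n v G l fun i => x i + √(v l) * z i)) (gI I) :=
      fun x => (integrable_lipI (L := L * √(v l)) fun z z' => by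
        refine (ih' _ _).trans (le_of_eq ?_)
        simp only [add_sub_add_left_eq_sub, ← mul_sub, abs_mul,
          abs_of_nonneg (Real.sqrt_nonneg _), ← mul_sum, mul_assoc]).2 _
    exact log_int_lip (ze_pos (by omega)) (hi x) (hi y) fun z => (ih' _ _).trans (by simp)

theorem CasI_unit (n : ℕ) (v : ℕ → ℝ) (G : ℝ → ℝ) :
    CasI n v (fun x : Unit → ℝ => G (x ())) = Cas n v G := by
  have key : ∀ F : ℝ → ℝ, ∫ z, F (z ()) ∂(gI Unit) = ∫ z, F z ∂gam := fun F =>
    (measurePreserving_funUnique gam Unit).integral_comp' F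
  have h : ∀ l (x : Unit → ℝ), casI n v (fun x : Unit → ℝ => G (x ())) l x = cas n v G l (x ()) := by
    intro l
    induction l with
    | zero => exact fun _ => rfl
    | succ l ih =>
      intro x
      simp only [casI, cas, ih]
      rw [key fun z => Real.exp (ze n l * cas n v G l (x () + √(v l) * z))]
  simp only [CasI, Cas, h]
  exact key fun z => cas n v G (n + 1) (√(v (n + 1)) * z)

end Vale.Agent.P157
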