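import Vale.Agent.P157.AnL
import Vale.Agent.P047.Clt

/-!
# P157: uniform central limit theorem for locally Lipschitz functions
-/

namespace Vale.Agent.P157.CltA

open Vale.Agent.P168 Vale.Agent.P168.PW Vale.Agent.P157.AnL Finset MeasureTheory Filter Topology
open Vale.Agent.P047 (law nsum gm)
open scoped BigOperators

/-- subgaussian laws -/
def Sub (μ : Measure ℝ) : Prop :=
  ∀ t, Integrable (fun x => Real.exp (t * x)) μ ∧ ∫ x, Real.exp (t * x) ∂μ ≤ Real.exp (t ^ 2 / 2)

theorem sub_gam : Sub gam := fun t => ⟨int_exp_gam t, (mgf_gam t).le⟩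

theorem Sub.abs {μ : Measure ℝ} (h : Sub μ) (t : ℝ) :
    Integrable (fun x => Real.exp (t * |x|)) μ ∧
      ∫ x, Real.exp (t * |x|) ∂μ ≤ 2 * Real.exp (t ^ 2 / 2) := by
  have i1 := (h t).1.add (h (-t)).1
  have i2 : Integrable (fun x => Real.exp (t * |x|)) μ :=
    i1.mono' (by fun_prop) (Eventually.of_forall fun x => by
      rw [Real.norm_of_nonneg (Real.exp_pos _).le]; exact exp_abs_le t x)
  refine ⟨i2, (integral_mono i2 i1 (exp_abs_le t)).trans ?_⟩
  have h1 := (h t).2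
  have h2 := (h (-t)).2
  rw [neg_sq] at h2
  rw [integral_add' (h t).1 (h (-t)).1]
  linarith

theorem sub_law (K : ℕ) : Sub (law (nsum sp K)) := fun t => by
  refine ⟨?_, ?_⟩
  · rw [law]
    exact (integrable_finsetSum_measure.2 fun _ _ => integrable_dirac enorm_lt_top).smul_measure
      (by simp)
  rw [P047.integral_law_real, ← E_unif, ← pi_unif]
  have e : ∀ y : Fin K → Bool, Real.exp (t * nsum sp K y) =
      ∏ j, Real.exp (t * (√K)⁻¹ * sp (y j)) := fun y => by
    rw [← Real.exp_sum, nsum, ← mul_sum, mul_assoc]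
  simp only [e]
  rw [E_pi_prod (fun _ : Fin K => unif Bool) fun _ b => Real.exp (t * (√K)⁻¹ * sp b)]
  have e2 : (unif Bool).E (fun b => Real.exp (t * (√K)⁻¹ * sp b)) = Real.cosh (t * (√K)⁻¹) := by
    simp [E, unif, sp, Real.cosh_eq]; ring
  simp only [e2, prod_const, card_univ, Fintype.card_fin]
  refine (pow_le_pow_left₀ (Real.cosh_pos _).le (Real.cosh_le_exp_half_sq _) K).trans ?_
  rw [← Real.exp_nat_mul, Real.exp_le_exp, mul_pow, inv_pow, Real.sq_sqrt (Nat.cast_nonneg K)]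
  rcases Nat.eq_zero_or_pos K with rfl | hK
  · simp; positivity
  · have : (0 : ℝ) < K := by exact_mod_cast hK
    exact le_of_eq (by field_simp)

/-- locally Lipschitz with exponential growth -/
def Lp (C : ℝ) (g : ℝ → ℝ) : Prop :=
  ∀ x y, |g x - g y| ≤ C * |x - y| * Real.exp (C * (|x| + |y|))

variable {C : ℝ} {g : ℝ → ℝ}

theorem Lp.cont (h : Lp C g) : Continuous g := by
  refine continuous_iff_continuousAt.2 fun y => tendsto_iff_dist_tendsto_zero.2 ?_
  have : Continuous fun x => C * |x - y| * Real.exp (C * (|x| + |y|)) := by fun_prop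
  refine squeeze_zero (fun _ => dist_nonneg) (fun x => h x y) ?_
  simpa using this.tendsto y

theorem abs_le_exp (x : ℝ) : |x| ≤ Real.exp |x| := by linarith [Real.add_one_le_exp |x|]

theorem Lp.env (hC : 0 ≤ C) (h : Lp C g) (x : ℝ) :
    |g x - g 0| ≤ C * Real.exp ((C + 1) * |x|) := by
  have := h x 0
  simp only [sub_zero, abs_zero, add_zero] at this
  refine this.trans ?_
  rw [add_mul, one_mul, Real.exp_add, mul_comm (Real.exp _), mul_assoc]
  gcongr
  exact abs_le_exp x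

theorem Lp.int (hC : 0 ≤ C) (h : Lp C g) {μ : Measure ℝ} [IsProbabilityMeasure μ] (hμ : Sub μ) :
    Integrable g μ := by
  have : Integrable (fun x => g x - g 0) μ :=
    ((hμ.abs (C + 1)).1.const_mul C).mono' (h.cont.sub continuous_const).aestronglyMeasurable
      (Eventually.of_forall (h.env hC))
  exact (this.add (integrable_const (g 0))).congr (Eventually.of_forall fun x => by simp)

theorem Lp.scale (hC : 0 ≤ C) (h : Lp C g) {s S : ℝ} (hs : |s| ≤ S) :
    Lp (C * S) fun x => g (s * x) := fun x y => by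
  refine (h _ _).trans ?_
  have hS := (abs_nonneg s).trans hs
  rw [← mul_sub, abs_mul, abs_mul, abs_mul, ← mul_add, ← mul_assoc, ← mul_assoc]
  gcongr

theorem Lp.diff (hC : 0 ≤ C) (h : Lp C g) {μ : Measure ℝ} [IsProbabilityMeasure μ] (hμ : Sub μ)
    {s s' S : ℝ} (hs : |s| ≤ S) (hs' : |s'| ≤ S) :
    |∫ x, g (s * x) ∂μ - ∫ x, g (s' * x) ∂μ| ≤
      |s - s'| * (C * (2 * Real.exp ((2 * C * S + 1) ^ 2 / 2))) := by
  have hS := (abs_nonneg s).trans hs
  have i1 := (h.scale hC hs).int (by positivity) hμ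
  have i2 := (h.scale hC hs').int (by positivity) hμ
  rw [← integral_sub i1 i2]
  refine abs_integral_le_integral_abs.trans ((integral_mono (i1.sub i2).abs
    ((hμ.abs (2 * C * S + 1)).1.const_mul (|s - s'| * C)) fun x => ?_).trans ?_)
  · refine (h _ _).trans ?_
    rw [← sub_mul, abs_mul, abs_mul, abs_mul, add_mul, one_mul, Real.exp_add]
    have h1 : C * (|s| * |x| + |s'| * |x|) ≤ 2 * C * S * |x| := by
      have : |s| * |x| + |s'| * |x| ≤ S * |x| + S * |x| := by gcongr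
      nlinarith
    calc _ = |s - s'| * C * (Real.exp (C * (|s| * |x| + |s'| * |x|)) * |x|) := by ring
      _ ≤ _ := by gcongr; exact abs_le_exp x
  · rw [integral_const_mul, mul_assoc]
    gcongr
    exact (hμ.abs _).2

/-- indicator of a half-open interval -/
noncomputable def ind (a b x : ℝ) : ℝ := if a ≤ x ∧ x < b then 1 else 0

theorem ind_meas (a b : ℝ) : Measurable (ind a b) :=
  Measurable.ite (measurableSet_Ico (a := a) (b := b)) measurable_const measurable_const

theorem abs_ind_le (a b x : ℝ) : |ind a b x| ≤ 1 := by unfold ind; split_ifs <;> simp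

theorem step (hC : 0 ≤ C) (h : Lp C g) (h0 : g 0 = 0) {η : ℝ} (hη : 0 < η) (hη1 : η ≤ 1) (m : ℕ)
    (x : ℝ) : |g x - ∑ j ∈ Icc (-(m : ℤ)) m, g (j * η) * ind (j * η) ((j + 1) * η) x| ≤
      C * Real.exp C * (η + Real.exp (-(m * η))) * Real.exp ((2 * C + 2) * |x|) := by
  have e : ∀ j : ℤ, g (j * η) * ind (j * η) ((j + 1) * η) x =
      if ⌊x / η⌋ = j then g (j * η) else 0 := fun j => by
    simp only [ind, Int.floor_eq_iff, le_div_iff₀ hη, div_lt_iff₀ hη]
    split_ifs <;> simp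
  simp only [e, sum_ite_eq]
  have h1 := Int.floor_le (x / η)
  have h2 := Int.lt_floor_add_one (x / η)
  rw [le_div_iff₀ hη] at h1
  rw [div_lt_iff₀ hη] at h2
  have hx := abs_nonneg x
  have hE := Real.one_le_exp hC
  split_ifs with hj
  · refine (h _ _).trans ?_
    have h3 : |x - ⌊x / η⌋ * η| ≤ η := by rw [abs_le]; constructor <;> nlinarith
    have h4 : |(⌊x / η⌋ : ℝ) * η| ≤ |x| + 1 := by
      have := abs_sub_abs_le_abs_sub ((⌊x / η⌋ : ℝ) * η) x
      rw [abs_sub_comm] at this; linarith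
    calc _ ≤ C * η * Real.exp (C + (2 * C + 2) * |x|) := by
          gcongr; nlinarith [mul_le_mul_of_nonneg_left h4 hC]
      _ = C * Real.exp C * η * Real.exp ((2 * C + 2) * |x|) := by rw [Real.exp_add]; ring
      _ ≤ _ := by gcongr; linarith [Real.exp_pos (-(m * η))]
  · have h3 : (m : ℝ) * η ≤ |x| := by
      rw [mem_Icc, not_and_or, not_le, not_le] at hj
      rcases hj with hj | hj
      · have : (⌊x / η⌋ : ℝ) + 1 ≤ -m := by exact_mod_cast hj
        nlinarith [neg_abs_le x]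
      · have : (m : ℝ) ≤ ⌊x / η⌋ := by exact_mod_cast hj.le
        nlinarith [le_abs_self x]
    have h4 := h.env hC x
    rw [h0] at h4
    refine h4.trans ?_
    calc _ ≤ C * Real.exp (-(m * η) + (2 * C + 2) * |x|) := by gcongr; nlinarith
      _ = C * 1 * Real.exp (-(m * η)) * Real.exp ((2 * C + 2) * |x|) := by rw [Real.exp_add]; ring
      _ ≤ _ := by gcongr; linarith

theorem step_int (hC : 0 ≤ C) (h : Lp C g) (h0 : g 0 = 0) {η : ℝ} (hη : 0 < η) (hη1 : η ≤ 1)
    (m : ℕ) {μ : Measure ℝ} [IsProbabilityMeasure μ] (hμ : Sub μ) :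
    |∫ x, g x ∂μ - ∑ j ∈ Icc (-(m : ℤ)) m, g (j * η) * ∫ x, ind (j * η) ((j + 1) * η) x ∂μ| ≤
      C * Real.exp C * (η + Real.exp (-(m * η))) * (2 * Real.exp ((2 * C + 2) ^ 2 / 2)) := by
  have i1 : ∀ j : ℤ, Integrable (fun x => g (j * η) * ind (j * η) ((j + 1) * η) x) μ := fun j =>
    (int_bd (ind_meas _ _) (abs_ind_le _ _)).const_mul _
  have i2 := integrable_finsetSum (Icc (-(m : ℤ)) m) fun j _ => i1 j
  simp only [← integral_const_mul]
  rw [← integral_finsetSum _ fun j _ => i1 j, ← integral_sub (h.int hC hμ) i2]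
  refine abs_integral_le_integral_abs.trans ((integral_mono ((h.int hC hμ).sub i2).abs
    ((hμ.abs (2 * C + 2)).1.const_mul _) (step hC h h0 hη hη1 m)).trans ?_)
  rw [integral_const_mul]
  gcongr
  exact (hμ.abs _).2

theorem core (hC : 0 ≤ C) {ε : ℝ} (hε : 0 < ε) : ∃ K0 : ℕ, ∀ K, K0 ≤ K → ∀ g, Lp C g →
    |∫ x, g x ∂law (nsum sp K) - ∫ x, g x ∂gam| ≤ ε := by
  set A := C * Real.exp C * (2 * Real.exp ((2 * C + 2) ^ 2 / 2)) + 1 with hA
  have hA0 : 0 < A := by positivity
  set η := min 1 (ε / (6 * A)) with hη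
  have hη0 : 0 < η := by positivity
  obtain ⟨m, hm⟩ : ∃ m : ℕ, Real.exp (-(m * η)) ≤ η := by
    obtain ⟨m, hm⟩ := exists_nat_ge (-Real.log η / η)
    refine ⟨m, ?_⟩
    rw [← Real.le_log_iff_exp_le hη0]
    rw [div_le_iff₀ hη0] at hm
    linarith
  have hb : C * Real.exp C * (η + Real.exp (-(m * η))) * (2 * Real.exp ((2 * C + 2) ^ 2 / 2)) ≤
      ε / 3 := by
    have h1 : η ≤ ε / (6 * A) := min_le_right _ _
    rw [le_div_iff₀ (by positivity)] at h1
    calc _ = (A - 1) * (η + Real.exp (-(m * η))) := by rw [hA]; ring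
      _ ≤ A * (η + η) := by gcongr; linarith
      _ ≤ _ := by linarith
  have ht : Tendsto (fun K => C * Real.exp ((C + 1) * m) * ∑ j ∈ Icc (-(m : ℤ)) m,
      |∫ x, ind (j * η) ((j + 1) * η) x ∂law (nsum sp K) - ∫ x, ind (j * η) ((j + 1) * η) x ∂gam|)
      atTop (𝓝 (C * Real.exp ((C + 1) * m) * ∑ j ∈ Icc (-(m : ℤ)) m, 0)) := by
    refine (tendsto_finsetSum _ fun j _ => ?_).const_mul _
    refine (tendsto_iff_norm_sub_tendsto_zero (E := ℝ)).1 ?_
    have e : ∫ x, ind (j * η) ((j + 1) * η) x ∂gam = gm (j * η) ((j + 1) * η) := by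
      rw [gm, ← integral_indicator_one measurableSet_Ico]
      exact integral_congr_ae (Eventually.of_forall fun x => by simp [ind, Set.indicator])
    simp only [P047.integral_law_real, e]
    exact P047.clt_Ico (by rw [Fintype.expect_eq_sum_div_card]; simp [sp])
      (by simp [Fintype.expect_eq_sum_div_card, sp]) _ _
  rw [sum_const_zero, mul_zero] at ht
  obtain ⟨K0, hK0⟩ := eventually_atTop.1 (ht.eventually (ge_mem_nhds (show 0 < ε / 3 by positivity)))
  refine ⟨K0, fun K hK g hg => ?_⟩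
  have hg' : Lp C fun x => g x - g 0 := fun x y => by simpa using hg x y
  have h1 := step_int hC hg' (by simp) hη0 (min_le_left _ _) m (sub_law K)
  have h2 := step_int hC hg' (by simp) hη0 (min_le_left _ _) m sub_gam
  rw [integral_sub (hg.int hC (sub_law K)) (integrable_const _)] at h1
  rw [integral_sub (hg.int hC sub_gam) (integrable_const _)] at h2
  simp only [integral_const, probReal_univ, one_smul] at h1 h2
  have h3 : |∑ j ∈ Icc (-(m : ℤ)) m, (g (j * η) - g 0) * ∫ x, ind (j * η) ((j + 1) * η) x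
      ∂law (nsum sp K) - ∑ j ∈ Icc (-(m : ℤ)) m, (g (j * η) - g 0) *
        ∫ x, ind (j * η) ((j + 1) * η) x ∂gam| ≤ ε / 3 := by
    refine le_trans ?_ (hK0 K hK)
    rw [← sum_sub_distrib, mul_sum]
    refine (abs_sum_le_sum_abs _ _).trans (sum_le_sum fun j hj => ?_)
    rw [← mul_sub, abs_mul]
    refine mul_le_mul_of_nonneg_right ((hg.env hC _).trans ?_) (abs_nonneg _)
    have h4 : |(j : ℝ)| ≤ m := by exact_mod_cast abs_le.2 (mem_Icc.1 hj)
    have h5 : |(j : ℝ) * η| ≤ m := by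
      rw [abs_mul, abs_of_pos hη0]
      exact (mul_le_of_le_one_right (abs_nonneg _) (min_le_left _ _)).trans h4
    gcongr
  rw [abs_le] at h1 h2 h3 ⊢
  constructor <;> linarith [h1.1, h1.2, h2.1, h2.2, h3.1, h3.2]

theorem abs_sqrt_sub (a b : ℝ) (ha : 0 ≤ a) (hb : 0 ≤ b) : |√a - √b| ≤ √|a - b| := by
  refine Real.le_sqrt_of_sq_le ?_
  have h1 := Real.sq_sqrt ha
  have h2 := Real.sq_sqrt hb
  have h3 := Real.sqrt_nonneg a
  have h4 := Real.sqrt_nonneg b
  rw [sq_abs]
  rcases le_total √a √b with h | h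
  · nlinarith [neg_abs_le (a - b), mul_le_mul_of_nonneg_left h h3]
  · nlinarith [le_abs_self (a - b), mul_le_mul_of_nonneg_left h h4]

theorem E_eq (κ : Type) [Fintype κ] [DecidableEq κ] (δ : ℝ) (G : ℝ → ℝ) :
    (unif (κ → Bool)).E (fun ξ => G (δ * ∑ k, sp (ξ k))) =
      ∫ x, G (δ * √(Fintype.card κ) * x) ∂law (nsum sp (Fintype.card κ)) := by
  rw [P047.integral_law_real, ← E_unif,
    ← E_unif_equiv ((Fintype.equivFin κ).arrowCongr (Equiv.refl Bool))]
  refine E_congr _ fun ξ => ?_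
  have e : ∑ j, sp ((Fintype.equivFin κ).arrowCongr (Equiv.refl Bool) ξ j) = ∑ k, sp (ξ k) :=
    (Fintype.equivFin κ).symm.sum_comp fun k => sp (ξ k)
  rw [nsum, e]
  rcases isEmpty_or_nonempty κ with h | h
  · simp
  · have : 0 < √(Fintype.card κ) := Real.sqrt_pos.2 (by exact_mod_cast Fintype.card_pos)
    congr 1; field_simp

theorem clt_G (hC : 0 ≤ C) (V : ℝ) {ε : ℝ} (hε : 0 < ε) : ∃ δ0 : ℝ, 0 < δ0 ∧
    ∀ (κ : Type) [Fintype κ] [DecidableEq κ] (δ v : ℝ) (G : ℝ → ℝ), |δ| ≤ δ0 →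
      |Fintype.card κ * δ ^ 2 - v| ≤ δ0 → 0 ≤ v → v ≤ V → Lp C G →
      |(unif (κ → Bool)).E (fun ξ => G (δ * ∑ k, sp (ξ k))) - ∫ z, G (√v * z) ∂gam| ≤ ε := by
  set S := √(V + 1)
  have hS : 0 ≤ S := Real.sqrt_nonneg _
  set B := C * (2 * Real.exp ((2 * C * S + 1) ^ 2 / 2)) with hB
  have hB0 : 0 ≤ B := by positivity
  obtain ⟨K0, hK0⟩ := core (mul_nonneg hC hS) (show 0 < ε / 2 by positivity)
  set r := ε / (4 * (B + 1)) with hr
  have hr0 : 0 < r := by positivity
  have hrB : r * B ≤ ε / 4 := by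
    rw [hr, div_mul_eq_mul_div, div_le_div_iff₀ (by positivity) (by positivity)]; nlinarith
  refine ⟨min 1 (min (r ^ 2) (r / (K0 + 1))), by positivity, fun κ _ _ δ v G h1 h2 h3 h4 hG => ?_⟩
  rw [E_eq]
  set K := Fintype.card κ
  set s := δ * √K with hs
  have hs2 : s ^ 2 = K * δ ^ 2 := by rw [hs, mul_pow, Real.sq_sqrt (Nat.cast_nonneg _), mul_comm]
  rw [← hs2] at h2
  have hsS : |s| ≤ S := Real.abs_le_sqrt (by
    linarith [(abs_le.1 h2).2, min_le_left (1 : ℝ) (min (r ^ 2) (r / (K0 + 1)))])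
  have hvS : |√v| ≤ S := by
    rw [abs_of_nonneg (Real.sqrt_nonneg _)]; exact Real.sqrt_le_sqrt (by linarith)
  have h5 : |(|s|) - √v| ≤ r := by
    rw [← Real.sqrt_sq_eq_abs s]
    refine (abs_sqrt_sub _ _ (sq_nonneg _) h3).trans ?_
    rw [Real.sqrt_le_left hr0.le]
    exact h2.trans ((min_le_right _ _).trans (min_le_left _ _))
  have h6 : ∫ z, G (s * z) ∂gam = ∫ z, G (|s| * z) ∂gam := by
    rcases abs_choice s with h | h <;> rw [h]
    have := mp_neg.integral_comp (MeasurableEquiv.neg ℝ).measurableEmbedding fun z => G (s * z)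
    simpa using this.symm
  have h7 := hG.diff hC sub_gam (s := |s|) (s' := √v) (by rwa [abs_abs]) hvS
  have h8 : |∫ x, G (s * x) ∂law (nsum sp K) - ∫ z, G (s * z) ∂gam| ≤ ε / 2 := by
    rcases le_or_gt K0 K with h | h
    · exact hK0 K h _ (hG.scale hC hsS)
    · have a1 := hG.diff hC (sub_law K) hsS (s' := 0) (by simpa using hS)
      have a2 := hG.diff hC sub_gam hsS (s' := 0) (by simpa using hS)
      simp only [zero_mul, integral_const, probReal_univ, one_smul, sub_zero] at a1 a2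
      have a3 : |s| ≤ r := by
        have b1 : |δ| ≤ r / (K0 + 1) := h1.trans ((min_le_right _ _).trans (min_le_right _ _))
        have b2 : √K ≤ K0 + 1 := by
          rw [Real.sqrt_le_left (by positivity)]
          have : (K : ℝ) ≤ K0 := by exact_mod_cast h.le
          nlinarith [Nat.cast_nonneg (α := ℝ) K0]
        rw [le_div_iff₀ (by positivity)] at b1
        rw [hs, abs_mul, abs_of_nonneg (Real.sqrt_nonneg _)]
        exact (mul_le_mul_of_nonneg_left b2 (abs_nonneg _)).trans b1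
      have a4 : |s| * B ≤ ε / 4 := (mul_le_mul_of_nonneg_right a3 hB0).trans hrB
      rw [abs_le] at a1 a2 ⊢
      constructor <;> linarith [a1.1, a1.2, a2.1, a2.2]
  have h9 : |(|s|) - √v| * B ≤ ε / 4 := (mul_le_mul_of_nonneg_right h5 hB0).trans hrB
  rw [h6] at h8
  rw [abs_le] at h7 h8 ⊢
  constructor <;> linarith [h7.1, h7.2, h8.1, h8.2]

end Vale.Agent.P157.CltA
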