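import Vale.Agent.P157.Int
import Vale.Agent.P157.Dens

/-!
# P157: comparison with cascades
-/

namespace Vale.Agent.P157

open Vale.Agent.P168 Vale.Agent.P168.PW Finset MeasureTheory Filter Topology
open scoped BigOperators

theorem abelCmp {d ρ : ℕ → ℝ} {N : ℕ} {e B : ℝ} (he : 0 ≤ e) (hN : 1 ≤ N)
    (h1 : ∀ j, 1 ≤ j → j + 1 ≤ N → ρ (j + 1) ≤ ρ j) (h0 : 0 ≤ ρ N) (hB : ρ 1 ≤ B)
    (hd : ∀ l, 1 ≤ l → l ≤ N → -e ≤ ∑ j ∈ Icc 1 l, d j) :
    -(e * B) ≤ ∑ j ∈ Icc 1 N, d j * ρ j := by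
  have key : ∀ l, 1 ≤ l → l ≤ N →
      -(e * ρ 1) + (∑ j ∈ Icc 1 l, d j + e) * ρ l ≤ ∑ j ∈ Icc 1 l, d j * ρ j := by
    intro l hl
    induction l, hl using Nat.le_induction with
    | base => intro _; simp only [Icc_self, sum_singleton]; linarith
    | succ l hl ih =>
      intro h
      rw [sum_Icc_succ_top (by omega), sum_Icc_succ_top (by omega)]
      have a := ih (by omega)
      have b := mul_le_mul_of_nonneg_left (h1 l hl h)
        (show 0 ≤ ∑ j ∈ Icc 1 l, d j + e by linarith [hd l hl (by omega)])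
      linarith
  have a := key N hN le_rfl
  have b := mul_nonneg (show 0 ≤ ∑ j ∈ Icc 1 N, d j + e by linarith [hd N hN le_rfl]) h0
  have c := mul_le_mul_of_nonneg_left hB he
  linarith

section lay
variable {n K : ℕ} {Ω I : Type} [Fintype Ω] [Fintype I]
  (s : Fam (Fin K × (I ⊕ Fin (n + 2))) Ω) (x : I → Ω → ℝ) (F : ℕ → ℝ → ℝ) (p : ℕ → ℝ)

/-- The layered system comparing a pattern with a cascade. -/
noncomputable def layCmp : Lay K Ω Unit (I ⊕ Fin (n + 2)) where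
  s := s
  lv := Sum.elim (fun _ => n + 1) fun l => l
  pa := fun _ => ()
  ty := Sum.isLeft
  u := Sum.elim x fun l _ => Real.sqrt (vr n p l)
  S := fun _ _ => 0
  φ := fun _ _ => F
  R := fun _ _ => 0

omit [Fintype Ω] in
theorem layCmp_true (ω : Ω) : (layCmp s x F p).G (fun _ => some true) ω =
    F 0 (∑ i, Wk (fun k => s.τ (k, Sum.inl i) ω) * x i ω) + -F 0 0 := by
  have : (layCmp s x F p).Z (fun _ => some true) () ω =
      ∑ i, Wk (fun k => s.τ (k, Sum.inl i) ω) * x i ω := by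
    simp only [Lay.Z, layCmp, sum_filter, Fintype.sum_sum_type, Wk, Fintype.card_fin, zero_add,
      sum_div, sum_mul]
    rw [sum_comm]
    simp [div_mul_eq_mul_div]
  simp only [Lay.G, Fintype.sum_unique, this]
  simp [layCmp, sub_eq_add_neg]

omit [Fintype Ω] in
theorem layCmp_false (ω : Ω) : (layCmp s x F p).G (fun _ => some false) ω =
    F 0 (∑ l : Fin (n + 2), Real.sqrt (vr n p l) * Wk fun k => s.τ (k, Sum.inr l) ω) + -F 0 0 := by
  have : (layCmp s x F p).Z (fun _ => some false) () ω =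
      ∑ l : Fin (n + 2), Real.sqrt (vr n p l) * Wk fun k => s.τ (k, Sum.inr l) ω := by
    simp only [Lay.Z, layCmp, sum_filter, Fintype.sum_sum_type, Wk, Fintype.card_fin, zero_add,
      sum_div, mul_sum]
    rw [sum_comm]
    simp [mul_div_assoc', mul_comm]
  simp only [Lay.G, Fintype.sum_unique, this]
  simp [layCmp, sub_eq_add_neg]

variable {p}

theorem sq_vrCmp (hp : Adm n p) (l : Fin (n + 2)) :
    Real.sqrt (vr n p l) * Real.sqrt (vr n p l) = vr n p l :=
  Real.mul_self_sqrt (vr_nonneg hp.2 (Nat.lt_succ_iff.1 l.2))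

theorem sum_vrCmp (hp : Adm n p) : ∑ l : Fin (n + 2), vr n p l = 1 := by
  rw [Fin.sum_univ_eq_sum_range (vr n p), sum_vr, hp.1]

theorem layCmp_inc (hp : Adm n p) (hx : ∀ ω, ∑ i, x i ω ^ 2 = 1) (P : Ch Ω) (ρ : PW Ω)
    (C : Fin K → Option Bool) :
    (layCmp s x F p).inc n P ρ C true - (layCmp s x F p).inc n P ρ C false =
      -(wt n * ∑ j ∈ Icc 1 (n + 1), E2 n (Tn n P ((layCmp s x F p).G C)) ρ j fun a b =>
        F 1 ((layCmp s x F p).Z C () a) * F 1 ((layCmp s x F p).Z C () b) *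
          (ov x 1 a b - p j)) / 2 := by
  set L := layCmp s x F p with hL
  have d1 : ∀ l ω, L.d1 C l ω = F 1 (L.Z C () ω) * L.u l ω := fun _ _ => rfl
  have d2 : ∀ l ω, L.d2 C l ω = F 2 (L.Z C () ω) * L.u l ω ^ 2 := fun _ _ => rfl
  have u1 : ∀ i, L.u (Sum.inl i) = x i := fun _ => rfl
  have u2 : ∀ l ω, L.u (Sum.inr l) ω = Real.sqrt (vr n p l) := fun _ _ => rfl
  have ty : L.ty = Sum.isLeft := rfl
  have h1 : ∀ ω, L.R true ω + (∑ l with L.ty l = true, (L.d2 C l ω + L.d1 C l ω ^ 2)) / 2 =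
      L.R false ω + (∑ l with L.ty l = false, (L.d2 C l ω + L.d1 C l ω ^ 2)) / 2 := fun ω => by
    have e : ∀ l, L.d2 C l ω + L.d1 C l ω ^ 2 =
        (F 2 (L.Z C () ω) + F 1 (L.Z C () ω) ^ 2) * L.u l ω ^ 2 := fun l => by rw [d1, d2]; ring
    have r : ∀ b, L.R b ω = 0 := fun _ => rfl
    simp only [e, ← mul_sum, r]
    have := hx ω
    simp only [sq] at this
    simp [sum_filter, Fintype.sum_sum_type, ty, u1, u2, sq, sq_vrCmp hp, this, sum_vrCmp hp]
  have h2 : ∀ j ∈ Icc 1 (n + 1), ∀ a b,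
      (∑ l with L.ty l = true ∧ j ≤ L.lv l, L.d1 C l a * L.d1 C l b) -
        (∑ l with L.ty l = false ∧ j ≤ L.lv l, L.d1 C l a * L.d1 C l b) =
      F 1 (L.Z C () a) * F 1 (L.Z C () b) * (ov x 1 a b - p j) := fun j hj a b => by
    have e : ∀ l, L.d1 C l a * L.d1 C l b =
        F 1 (L.Z C () a) * F 1 (L.Z C () b) * (L.u l a * L.u l b) := fun l => by rw [d1, d1]; ring
    have hj' := (mem_Icc.1 hj).2
    have l1 : ∀ i, L.lv (Sum.inl i) = n + 1 := fun _ => rfl
    have l2 : ∀ l, L.lv (Sum.inr l) = l := fun _ => rfl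
    simp only [e, ← mul_sum]
    rw [← mul_sub, ← sum_vr_ge p hj', sum_filter, sum_filter, sum_filter,
      ← Fin.sum_univ_eq_sum_range fun l => if j ≤ l then vr n p l else 0]
    simp [Fintype.sum_sum_type, ty, u1, u2, sq_vrCmp hp, l1, l2, hj', ov]
  simp only [Lay.inc, h1]
  rw [← sum_congr rfl fun j hj => E2_congr (h2 j hj)]
  simp only [E2_sub, sum_sub_distrib]
  ring

end lay

theorem cmp (c θ : ℝ) (hθ : 0 < θ) : ∃ C : ℝ, 0 ≤ C ∧ ∀ n m : ℕ, ∃ K0 : ℕ, ∀ K, K0 ≤ K →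
    ∀ (Ω I : Type) [Fintype Ω] [Fintype I] (P : Ch Ω) (ρ : PW Ω)
      (s : Fam (Fin K × (I ⊕ Fin (n + 2))) Ω) (x : I → Ω → ℝ) (F : ℕ → ℝ → ℝ) (p r : ℕ → ℝ) (e : ℝ),
      Fintype.card I ≤ m → s.Ok P ρ → (∀ k i, s.lv (k, Sum.inl i) = n + 1) →
      (∀ k l, s.lv (k, Sum.inr l) = l) → (∀ i, s.Inv (x i)) → (∀ ω, ∑ i, x i ω ^ 2 = 1) →
      Sm c 3 F → Adm n p → (∀ j, 1 ≤ j → j ≤ n + 1 → |r j| ≤ 1) → 0 ≤ e →
      ((∀ l, 1 ≤ l → l ≤ n + 1 → cum n p l - e ≤ cum n r l) →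
        Fr n P ρ (fun ω => F 0 (∑ i, Wk (fun k => s.τ (k, Sum.inl i) ω) * x i ω)) ≤
          Fr n P ρ (fun ω => F 0 (∑ l : Fin (n + 2),
            Real.sqrt (vr n p l) * Wk fun k => s.τ (k, Sum.inr l) ω)) +
          (θ + C * (e + dev n P ρ fun j a b => ov x 1 a b - r j))) ∧
      ((∀ l, 1 ≤ l → l ≤ n + 1 → cum n r l ≤ cum n p l + e) →
        Fr n P ρ (fun ω => F 0 (∑ l : Fin (n + 2),
            Real.sqrt (vr n p l) * Wk fun k => s.τ (k, Sum.inr l) ω)) ≤
          Fr n P ρ (fun ω => F 0 (∑ i, Wk (fun k => s.τ (k, Sum.inl i) ω) * x i ω)) +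
          (θ + C * (e + dev n P ρ fun j a b => ov x 1 a b - r j))) := by
  obtain ⟨M1, hM1⟩ := mom c 2 16
  obtain ⟨M2, hM2⟩ := mom c 2 (-16)
  have hc : 0 < c ^ 2 + 1 := by positivity
  obtain ⟨C, hC, htr⟩ := tr (max M1 M2) 2 (θ / (c ^ 2 + 1)) (by positivity)
  refine ⟨c ^ 2 / 2 * (C + 1), by positivity, fun n m => ?_⟩
  obtain ⟨K1, hK1⟩ := hM1 (m + (n + 2))
  obtain ⟨K2, hK2⟩ := hM2 (m + (n + 2))
  obtain ⟨K3, hK3⟩ := int_le c 2 (θ / 2) (half_pos hθ) (m + (n + 2))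
  refine ⟨max K1 (max K2 K3), fun K hK Ω I _ _ P ρ s x F p r e hI hs l1 l2 hx hx2 hF hp hr he => ?_⟩
  simp only [max_le_iff] at hK
  set L := layCmp s x F p with hL
  have hcard : Fintype.card (I ⊕ Fin (n + 2)) ≤ m + (n + 2) := by simpa using hI
  have ok : L.Ok c 2 P ρ :=
    { ok := hs
      lv := by rintro k (i | l); exacts [l1 k i, l2 k l]
      inv_u := by rintro (i | l); exacts [hx i, fun _ _ => rfl]
      inv_S := fun _ _ _ => rfl
      inv_φ := fun _ _ _ => rfl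
      inv_R := fun _ _ _ => rfl
      sm := fun _ _ => hF
      bd_u := fun ω => by
        have := hx2 ω
        simp only [sq] at this
        simp only [hL, layCmp, Fintype.sum_sum_type, Sum.elim_inl, Sum.elim_inr, sq, this,
          sq_vrCmp hp, sum_vrCmp hp]
        norm_num
      bd_R := fun _ _ => by simp [hL, layCmp] }
  set D := dev n P ρ fun j a b => ov x 1 a b - r j with hD
  have hD0 : 0 ≤ D := dev_nonneg _
  have key : ∀ Cf : Fin K → Option Bool, ∃ (A : ℝ) (q : ℕ → ℝ),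
      |A| ≤ c ^ 2 * (θ / (c ^ 2 + 1) + C * D) ∧ (∀ j, 1 ≤ j → j + 1 ≤ n + 1 → q (j + 1) ≤ q j) ∧
      0 ≤ q (n + 1) ∧ q 1 ≤ c ^ 2 ∧ L.inc n P ρ Cf true - L.inc n P ρ Cf false =
        -(A + ∑ j ∈ Icc 1 (n + 1), wt n * (r j - p j) * q j) / 2 := by
    intro Cf
    set g : Ω → ℝ := fun a => F 1 (L.Z Cf () a) with hg
    have gb : ∀ a b, |g a * g b| ≤ c ^ 2 := fun a b => by
      rw [abs_mul, sq]
      exact mul_le_mul (hF.2 1 le_rfl (by norm_num) _) (hF.2 1 le_rfl (by norm_num) _)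
        (abs_nonneg _) ((abs_nonneg _).trans (hF.2 1 le_rfl (by norm_num) 0))
    refine ⟨wt n * ∑ j ∈ Icc 1 (n + 1), E2 n (Tn n P (L.G Cf)) ρ j
      fun a b => g a * g b * (ov x 1 a b - r j),
      fun j => E2 n (Tn n P (L.G Cf)) ρ j fun a b => g a * g b, ?_,
      fun j _ h => E2_sq_anti (Nat.le_succ j) h g, E2_sq_nonneg g,
      E2_le_const fun a b => (le_abs_self _).trans (gb a b), ?_⟩
    · refine (abs_sum_E2_le (fun j a b => g a * g b * (ov x 1 a b - r j)) le_rfl).trans ?_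
      refine (dev_mono (G := fun j a b => c ^ 2 * (ov x 1 a b - r j)) fun j _ _ a b => ?_).trans ?_
      · rw [abs_mul, abs_mul (c ^ 2), abs_of_nonneg (sq_nonneg c)]
        exact mul_le_mul_of_nonneg_right (gb a b) (abs_nonneg _)
      rw [dev_const_mul, abs_of_nonneg (sq_nonneg c)]
      refine mul_le_mul_of_nonneg_left (htr n Ω P ρ _ _
        ((hK1 K hK.1 n Ω _ _ P ρ L hcard ok Cf).trans (le_max_left _ _))
        ((hK2 K hK.2.1 n Ω _ _ P ρ L hcard ok Cf).trans (le_max_right _ _)) fun j h1 h2 a b => ?_)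
        (sq_nonneg c)
      have := abs_ov_le (u := x) one_pos (c := 1) (fun ω => by simp [hx2 ω]) a b
      linarith [abs_sub (ov x 1 a b) (r j), hr j h1 h2]
    · rw [hL, layCmp_inc s x F hp hx2, mul_sum, mul_sum, ← sum_add_distrib]
      congr 2
      refine sum_congr rfl fun j _ => ?_
      rw [mul_assoc, ← mul_add, ← E2_const_mul (r j - p j), ← E2_add]
      congr 1
      exact E2_congr fun a b => by simp only [hg, hL]; ring
  have hθ' : c ^ 2 * (θ / (c ^ 2 + 1)) ≤ θ := by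
    rw [mul_div_assoc', div_le_iff₀ hc]
    nlinarith
  have fin : c ^ 2 * (θ / (c ^ 2 + 1) + C * D) / 2 + e * c ^ 2 / 2 + θ / 2 ≤
      θ + c ^ 2 / 2 * (C + 1) * (e + D) := by
    have a := mul_nonneg (sq_nonneg c) (mul_nonneg hC he)
    have b := mul_nonneg (sq_nonneg c) hD0
    nlinarith
  have int := hK3 K hK.2.2 n Ω _ _ P ρ L hcard ok
  constructor
  · intro h
    have := int true (c ^ 2 * (θ / (c ^ 2 + 1) + C * D) / 2 + e * c ^ 2 / 2) fun Cf => by
      obtain ⟨A, q, a1, a2, a3, a4, a5⟩ := key Cf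
      have := abelCmp (d := fun j => wt n * (r j - p j)) he (Nat.le_add_left 1 n) a2 a3 a4
        fun l h1 h2 => by
          have := h l h1 h2
          simp only [cum] at this
          rw [← mul_sum, sum_sub_distrib]
          linarith
      rw [Bool.not_true, a5]
      linarith [neg_abs_le A]
    simp only [Bool.not_true, hL, funext (layCmp_true s x F p), funext (layCmp_false s x F p),
      Fr_add_const] at this
    linarith
  · intro h
    have := int false (c ^ 2 * (θ / (c ^ 2 + 1) + C * D) / 2 + e * c ^ 2 / 2) fun Cf => by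
      obtain ⟨A, q, a1, a2, a3, a4, a5⟩ := key Cf
      have := abelCmp (d := fun j => -(wt n * (r j - p j))) he (Nat.le_add_left 1 n) a2 a3 a4
        fun l h1 h2 => by
          have := h l h1 h2
          simp only [cum] at this
          rw [sum_neg_distrib, ← mul_sum, sum_sub_distrib]
          linarith
      simp only [neg_mul, sum_neg_distrib] at this
      rw [Bool.not_false]
      linarith [le_abs_self A]
    simp only [Bool.not_false, hL, funext (layCmp_true s x F p), funext (layCmp_false s x F p),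
      Fr_add_const] at this
    linarith

end Vale.Agent.P157
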