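import Vale.Agent.P157.ConcA

/-!
# P157: monotonicity on the lattice and the discrete concavity inequality
-/

namespace Vale.Agent.P157.ConcA

open Vale.Agent.P168 Vale.Agent.P168.PW Finset Real
open scoped BigOperators

variable {δ : ℝ} {a a' : ℕ → ℝ}

theorem dd_zero (r : ℕ) : dd δ a r 0 = 0 := by
  have := dd_neg δ a r 0
  rw [neg_zero] at this
  linarith

theorem lat_add (k : ℕ) : (k : ℝ) * δ + δ = (k + 1 : ℕ) * δ := by push_cast; ring

theorem lat_sub (k : ℕ) : ((k + 1 : ℕ) : ℝ) * δ - δ = k * δ := by push_cast; ring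

theorem dd_nonneg (ha : Ex a) (hδ : 0 < δ) (r k : ℕ) : 0 ≤ dd δ a r (k * δ) := by
  cases k with
  | zero => simp [dd_zero]
  | succ k =>
    refine le_trans ?_ (le_dd δ ha r _)
    rw [lat_sub]
    exact mul_nonneg (by positivity) (Mm_nonneg δ ha r (by positivity))

theorem dd_step (ha : Ex a) (r : ℕ) (x : ℝ) : dd δ a r (x - δ) ≤ dd δ a r (x + δ) := by
  have h1 := dd_le δ ha r (x - δ)
  have h2 := le_dd δ ha r (x + δ)
  rw [sub_add_cancel] at h1
  rw [add_sub_cancel_right] at h2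
  exact h1.trans h2

theorem dd_succ (r : ℕ) (x : ℝ) : dd δ a (r + 1) x = (dd δ a r (x + δ) + dd δ a r (x - δ)) / 2 +
    (ph (a r) (dd δ a r (x + δ)) - ph (a r) (dd δ a r (x - δ))) := by
  rw [dd, Uu_succ, Uu_succ]
  simp only [dd, add_sub_cancel_right, sub_add_cancel]
  ring

theorem av_le {r : ℕ} {F F' : ℝ → ℝ} {x : ℝ} (h : F (x - δ) ≤ F (x + δ))
    (h1 : F (x + δ) ≤ F' (x + δ)) (h2 : F (x - δ) ≤ F' (x - δ))
    (h3 : a r * dd δ a r x ≤ a' r * dd δ a' r x) : av δ a r F x ≤ av δ a' r F' x := by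
  have h4 : tanh (a r * dd δ a r x / 2) ≤ tanh (a' r * dd δ a' r x / 2) := tanh_mono (by linarith)
  rw [av_eq, av_eq]
  nlinarith [mul_nonneg (sub_nonneg.mpr h4) (sub_nonneg.mpr h),
    mul_nonneg (sub_nonneg.mpr h1) (sub_nonneg.mpr (neg_one_lt_tanh (a' r * dd δ a' r x / 2)).le),
    mul_nonneg (sub_nonneg.mpr h2) (sub_nonneg.mpr (tanh_lt_one (a' r * dd δ a' r x / 2)).le)]

theorem dd_cmp (ha : Ex a) (ha' : Ex a') (hδ : 0 < δ) (h : ∀ i, a i ≤ a' i) (r : ℕ) :
    ∀ k : ℕ, dd δ a r (k * δ) ≤ dd δ a' r (k * δ) := by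
  induction r with
  | zero => exact fun k => le_rfl
  | succ r ih =>
    intro k
    cases k with
    | zero => simp [dd_zero]
    | succ k =>
      have h1 := dd_step (δ := δ) ha r ((k + 1 : ℕ) * δ)
      rw [dd_succ, dd_succ]
      rw [lat_add, lat_sub] at *
      have h2 := ph_mono (h r) (dd_nonneg ha hδ r k) h1
      have h3 := (abs_le.mp (abs_ph_sub_le (ha' r).1 (ih k))).2
      have h4 := (abs_le.mp (abs_ph_sub_le (ha' r).1 (ih (k + 1 + 1)))).1
      linarith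

theorem th_cmp (ha : Ex a) (ha' : Ex a') (hδ : 0 < δ) (h : ∀ i, a i ≤ a' i) (r k : ℕ) :
    a r * dd δ a r (k * δ) ≤ a' r * dd δ a' r (k * δ) :=
  mul_le_mul (h r) (dd_cmp ha ha' hδ h r k) (dd_nonneg ha hδ r k) (ha' r).1

theorem Mm_cmp (ha : Ex a) (ha' : Ex a') (hδ : 0 < δ) (h : ∀ i, a i ≤ a' i) (r : ℕ) :
    ∀ k : ℕ, Mm δ a r (k * δ) ≤ Mm δ a' r (k * δ) := by
  induction r with
  | zero => exact fun k => le_rfl
  | succ r ih =>
    intro k
    cases k with
    | zero => simp [Mm_zero]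
    | succ k =>
      exact av_le (Mm_mono δ ha r (by linarith)) (by rw [lat_add]; exact ih _)
        (by rw [lat_sub]; exact ih _) (th_cmp ha ha' hδ h r _)

/-- Even functions that increase along the lattice. -/
def Gd (δ : ℝ) (F : ℝ → ℝ) : Prop :=
  (∀ x, F (-x) = 1 * F x) ∧ ∀ k : ℕ, F (k * δ - δ) ≤ F (k * δ + δ)

theorem Gd.av {F : ℝ → ℝ} (h : Gd δ F) (r : ℕ) : Gd δ (av δ a r F) := by
  refine ⟨av_neg δ a r h.1, fun k => ?_⟩
  cases k with
  | zero => simp [av_neg δ a r h.1]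
  | succ k =>
    have h1 := (av_mem (a := a) r (h.2 k)).2
    have h2 := (av_mem (a := a) r (h.2 (k + 1 + 1))).1
    rw [lat_add, lat_sub] at *
    exact h1.trans h2

theorem Gd.Aa {F : ℝ → ℝ} (h : Gd δ F) (t r : ℕ) : Gd δ (Aa δ a t F r) := by
  induction r using ht_induction (j := t) with
  | h0 r hr => rwa [Aa_of_le δ a hr]
  | hs r hr ih => rw [Aa_succ δ a hr]; exact ih.av r

theorem gd_sq (ha : Ex a) (hδ : 0 < δ) (t : ℕ) : Gd δ fun x => Mm δ a t x ^ 2 := by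
  refine ⟨fun x => by simp [Mm_neg], fun k => sq_le_sq' ?_ (Mm_mono δ ha t (by linarith))⟩
  rw [neg_eq_neg_one_mul, ← Mm_neg]
  exact Mm_mono δ ha t (by linarith [show 0 ≤ k * δ by positivity])

theorem PP_cmp (ha : Ex a) (ha' : Ex a') (hδ : 0 < δ) (h : ∀ i, a i ≤ a' i) (T t : ℕ) :
    PP δ a T t ≤ PP δ a' T t := by
  suffices ∀ k : ℕ, Aa δ a t (fun x => Mm δ a t x ^ 2) T (k * δ) ≤
      Aa δ a' t (fun x => Mm δ a' t x ^ 2) T (k * δ) by simpa [PP] using this 0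
  induction T using ht_induction (j := t) with
  | h0 T hT =>
    rw [Aa_of_le δ a hT, Aa_of_le δ a' hT]
    exact fun k => pow_le_pow_left₀ (Mm_nonneg δ ha t (by positivity)) (Mm_cmp ha ha' hδ h t k) 2
  | hs T hT ih =>
    intro k
    rw [Aa_succ δ a hT, Aa_succ δ a' hT]
    refine av_le (((gd_sq ha hδ t).Aa t T).2 k) (by rw [lat_add]; exact ih _) ?_
      (th_cmp ha ha' hδ h T _)
    cases k with
    | zero => simpa [((gd_sq ha hδ t).Aa t T).1, ((gd_sq ha' hδ t).Aa t T).1] using ih 1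
    | succ k => rw [lat_sub]; exact ih _

theorem PP_top (ha : Ex a) (hδ : 0 < δ) (T t u : ℕ) : PP δ a T t ≤ PP δ a (T + 2 * u) t := by
  rcases le_or_gt t T with h | h
  swap
  · rw [PP_of_le δ a h.le]; exact PP_nonneg ..
  induction u with
  | zero => exact le_rfl
  | succ u ih =>
    refine ih.trans ?_
    have h1 := (gd_sq ha hδ t).Aa (a := a) t (T + 2 * u)
    have h2 := (av_mem (a := a) (T + 2 * u) (h1.2 1)).1
    have h3 := (av_mem (a := a) (T + 2 * u + 1) ((h1.av (a := a) (T + 2 * u)).2 0)).1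
    simp only [Nat.cast_one, one_mul, sub_self, Nat.cast_zero, zero_mul, zero_sub,
      (h1.av _).1] at h2 h3
    rw [PP, PP, mul_add, mul_one, ← add_assoc, Aa_succ δ a (by omega), Aa_succ δ a (by omega)]
    exact h2.trans h3

/-- The exponents attached to the heights `h 1, ..., h (n+1)`. -/
noncomputable def ex (n : ℕ) (h : ℕ → ℕ) (r : ℕ) : ℝ :=
  1 - wt n * ∑ j ∈ Icc 1 (n + 1), if h j ≤ r then 1 else 0

variable {n : ℕ} {h h' : ℕ → ℕ}

theorem ex_mono (hh : ∀ j ∈ Icc 1 (n + 1), h j ≤ h' j) (r : ℕ) : ex n h r ≤ ex n h' r := by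
  refine sub_le_sub_left (mul_le_mul_of_nonneg_left (sum_le_sum fun j hj => ?_) (wt_pos n).le) _
  have := hh j hj
  split_ifs <;> first | omega | norm_num

theorem ex_Ex (n : ℕ) (h : ℕ → ℕ) : Ex (ex n h) := fun r => by
  have h1 : wt n * ∑ j ∈ Icc 1 (n + 1), (if h j ≤ r then (1 : ℝ) else 0) ≤ 1 :=
    (mul_le_mul_of_nonneg_left (sum_le_sum fun j _ => by split_ifs <;> norm_num)
      (wt_pos n).le).trans (wt_sum n 1).le
  have h2 : 0 ≤ wt n * ∑ j ∈ Icc 1 (n + 1), (if h j ≤ r then (1 : ℝ) else 0) :=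
    mul_nonneg (wt_pos n).le (sum_nonneg fun j _ => by split_ifs <;> norm_num)
  unfold ex
  constructor <;> linarith

theorem ex_low (h : ℕ → ℕ) (k : ℕ) : ∀ i < k, ex n (fun j => h j + k) i = 1 := fun i hi => by
  rw [ex, sum_eq_zero fun j _ => if_neg (by omega), mul_zero, sub_zero]

theorem ex_shift (h : ℕ → ℕ) (k r : ℕ) : ex n (fun j => h j + k) (r + k) = ex n h r := by
  simp only [ex, add_le_add_iff_right]

theorem PP_ex (h : ℕ → ℕ) (k T t : ℕ) :
    PP δ (ex n fun j => h j + k) (T + k) (t + k) = PP δ (ex n h) T t :=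
  PP_shift δ (ex_low h k) (ex_shift h k) T t

theorem Uu_ex (h : ℕ → ℕ) (k T : ℕ) : Uu δ (ex n fun j => h j + k) (T + k) = Uu δ (ex n h) T :=
  (shift δ (one_steps δ (ex_low h k)) (fun r _ => ex_shift h k r) T le_rfl).1

theorem sum_upd {s : Finset ℕ} {j : ℕ} (hj : j ∈ s) (f : ℕ → ℕ → ℝ) (h : ℕ → ℕ) (y : ℕ) :
    ∑ i ∈ s, f i (Function.update h j y i) = ∑ i ∈ s, f i (h i) + (f j y - f j (h j)) := by
  rw [← add_sum_erase _ _ hj, ← add_sum_erase _ _ hj, Function.update_self,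
    sum_congr rfl fun i hi => by rw [Function.update_of_ne (ne_of_mem_erase hi)]]
  ring

theorem ex_upd {j : ℕ} (hj : j ∈ Icc 1 (n + 1)) (h : ℕ → ℕ) (y r : ℕ) :
    ex n (Function.update h j y) r =
      ex n h r - wt n * ((if y ≤ r then 1 else 0) - if h j ≤ r then 1 else 0) := by
  rw [ex, ex, sum_upd hj fun _ y => if y ≤ r then 1 else 0]
  ring

theorem PP_le_PP (hδ : 0 < δ) (hδ1 : δ ≤ 1 / 4) {s t t' : ℕ}
    (hh : ∀ j ∈ Icc 1 (n + 1), h j ≤ h' j + s) (ht : t' + s ≤ t + 1) (T : ℕ) :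
    PP δ (ex n h) T t ≤ PP δ (ex n h') T t' + 32 * δ := by
  obtain ⟨u, hu, hu'⟩ : ∃ u, s ≤ 2 * u ∧ 2 * u ≤ s + 1 := ⟨(s + 1) / 2, by omega, by omega⟩
  have h1 := PP_cmp (ex_Ex n h) (ex_Ex n fun j => h' j + 2 * u) hδ
    (ex_mono fun j hj => (hh j hj).trans (by omega)) T t
  have h2 := PP_top (ex_Ex n fun j => h' j + 2 * u) hδ T t u
  have h3 := le_PP_succ (ex_Ex n fun j => h' j + 2 * u) hδ hδ1 (T + 2 * u) t
  have h4 := le_PP_succ (ex_Ex n fun j => h' j + 2 * u) hδ hδ1 (T + 2 * u) (t + 1)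
  have h5 := PP_anti δ (ex n fun j => h' j + 2 * u) (T + 2 * u)
    (show t' + 2 * u ≤ t + 1 + 1 by omega)
  rw [PP_ex] at h5
  linarith

theorem lattice (hδ : 0 < δ) (hδ1 : δ ≤ 1 / 4) (h0 : ℕ → ℕ) (T : ℕ) (h : ℕ → ℕ) :
    Uu δ (ex n h) T 0 - Uu δ (ex n h0) T 0 ≤ ∑ j ∈ Icc 1 (n + 1),
      (wt n * δ ^ 2 / 2 * PP δ (ex n h0) T (h0 j) * ((h j : ℝ) - h0 j) +
        25 * δ ^ 3 * |(h j : ℝ) - h0 j|) := by
  induction hN : ∑ j ∈ Icc 1 (n + 1), (h j).dist (h0 j) generalizing h with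
  | zero =>
    have h1 : ∀ j ∈ Icc 1 (n + 1), h j = h0 j := fun j hj =>
      Nat.eq_of_dist_eq_zero (sum_eq_zero_iff.mp hN j hj)
    rw [show ex n h = ex n h0 from funext fun r => le_antisymm (ex_mono (fun j hj => (h1 j hj).le) r)
      (ex_mono (fun j hj => (h1 j hj).ge) r), sub_self]
    exact sum_nonneg fun j hj => by simp [h1 j hj]
  | succ N ih =>
    obtain ⟨j, hj, hm⟩ := exists_max_image (Icc 1 (n + 1)) (fun j => (h j).dist (h0 j))
      ⟨1, by simp⟩
    have hw := wt_pos n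
    have hw1 := wt_le_one n
    have key : ∀ y r, y.dist (h0 j) + 1 = (h j).dist (h0 j) →
        (∀ i, i ≠ r → (y ≤ i ↔ h j ≤ i)) →
        wt n * ((if y ≤ r then 1 else 0) - if h j ≤ r then 1 else 0) * δ ^ 2 / 2 *
          PP δ (ex n h) T (r + 1) + 9 * δ ^ 3 ≤ wt n * δ ^ 2 / 2 * PP δ (ex n h0) T (h0 j) *
            ((h j : ℝ) - y) + 25 * δ ^ 3 * (|(h j : ℝ) - h0 j| - |(y : ℝ) - h0 j|) →
        Uu δ (ex n h) T 0 - Uu δ (ex n h0) T 0 ≤ ∑ j ∈ Icc 1 (n + 1),
          (wt n * δ ^ 2 / 2 * PP δ (ex n h0) T (h0 j) * ((h j : ℝ) - h0 j) +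
            25 * δ ^ 3 * |(h j : ℝ) - h0 j|) := fun y r h1 h2 h3 => by
      have h4 := ih (Function.update h j y) (by
        have := sum_upd hj (fun i y => (y.dist (h0 i) : ℕ)) h y
        rw [← h1, Nat.cast_add, ← Nat.cast_sum, ← Nat.cast_sum, hN] at this
        exact_mod_cast (by push_cast at this ⊢; linarith :
          ((∑ i ∈ Icc 1 (n + 1), (Function.update h j y i).dist (h0 i) : ℕ) : ℝ) = N))
      rw [sum_upd hj fun i y => wt n * δ ^ 2 / 2 * PP δ (ex n h0) T (h0 i) * ((y : ℝ) - h0 i) +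
        25 * δ ^ 3 * |(y : ℝ) - h0 i|] at h4
      have h5 := move (ex_Ex n (Function.update h j y)) (ex_Ex n h) hδ hδ1 (r := r)
        (fun i hi => by simp only [ex_upd hj, h2 i hi, sub_self, mul_zero, sub_zero]) T
      rw [ex_upd hj, sub_sub_cancel] at h5
      linarith
    have hp : 0 < (h j).dist (h0 j) := by
      by_contra h1
      rw [sum_eq_zero fun i hi => by have := hm i hi; omega] at hN
      omega
    have h3 : 0 < wt n * δ ^ 2 / 2 := by positivity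
    have h4 : wt n * δ ^ 2 / 2 * (32 * δ) ≤ 16 * δ ^ 3 := by nlinarith [pow_pos hδ 3]
    rcases lt_or_ge (h j) (h0 j) with hlt | hge
    · refine key (h j + 1) (h j) (by unfold Nat.dist; omega) (fun i hi => by omega) ?_
      have h1 := PP_le_PP (n := n) hδ hδ1 (h := h0) (h' := h) (s := h0 j - h j) (t := h0 j)
        (t' := h j + 1) (fun i hi => by have := hm i hi; unfold Nat.dist at this; omega)
        (by omega) T
      have h2 : (h j : ℝ) + 1 ≤ h0 j := by exact_mod_cast hlt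
      rw [if_neg (by omega), if_pos le_rfl, Nat.cast_add, Nat.cast_one,
        abs_of_nonpos (by linarith), abs_of_nonpos (by linarith)]
      nlinarith [mul_le_mul_of_nonneg_left h1 h3.le]
    · obtain ⟨y, hy⟩ : ∃ y, h j = y + 1 := ⟨h j - 1, by unfold Nat.dist at hp; omega⟩
      have hlt : h0 j ≤ y := by unfold Nat.dist at hp; omega
      refine key y y (by unfold Nat.dist; omega) (fun i hi => by omega) ?_
      have h1 := PP_le_PP (n := n) hδ hδ1 (h := h) (h' := h0) (s := h j - h0 j) (t := y + 1)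
        (t' := h0 j) (fun i hi => by have := hm i hi; unfold Nat.dist at this; omega)
        (by omega) T
      have h2 : (h0 j : ℝ) ≤ y := by exact_mod_cast hlt
      rw [if_pos le_rfl, if_neg (by omega), hy, Nat.cast_add, Nat.cast_one,
        abs_of_nonneg (by linarith), abs_of_nonneg (by linarith)]
      nlinarith [mul_le_mul_of_nonneg_left h1 h3.le]

end Vale.Agent.P157.ConcA
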