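import Vale.Agent.P157.Clt
import Vale.Agent.P157.ConcB

/-!
# P157: concavity of the Ising single-spin functional
-/

namespace Vale.Agent.P157

open Vale.Agent.P168 Vale.Agent.P168.PW Finset MeasureTheory Filter Topology
open scoped BigOperators

namespace ConcA

theorem steps {δ z : ℝ} {a : ℕ → ℝ} (hz : 0 ≤ z) (r k : ℕ) (h : ∀ i < k, a (r + i) = z) :
    ∀ x, Uu δ a (r + k) x = lm z (unif (Fin k → Bool))
      (fun ξ => Uu δ a r (x + δ * ∑ i, sp (ξ i))) - k * lc δ := by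
  induction k with
  | zero =>
    intro x
    unfold lm
    split_ifs with h0
    · simp
    · simp [lam_const (hz.lt_of_ne' h0)]
  | succ k ih =>
    intro x
    rw [lm_comp hz (μ := unif Bool) (ν := unif (Fin k → Bool)) (c := fun b ξ => Fin.cons b ξ)
      fun G => by simpa only [pi_unif] using E_pi_cons (unif Bool) G, ← add_assoc, Uu,
      h k k.lt_succ_self]
    simp only [ih fun i hi => h i (by omega), lm_sub_const hz, Fin.sum_univ_succ, Fin.cons_zero,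
      Fin.cons_succ, mul_add, add_assoc]
    push_cast
    ring

/-- Heights attached to the variances `v`. -/
noncomputable def HH (v : ℕ → ℝ) (δ : ℝ) (j : ℕ) : ℕ := ∑ l ∈ range j, ⌊v l / δ ^ 2⌋₊

variable {n : ℕ} {v : ℕ → ℝ}

theorem Uu_HH (δ : ℝ) {l : ℕ} (hl : l ≤ n + 1) (x : ℝ) :
    Uu δ (ex n (HH v δ)) (HH v δ (l + 1)) x + HH v δ (l + 1) * lc δ =
      lm (ze n l) (unif (Fin ⌊v l / δ ^ 2⌋₊ → Bool)) (fun ξ =>
        Uu δ (ex n (HH v δ)) (HH v δ l) (x + δ * ∑ i, sp (ξ i)) + HH v δ l * lc δ) := by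
  have hm : Monotone (HH v δ) := fun i j hij => sum_le_sum_of_subset (range_mono hij)
  have h1 : HH v δ (l + 1) = HH v δ l + ⌊v l / δ ^ 2⌋₊ := sum_range_succ _ _
  have hz : 0 ≤ ze n l := by
    rw [ze, sub_nonneg, div_le_one (by positivity)]; exact_mod_cast hl
  simp only [← sub_neg_eq_add, lm_sub_const hz]
  rw [h1, steps hz _ _ fun i hi => ?_]
  · push_cast; ring_nf
  · rw [ex, sum_congr rfl (g := fun j => if j ≤ l then 1 else 0) fun j _ => ?_, sum_boole,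
      show (Icc 1 (n + 1)).filter (· ≤ l) = Icc 1 l by ext; simp; omega, ze, wt]
    · simp [div_eq_inv_mul]
    · refine if_congr ⟨fun h => ?_, fun h => (hm h).trans (Nat.le_add_right _ _)⟩ rfl rfl
      by_contra h2
      have := hm (show l + 1 ≤ j by omega)
      omega

theorem abs_floor_le {c δ : ℝ} (hc : 0 ≤ c) (hδ : 0 < δ) : |⌊c / δ ^ 2⌋₊ * δ ^ 2 - c| ≤ δ ^ 2 := by
  have h1 := Nat.floor_le (show 0 ≤ c / δ ^ 2 by positivity)
  have h2 := Nat.lt_floor_add_one (c / δ ^ 2)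
  rw [le_div_iff₀ (by positivity)] at h1
  rw [div_lt_iff₀ (by positivity)] at h2
  rw [abs_le]
  constructor <;> nlinarith [pow_pos hδ 2]

theorem tendsto_sq : Tendsto (fun δ : ℝ => δ ^ 2) (𝓝[>] 0) (𝓝 0) := by
  simpa using ((continuous_pow 2).tendsto (0 : ℝ)).mono_left nhdsWithin_le_nhds

theorem ev_small {c δ0 : ℝ} (hc : 0 ≤ c) (h0 : 0 < δ0) : ∀ᶠ δ in 𝓝[>] (0 : ℝ), |δ| ≤ δ0 ∧
    |Fintype.card (Fin ⌊c / δ ^ 2⌋₊) * δ ^ 2 - c| ≤ δ0 := by
  filter_upwards [Ioo_mem_nhdsGT h0, tendsto_sq.eventually (ge_mem_nhds h0)] with δ h1 h2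
  rw [Fintype.card_fin, abs_of_pos h1.1]
  exact ⟨h1.2.le, (abs_floor_le hc h1.1).trans h2⟩

theorem lc_lip (x y : ℝ) : |lc x - lc y| ≤ 1 * |x - y| := by
  have key : ∀ x y, lc y - lc x ≤ |x - y| := fun x y => by
    have := lc_tangent y (x - y)
    rw [add_sub_cancel] at this
    have h1 := (abs_le.mp ((abs_mul (x - y) (Real.tanh y)).trans_le
      (mul_le_of_le_one_right (abs_nonneg _) (Real.abs_tanh_lt_one y).le))).1
    linarith
  rw [one_mul, abs_sub_le_iff]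
  exact ⟨abs_sub_comm x y ▸ key y x, key x y⟩

theorem approx (hv : ∀ l, l ≤ n + 1 → 0 ≤ v l) {l : ℕ} (hl : l ≤ n + 1) {ε : ℝ} (hε : 0 < ε) :
    ∀ᶠ δ in 𝓝[>] (0 : ℝ), ∀ x,
      |Uu δ (ex n (HH v δ)) (HH v δ l) x + HH v δ l * lc δ - cas n v lc l x| ≤ ε := by
  induction l generalizing ε with
  | zero => exact .of_forall fun δ x => by simpa [HH, Uu, cas] using hε.le
  | succ l ih =>
    have hz : 0 < ze n l := by
      rw [ze, sub_pos, div_lt_one (by positivity)]; exact_mod_cast hl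
    obtain ⟨δ0, h0, h1⟩ := clt_lam (ze n l) 1 (v l) (ε / 2) hz (half_pos hε)
    filter_upwards [ih (by omega) (half_pos hε), ev_small (hv l (by omega)) h0] with δ h2 h3 x
    have h4 := h1 _ δ (v l) (fun y => cas n v lc l (x + y)) h3.1 h3.2 (hv l (by omega)) le_rfl
      fun y y' => by simpa using cas_lip lc_lip n v (by omega : l ≤ n + 1) (x + y) (x + y')
    rw [Uu_HH δ (by omega), lm, if_neg hz.ne', cas]
    exact (abs_sub_le _ _ _).trans ((add_le_add (abs_lam_sub_le hz _ fun ξ => h2 _) h4).trans_eq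
      (add_halves ε))

theorem tendsto_HH (hv : ∀ l, l ≤ n + 1 → 0 ≤ v l) {j : ℕ} (hj : j ≤ n + 2) :
    Tendsto (fun δ => (HH v δ j : ℝ) * δ ^ 2) (𝓝[>] 0) (𝓝 (∑ l ∈ range j, v l)) := by
  simp only [HH, Nat.cast_sum, sum_mul]
  refine tendsto_finsetSum _ fun l hl => tendsto_iff_norm_sub_tendsto_zero.mpr
    (squeeze_zero' (.of_forall fun _ => norm_nonneg _) ?_ tendsto_sq)
  filter_upwards [self_mem_nhdsWithin] with δ hδ
  exact abs_floor_le (hv l (by simp at hl; omega)) hδ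

theorem tendsto_Uu (hv : ∀ l, l ≤ n + 1 → 0 ≤ v l) :
    Tendsto (fun δ => Uu δ (ex n (HH v δ)) (HH v δ (n + 2)) 0) (𝓝[>] 0)
      (𝓝 (Cas n v lc - (∑ l ∈ range (n + 2), v l) * (1 / 2))) := by
  have h1 : Tendsto (fun δ => Uu δ (ex n (HH v δ)) (HH v δ (n + 2)) 0 + HH v δ (n + 2) * lc δ)
      (𝓝[>] 0) (𝓝 (Cas n v lc)) := by
    refine Metric.tendsto_nhds.mpr fun ε hε => ?_
    obtain ⟨δ0, h0, h1⟩ := clt_E 1 (v (n + 1)) (ε / 4) (by positivity)
    filter_upwards [approx hv le_rfl (by positivity : 0 < ε / 4), ev_small (hv _ le_rfl) h0]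
      with δ h2 h3
    have h4 := h1 _ δ _ (cas n v lc (n + 1)) h3.1 h3.2 (hv _ le_rfl) le_rfl
      (cas_lip lc_lip n v le_rfl)
    rw [Real.dist_eq, Uu_HH δ le_rfl, lm, if_pos (by rw [ze]; push_cast; field_simp; ring), Cas]
    simp only [zero_add]
    exact ((abs_sub_le _ _ _).trans (add_le_add (abs_E_sub_le_const _ fun ξ => h2 _) h4)).trans_lt
      (by linarith)
  have h2 : Tendsto (fun δ => lc δ / δ ^ 2) (𝓝[>] 0) (𝓝 (1 / 2)) := by
    refine tendsto_iff_norm_sub_tendsto_zero.mpr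
      (squeeze_zero' (.of_forall fun _ => norm_nonneg _) ?_ tendsto_sq)
    filter_upwards [self_mem_nhdsWithin] with δ hδ
    have hδ' : 0 < δ ^ 2 := pow_pos hδ 2
    rw [Real.norm_eq_abs, abs_le, le_sub_iff_add_le, sub_le_iff_le_add, le_div_iff₀ hδ',
      div_le_iff₀ hδ']
    constructor <;> nlinarith [lc_le δ, le_lc δ]
  refine (h1.sub ((tendsto_HH hv le_rfl).mul h2)).congr' ?_
  filter_upwards [self_mem_nhdsWithin] with δ hδ
  have : δ ≠ 0 := ne_of_gt hδ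
  field_simp
  ring

theorem sum_cum (p c : ℕ → ℝ) : ∑ j ∈ Icc 1 (n + 1), wt n * p j *
    (∑ l ∈ range (n + 2), c l - ∑ l ∈ range j, c l) = ∑ l ∈ range (n + 2), c l * cum n p l := by
  simp only [cum, mul_sum]
  rw [sum_comm' (t' := Icc 1 (n + 1)) (s' := fun j => Ico j (n + 2)) (by intro l j; simp; omega)]
  refine sum_congr rfl fun j hj => ?_
  rw [← sum_mul, sum_Ico_eq_sub _ (by simp at hj; omega), mul_comm]

end ConcA

open ConcA in
theorem conc (n : ℕ) (v : ℕ → ℝ) (hv : ∀ l, l ≤ n + 1 → 0 ≤ v l) : ∃ p : ℕ → ℝ, Adm n p ∧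
    ∀ v' : ℕ → ℝ, (∀ l, l ≤ n + 1 → 0 ≤ v' l) →
      Cas n v' lc - pen n p v' ≤ Cas n v lc - pen n p v := by
  let 𝒰 := Ultrafilter.of (𝓝[>] (0 : ℝ))
  have h𝒰 : (𝒰 : Filter ℝ) ≤ 𝓝[>] 0 := Ultrafilter.of_le _
  let P : ℝ → ℕ → ℝ := fun δ j => PP δ (ex n (HH v δ)) (HH v δ (n + 2)) (HH v δ j)
  choose p hp hp' using fun j => isCompact_Icc.ultrafilter_le_nhds (𝒰.map fun δ => P δ j)
    (le_principal_iff.mpr (mem_map.mpr (univ_mem' fun δ =>
      (⟨PP_nonneg .., PP_le_one ..⟩ : P δ j ∈ Set.Icc (0 : ℝ) 1))))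
  replace hp' : ∀ j, Tendsto (fun δ => P δ j) 𝒰 (𝓝 (p j)) := hp'
  refine ⟨fun j => if j = 0 then 1 else p j, ⟨rfl, fun j _ => ?_, (hp _).1⟩, fun v' hv' => ?_⟩
  · simp only [if_neg j.succ_ne_zero]
    split_ifs
    · exact (hp _).2
    · exact le_of_tendsto_of_tendsto' (hp' _) (hp' _) fun δ =>
        PP_anti _ _ _ (sum_le_sum_of_subset (range_mono j.le_succ))
  have h1 : ∀ l, cum n (fun j => if j = 0 then 1 else p j) l = cum n p l := fun l =>
    congrArg _ (sum_congr rfl fun j hj => if_neg (by simp at hj; omega))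
  have h2 : ∀ j ∈ Icc 1 (n + 1), Tendsto (fun δ => (((HH v' δ j + HH v δ (n + 2) : ℕ) : ℝ) -
      (HH v δ j + HH v' δ (n + 2) : ℕ)) * δ ^ 2) 𝒰 (𝓝 (∑ l ∈ range j, v' l +
        ∑ l ∈ range (n + 2), v l - (∑ l ∈ range j, v l + ∑ l ∈ range (n + 2), v' l))) := by
    intro j hj
    have hj' : j ≤ n + 2 := by simp at hj; omega
    simpa only [Nat.cast_add, sub_mul, add_mul] using (((tendsto_HH hv' hj').add
      (tendsto_HH hv le_rfl)).sub ((tendsto_HH hv hj').add (tendsto_HH hv' le_rfl))).mono_left h𝒰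
  have h3 : Tendsto (fun δ : ℝ => 25 * δ) 𝒰 (𝓝 0) := by
    simpa using (tendsto_id.mono_left (h𝒰.trans nhdsWithin_le_nhds)).const_mul (25 : ℝ)
  have h4 := le_of_tendsto_of_tendsto (((tendsto_Uu hv').sub (tendsto_Uu hv)).mono_left h𝒰)
    (tendsto_finsetSum _ fun j hj => (((hp' j).const_mul (wt n / 2)).mul (h2 j hj)).add
      (h3.mul (h2 j hj).abs)) (by
    filter_upwards [h𝒰 (Ioo_mem_nhdsGT (by norm_num : (0 : ℝ) < 1 / 4))] with δ hδ
    have h5 := lattice (n := n) hδ.1 hδ.2.le (fun j => HH v δ j + HH v' δ (n + 2))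
      (HH v δ (n + 2) + HH v' δ (n + 2)) fun j => HH v' δ j + HH v δ (n + 2)
    simp only [PP_ex, Uu_ex] at h5
    rw [add_comm (HH v δ (n + 2)), Uu_ex] at h5
    refine h5.trans (le_of_eq (sum_congr rfl fun j _ => ?_))
    rw [abs_mul, abs_of_nonneg (sq_nonneg δ)]
    ring)
  have h5 := sum_cum (n := n) p v
  have h6 := sum_cum (n := n) p v'
  have h7 : ∑ j ∈ Icc 1 (n + 1), (wt n / 2 * p j * (∑ l ∈ range j, v' l +
      ∑ l ∈ range (n + 2), v l - (∑ l ∈ range j, v l + ∑ l ∈ range (n + 2), v' l)) + 0 *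
      |∑ l ∈ range j, v' l + ∑ l ∈ range (n + 2), v l -
        (∑ l ∈ range j, v l + ∑ l ∈ range (n + 2), v' l)|) =
      (∑ l ∈ range (n + 2), v l * cum n p l - ∑ l ∈ range (n + 2), v' l * cum n p l) / 2 := by
    rw [← h5, ← h6, ← sum_sub_distrib, sum_div]
    exact sum_congr rfl fun j _ => by ring
  rw [h7] at h4
  simp only [pen, h1, mul_sub, mul_one, sum_sub_distrib]
  linarith

end Vale.Agent.P157
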