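import Vale.Agent.P157.Base

/-!
# P157: the lattice version of the single-spin recursion, facts on the real line
-/

namespace Vale.Agent.P157.ConcA

open Vale.Agent.P168 Vale.Agent.P168.PW Finset Real
open scoped BigOperators

section lm
variable {α β γ : Type} [Fintype α] [Fintype β] [Fintype γ] {z : ℝ}

/-- The log-moment functional, with the plain average at exponent zero. -/
noncomputable def lm (z : ℝ) (μ : PW α) (Y : α → ℝ) : ℝ := if z = 0 then μ.E Y else lam z μ Y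

theorem lm_add (z : ℝ) (μ : PW α) (Y Y' : α → ℝ) :
    lm z μ (fun x => Y x + Y' x) = lm z μ Y + lm z (μ.tilt fun x => z * Y x) Y' := by
  unfold lm
  split_ifs with h
  · simp only [h, zero_mul, tilt_const, E_add]
  · exact lam_add z μ Y Y'

theorem lm_sub (z : ℝ) (μ : PW α) (Y Y' : α → ℝ) :
    lm z μ Y' - lm z μ Y = lm z (μ.tilt fun x => z * Y x) fun x => Y' x - Y x := by
  rw [sub_eq_iff_eq_add', ← lm_add]
  simp only [add_sub_cancel]

theorem E_le_lm (hz : 0 ≤ z) (μ : PW α) (Y : α → ℝ) : μ.E Y ≤ lm z μ Y := by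
  unfold lm
  split_ifs with h
  · exact le_rfl
  · exact E_le_lam (hz.lt_of_ne' h) μ Y

theorem lm_le_lam (hz : 0 ≤ z) (hz1 : z ≤ 1) (μ : PW α) (Y : α → ℝ) : lm z μ Y ≤ lam 1 μ Y := by
  unfold lm
  split_ifs with h
  · exact E_le_lam one_pos μ Y
  · exact lam_mono_exp (hz.lt_of_ne' h) hz1 μ Y

theorem lm_mono (hz : 0 ≤ z) (μ : PW α) {Y Y' : α → ℝ} (h : ∀ x, Y x ≤ Y' x) :
    lm z μ Y ≤ lm z μ Y' := by
  unfold lm
  split_ifs with h0
  · exact μ.E_mono h
  · exact lam_mono (hz.lt_of_ne' h0) μ h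

theorem lm_sub_const (hz : 0 ≤ z) (μ : PW α) (Y : α → ℝ) (c : ℝ) :
    lm z μ (fun x => Y x - c) = lm z μ Y - c := by
  unfold lm
  split_ifs with h0
  · exact μ.E_sub_const c Y
  · exact lam_add_const (hz.lt_of_ne' h0) μ Y (-c)

theorem lm_comp (hz : 0 ≤ z) {ρ : PW γ} {μ : PW α} {ν : PW β} {c : α → β → γ}
    (h : ∀ G, ρ.E G = μ.E fun a => ν.E fun b => G (c a b)) (Y : γ → ℝ) :
    lm z ρ Y = lm z μ fun a => lm z ν fun b => Y (c a b) := by
  unfold lm
  split_ifs with h0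
  · exact h Y
  · simp only [lam.eq_1 z ρ, lam.eq_1 z μ, exp_lam (hz.lt_of_ne' h0), h]

end lm

theorem E_bool (F : Bool → ℝ) : (unif Bool).E F = (F true + F false) / 2 := by
  simp [E, unif]; ring

theorem lc_add (y s : ℝ) : lc (y + s) = lc y + log (cosh s + tanh y * sinh s) := by
  have h : cosh (y + s) = cosh y * (cosh s + tanh y * sinh s) := by
    rw [cosh_add, tanh_eq_sinh_div_cosh]; field_simp
  have h1 := cosh_pos (y + s)
  rw [lc, lc, h, log_mul (cosh_pos y).ne' (right_ne_zero_of_mul (h ▸ h1.ne'))]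

theorem exp_le_mix {m : ℝ} (hm : |m| ≤ 1) (s : ℝ) : exp (s * m) ≤ cosh s + m * sinh s := by
  have := convexOn_exp.2 (Set.mem_univ s) (Set.mem_univ (-s))
    (by linarith [(abs_le.mp hm).1] : 0 ≤ (1 + m) / 2)
    (by linarith [(abs_le.mp hm).2] : 0 ≤ (1 - m) / 2) (by ring)
  simp only [smul_eq_mul] at this
  rw [cosh_eq, sinh_eq, show s * m = (1 + m) / 2 * s + (1 - m) / 2 * -s by ring]
  linarith

theorem mix_pos {m : ℝ} (hm : |m| ≤ 1) (s : ℝ) : 0 < cosh s + m * sinh s :=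
  (exp_pos _).trans_le (exp_le_mix hm s)

theorem log_mix_le {m s : ℝ} (hm : |m| ≤ 1) (hs : |s| ≤ 1) :
    log (cosh s + m * sinh s) ≤ s * m + s ^ 2 := by
  refine (log_le_sub_one_of_pos (mix_pos hm s)).trans ?_
  have h1 := (abs_le.mp (abs_exp_sub_one_sub_id_le hs)).2
  have h2 := (abs_le.mp (abs_exp_sub_one_sub_id_le (x := -s) (by rwa [abs_neg]))).2
  rw [cosh_eq, sinh_eq]
  nlinarith [(abs_le.mp hm).1, (abs_le.mp hm).2]

theorem lc_tangent (y s : ℝ) : s * tanh y ≤ lc (y + s) - lc y := by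
  rw [lc_add, add_sub_cancel_left, le_log_iff_exp_le (mix_pos (abs_tanh_lt_one y).le s)]
  exact exp_le_mix (abs_tanh_lt_one y).le s

theorem lc_neg (y : ℝ) : lc (-y) = lc y := by simp [lc]

theorem lc_zero : lc 0 = 0 := by simp [lc]

theorem lc_le (y : ℝ) : lc y ≤ y ^ 2 / 2 :=
  (log_le_iff_le_exp (cosh_pos y)).mpr (cosh_le_exp_half_sq y)

theorem le_lc (y : ℝ) : y ^ 2 / 2 - y ^ 4 / 4 ≤ lc y := by
  have h1 : 1 + y ^ 2 / 2 ≤ cosh y := by
    have h2 : |y / 2| ≤ |sinh (y / 2)| := by rw [abs_sinh]; exact self_le_sinh_iff.mpr (abs_nonneg _)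
    have h3 := cosh_two_mul (y / 2)
    rw [mul_div_cancel₀ y two_ne_zero, cosh_sq'] at h3
    nlinarith [sq_le_sq.mpr h2]
  refine le_trans ?_ (log_le_log (by positivity) h1)
  refine le_trans ?_ (one_sub_inv_le_log_of_pos (by positivity))
  rw [le_sub_comm, inv_le_iff_one_le_mul₀ (by positivity)]
  nlinarith [pow_nonneg (sq_nonneg y) 3]

theorem mono_of_tangent {U m : ℝ → ℝ} (h : ∀ y s, s * m y ≤ U (y + s) - U y) : Monotone m := by
  intro x y hxy
  rcases hxy.eq_or_lt with rfl | hxy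
  · exact le_rfl
  have h1 := h x (y - x)
  have h2 := h y (x - y)
  rw [add_sub_cancel] at h1 h2
  nlinarith

theorem tanh_mono : Monotone tanh := mono_of_tangent lc_tangent

/-- The correction to the plain average. -/
noncomputable def ph (z d : ℝ) : ℝ := lc (z * d / 2) / z

theorem lm_bool (z : ℝ) (Y : Bool → ℝ) :
    lm z (unif Bool) Y = (Y true + Y false) / 2 + ph z (Y true - Y false) := by
  unfold lm ph
  split_ifs with h
  · simp [h, E_bool]
  · have : (exp (z * Y true) + exp (z * Y false)) / 2 =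
        exp (z * ((Y true + Y false) / 2)) * cosh (z * (Y true - Y false) / 2) := by
      rw [cosh_eq, mul_div_assoc', mul_add, ← exp_add, ← exp_add]
      congr 3 <;> ring
    rw [lam, E_bool, this, log_mul (exp_pos _).ne' (cosh_pos _).ne', log_exp, lc]
    field_simp

theorem E_tilt_bool (Y F : Bool → ℝ) : ((unif Bool).tilt Y).E F =
    (F true + F false) / 2 + tanh ((Y true - Y false) / 2) * (F true - F false) / 2 := by
  have h1 : exp (Y true) = exp ((Y true + Y false) / 2) * exp ((Y true - Y false) / 2) := by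
    rw [← exp_add]; congr 1; ring
  have h2 : exp (Y false) = exp ((Y true + Y false) / 2) * exp (-((Y true - Y false) / 2)) := by
    rw [← exp_add]; congr 1; ring
  rw [E_tilt, E_bool, E_bool, tanh_eq, h1, h2]
  field_simp
  ring

theorem ph_neg (z d : ℝ) : ph z (-d) = ph z d := by
  rw [ph, ph, ← lc_neg]; congr 2; ring

theorem abs_ph_sub_le {z : ℝ} (hz : 0 ≤ z) {x y : ℝ} (h : x ≤ y) :
    |ph z y - ph z x| ≤ (y - x) / 2 := by
  have h1 := lm_mono hz (unif Bool) (Y := fun b => if b then x else 0)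
    (Y' := fun b => if b then y else 0) fun b => by cases b <;> simp [h]
  have h2 := lm_mono hz (unif Bool) (Y := fun b => if b then 0 else -y)
    (Y' := fun b => if b then 0 else -x) fun b => by cases b <;> simp [h]
  simp only [lm_bool, if_true, Bool.false_eq_true, if_false, sub_zero, zero_sub, neg_neg] at h1 h2
  rw [abs_le]
  constructor <;> linarith

theorem hasDerivAt_ph (z d : ℝ) : HasDerivAt (ph z) (tanh (z * d / 2) / 2) d := by
  rcases eq_or_ne z 0 with rfl | h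
  · simpa [show ph 0 = fun _ => 0 from funext fun _ => div_zero _] using hasDerivAt_const d (0 : ℝ)
  · have := ((((hasDerivAt_id d).const_mul z).div_const 2).cosh.log (cosh_pos _).ne').div_const z
    refine this.congr_deriv ?_
    rw [tanh_eq_sinh_div_cosh]
    simp only [id]
    field_simp

theorem ph_mono {z z' : ℝ} (h : z ≤ z') {x y : ℝ} (hx : 0 ≤ x) (hxy : x ≤ y) :
    ph z y - ph z x ≤ ph z' y - ph z' x := by
  have h1 : ∀ d, HasDerivAt (fun d => ph z' d - ph z d)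
      (tanh (z' * d / 2) / 2 - tanh (z * d / 2) / 2) d := fun d =>
    (hasDerivAt_ph z' d).sub (hasDerivAt_ph z d)
  have := monotoneOn_of_deriv_nonneg (convex_Ici 0)
    (fun d _ => (h1 d).continuousAt.continuousWithinAt)
    (fun d _ => (h1 d).differentiableAt.differentiableWithinAt) (fun d hd => by
      rw [(h1 d).deriv, sub_nonneg]
      have : 0 ≤ d := interior_subset hd
      gcongr
      exact tanh_mono (by gcongr)) hx (hx.trans hxy) hxy
  linarith

theorem abs_ph_le {z : ℝ} (hz : 0 ≤ z) (hz1 : z ≤ 1) (d : ℝ) : |ph z d - z * d ^ 2 / 8| ≤ d ^ 4 / 64 := by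
  rcases hz.eq_or_lt with rfl | hz
  · simp only [ph, div_zero, zero_mul, zero_div, sub_zero, abs_zero]; positivity
  have h1 := lc_le (z * d / 2)
  have h2 := le_lc (z * d / 2)
  have h3 : z ^ 3 * d ^ 4 ≤ d ^ 4 := mul_le_of_le_one_left (by positivity) (pow_le_one₀ hz.le hz1)
  have h4 : 0 ≤ d ^ 4 := by positivity
  rw [abs_le, ph, le_sub_iff_add_le, sub_le_iff_le_add, le_div_iff₀ hz, div_le_iff₀ hz]
  constructor <;> nlinarith [mul_le_mul_of_nonneg_left h3 hz.le, mul_nonneg h4 hz.le]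

variable (δ : ℝ) (a : ℕ → ℝ)

/-- The normalized lattice recursion. -/
noncomputable def Uu : ℕ → ℝ → ℝ
  | 0 => lc
  | r + 1 => fun x => lm (a r) (unif Bool) (fun b => Uu r (x + δ * sp b)) - lc δ

/-- One tilted average. -/
noncomputable def av (r : ℕ) (F : ℝ → ℝ) (x : ℝ) : ℝ :=
  ((unif Bool).tilt fun b => a r * Uu δ a r (x + δ * sp b)).E fun b => F (x + δ * sp b)

/-- The magnetization. -/
noncomputable def Mm : ℕ → ℝ → ℝ
  | 0 => tanh
  | r + 1 => av δ a r (Mm r)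

/-- Iterated tilted averages of a function placed at height `t`. -/
noncomputable def Aa (t : ℕ) (F : ℝ → ℝ) : ℕ → ℝ → ℝ
  | 0 => F
  | r + 1 => if r < t then F else av δ a r (Aa t F r)

/-- The increment of the recursion. -/
noncomputable def dd (r : ℕ) (x : ℝ) : ℝ := Uu δ a r (x + δ) - Uu δ a r (x - δ)

/-- The overlap at height `t`, seen from height `T`. -/
noncomputable def PP (T t : ℕ) : ℝ := Aa δ a t (fun x => Mm δ a t x ^ 2) T 0

theorem Uu_succ (r : ℕ) (x : ℝ) : Uu δ a (r + 1) x =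
    (Uu δ a r (x + δ) + Uu δ a r (x - δ)) / 2 + ph (a r) (dd δ a r x) - lc δ := by
  simp [Uu, lm_bool, sp, dd, sub_eq_add_neg]

theorem av_eq (r : ℕ) (F : ℝ → ℝ) (x : ℝ) : av δ a r F x = (F (x + δ) + F (x - δ)) / 2 +
    tanh (a r * dd δ a r x / 2) * (F (x + δ) - F (x - δ)) / 2 := by
  simp [av, E_tilt_bool, sp, dd, sub_eq_add_neg, mul_add]

theorem Aa_of_le {t r : ℕ} (h : r ≤ t) (F : ℝ → ℝ) : Aa δ a t F r = F := by
  cases r with
  | zero => rfl
  | succ r => exact if_pos h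

theorem Aa_succ {t r : ℕ} (h : t ≤ r) (F : ℝ → ℝ) :
    Aa δ a t F (r + 1) = av δ a r (Aa δ a t F r) := if_neg h.not_gt

theorem Uu_neg (r : ℕ) : ∀ x, Uu δ a r (-x) = Uu δ a r x := by
  induction r with
  | zero => exact lc_neg
  | succ r ih =>
    intro x
    rw [Uu_succ, Uu_succ, dd, dd, ← ih (x + δ), ← ih (x - δ), ← ph_neg, neg_sub, add_comm (Uu ..)]
    congr 4 <;> ring_nf

theorem dd_neg (r : ℕ) (x : ℝ) : dd δ a r (-x) = -dd δ a r x := by
  rw [dd, dd, ← Uu_neg δ a r (x + δ), ← Uu_neg δ a r (x - δ), neg_sub]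
  congr 2 <;> ring

theorem av_neg (r : ℕ) {F : ℝ → ℝ} {c : ℝ} (h : ∀ x, F (-x) = c * F x) (x : ℝ) :
    av δ a r F (-x) = c * av δ a r F x := by
  rw [av_eq, av_eq, dd_neg, mul_neg, neg_div, tanh_neg, show -x + δ = -(x - δ) by ring,
    show -x - δ = -(x + δ) by ring, h, h]
  ring

theorem Mm_neg (r : ℕ) : ∀ x, Mm δ a r (-x) = -1 * Mm δ a r x := by
  induction r with
  | zero => simp [Mm]
  | succ r ih => exact av_neg δ a r ih

theorem Mm_zero (r : ℕ) : Mm δ a r 0 = 0 := by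
  have := Mm_neg δ a r 0
  rw [neg_zero] at this
  linarith

theorem abs_Mm_le (r : ℕ) : ∀ x, |Mm δ a r x| ≤ 1 := by
  induction r with
  | zero => exact fun x => (abs_tanh_lt_one x).le
  | succ r ih => intro x; rw [Mm, av]; exact abs_E_le_const _ fun b => ih _

theorem Aa_mono {t : ℕ} {F G : ℝ → ℝ} (h : ∀ x, F x ≤ G x) (r : ℕ) :
    ∀ x, Aa δ a t F r x ≤ Aa δ a t G r x := by
  induction r using ht_induction (j := t) with
  | h0 r hr => rwa [Aa_of_le δ a hr, Aa_of_le δ a hr]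
  | hs r hr ih => rw [Aa_succ δ a hr, Aa_succ δ a hr]; exact fun x => E_mono _ fun b => ih _

theorem Aa_lin (t : ℕ) (F : ℝ → ℝ) (c e : ℝ) (r : ℕ) :
    Aa δ a t (fun x => c * F x + e) r = fun x => c * Aa δ a t F r x + e := by
  induction r using ht_induction (j := t) with
  | h0 r hr => rw [Aa_of_le δ a hr, Aa_of_le δ a hr]
  | hs r hr ih =>
    rw [Aa_succ δ a hr, Aa_succ δ a hr, ih]
    funext x
    simp only [av, E_add_const, E_const_mul]

theorem Aa_Aa {t r : ℕ} (h : t + 1 ≤ r) (F : ℝ → ℝ) :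
    Aa δ a t F r = Aa δ a (t + 1) (av δ a t F) r := by
  induction r, h using Nat.le_induction with
  | base => rw [Aa_succ δ a le_rfl, Aa_of_le δ a le_rfl, Aa_of_le δ a le_rfl]
  | succ r hr ih => rw [Aa_succ δ a hr, Aa_succ δ a (by omega), ih]

theorem PP_of_le {T t : ℕ} (h : T ≤ t) : PP δ a T t = 0 := by
  simp [PP, Aa_of_le δ a h, Mm_zero]

theorem PP_nonneg (T t : ℕ) : 0 ≤ PP δ a T t := by
  have := Aa_mono δ a (t := t) (F := fun x => 0 * Mm δ a t x + 0) (G := fun x => Mm δ a t x ^ 2)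
    (fun x => by simpa using sq_nonneg _) T 0
  rw [Aa_lin] at this
  simpa only [zero_mul, add_zero, PP] using this

theorem PP_le_one (T t : ℕ) : PP δ a T t ≤ 1 := by
  have := Aa_mono δ a (t := t) (G := fun x => 0 * Mm δ a t x + 1) (F := fun x => Mm δ a t x ^ 2)
    (fun x => by simpa using abs_Mm_le δ a t x) T 0
  rw [Aa_lin] at this
  simpa only [zero_mul, zero_add, PP] using this

theorem PP_succ_le (T t : ℕ) : PP δ a T (t + 1) ≤ PP δ a T t := by
  rcases le_or_gt T t with h | h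
  · rw [PP_of_le δ a h, PP_of_le δ a (by omega)]
  · rw [PP, PP, Aa_Aa δ a h]
    exact Aa_mono δ a (fun x => by rw [Mm, av, av]; exact E_sq_le _ _) T 0

theorem PP_anti (T : ℕ) : Antitone (PP δ a T) := antitone_nat_of_succ_le (PP_succ_le δ a T)

variable {a} {a' : ℕ → ℝ}

theorem shift {k : ℕ} (h0 : Uu δ a' k = lc ∧ Mm δ a' k = tanh) {R : ℕ}
    (h : ∀ r < R, a' (r + k) = a r) (r : ℕ) (hr : r ≤ R) :
    Uu δ a' (r + k) = Uu δ a r ∧ Mm δ a' (r + k) = Mm δ a r ∧
      ∀ t F, Aa δ a' (t + k) F (r + k) = Aa δ a t F r := by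
  induction r with
  | zero =>
    refine ⟨by rw [zero_add, h0.1, Uu], by rw [zero_add, h0.2, Mm], fun t F => ?_⟩
    rw [Aa_of_le δ _ (by omega), Aa]
  | succ r ih =>
    obtain ⟨h1, h2, h3⟩ := ih (by omega)
    have h4 : av δ a' (r + k) = av δ a r := by
      funext F x; simp only [av, h r hr, h1]
    rw [add_right_comm]
    refine ⟨by simp only [Uu, h r hr, h1], by simp only [Mm, h4, h2], fun t F => ?_⟩
    simp only [Aa, h4, h3, add_lt_add_iff_right]

theorem one_steps {k : ℕ} (h : ∀ i < k, a i = 1) : Uu δ a k = lc ∧ Mm δ a k = tanh := by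
  induction k with
  | zero => exact ⟨rfl, rfl⟩
  | succ k ih =>
    obtain ⟨h1, h2⟩ := ih fun i hi => h i (by omega)
    have h3 : ∀ x, (unif Bool).E (fun b => cosh (x + δ * sp b)) = cosh x * cosh δ := fun x => by
      simp [E_bool, sp, cosh_add]; ring
    constructor
    · funext x
      simp only [Uu, h k k.lt_succ_self, h1, lm, one_ne_zero, if_false, lam, one_mul, lc,
        exp_log (cosh_pos _), h3, log_mul (cosh_pos _).ne' (cosh_pos _).ne', div_one,
        add_sub_cancel_right]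
    · funext x
      simp only [Mm, av, h k k.lt_succ_self, h1, h2, E_tilt, one_mul, lc, exp_log (cosh_pos _), h3,
        tanh_eq_sinh_div_cosh, mul_div_cancel₀ _ (cosh_pos _).ne']
      simp only [E_bool, sp, sinh_add, if_true, Bool.false_eq_true, if_false, mul_one, mul_neg,
        sinh_neg, cosh_neg]
      field_simp
      ring

theorem PP_shift {k : ℕ} (h0 : ∀ i < k, a' i = 1) (h : ∀ r, a' (r + k) = a r) (T t : ℕ) :
    PP δ a' (T + k) (t + k) = PP δ a T t := by
  rw [PP, PP, (shift δ (one_steps δ h0) (fun r _ => h r) t le_rfl).2.1,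
    (shift δ (one_steps δ h0) (fun r _ => h r) T le_rfl).2.2]

theorem Uu_congr {r : ℕ} (h : ∀ i < r, a' i = a i) : Uu δ a' r = Uu δ a r :=
  (shift δ (k := 0) ⟨rfl, rfl⟩ h r le_rfl).1

/-- Exponents in the unit interval. -/
def Ex (a : ℕ → ℝ) : Prop := ∀ i, 0 ≤ a i ∧ a i ≤ 1

theorem tangent (ha : Ex a) (r : ℕ) : ∀ y s, s * Mm δ a r y ≤ Uu δ a r (y + s) - Uu δ a r y := by
  induction r with
  | zero => exact lc_tangent
  | succ r ih =>
    intro y s
    simp only [Uu, Mm, av, sub_sub_sub_cancel_right, lm_sub, ← E_const_mul]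
    refine le_trans (E_mono _ fun b => ?_) (E_le_lm (ha r).1 _ _)
    rw [add_right_comm]
    exact ih _ s

theorem upper (ha : Ex a) (r : ℕ) : ∀ y s, Uu δ a r (y + s) - Uu δ a r y ≤
    log (cosh s + Mm δ a r y * sinh s) := by
  induction r with
  | zero => exact fun y s => by simp [Uu, Mm, lc_add]
  | succ r ih =>
    intro y s
    simp only [Uu, Mm, av, sub_sub_sub_cancel_right, lm_sub]
    refine (lm_mono (ha r).1 _ fun b => (add_right_comm y s _ ▸ ih (y + δ * sp b) s :)).trans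
      ((lm_le_lam (ha r).1 (ha r).2 _ _).trans (le_of_eq ?_))
    simp only [lam, one_mul, div_one, exp_log (mix_pos (abs_Mm_le δ a r _) s), E_add, E_const,
      E_mul_const]

theorem Mm_mono (ha : Ex a) (r : ℕ) : Monotone (Mm δ a r) := mono_of_tangent (tangent δ ha r)

theorem Mm_nonneg (ha : Ex a) (r : ℕ) {x : ℝ} (hx : 0 ≤ x) : 0 ≤ Mm δ a r x :=
  (Mm_zero δ a r).ge.trans (Mm_mono δ ha r hx)

theorem le_dd (ha : Ex a) (r : ℕ) (x : ℝ) : 2 * δ * Mm δ a r (x - δ) ≤ dd δ a r x := by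
  have := tangent δ ha r (x - δ) (2 * δ)
  rwa [show x - δ + 2 * δ = x + δ by ring] at this

theorem dd_le (ha : Ex a) (r : ℕ) (x : ℝ) : dd δ a r x ≤ 2 * δ * Mm δ a r (x + δ) := by
  have := tangent δ ha r (x + δ) (-(2 * δ))
  rw [show x + δ + -(2 * δ) = x - δ by ring] at this
  unfold dd
  linarith

variable {δ}

theorem Mm_lip (ha : Ex a) (hδ : 0 < δ) (hδ1 : δ ≤ 1 / 4) (r : ℕ) (x : ℝ) :
    Mm δ a r (x + δ) ≤ Mm δ a r (x - δ) + 8 * δ := by
  have h1 := tangent δ ha r (x + δ) (2 * δ)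
  have h2 := le_dd δ ha r x
  have h3 := (upper δ ha r (x - δ) (4 * δ)).trans (log_mix_le (abs_Mm_le δ a r _)
    (by rw [abs_of_pos (by positivity)]; linarith))
  rw [show x - δ + 4 * δ = x + δ + 2 * δ by ring] at h3
  unfold dd at h2
  nlinarith

theorem av_mem (r : ℕ) {F : ℝ → ℝ} {x : ℝ} (h : F (x - δ) ≤ F (x + δ)) :
    F (x - δ) ≤ av δ a r F x ∧ av δ a r F x ≤ F (x + δ) := by
  rw [av_eq]
  constructor <;> nlinarith [tanh_lt_one (a r * dd δ a r x / 2),
    neg_one_lt_tanh (a r * dd δ a r x / 2)]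

theorem le_PP_succ (ha : Ex a) (hδ : 0 < δ) (hδ1 : δ ≤ 1 / 4) (T t : ℕ) :
    PP δ a T t ≤ PP δ a T (t + 1) + 16 * δ := by
  rcases le_or_gt T t with h | h
  · rw [PP_of_le δ a h, PP_of_le δ a (by omega)]; positivity
  rw [PP, PP, Aa_Aa δ a h, ← one_mul (Aa δ a _ (fun x => Mm δ a (t + 1) x ^ 2) T 0)]
  refine (Aa_mono δ a (fun x => E_le_const _ fun b => ?_) T 0).trans
    (congrFun (Aa_lin δ a _ _ 1 (16 * δ) T) 0).le
  have h1 := av_mem (a := a) t (Mm_mono δ ha t (by linarith : x - δ ≤ x + δ))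
  have h2 := Mm_lip ha hδ hδ1 t x
  have h3 := abs_le.mp (abs_Mm_le δ a t (x + δ))
  have h4 := abs_le.mp (abs_Mm_le δ a t (x - δ))
  cases b
  · simp only [sp, Bool.false_eq_true, if_false, mul_neg, mul_one, ← sub_eq_add_neg, Mm]
    nlinarith
  · simp only [sp, if_true, mul_one, Mm]
    nlinarith

theorem move (ha : Ex a) (ha' : Ex a') (hδ : 0 < δ) (hδ1 : δ ≤ 1 / 4) {r : ℕ}
    (h : ∀ i, i ≠ r → a' i = a i) (T : ℕ) : Uu δ a' T 0 - Uu δ a T 0 ≤
      (a' r - a r) * δ ^ 2 / 2 * PP δ a' T (r + 1) + 9 * δ ^ 3 := by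
  rcases le_or_gt T r with hT | hT
  · rw [Uu_congr δ fun i hi => h i (by omega), PP_of_le δ a' (by omega), sub_self, mul_zero,
      zero_add]
    positivity
  suffices ∀ x, Uu δ a' T x - Uu δ a T x ≤ Aa δ a' (r + 1) (fun x =>
      (a' r - a r) * δ ^ 2 / 2 * Mm δ a' (r + 1) x ^ 2 + 9 * δ ^ 3) T x by
    simpa only [Aa_lin, PP] using this 0
  induction T, hT using Nat.le_induction with
  | base =>
    intro x
    have h1 : Uu δ a r = Uu δ a' r := Uu_congr δ fun i hi => (h i hi.ne).symm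
    rw [Aa_of_le δ a' le_rfl, Uu_succ, Uu_succ, dd, dd, h1, ← dd]
    have h2 := av_mem (a := a') r (Mm_mono δ ha' r (by linarith : x - δ ≤ x + δ))
    have h3 := Mm_lip ha' hδ hδ1 r x
    have h4 := abs_le.mp (abs_Mm_le δ a' r (x + δ))
    have h5 := abs_le.mp (abs_Mm_le δ a' r (x - δ))
    have h6 := le_dd δ ha' r x
    have h7 := dd_le δ ha' r x
    have h8 := abs_le.mp (abs_ph_le (ha r).1 (ha r).2 (dd δ a' r x))
    have h9 := abs_le.mp (abs_ph_le (ha' r).1 (ha' r).2 (dd δ a' r x))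
    change _ ≤ _ * av δ a' r (Mm δ a' r) x ^ 2 + _
    generalize dd δ a' r x = d at *
    generalize av δ a' r (Mm δ a' r) x = m at *
    have e1 : |d| ≤ 2 * δ := abs_le.mpr ⟨by nlinarith, by nlinarith⟩
    have e2 : |d - 2 * δ * m| ≤ 16 * δ ^ 2 := abs_le.mpr ⟨by nlinarith, by nlinarith⟩
    have e3 : |d + 2 * δ * m| ≤ 4 * δ := by
      rw [abs_le] at e1 ⊢; constructor <;> nlinarith
    have e4 : |a' r - a r| ≤ 1 := abs_le.mpr ⟨by linarith [ha r, ha' r], by linarith [ha r, ha' r]⟩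
    have e5 : |(a' r - a r) * ((d - 2 * δ * m) * (d + 2 * δ * m))| ≤ 1 * (16 * δ ^ 2 * (4 * δ)) := by
      rw [abs_mul, abs_mul]; gcongr
    have e6 : d ^ 4 ≤ (2 * δ) ^ 4 := by
      rw [← Even.pow_abs (by norm_num)]; gcongr
    have e7 : δ ^ 4 ≤ δ ^ 3 := pow_le_pow_of_le_one hδ.le (by linarith) (by norm_num)
    nlinarith [(abs_le.mp e5).2, pow_pos hδ 3]
  | succ T hT ih =>
    intro x
    rw [Aa_succ δ a' hT, ← neg_sub, neg_le]
    simp only [Uu, av, sub_sub_sub_cancel_right, ← h T (by omega), lm_sub, ← E_neg]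
    exact le_trans (E_mono _ fun b => by linarith [ih (x + δ * sp b)]) (E_le_lm (ha' T).1 _ _)

end Vale.Agent.P157.ConcA
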