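import Vale.Agent.P157.Base

/-!
# P157: the universe of signs
-/

namespace Vale.Agent.P157

open Vale.Agent.P168 Vale.Agent.P168.PW Finset MeasureTheory Filter Topology
open scoped BigOperators

variable {S S' Λ Λ' : Type} [Fintype S] [Fintype S'] [Fintype Λ] [DecidableEq Λ] [Fintype Λ']
  [DecidableEq Λ'] {n : ℕ}

namespace UnivX

/-- Take the coordinates in `q` from `η` and the others from `ξ`. -/
def mx (q : Λ → Prop) [DecidablePred q] (ξ η : Λ → Bool) : Λ → Bool :=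
  fun l => if q l then η l else ξ l

/-- The configuration part of a step. -/
noncomputable def sK (μ : PW S) (p : ℕ) (σ : S) : PW S := if p = 0 then μ else PW.pure σ

theorem PU_E (μ : PW S) (lv : Λ → ℕ) (p : ℕ) (ω : U S Λ) (F : U S Λ → ℝ) :
    (PU μ lv p ω).E F = (sK μ p ω.1).E fun σ => (unif (Λ → Bool)).E fun η =>
      F (σ, mx (fun l => p = lv l) ω.2 η) := by
  have h : (fun l => if p = lv l then unif Bool else PW.pure (ω.2 l)) =
      fun l => (unif Bool).map fun b => if p = lv l then b else ω.2 l := by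
    funext l
    refine ext_E fun G => ?_
    rw [E_map]
    split_ifs
    · rfl
    · rw [E_pure, E_const]
  show ((sK μ p ω.1).prod (PW.pi fun l => if p = lv l then unif Bool else PW.pure (ω.2 l))).E F = _
  rw [E_prod, h]
  refine E_congr _ fun σ => ?_
  rw [E_pi_map (fun _ : Λ => unif Bool) (fun l b => if p = lv l then b else ω.2 l), pi_unif]
  rfl

theorem ρU_E (μ : PW S) (F : U S Λ → ℝ) :
    (ρU μ Λ).E F = μ.E fun σ => (unif (Λ → Bool)).E fun η => F (σ, η) := E_prod _ _ _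

theorem unif_prod {α β γ : Type} [Fintype α] [Fintype β] [Fintype γ] [Nonempty α] [Nonempty β]
    [Nonempty γ] (e : γ ≃ α × β) (F : α → β → ℝ) :
    (unif γ).E (fun x => F (e x).1 (e x).2) = (unif α).E fun a => (unif β).E fun b => F a b := by
  rw [E_unif_equiv e (fun y => F y.1 y.2), ← prod_unif, E_prod]

theorem unif_comp {e : Λ → Λ'} (he : Function.Injective e) (F : (Λ → Bool) → ℝ) :
    (unif (Λ' → Bool)).E (fun η => F fun l => η (e l)) = (unif (Λ → Bool)).E F := by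
  classical
  have h1 := unif_prod (Equiv.piEquivPiSubtypeProd (fun l => l ∈ Set.range e) fun _ => Bool)
    (fun a _ => F fun l => a ⟨e l, l, rfl⟩)
  have h2 := E_unif_equiv (Equiv.arrowCongr (Equiv.ofInjective e he).symm (Equiv.refl Bool)) F
  simp only [E_const] at h1
  exact h1.trans h2

theorem unif_sum (F : (Λ' ⊕ Λ → Bool) → ℝ) :
    (unif (Λ' ⊕ Λ → Bool)).E F =
      (unif (Λ' → Bool)).E fun a => (unif (Λ → Bool)).E fun b => F (Sum.elim a b) := by
  rw [← unif_prod (Equiv.sumArrowEquivProdArrow Λ' Λ Bool) fun a b => F (Sum.elim a b)]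
  refine E_congr _ fun x => ?_
  congr 1
  funext l
  cases l <;> rfl

theorem unif_two {Λ1 Λ2 : Type} [Fintype Λ1] [DecidableEq Λ1] [Fintype Λ2] [DecidableEq Λ2]
    {e1 : Λ1 → Λ} {e2 : Λ2 → Λ} (he1 : Function.Injective e1) (he2 : Function.Injective e2)
    (hne : ∀ a b, e1 a ≠ e2 b) (F : (Λ1 → Bool) → (Λ2 → Bool) → ℝ) :
    (unif (Λ → Bool)).E (fun η => F (fun l => η (e1 l)) fun l => η (e2 l)) =
      (unif (Λ1 → Bool)).E fun a => (unif (Λ2 → Bool)).E fun b => F a b := by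
  have h := unif_comp (e := Sum.elim e1 e2) (he1.sumElim he2 hne)
    (fun x => F (fun l => x (Sum.inl l)) fun l => x (Sum.inr l))
  rw [unif_sum] at h
  exact h

/-- Coordinatewise exclusive or. -/
def xo (ζ ξ : Λ → Bool) : Λ → Bool := fun l => xor (ξ l) (ζ l)

theorem unif_xo (ζ : Λ → Bool) (F : (Λ → Bool) → ℝ) :
    (unif (Λ → Bool)).E (fun η => F (xo ζ η)) = (unif (Λ → Bool)).E F :=
  E_unif_equiv (Function.Involutive.toPerm (xo ζ) fun η => by
    funext l; simp [xo]) F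

theorem unif_mx (q : Λ → Prop) [DecidablePred q] (F : (Λ → Bool) → ℝ) :
    (unif (Λ → Bool)).E (fun ξ => (unif (Λ → Bool)).E fun η => F (mx q ξ η)) =
      (unif (Λ → Bool)).E F := by
  have h := unif_prod (Function.Involutive.toPerm
    (fun y : (Λ → Bool) × (Λ → Bool) => (mx q y.1 y.2, mx q y.2 y.1)) fun y => by
      refine Prod.ext ?_ ?_ <;> funext l <;> by_cases h : q l <;> simp [mx, h]) fun a _ => F a
  simp only [E_const] at h
  rw [← h, ← prod_unif, E_prod]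
  rfl

theorem emb_xo (μ : PW S) (lv : Λ → ℕ) (ζ : Λ → Bool) :
    Emb (fun ω : U S Λ => (ω.1, xo ζ ω.2)) (PU μ lv) (ρU μ Λ) (PU μ lv) (ρU μ Λ) where
  mor := fun p _ ω F => by
    rw [PU_E, PU_E]
    refine E_congr _ fun σ => ?_
    rw [← unif_xo ζ fun η => F (σ, mx (fun l => p = lv l) (xo ζ ω.2) η)]
    refine E_congr _ fun η => congrArg F (Prod.ext rfl ?_)
    funext l
    by_cases h : p = lv l <;> simp [mx, xo, h]
  top := fun F => by
    rw [ρU_E, ρU_E]
    exact E_congr _ fun σ => unif_xo ζ fun η => F (σ, η)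

omit [Fintype S] [Fintype Λ] in
theorem flip_eq (lv : Λ → ℕ) (l : Λ) :
    (famU S lv).π l = fun ω : U S Λ => (ω.1, xo (fun k => decide (k = l)) ω.2) := by
  funext ω
  refine Prod.ext rfl ?_
  funext k
  by_cases h : k = l
  · subst h; simp [famU, xo]
  · simp [famU, xo, h]

omit [Fintype S] in
theorem flip_inv {lv : Λ → ℕ} {H : U S Λ → ℝ} (q : Λ → Prop)
    (hH : ∀ l, q l → ∀ ω, H ((famU S lv).π l ω) = H ω) (σ : S) (ξ ξ' : Λ → Bool)
    (h : ∀ l, ¬ q l → ξ l = ξ' l) : H (σ, ξ) = H (σ, ξ') := by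
  have key : ∀ t : Finset Λ, ∀ ξ : Λ → Bool, (∀ l, ¬ q l → ξ l = ξ' l) →
      (∀ l ∉ t, ξ l = ξ' l) → H (σ, ξ) = H (σ, ξ') := by
    intro t
    induction t using Finset.induction_on with
    | empty => intro ξ _ h2; rw [show ξ = ξ' from funext fun l => h2 l (notMem_empty l)]
    | insert a t _ ih =>
      intro ξ h1 h2
      by_cases ha : ξ a = ξ' a
      · refine ih ξ h1 fun l hl => ?_
        by_cases e : l = a
        · rw [e, ha]
        · exact h2 l (by simp [e, hl])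
      · have hq : q a := by_contra fun h3 => ha (h1 a h3)
        rw [← hH a hq (σ, ξ)]
        have h3 : ∀ l, (l ≠ a → ξ l = ξ' l) → Function.update ξ a (!ξ a) l = ξ' l := by
          intro l hl
          by_cases e : l = a
          · subst e
            rw [Function.update_self]
            revert ha
            cases ξ l <;> cases ξ' l <;> simp
          · rw [Function.update_of_ne e, hl e]
        exact ih _ (fun l hl => h3 l fun _ => h1 l hl) fun l hl => h3 l fun e => h2 l (by simp [e, hl])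
  exact key univ ξ h fun l hl => absurd (mem_univ l) hl

theorem X_mor_lt {Ω Ω' : Type} [Fintype Ω] [Fintype Ω'] {a : ℕ → ℝ} {P : Ch Ω} {P' : Ch Ω'}
    {π : Ω' → Ω} (G : Ω → ℝ) (p : ℕ)
    (h : ∀ i < p, ∀ ω (F : Ω → ℝ), (P' i ω).E (fun x => F (π x)) = (P i (π ω)).E F) :
    X a P' 0 (fun x => G (π x)) p = fun x => X a P 0 G p (π x) := by
  induction p with
  | zero => rfl
  | succ p ih =>
    funext ω
    rw [X_succ (Nat.zero_le p), X_succ (Nat.zero_le p), ih fun i hi => h i (by omega), lam, lam,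
      h p (by omega) ω fun x => Real.exp (a p * X a P 0 G p x)]

theorem E_pair {S1 S2 : Type} [Fintype S1] [Fintype S2] {μ : PW S} {μ1 : PW S1} {μ2 : PW S2}
    {g1 : S → S1} {g2 : S → S2} (hg : ∀ (F1 : S1 → ℝ) (F2 : S2 → ℝ),
      μ.E (fun σ => F1 (g1 σ) * F2 (g2 σ)) = μ1.E F1 * μ2.E F2) (F : S1 → S2 → ℝ) :
    μ.E (fun σ => F (g1 σ) (g2 σ)) = μ1.E fun a => μ2.E fun b => F a b := by
  classical
  have h : μ.map (fun σ => (g1 σ, g2 σ)) = μ1.prod μ2 := by
    refine ext' fun y => ?_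
    rw [w_eq_E, E_map]
    show _ = μ1.w y.1 * μ2.w y.2
    rw [w_eq_E μ1, w_eq_E μ2, ← hg]
    refine E_congr _ fun σ => ?_
    by_cases h1 : g1 σ = y.1 <;> by_cases h2 : g2 σ = y.2 <;> simp [h1, h2, Prod.ext_iff]
  rw [← E_prod μ1 μ2 fun y => F y.1 y.2, ← h, E_map]

theorem E_pi_pair {ι α β : Type} [Fintype ι] [DecidableEq ι] [Fintype α] [Fintype β]
    (μ : ι → PW α) (ν : ι → PW β) (F : (ι → α × β) → ℝ) :
    (PW.pi fun i => (μ i).prod (ν i)).E F =
      (PW.pi μ).E fun a => (PW.pi ν).E fun b => F fun i => (a i, b i) := by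
  rw [← E_prod (PW.pi μ) (PW.pi ν) fun y => F fun i => (y.1 i, y.2 i)]
  simp only [E, PW.pi, PW.prod]
  refine Fintype.sum_equiv (Equiv.arrowProdEquivProdArrow ι (fun _ => α) fun _ => β) _ _ fun x => ?_
  rw [prod_mul_distrib]
  rfl

theorem unif_curry {ι : Type} [Fintype ι] [DecidableEq ι] (F : (ι → Λ → Bool) → ℝ) :
    (unif (ι × Λ → Bool)).E (fun η => F fun b l => η (b, l)) =
      (PW.pi fun _ : ι => unif (Λ → Bool)).E F := by
  rw [pi_unif]
  exact E_unif_equiv (Equiv.curry ι Λ Bool) F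

theorem X_spin (μ : PW S) (lv : Λ → ℕ) (G : U S Λ → ℝ) (p : ℕ) (ω : U S Λ) :
    X (al n) (PU μ lv) 0 G (p + 1) ω = X (al n) (PU (PW.pure ()) lv) 0
      (fun ω => Real.log (μ.E fun σ => Real.exp (G (σ, ω.2)))) (p + 1) ((), ω.2) := by
  induction p generalizing ω with
  | zero =>
    rw [X_succ le_rfl, X_succ le_rfl, lam, lam, PU_E, PU_E, al_zero]
    simp only [sK, if_true, E_pure, one_mul, X_of_le le_rfl]
    rw [E_comm]
    congr 2
    exact E_congr _ fun η => (Real.exp_log (E_pos _ fun _ => Real.exp_pos _)).symm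
  | succ p ih =>
    rw [X_succ (Nat.zero_le _), X_succ (Nat.zero_le _) (p := p + 1), lam, lam, PU_E, PU_E]
    simp only [sK, Nat.succ_ne_zero, if_false, E_pure, ih]

/-- Variance bound by resampling groups of coordinates. -/
theorem var_le {𝒜 : Type} [Fintype 𝒜] (gr : Λ → Option 𝒜) (Y : (Λ → Bool) → ℝ) {c : ℝ}
    (hc : ∀ a ξ ξ', (∀ l, gr l ≠ some a → ξ l = ξ' l) → |Y ξ - Y ξ'| ≤ c)
    (h0 : ∀ ξ ξ', (∀ l, gr l ≠ none → ξ l = ξ' l) → Y ξ = Y ξ') :
    (unif (Λ → Bool)).E (fun ξ => (Y ξ - (unif (Λ → Bool)).E Y) ^ 2) ≤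
      c ^ 2 * Fintype.card 𝒜 := by
  classical
  let q : Finset 𝒜 → Λ → Prop := fun s l => ∀ a, gr l = some a → a ∈ s
  let R : Finset 𝒜 → (Λ → Bool) → ℝ := fun s ξ => (unif (Λ → Bool)).E fun η => Y (mx (q s) ξ η)
  have hR : ∀ s t, s ⊆ t → ∀ ξ η, R t (mx (q s) ξ η) = R t ξ := fun s t hst ξ η => by
    refine E_congr _ fun η' => ?_
    congr 1
    funext l
    by_cases h : q t l
    · simp only [mx, if_pos h]
    · have h' : ¬ q s l := fun h1 => h fun a ha => hst (h1 a ha)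
      simp only [mx, if_neg h, if_neg h']
  have key : ∀ s : Finset 𝒜, (unif (Λ → Bool)).E (fun ξ => (Y ξ - R s ξ) ^ 2) ≤ c ^ 2 * s.card := by
    intro s
    induction s using Finset.induction_on with
    | empty =>
      have h : ∀ ξ, R ∅ ξ = Y ξ := fun ξ => by
        refine (E_congr _ fun η => h0 _ ξ fun l hl => ?_).trans (E_const _ _)
        obtain ⟨a, ha⟩ := Option.ne_none_iff_exists'.1 hl
        exact if_neg fun h => notMem_empty a (h a ha)
      simp [h]
    | insert a s ha ih =>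
      have h1 : ∀ ξ, |R s ξ - R (insert a s) ξ| ≤ c := fun ξ =>
        abs_E_sub_le_const _ fun η => hc a _ _ fun l hl => by
          have h : q s l ↔ q (insert a s) l :=
            ⟨fun h b hb => mem_insert_of_mem (h b hb), fun h b hb =>
              (mem_insert.1 (h b hb)).resolve_left fun e => hl (e ▸ hb)⟩
          simp only [mx, h]
      have h2 : (unif (Λ → Bool)).E
          (fun ξ => (Y ξ - R s ξ) * (R s ξ - R (insert a s) ξ)) = 0 := by
        rw [← unif_mx (q s)]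
        simp only [hR s s subset_rfl, hR s _ (subset_insert a s), E_mul_const, E_sub_const]
        simp [R]
      have h3 : ∀ ξ, (Y ξ - R (insert a s) ξ) ^ 2 ≤ (Y ξ - R s ξ) ^ 2 +
          2 * ((Y ξ - R s ξ) * (R s ξ - R (insert a s) ξ)) + c ^ 2 := fun ξ => by
        have h4 := sq_le_sq' (abs_le.1 (h1 ξ)).1 (abs_le.1 (h1 ξ)).2
        nlinarith
      refine (E_mono _ h3).trans ?_
      rw [E_add_const, E_add, E_const_mul, h2, card_insert_of_notMem ha]
      push_cast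
      linarith
  have h : ∀ ξ, R univ ξ = (unif (Λ → Bool)).E Y := fun ξ => E_congr _ fun η => by
    congr 1
    funext l
    exact if_pos fun a _ => mem_univ a
  simpa only [h, card_univ] using key univ

end UnivX

open UnivX

theorem ok_famU (μ : PW S) (lv : Λ → ℕ) : (famU S lv).Ok (PU μ lv) (ρU μ Λ) := by
  have he : ∀ l, Emb ((famU S lv).π l) (PU μ lv) (ρU μ Λ) (PU μ lv) (ρU μ Λ) := fun l => by
    rw [flip_eq]; exact emb_xo μ lv _
  refine ⟨fun l => ⟨fun ω => Function.update_self .., he l, fun ω F => ?_, fun i hi ω F F' hF => ?_⟩,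
    fun l l' h ω => Function.update_of_ne h.symm _ _⟩
  · rw [(he l).mor _ (Nat.zero_le _), PU_E, PU_E]
    refine E_congr _ fun σ => E_congr _ fun η => ?_
    congr 2
    funext k
    by_cases h : k = l
    · subst h; simp [mx, famU]
    · simp only [mx, famU, Function.update_of_ne h]
      rfl
  · rw [PU_E, PU_E]
    exact E_congr _ fun σ => E_congr _ fun η => hF _ (if_neg hi.ne)

/-- Forgetting part of the configuration and part of the signs. -/
def pull (g : S' → S) (e : Λ → Λ') (ω : U S' Λ') : U S Λ := (g ω.1, fun l => ω.2 (e l))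

theorem emb_pull {μ : PW S} {μ' : PW S'} {lv : Λ → ℕ} {lv' : Λ' → ℕ} {g : S' → S} {e : Λ → Λ'}
    (hg : ∀ F : S → ℝ, μ'.E (fun σ => F (g σ)) = μ.E F) (he : Function.Injective e)
    (hlv : ∀ l, lv' (e l) = lv l) :
    Emb (pull g e) (PU μ' lv') (ρU μ' Λ') (PU μ lv) (ρU μ Λ) := by
  refine ⟨fun p _ ω F => ?_, fun F => ?_⟩
  · rw [PU_E, PU_E]
    have h1 : ∀ σ, ((unif (Λ' → Bool)).E fun η =>
        F (pull g e (σ, mx (fun l => p = lv' l) ω.2 η))) = (unif (Λ → Bool)).E fun η =>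
          F (g σ, mx (fun l => p = lv l) (pull g e ω).2 η) := fun σ => by
      rw [← unif_comp he]
      refine E_congr _ fun η => ?_
      simp only [pull, mx, hlv]
      rfl
    simp only [h1, sK]
    split_ifs
    · exact hg fun σ => (unif (Λ → Bool)).E fun η => F (σ, mx (fun l => p = lv l) (pull g e ω).2 η)
    · rw [E_pure, E_pure]; rfl
  · rw [ρU_E, ρU_E, ← hg]
    exact E_congr _ fun σ => unif_comp he fun η => F (g σ, η)

theorem FU_pull {μ : PW S} {μ' : PW S'} {lv : Λ → ℕ} {lv' : Λ' → ℕ} {g : S' → S} {e : Λ → Λ'}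
    (hg : ∀ F : S → ℝ, μ'.E (fun σ => F (g σ)) = μ.E F) (he : Function.Injective e)
    (hlv : ∀ l, lv' (e l) = lv l) (G : U S Λ → ℝ) :
    FU n μ' lv' (fun ω => G (pull g e ω)) = FU n μ lv G := (emb_pull hg he hlv).Fr G

omit [Fintype S] [Fintype S'] [Fintype Λ] [DecidableEq Λ] [Fintype Λ'] in
theorem pull_flip (lv' : Λ' → ℕ) (g : S' → S) {e : Λ → Λ'} {l' : Λ'} (h : ∀ l, e l ≠ l')
    (ω : U S' Λ') : pull g e ((famU S' lv').π l' ω) = pull g e ω := by
  simp only [pull, famU, Function.update_of_ne (h _)]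

theorem FU_add {S1 S2 Λ1 Λ2 : Type} [Fintype S1] [Fintype S2] [Fintype Λ1] [DecidableEq Λ1]
    [Fintype Λ2] [DecidableEq Λ2] {μ : PW S} {μ1 : PW S1} {μ2 : PW S2} {lv : Λ → ℕ}
    {lv1 : Λ1 → ℕ} {lv2 : Λ2 → ℕ} {g1 : S → S1} {g2 : S → S2} {e1 : Λ1 → Λ} {e2 : Λ2 → Λ}
    (hg : ∀ (F1 : S1 → ℝ) (F2 : S2 → ℝ),
      μ.E (fun σ => F1 (g1 σ) * F2 (g2 σ)) = μ1.E F1 * μ2.E F2)
    (he1 : Function.Injective e1) (he2 : Function.Injective e2) (hne : ∀ a b, e1 a ≠ e2 b)
    (h1 : ∀ l, lv (e1 l) = lv1 l) (h2 : ∀ l, lv (e2 l) = lv2 l)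
    (G1 : U S1 Λ1 → ℝ) (G2 : U S2 Λ2 → ℝ) :
    FU n μ lv (fun ω => G1 (pull g1 e1 ω) + G2 (pull g2 e2 ω)) =
      FU n μ1 lv1 G1 + FU n μ2 lv2 G2 := by
  have hE : Emb (fun ω => (pull g1 e1 ω, pull g2 e2 ω)) (PU μ lv) (ρU μ Λ)
      (prodCh (PU μ1 lv1) (PU μ2 lv2)) ((ρU μ1 Λ1).prod (ρU μ2 Λ2)) := by
    refine ⟨fun p _ ω F => ?_, fun F => ?_⟩
    · rw [PU_E, prodCh, E_prod, PU_E]
      simp only [PU_E]
      have h3 : ∀ σ, ((unif (Λ → Bool)).E fun η =>
          F (pull g1 e1 (σ, mx (fun l => p = lv l) ω.2 η),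
            pull g2 e2 (σ, mx (fun l => p = lv l) ω.2 η))) =
          (unif (Λ1 → Bool)).E fun a => (unif (Λ2 → Bool)).E fun b =>
            F ((g1 σ, mx (fun l => p = lv1 l) (pull g1 e1 ω).2 a),
              (g2 σ, mx (fun l => p = lv2 l) (pull g2 e2 ω).2 b)) := fun σ => by
        rw [← unif_two he1 he2 hne]
        refine E_congr _ fun η => ?_
        simp only [pull, mx, h1, h2]
        rfl
      simp only [h3, sK]
      split_ifs
      · rw [E_pair hg fun x y => (unif (Λ1 → Bool)).E fun a => (unif (Λ2 → Bool)).E fun b =>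
          F ((x, mx (fun l => p = lv1 l) (pull g1 e1 ω).2 a),
            (y, mx (fun l => p = lv2 l) (pull g2 e2 ω).2 b))]
        exact E_congr _ fun x => E_comm _ _ _
      · simp only [E_pure]; rfl
    · rw [ρU_E, E_prod, ρU_E]
      simp only [ρU_E]
      have h3 : ∀ σ, ((unif (Λ → Bool)).E fun η => F (pull g1 e1 (σ, η), pull g2 e2 (σ, η))) =
          (unif (Λ1 → Bool)).E fun a => (unif (Λ2 → Bool)).E fun b =>
            F ((g1 σ, a), (g2 σ, b)) := fun σ =>
        unif_two he1 he2 hne fun a b => F ((g1 σ, a), (g2 σ, b))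
      simp only [h3]
      rw [E_pair hg fun x y => (unif (Λ1 → Bool)).E fun a => (unif (Λ2 → Bool)).E fun b =>
        F ((x, a), (y, b))]
      exact E_congr _ fun x => E_comm _ _ _
  have h4 := hE.Fr (n := n) fun x => G1 x.1 + G2 x.2
  refine h4.trans ?_
  simp only [Fr, Xn, FU, X_prod, E_prod, E_add, E_const]

/-- Adding an independent term: `H` does not see the signs in the range of `e`. -/
theorem FU_add_ind {μ : PW S} {lv : Λ → ℕ} {lv' : Λ' → ℕ} {e : Λ' → Λ}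
    (he : Function.Injective e) (hlv : ∀ l, lv (e l) = lv' l) {H : U S Λ → ℝ}
    (hH : ∀ l ω, H ((famU S lv).π (e l) ω) = H ω) (G : U Unit Λ' → ℝ) :
    FU n μ lv (fun ω => H ω + G (pull (fun _ => ()) e ω)) =
      FU n μ lv H + FU n (PW.pure ()) lv' G := by
  classical
  let G1 : U S {l // l ∉ Set.range e} → ℝ := fun ω =>
    H (ω.1, fun l => if h : l ∈ Set.range e then false else ω.2 ⟨l, h⟩)
  have h1 : ∀ ω, G1 (pull id Subtype.val ω) = H ω := fun ω =>
    flip_inv (fun l => l ∈ Set.range e) (by rintro _ ⟨l, rfl⟩; exact hH l) _ _ _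
      fun l hl => dif_neg hl
  have h2 := FU_add (n := n) (μ := μ) (μ1 := μ) (μ2 := PW.pure ()) (lv := lv)
    (lv1 := fun l : {l // l ∉ Set.range e} => lv l.1) (lv2 := lv') (g1 := id) (g2 := fun _ => ())
    (fun F1 F2 => by rw [E_mul_const, E_pure]; rfl) Subtype.val_injective he
    (fun a b h => a.2 ⟨b, h.symm⟩) (fun _ => rfl) hlv G1 G
  have h3 := FU_pull (n := n) (μ := μ) (μ' := μ) (lv' := lv)
    (lv := fun l : {l // l ∉ Set.range e} => lv l.1) (g := id) (fun _ => rfl)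
    Subtype.val_injective (fun _ => rfl) G1
  simp only [h1] at h2 h3
  rw [h2, ← h3]

theorem FU_top (μ : PW S) (lv : Λ → ℕ) (G : U S (Λ' ⊕ Λ) → ℝ) :
    FU n μ (Sum.elim (fun _ => n + 1) lv) G =
      (unif (Λ' → Bool)).E fun ξ => FU n μ lv fun ω => G (ω.1, Sum.elim ξ ω.2) := by
  have h1 : ∀ (ξ : Λ' → Bool) (ω : U S Λ),
      Xn n (PU μ lv) (fun ω => G (ω.1, Sum.elim ξ ω.2)) ω =
        Xn n (PU μ (Sum.elim (fun _ => n + 1) lv)) G (ω.1, Sum.elim ξ ω.2) := fun ξ ω => by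
    refine congrFun (X_mor_lt (π := fun ω : U S Λ => (ω.1, Sum.elim ξ ω.2)) G (n + 1)
      fun p hp ω F => ?_) ω
    rw [PU_E, PU_E]
    refine E_congr _ fun σ => ?_
    rw [← unif_comp (Λ' := Λ' ⊕ Λ) Sum.inr_injective]
    refine E_congr _ fun η => ?_
    congr 2
    funext l
    rcases l with l | l
    · exact (if_neg hp.ne).symm
    · rfl
  simp only [FU, Fr, ρU_E, h1, unif_sum]
  exact E_comm _ _ _

theorem FU_pi {ι : Type} [Fintype ι] [DecidableEq ι] (ν : PW S) (lv : Λ → ℕ) (G : U S Λ → ℝ) :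
    FU n (PW.pi fun _ : ι => ν) (fun l : ι × Λ => lv l.2)
      (fun ω => ∑ b, G (ω.1 b, fun l => ω.2 (b, l))) = Fintype.card ι * FU n ν lv G := by
  have hE : Emb (fun (ω : U (ι → S) (ι × Λ)) b => (ω.1 b, fun l => ω.2 (b, l)))
      (PU (PW.pi fun _ : ι => ν) fun l : ι × Λ => lv l.2) (ρU (PW.pi fun _ : ι => ν) (ι × Λ))
      (piCh fun _ : ι => PU ν lv) (PW.pi fun _ : ι => ρU ν Λ) := by
    refine ⟨fun p _ ω F => ?_, fun F => ?_⟩
    · have h1 : ∀ x : U S Λ, PU ν lv p x = ((sK ν p x.1).prod (unif (Λ → Bool))).map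
          fun y => (y.1, mx (fun l => p = lv l) x.2 y.2) := fun x =>
        ext_E fun F => by rw [PU_E, E_map, E_prod]
      have h2 : (PW.pi fun b : ι => sK ν p (ω.1 b)) = sK (PW.pi fun _ : ι => ν) p ω.1 := by
        simp only [sK]
        split_ifs
        · rfl
        · exact pi_pure _
      rw [PU_E, piCh]
      simp only [h1]
      rw [E_pi_map, E_pi_pair, h2]
      refine E_congr _ fun σ => ?_
      rw [← unif_curry]
      rfl
    · rw [ρU_E, ρU, E_pi_pair]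
      refine E_congr _ fun σ => ?_
      rw [← unif_curry]
  have h4 := hE.Fr (n := n) fun x => ∑ b, G (x b)
  refine h4.trans ?_
  simp only [Fr, Xn, FU]
  rw [X_pi (al n) (fun _ : ι => PU ν lv) 0 (fun _ => G), E_sum]
  simp only [E_pi_eval (fun _ : ι => ρU ν Λ) _ (X (al n) (PU ν lv) 0 G (n + 1))]
  simp

theorem FU_spin (μ : PW S) (lv : Λ → ℕ) (G : U S Λ → ℝ) :
    FU n μ lv G = FU n (PW.pure ()) lv fun ω => Real.log (μ.E fun σ => Real.exp (G (σ, ω.2))) := by
  rw [FU, FU, Fr, Fr, ρU_E, ρU_E, E_pure]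
  refine Eq.trans (E_congr _ fun σ => ?_) (E_const μ _)
  exact E_congr _ fun η => X_spin μ lv G n (σ, η)

theorem FU_nosign (μ : PW S) (lv : Λ → ℕ) (G : S → ℝ) :
    FU n μ lv (fun ω => G ω.1) = Real.log (μ.E fun σ => Real.exp (G σ)) := by
  exact (FU_spin μ lv fun ω => G ω.1).trans
    (Fr_const (n := n) (P := PU (PW.pure ()) lv) (ρ := ρU (PW.pure ()) Λ)
      (Real.log (μ.E fun σ => Real.exp (G σ))))

/-- Bounded differences. -/
theorem es {𝒜 : Type} [Fintype 𝒜] (μ : PW S) (lv : Λ → ℕ) (gr : Λ → Option 𝒜) (G : U S Λ → ℝ)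
    {c : ℝ} (hc : ∀ a σ ξ ξ', (∀ l, gr l ≠ some a → ξ l = ξ' l) → |G (σ, ξ) - G (σ, ξ')| ≤ c)
    (h0 : ∀ l, gr l = none → lv l ≤ n ∨ ∀ ω, G ((famU S lv).π l ω) = G ω) :
    (ρU μ Λ).E (fun ω => |Xn n (PU μ lv) G ω - FU n μ lv G|) ≤
      c * Real.sqrt (Fintype.card 𝒜) := by
  obtain ⟨σ0⟩ := μ.nonempty
  let Y : (Λ → Bool) → ℝ := fun ξ => Xn n (PU μ lv) G (σ0, ξ)
  have hY : ∀ σ ξ, Xn n (PU μ lv) G (σ, ξ) = Y ξ := fun σ ξ => by
    simp only [Y, Xn, X_spin μ lv G]
  have hF : FU n μ lv G = (unif (Λ → Bool)).E Y := by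
    simp only [FU, Fr, ρU_E, hY, E_const]
  have h1 := var_le gr Y (c := c) (fun a ξ ξ' h => ?_) (fun ξ ξ' h => ?_)
  · simp only [ρU_E, hY, E_const, hF]
    refine (E_abs_le_sqrt _ _).trans ((Real.sqrt_le_sqrt h1).trans ?_)
    rw [Real.sqrt_mul (sq_nonneg c), Real.sqrt_sq_eq_abs]
    rcases isEmpty_or_nonempty 𝒜 with h | ⟨⟨a⟩⟩
    · simp
    · rw [abs_of_nonneg ((abs_nonneg _).trans (hc a σ0 (fun _ => true) _ fun _ _ => rfl))]
  · have h2 : ξ' = xo (xo ξ ξ') ξ := by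
      funext l; simp only [xo]; cases ξ l <;> cases ξ' l <;> rfl
    have h3 := (emb_xo μ lv (xo ξ ξ')).Xn (n := n) G (σ0, ξ)
    simp only [← h2] at h3
    show |Xn n (PU μ lv) G (σ0, ξ) - Xn n (PU μ lv) G (σ0, ξ')| ≤ c
    rw [← h3]
    refine abs_X_sub_le (al_pos n) (fun ω : U S Λ => hc a ω.1 ω.2 _ fun l hl => ?_) _ _
    simp [xo, h l hl]
  · refine flip_inv (lv := lv) (H := Xn n (PU μ lv) G) (fun l => gr l = none)
      (fun l hl ω => ?_) σ0 ξ ξ' h
    have hs := (ok_famU μ lv).sy l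
    rw [← hs.emb.Xn]
    rcases h0 l hl with h2 | h2
    · exact congrFun (X_resample hs.emb.mor hs.res (Nat.zero_le _) G (n + 1)
        (Nat.succ_le_succ h2)) ω
    · simp only [h2]

end Vale.Agent.P157
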