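import Vale.Agent.P157.GauX
import Vale.Agent.P157.Univ

/-!
# P157: from sums of signs to Gaussian recursions
-/

namespace Vale.Agent.P157

open Vale.Agent.P168 Vale.Agent.P168.PW Finset MeasureTheory Filter Topology
open scoped BigOperators

theorem lip_clt (𝒜 I : Type) [Fintype 𝒜] [DecidableEq 𝒜] [Fintype I] [DecidableEq I] (L ε : ℝ)
    (hε : 0 < ε) : ∃ K0 : ℕ, ∀ (κ : Type) [Fintype κ] [DecidableEq κ], K0 ≤ Fintype.card κ →
    ∀ Φ : (𝒜 → I → ℝ) → ℝ, (∀ g g', |Φ g - Φ g'| ≤ L * ∑ a, ∑ i, |g a i - g' a i|) →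
      |∫ g, Φ g ∂(gM 𝒜 I) - (unif (𝒜 × I × κ → Bool)).E
        fun ξ => Φ fun a i => Wk fun k => ξ (a, i, k)| ≤ ε := by
  obtain ⟨K0, h⟩ := clt1 le_rfl L 1 (ε / (Fintype.card (𝒜 × I) + 1)) (by positivity)
  refine ⟨K0, fun κ _ _ hK Φ hΦ => ?_⟩
  have h1 := mclt_inj (a := 0) le_rfl (fun p : (𝒜 × I) × κ => (p.1.1, p.1.2, p.2))
    (fun p q hpq => by simp only [Prod.mk.injEq] at hpq; ext <;> simp [hpq]) Wk 1
    (fun y => Φ fun a i => y (a, i))
    (fun Y hY => by simpa only [one_mul, abs_one] using h κ hK 1 Y (by norm_num) hY)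
    (fun x y => by rw [Fintype.sum_prod_type]; exact hΦ _ _)
  rw [Dop_zero, Gop_zero] at h1
  have mp : MeasurePreserving (MeasurableEquiv.curry 𝒜 I ℝ).symm (gM 𝒜 I) (gI (𝒜 × I)) := by
    refine ⟨MeasurableEquiv.measurable _, ?_⟩
    have := Measure.infinitePi_map_curry_symm (fun (_ : 𝒜) (_ : I) => gam)
    simp only [Measure.infinitePi_eq_pi] at this
    exact this
  rw [← mp.integral_comp'] at h1
  simp only [one_mul] at h1
  rw [abs_sub_comm]
  refine le_trans h1 ?_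
  have key : ∀ c : ℝ, 0 ≤ c → c * (ε / (c + 1)) ≤ ε := fun c hc => by
    rw [mul_div_assoc', div_le_iff₀ (by positivity)]
    nlinarith
  exact key _ (Nat.cast_nonneg _)

/-- The part of the field carried by the levels `≥ l`. -/
noncomputable def hhGau {n : ℕ} {J κ1 κ2 : Type} [Fintype κ1] [Fintype κ2] (v β : ℕ → ℝ) (l : ℕ)
    (ξ : L2 n J κ1 κ2 → Bool) (i : J) : ℝ :=
  ∑ l' : Fin (n + 2), (if l ≤ l' then Real.sqrt (v l') * Wk (fun k => ξ (Sum.inl (l', i, k)))
    else 0) +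
    ∑ l' : Fin (n + 1), if l ≤ l' then β l' * Wk fun k => ξ (Sum.inr (l', i, k)) else 0

theorem hhGau_step {n : ℕ} {J κ1 κ2 : Type} [Fintype κ1] [Fintype κ2] (v β : ℕ → ℝ) {l : ℕ}
    (hl : l ≤ n) (ξ η : L2 n J κ1 κ2 → Bool) (i : J) :
    hhGau v β l (fun k => if l = lv2 k then η k else ξ k) i = hhGau v β (l + 1) ξ i +
      (Real.sqrt (v l) * Wk (fun k => η (Sum.inl (⟨l, by omega⟩, i, k))) +
        β l * Wk fun k => η (Sum.inr (⟨l, by omega⟩, i, k))) := by
  have key : ∀ (m : ℕ) (hm : l < m) (f g : Fin m → ℝ),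
      ∑ l' : Fin m, (if l ≤ l' then (if l = l' then f l' else g l') else 0) =
        ∑ l' : Fin m, (if l + 1 ≤ l' then g l' else 0) + f ⟨l, hm⟩ := by
    intro m hm f g
    rw [← Fintype.sum_ite_eq (⟨l, hm⟩ : Fin m) f, ← sum_add_distrib]
    refine sum_congr rfl fun l' _ => ?_
    simp only [Fin.ext_iff]
    split_ifs <;> first | omega | simp
  have k1 := key (n + 2) (by omega)
    (fun l' => Real.sqrt (v l') * Wk fun k => η (Sum.inl (l', i, k)))
    (fun l' => Real.sqrt (v l') * Wk fun k => ξ (Sum.inl (l', i, k)))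
  have k2 := key (n + 1) (by omega) (fun l' => β l' * Wk fun k => η (Sum.inr (l', i, k)))
    (fun l' => β l' * Wk fun k => ξ (Sum.inr (l', i, k)))
  rw [hhGau, hhGau, add_add_add_comm, ← k1, ← k2]
  refine congrArg₂ _ (sum_congr rfl fun l' _ => ?_) (sum_congr rfl fun l' _ => ?_) <;>
    by_cases h : l = l' <;> simp only [lv2, Sum.elim_inl, Sum.elim_inr, h, if_true, if_false]

/-- The signs of one level. -/
def embGau {n : ℕ} {J κ1 κ2 : Type} (l : ℕ) (hl : l ≤ n) (p : J × (κ1 ⊕ κ2)) : L2 n J κ1 κ2 :=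
  p.2.map (fun k => (⟨l, by omega⟩, p.1, k)) (fun k => (⟨l, by omega⟩, p.1, k))

theorem embGau_inj {n : ℕ} {J κ1 κ2 : Type} (l : ℕ) (hl : l ≤ n) :
    Function.Injective (embGau l hl : J × (κ1 ⊕ κ2) → L2 n J κ1 κ2) := by
  rintro ⟨i, k | k⟩ ⟨j, k' | k'⟩ h <;> simp_all [embGau]

theorem E_PU_gau {Λ : Type} [Fintype Λ] [DecidableEq Λ] (lv : Λ → ℕ) (l : ℕ) (ω : U Unit Λ)
    (F : U Unit Λ → ℝ) : (PU (PW.pure ()) lv l ω).E F =
      (unif (Λ → Bool)).E fun η => F ((), fun k => if l = lv k then η k else ω.2 k) := by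
  rw [← pi_unif, ← E_pi_map (fun _ => unif Bool) (fun k b => if l = lv k then b else ω.2 k)
    fun x => F ((), x)]
  simp only [PU, prodCh, ite_self, E_prod, E_pure, piCh]
  refine congrArg (fun μ : PW (Λ → Bool) => μ.E fun x => F ((), x)) (congrArg _ (funext fun k => ?_))
  refine ext_E fun H => ?_
  split_ifs <;> simp [E_map]

theorem rwc (n : ℕ) (J : Type) [Fintype J] [DecidableEq J] (L V ε : ℝ) (hε : 0 < ε) :
    ∃ K0 : ℕ, ∀ K1, K0 ≤ K1 → ∀ K2, K0 ≤ K2 → ∀ (v β : ℕ → ℝ) (G : (J → ℝ) → ℝ),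
      (∀ l, l ≤ n + 1 → 0 ≤ v l) → ∑ l ∈ range (n + 2), tv n v β l ≤ V →
      (∀ x y, |G x - G y| ≤ L * ∑ i, |x i - y i|) →
      |FU n (PW.pure ()) (lv2 : L2 n J (Fin K1) (Fin K2) → ℕ) (fun ω => G (hh v β ω.2)) -
        CasI n (tv n v β) G| ≤ ε := by
  set ε1 := ε / (2 * (n + 2) * (Fintype.card J + 1)) with hε1
  have h0 : 0 < ε1 := by positivity
  choose Kl hKl using fun l : ℕ => clt2 (al_pos n l).le L V ε1 h0
  obtain ⟨Kt, hKt⟩ := clt1 le_rfl L V ε1 h0
  refine ⟨max Kt ((range (n + 1)).sup Kl), fun K1 hK1 K2 hK2 v β G hv hV hG => ?_⟩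
  have htv : ∀ l, l ≤ n + 1 → tv n v β l ≤ V := fun l hl =>
    (single_le_sum (f := tv n v β) (fun l hl => add_nonneg (hv l (by simp at hl; omega))
      (by split_ifs <;> positivity)) (mem_range.2 (by omega))).trans hV
  have main : ∀ l, l ≤ n + 1 → ∀ ω : U Unit (L2 n J (Fin K1) (Fin K2)),
      |X (al n) (PU (PW.pure ()) lv2) 0 (fun ω => G (hh v β ω.2)) l ω -
        casI n (tv n v β) G l (hhGau v β l ω.2)| ≤ l * (Fintype.card J * (2 * ε1)) := by
    intro l
    induction l with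
    | zero =>
      intro _ ω
      have : hhGau v β 0 ω.2 = hh v β ω.2 := by funext i; simp [hhGau, hh]
      simp [X, casI, this]
    | succ l ih =>
      intro hl ω
      have hl' : l ≤ n := by omega
      have hK : Kl l ≤ max Kt ((range (n + 1)).sup Kl) :=
        (le_sup (f := Kl) (mem_range.2 (by omega))).trans (le_max_right _ _)
      have e0 : tv n v β l = √(v l) ^ 2 + β l ^ 2 := by
        rw [tv, if_pos hl', Real.sq_sqrt (hv l (by omega))]
      have hs := htv l (by omega)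
      have h1 := abs_lam_sub_le (al_pos n l) (PU (PW.pure ()) lv2 l ω) (ih (by omega))
      have h2 := mclt_inj (al_pos n l).le (embGau l hl')
        (embGau_inj (J := J) (κ1 := Fin K1) (κ2 := Fin K2) l hl') _ _
        (fun y => casI n (tv n v β) G l fun i => hhGau v β (l + 1) ω.2 i + y i)
        (fun Y hY => hKl l (Fin K1) (Fin K2) (by simpa using hK.trans hK1)
          (by simpa using hK.trans hK2) (√(v l)) (β l) Y (by nlinarith [sq_nonneg (β l)])
          (by nlinarith [sq_nonneg √(v l)]) hY)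
        (fun x y => by
          simpa using casI_lip hG n (tv n v β) (l := l) (by omega)
            (fun i => hhGau v β (l + 1) ω.2 i + x i) (fun i => hhGau v β (l + 1) ω.2 i + y i))
      rw [Dop_pos (al_pos n l), Gop_pos (al_pos n l), ← e0] at h2
      have e1 : lam (al n l) (PU (PW.pure ()) lv2 l ω)
          (fun x => casI n (tv n v β) G l (hhGau v β l x.2)) =
          lam (al n l) (unif (L2 n J (Fin K1) (Fin K2) → Bool)) fun η =>
            casI n (tv n v β) G l fun i => hhGau v β (l + 1) ω.2 i +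
              (√(v l) * Wk (fun k => η (Sum.inl (⟨l, by omega⟩, i, k))) +
                β l * Wk fun k => η (Sum.inr (⟨l, by omega⟩, i, k))) := by
        rw [lam, lam, E_PU_gau]
        simp only [← hhGau_step v β hl']
      have e2 : ze n l = al n l := (al_of_le hl').symm
      rw [X_succ (Nat.zero_le l), casI, e2]
      rw [e1] at h1
      push_cast
      refine (abs_sub_le _ _ _).trans ((add_le_add h1 h2).trans (le_of_eq (by ring)))
  have e0 : tv n v β (n + 1) = v (n + 1) := by simp [tv]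
  have h1 := abs_E_sub_le_const (ρU (PW.pure ()) (L2 n J (Fin K1) (Fin K2))) (main (n + 1) le_rfl)
  have h2 := mclt_inj (a := 0) le_rfl (fun p : J × Fin K1 => (Sum.inl (Fin.last (n + 1), p.1, p.2) :
      L2 n J (Fin K1) (Fin K2))) (by rintro ⟨i, k⟩ ⟨j, k'⟩ h; simpa using h) _ _
    (casI n (tv n v β) G (n + 1))
    (fun Y hY => hKt (Fin K1) (by simpa using (le_max_left _ _).trans hK1) (√(v (n + 1))) Y
      (by rw [Real.sq_sqrt (hv _ le_rfl), ← e0]; exact htv _ le_rfl) hY)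
    (casI_lip hG n (tv n v β) le_rfl)
  rw [Dop_zero, Gop_zero, abs_of_nonneg (Real.sqrt_nonneg _)] at h2
  have e1 : ∀ ξ : L2 n J (Fin K1) (Fin K2) → Bool, hhGau v β (n + 1) ξ = fun i =>
      √(v (n + 1)) * Wk fun k => ξ (Sum.inl (Fin.last (n + 1), i, k)) := by
    intro ξ; funext i
    rw [hhGau, Fin.sum_univ_castSucc, sum_eq_zero, sum_eq_zero]
    · simp
    · intro l' _; exact if_neg (by omega)
    · intro l' _; exact if_neg (by simp; omega)
  simp only [e1] at h1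
  rw [ρU, E_prod _ _ fun x => casI n (tv n v β) G (n + 1) _, E_pure] at h1
  rw [FU, Fr, CasI, e0]
  refine (abs_sub_le _ _ _).trans ((add_le_add h1 h2).trans ?_)
  have e3 : 2 * (n + 2) * (Fintype.card J + 1) * ε1 = ε := by rw [hε1]; field_simp
  have : (0 : ℝ) ≤ Fintype.card J * ε1 := by positivity
  have : (0 : ℝ) ≤ n * ε1 := by positivity
  push_cast
  nlinarith

theorem phiK_lim (n : ℕ) (L ε : ℝ) (hε : 0 < ε) : ∃ K0 : ℕ, ∀ K, K0 ≤ K →
    ∀ (p : ℕ → ℝ) (G : ℝ → ℝ), Adm n p → (∀ x y, |G x - G y| ≤ L * |x - y|) →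
      |phiK n K (vr n p) G - Cas n (vr n p) G| ≤ ε := by
  obtain ⟨K0, h⟩ := rwc n Unit L 1 ε hε
  refine ⟨K0, fun K hK p G hp hG => ?_⟩
  have e0 : tv n (vr n p) 0 = vr n p := by funext l; simp [tv]
  have h1 := h K hK K hK (vr n p) 0 (fun x => G (x ())) (fun l hl => vr_nonneg hp.2 hl)
    (by rw [e0, sum_vr, hp.1]) (fun x y => by simpa using hG (x ()) (y ()))
  rw [e0, CasI_unit] at h1
  rw [phiK, ← FU_pull (μ' := PW.pure ()) (lv' := (lv2 : L2 n Unit (Fin K) (Fin K) → ℕ)) (g := id)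
    (lv := fun l : Fin K × Fin (n + 2) => (l.2 : ℕ)) (e := fun l : Fin K × Fin (n + 2) => Sum.inl (l.2, (), l.1)) (fun F => rfl)
    (by rintro ⟨i, k⟩ ⟨j, k'⟩ h; simp_all) (fun _ => rfl)]
  simpa [hh, pull] using h1

end Vale.Agent.P157
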