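import Vale.Agent.P157.Clt

/-!
# P157: multidimensional central limit estimates for averages and log-moments
-/

namespace Vale.Agent.P157

open Vale.Agent.P168 Vale.Agent.P168.PW Finset MeasureTheory Filter Topology
open scoped BigOperators

noncomputable def psiGau (a x : ℝ) : ℝ := if a = 0 then x else Real.exp (a * x)

noncomputable def phiGau (a t : ℝ) : ℝ := if a = 0 then t else Real.log t / a

/-- Average (`a = 0`) or log-moment (`a > 0`) for finite weights. -/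
noncomputable def Dop {α : Type} [Fintype α] (a : ℝ) (μ : PW α) (Y : α → ℝ) : ℝ :=
  phiGau a (μ.E fun x => psiGau a (Y x))

/-- Average (`a = 0`) or log-moment (`a > 0`) for a measure. -/
noncomputable def Gop {Z : Type} [MeasurableSpace Z] (a : ℝ) (ν : Measure Z) (Y : Z → ℝ) : ℝ :=
  phiGau a (∫ z, psiGau a (Y z) ∂ν)

section ops
variable {α : Type} [Fintype α] {Z : Type} [MeasurableSpace Z] {a : ℝ}

theorem Dop_zero (μ : PW α) (Y : α → ℝ) : Dop 0 μ Y = μ.E Y := by simp [Dop, phiGau, psiGau]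

theorem Dop_pos (ha : 0 < a) (μ : PW α) (Y : α → ℝ) : Dop a μ Y = lam a μ Y := by
  simp [Dop, phiGau, psiGau, ha.ne', lam]

theorem Gop_zero (ν : Measure Z) (Y : Z → ℝ) : Gop 0 ν Y = ∫ z, Y z ∂ν := by
  simp [Gop, phiGau, psiGau]

theorem Gop_pos (ha : 0 < a) (ν : Measure Z) (Y : Z → ℝ) :
    Gop a ν Y = Real.log (∫ z, Real.exp (a * Y z) ∂ν) / a := by
  simp [Gop, phiGau, psiGau, ha.ne']

theorem abs_Dop_sub_le (ha : 0 ≤ a) (μ : PW α) {Y Y' : α → ℝ} {c : ℝ}
    (h : ∀ x, |Y x - Y' x| ≤ c) : |Dop a μ Y - Dop a μ Y'| ≤ c := by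
  rcases ha.eq_or_lt with rfl | ha
  · rw [Dop_zero, Dop_zero]; exact abs_E_sub_le_const _ h
  · rw [Dop_pos ha, Dop_pos ha]; exact abs_lam_sub_le ha _ h

theorem psi_Dop (ha : 0 ≤ a) (μ : PW α) (Y : α → ℝ) :
    psiGau a (Dop a μ Y) = μ.E fun x => psiGau a (Y x) := by
  rcases ha.eq_or_lt with rfl | ha
  · simp [Dop_zero, psiGau]
  · simp only [Dop_pos ha, psiGau, if_neg ha.ne', exp_lam ha]

theorem psi_Gop (ha : 0 ≤ a) (ν : Measure Z) [IsProbabilityMeasure ν] {Y : Z → ℝ}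
    (hi : Integrable (fun z => psiGau a (Y z)) ν) :
    psiGau a (Gop a ν Y) = ∫ z, psiGau a (Y z) ∂ν := by
  rcases ha.eq_or_lt with rfl | ha
  · simp [Gop_zero, psiGau]
  · simp only [psiGau, if_neg ha.ne'] at hi ⊢
    rw [Gop_pos ha, mul_div_cancel₀ _ ha.ne', Real.exp_log (integral_exp_pos hi)]

theorem Gop_le (ha : 0 ≤ a) (ν : Measure Z) [IsProbabilityMeasure ν] {Y Y' : Z → ℝ} {c : ℝ}
    (hi : Integrable (fun z => psiGau a (Y z)) ν) (hi' : Integrable (fun z => psiGau a (Y' z)) ν)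
    (h : ∀ z, Y z ≤ Y' z + c) : Gop a ν Y ≤ Gop a ν Y' + c := by
  rcases ha.eq_or_lt with rfl | ha
  · simp only [psiGau, if_true] at hi hi'
    rw [Gop_zero, Gop_zero]
    refine (integral_mono hi (hi'.add (integrable_const c)) h).trans (le_of_eq ?_)
    simp only [Pi.add_apply]
    rw [integral_add hi' (integrable_const c)]; simp
  · simp only [psiGau, if_neg ha.ne'] at hi hi'
    rw [Gop_pos ha, Gop_pos ha]
    have h1 : ∫ z, Real.exp (a * Y z) ∂ν ≤ (∫ z, Real.exp (a * Y' z) ∂ν) * Real.exp (a * c) := by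
      rw [← integral_mul_const]
      refine integral_mono hi (hi'.mul_const _) fun z => ?_
      simp only [← Real.exp_add, Real.exp_le_exp]
      nlinarith [h z]
    have h2 := Real.log_le_log (integral_exp_pos hi) h1
    rw [Real.log_mul (integral_exp_pos hi').ne' (Real.exp_pos _).ne', Real.log_exp] at h2
    rw [div_add' _ _ _ ha.ne', div_le_div_iff_of_pos_right ha]
    linarith

theorem abs_Gop_sub_le (ha : 0 ≤ a) (ν : Measure Z) [IsProbabilityMeasure ν] {Y Y' : Z → ℝ}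
    {c : ℝ} (hi : Integrable (fun z => psiGau a (Y z)) ν)
    (hi' : Integrable (fun z => psiGau a (Y' z)) ν) (h : ∀ z, |Y z - Y' z| ≤ c) :
    |Gop a ν Y - Gop a ν Y'| ≤ c := by
  have h1 := Gop_le ha ν hi hi' (c := c) fun z => by linarith [(abs_le.1 (h z)).2]
  have h2 := Gop_le ha ν hi' hi (c := c) fun z => by linarith [(abs_le.1 (h z)).1]
  rw [abs_le]; constructor <;> linarith

theorem int_gau1 (a : ℝ) {L : ℝ} {Y : ℝ → ℝ} (hY : ∀ x y, |Y x - Y y| ≤ L * |x - y|) (x s : ℝ) :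
    Integrable (fun z => psiGau a (Y (x + s * z))) gam := by
  have h := integrable_lip (L := L * |s|) (Y := fun z => Y (x + s * z)) fun z z' => by
    refine (hY _ _).trans (le_of_eq ?_)
    rw [add_sub_add_left_eq_sub, ← mul_sub, abs_mul, mul_assoc]
  unfold psiGau
  split_ifs
  exacts [h.1, h.2 a]

theorem int_gauI (a : ℝ) {I : Type} [Fintype I] {L : ℝ} {Φ : (I → ℝ) → ℝ}
    (hΦ : ∀ x y, |Φ x - Φ y| ≤ L * ∑ i, |x i - y i|) (s : I → ℝ) :
    Integrable (fun z : I → ℝ => psiGau a (Φ fun i => s i * z i)) (gI I) := by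
  have h := integrable_lipI (L := |L| * ∑ i, |s i|) (Y := fun z : I → ℝ => Φ fun i => s i * z i)
    fun z z' => by
      refine (hΦ _ _).trans ?_
      refine (mul_le_mul_of_nonneg_right (le_abs_self L) (sum_nonneg fun _ _ => abs_nonneg _)).trans ?_
      rw [mul_assoc]
      refine mul_le_mul_of_nonneg_left ?_ (abs_nonneg L)
      rw [mul_sum]
      refine sum_le_sum fun i _ => ?_
      rw [← mul_sub, abs_mul]
      exact mul_le_mul_of_nonneg_right (single_le_sum (f := fun i => |s i|)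
        (fun _ _ => abs_nonneg _) (mem_univ i)) (abs_nonneg _)
  unfold psiGau
  split_ifs
  exacts [h.1, h.2 a]

end ops

theorem integral_gI_cons {m : ℕ} (F : (Fin (m + 1) → ℝ) → ℝ) (hF : Integrable F (gI (Fin (m + 1)))) :
    ∫ z, F z ∂(gI (Fin (m + 1))) = ∫ x, ∫ z, F (Fin.cons x z) ∂(gI (Fin m)) ∂gam := by
  have h := (measurePreserving_piFinSuccAbove (fun _ : Fin (m + 1) => gam) 0).symm
  rw [gI, ← h.integral_comp', integral_prod]
  · simp only [MeasurableEquiv.piFinSuccAbove_symm_apply, Fin.insertNthEquiv, Fin.insertNth_zero',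
      Equiv.coe_fn_mk]
    rfl
  · exact (h.integrable_comp_emb (MeasurableEquiv.measurableEmbedding _)).2 hF

theorem mclt_fin {a L ε : ℝ} (ha : 0 ≤ a) {Ω : Type} [Fintype Ω] (μ : PW Ω) (m : ℕ) :
    ∀ (S : Fin m → Ω → ℝ) (s : Fin m → ℝ) (Φ : (Fin m → ℝ) → ℝ),
      (∀ i (Y : ℝ → ℝ), (∀ x y, |Y x - Y y| ≤ L * |x - y|) →
        |Dop a μ (fun ω => Y (S i ω)) - Gop a gam fun z => Y (s i * z)| ≤ ε) →
      (∀ x y, |Φ x - Φ y| ≤ L * ∑ i, |x i - y i|) →
      |Dop a (PW.pi fun _ : Fin m => μ) (fun ω => Φ fun i => S i (ω i)) -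
        Gop a (gI (Fin m)) fun z => Φ fun i => s i * z i| ≤ m * ε := by
  induction m with
  | zero =>
    intro S s Φ _ _
    have e : ∀ x : Fin 0 → ℝ, Φ x = Φ 0 := fun x => congrArg Φ (Subsingleton.elim _ _)
    simp [Dop, Gop, e]
  | succ m ih =>
    intro S s Φ h1 hΦ
    have hc : ∀ t, ∀ x y : Fin m → ℝ, |Φ (Fin.cons t x) - Φ (Fin.cons t y)| ≤ L * ∑ i, |x i - y i| :=
      fun t x y => by simpa [Fin.sum_univ_succ] using hΦ (Fin.cons t x) (Fin.cons t y)
    let Y : ℝ → ℝ := fun t => Gop a (gI (Fin m)) fun z => Φ (Fin.cons t fun i => s i.succ * z i)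
    have hY : ∀ x y, |Y x - Y y| ≤ L * |x - y| := fun x y =>
      abs_Gop_sub_le ha _ (int_gauI a (hc x) _) (int_gauI a (hc y) _) fun z => by
        simpa [Fin.sum_univ_succ] using hΦ (Fin.cons x fun i => s i.succ * z i)
          (Fin.cons y fun i => s i.succ * z i)
    have e1 : Dop a (PW.pi fun _ : Fin (m + 1) => μ) (fun ω => Φ fun i => S i (ω i)) =
        Dop a μ fun x => Dop a (PW.pi fun _ : Fin m => μ) fun ω =>
          Φ (Fin.cons (S 0 x) fun i => S i.succ (ω i)) := by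
      rw [Dop, E_pi_cons, Dop.eq_1 a μ]
      refine congrArg _ (E_congr _ fun x => ?_)
      rw [psi_Dop ha]
      refine E_congr _ fun ω => congrArg _ (congrArg _ ?_)
      funext i
      refine Fin.cases ?_ (fun i => ?_) i <;> simp
    have e2 : (Gop a (gI (Fin (m + 1))) fun z => Φ fun i => s i * z i) =
        Gop a gam fun x => Y (s 0 * x) := by
      rw [Gop, integral_gI_cons _ (int_gauI a hΦ s), Gop.eq_1 a gam]
      refine congrArg _ (integral_congr_ae (Eventually.of_forall fun x => ?_))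
      simp only [Y]
      rw [psi_Gop ha _ (int_gauI a (hc _) _)]
      refine integral_congr_ae (Eventually.of_forall fun z => congrArg _ (congrArg _ ?_))
      funext i
      refine Fin.cases ?_ (fun i => ?_) i <;> simp
    have h2 := abs_Dop_sub_le ha μ fun x => ih (fun i => S i.succ) (fun i => s i.succ)
      (fun y => Φ (Fin.cons (S 0 x) y)) (fun i => h1 i.succ) (hc _)
    have h3 := h1 0 Y hY
    rw [e1, e2]
    push_cast
    linarith [abs_sub_le (Dop a μ fun x => Dop a (PW.pi fun _ : Fin m => μ) fun ω =>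
          Φ (Fin.cons (S 0 x) fun i => S i.succ (ω i))) (Dop a μ fun x => Y (S 0 x))
      (Gop a gam fun x => Y (s 0 * x))]

theorem mclt {a L ε : ℝ} (ha : 0 ≤ a) {Ω : Type} [Fintype Ω] (μ : PW Ω) {I : Type} [Fintype I]
    [DecidableEq I] (S : Ω → ℝ) (s : ℝ) (Φ : (I → ℝ) → ℝ)
    (h1 : ∀ Y : ℝ → ℝ, (∀ x y, |Y x - Y y| ≤ L * |x - y|) →
      |Dop a μ (fun ω => Y (S ω)) - Gop a gam fun z => Y (s * z)| ≤ ε)
    (hΦ : ∀ x y, |Φ x - Φ y| ≤ L * ∑ i, |x i - y i|) :
    |Dop a (PW.pi fun _ : I => μ) (fun ω => Φ fun i => S (ω i)) -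
      Gop a (gI I) fun z => Φ fun i => s * z i| ≤ Fintype.card I * ε := by
  let e := Fintype.equivFin I
  have h := mclt_fin ha μ (Fintype.card I) (fun _ => S) (fun _ => s) (fun y => Φ fun i => y (e i))
    (fun _ => h1) fun x y => by
      rw [← e.sum_comp fun k => |x k - y k|]; exact hΦ _ _
  have e1 := E_pi_equiv e μ fun ω => psiGau a (Φ fun i => S (ω i))
  have e2 := (measurePreserving_arrowCongr' (fun _ => gam) (fun _ => gam) e.symm
    (MeasurableEquiv.refl ℝ) fun _ => MeasurePreserving.id _).integral_comp'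
    fun z : I → ℝ => psiGau a (Φ fun i => s * z i)
  rw [Dop, ← e1, Gop, gI, ← e2]
  exact h

theorem E_unif_inj {Λ Λ' : Type} [Fintype Λ] [DecidableEq Λ] [Fintype Λ'] [DecidableEq Λ']
    {e : Λ' → Λ} (he : Function.Injective e) (F : (Λ' → Bool) → ℝ) :
    (unif (Λ → Bool)).E (fun η => F fun k => η (e k)) = (unif (Λ' → Bool)).E F := by
  classical
  let q : Λ' ⊕ {k // k ∉ Set.range e} ≃ Λ :=
    (Equiv.sumCongr (Equiv.ofInjective e he) (Equiv.refl _)).trans (Equiv.sumCompl _)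
  let r := (Equiv.sumArrowEquivProdArrow Λ' {k // k ∉ Set.range e} Bool).symm.trans
    (Equiv.arrowCongr q (Equiv.refl Bool))
  rw [← E_unif_equiv r, ← prod_unif, E_prod]
  refine E_congr _ fun x => ?_
  rw [← E_const (unif ({k // k ∉ Set.range e} → Bool)) (F x)]
  refine E_congr _ fun y => congrArg F (funext fun k => ?_)
  have : q.symm (e k) = Sum.inl k := by rw [Equiv.symm_apply_eq]; rfl
  simp [r, this]

theorem Dop_blocks {Λ J κ : Type} [Fintype Λ] [DecidableEq Λ] [Fintype J] [DecidableEq J]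
    [Fintype κ] [DecidableEq κ] (a : ℝ) {e : J × κ → Λ} (he : Function.Injective e)
    (F : (J → κ → Bool) → ℝ) :
    Dop a (unif (Λ → Bool)) (fun η => F fun j k => η (e (j, k))) =
      Dop a (PW.pi fun _ : J => unif (κ → Bool)) F := by
  rw [Dop, Dop, pi_unif, ← E_unif_equiv (Equiv.curry J κ Bool),
    ← E_unif_inj he fun x => psiGau a (F (Equiv.curry J κ Bool x))]
  rfl

theorem mclt_inj {a L ε : ℝ} (ha : 0 ≤ a) {Λ J κ : Type} [Fintype Λ] [DecidableEq Λ] [Fintype J]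
    [DecidableEq J] [Fintype κ] [DecidableEq κ] (e : J × κ → Λ) (he : Function.Injective e)
    (S : (κ → Bool) → ℝ) (s : ℝ) (Φ : (J → ℝ) → ℝ)
    (h1 : ∀ Y : ℝ → ℝ, (∀ x y, |Y x - Y y| ≤ L * |x - y|) →
      |Dop a (unif (κ → Bool)) (fun ω => Y (S ω)) - Gop a gam fun z => Y (s * z)| ≤ ε)
    (hΦ : ∀ x y, |Φ x - Φ y| ≤ L * ∑ i, |x i - y i|) :
    |Dop a (unif (Λ → Bool)) (fun η => Φ fun i => S fun k => η (e (i, k))) -
      Gop a (gI J) fun z => Φ fun i => s * z i| ≤ Fintype.card J * ε := by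
  rw [Dop_blocks a he fun ω => Φ fun i => S (ω i)]
  exact mclt ha _ S s Φ h1 hΦ

theorem clt1 {a : ℝ} (ha : 0 ≤ a) (L V ε : ℝ) (hε : 0 < ε) : ∃ K0 : ℕ,
    ∀ (κ : Type) [Fintype κ] [DecidableEq κ], K0 ≤ Fintype.card κ → ∀ (s : ℝ) (Y : ℝ → ℝ),
      s ^ 2 ≤ V → (∀ x y, |Y x - Y y| ≤ L * |x - y|) →
      |Dop a (unif (κ → Bool)) (fun ξ => Y (s * Wk ξ)) - Gop a gam fun z => Y (|s| * z)| ≤ ε := by
  obtain ⟨δ0, h0, h⟩ : ∃ δ0 : ℝ, 0 < δ0 ∧
      ∀ (κ : Type) [Fintype κ] [DecidableEq κ] (δ v : ℝ) (Y : ℝ → ℝ), |δ| ≤ δ0 →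
      |Fintype.card κ * δ ^ 2 - v| ≤ δ0 → 0 ≤ v → v ≤ V → (∀ x y, |Y x - Y y| ≤ L * |x - y|) →
      |Dop a (unif (κ → Bool)) (fun ξ => Y (δ * ∑ k, sp (ξ k))) -
        Gop a gam fun z => Y (Real.sqrt v * z)| ≤ ε := by
    rcases ha.eq_or_lt with rfl | ha
    · simp only [Dop_zero, Gop_zero]; exact clt_E L V ε hε
    · simp only [Dop_pos ha, Gop_pos ha]; exact clt_lam a L V ε ha hε
  refine ⟨⌈V / δ0 ^ 2⌉₊ + 1, fun κ _ _ hK s Y hs hY => ?_⟩
  have hK1 : V / δ0 ^ 2 + 1 ≤ Fintype.card κ := by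
    have : ((⌈V / δ0 ^ 2⌉₊ + 1 : ℕ) : ℝ) ≤ Fintype.card κ := by exact_mod_cast hK
    push_cast at this
    linarith [Nat.le_ceil (V / δ0 ^ 2)]
  have hV : 0 ≤ V := (sq_nonneg s).trans hs
  have hK0 : (0 : ℝ) < Fintype.card κ := lt_of_lt_of_le (by positivity) hK1
  have hd : (s / √(Fintype.card κ)) ^ 2 = s ^ 2 / Fintype.card κ := by
    rw [div_pow, Real.sq_sqrt hK0.le]
  have := h κ (s / √(Fintype.card κ)) (s ^ 2) Y (by
      refine abs_le_of_sq_le_sq' ?_ h0.le |> abs_le.2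
      rw [hd, div_le_iff₀ hK0]
      have := (div_le_iff₀ (by positivity)).1 ((le_add_of_nonneg_right zero_le_one).trans hK1)
      linarith)
    (by rw [hd, mul_div_cancel₀ _ hK0.ne', sub_self, abs_zero]; exact h0.le) (sq_nonneg s) hs hY
  rw [Real.sqrt_sq_eq_abs] at this
  simp only [Wk]
  simpa only [div_mul_eq_mul_div, mul_div_assoc] using this

theorem integral_gam_conv (s t : ℝ) (F : ℝ → ℝ) (hF : Measurable F)
    (hi : Integrable (fun z => F (√(s ^ 2 + t ^ 2) * z)) gam) :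
    ∫ x, ∫ y, F (s * x + t * y) ∂gam ∂gam = ∫ z, F (√(s ^ 2 + t ^ 2) * z) ∂gam := by
  have key : (gam.prod gam).map (fun p : ℝ × ℝ => s * p.1 + t * p.2) =
      gam.map (√(s ^ 2 + t ^ 2) * ·) := by
    have : (fun p : ℝ × ℝ => s * p.1 + t * p.2) =
        (fun p : ℝ × ℝ => p.1 + p.2) ∘ Prod.map (s * ·) (t * ·) := rfl
    rw [this, ← Measure.map_map (by fun_prop) (by fun_prop),
      ← Measure.map_prod_map _ _ (by fun_prop) (by fun_prop)]
    simp only [gam, ProbabilityTheory.gaussianReal_map_const_mul]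
    rw [← Measure.conv, ProbabilityTheory.gaussianReal_conv_gaussianReal]
    refine congrArg₂ _ (by simp) (NNReal.eq ?_)
    simp [Real.sq_sqrt (add_nonneg (sq_nonneg s) (sq_nonneg t))]
  have hi2 : Integrable F (gam.map (√(s ^ 2 + t ^ 2) * ·)) :=
    (integrable_map_measure hF.aestronglyMeasurable (by fun_prop)).2 hi
  rw [← integral_map (by fun_prop) hF.aestronglyMeasurable, ← key,
    integral_map (by fun_prop) hF.aestronglyMeasurable, integral_prod]
  rw [← key] at hi2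
  exact (integrable_map_measure hF.aestronglyMeasurable (by fun_prop)).1 hi2

theorem clt2 {a : ℝ} (ha : 0 ≤ a) (L V ε : ℝ) (hε : 0 < ε) : ∃ K0 : ℕ,
    ∀ (κ1 κ2 : Type) [Fintype κ1] [DecidableEq κ1] [Fintype κ2] [DecidableEq κ2],
      K0 ≤ Fintype.card κ1 → K0 ≤ Fintype.card κ2 → ∀ (s t : ℝ) (Y : ℝ → ℝ),
      s ^ 2 ≤ V → t ^ 2 ≤ V → (∀ x y, |Y x - Y y| ≤ L * |x - y|) →
      |Dop a (unif (κ1 ⊕ κ2 → Bool))
        (fun ξ => Y (s * Wk (fun k => ξ (Sum.inl k)) + t * Wk fun k => ξ (Sum.inr k))) -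
        Gop a gam fun z => Y (√(s ^ 2 + t ^ 2) * z)| ≤ 2 * ε := by
  obtain ⟨K0, h⟩ := clt1 ha L V ε hε
  refine ⟨K0, fun κ1 κ2 _ _ _ _ h1 h2 s t Y hs ht hY => ?_⟩
  let Y1 : ℝ → ℝ := fun x => Gop a gam fun z => Y (x + |t| * z)
  have hY1 : ∀ x y, |Y1 x - Y1 y| ≤ L * |x - y| := fun x y =>
    abs_Gop_sub_le ha _ (int_gau1 a hY _ _) (int_gau1 a hY _ _) fun z => by
      simpa using hY (x + |t| * z) (y + |t| * z)
  have e1 : Dop a (unif (κ1 ⊕ κ2 → Bool))
      (fun ξ => Y (s * Wk (fun k => ξ (Sum.inl k)) + t * Wk fun k => ξ (Sum.inr k))) =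
      Dop a (unif (κ1 → Bool)) fun x => Dop a (unif (κ2 → Bool)) fun y =>
        Y (s * Wk x + t * Wk y) := by
    rw [Dop, ← E_unif_equiv (Equiv.sumArrowEquivProdArrow κ1 κ2 Bool).symm, ← prod_unif, E_prod,
      Dop.eq_1 a (unif (κ1 → Bool))]
    refine congrArg _ (E_congr _ fun x => ?_)
    rw [psi_Dop ha]
    rfl
  have hYc : Continuous Y := by
    refine (LipschitzWith.of_dist_le' (K := L) fun x y => ?_).continuous
    simpa [Real.dist_eq] using hY x y
  have hm : Measurable fun x => psiGau a (Y x) := by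
    unfold psiGau; split_ifs <;> fun_prop
  have e2 : (Gop a gam fun z => Y (√(s ^ 2 + t ^ 2) * z)) = Gop a gam fun x => Y1 (|s| * x) := by
    have := integral_gam_conv |s| |t| _ hm (by
      simpa only [zero_add] using int_gau1 a hY 0 √(|s| ^ 2 + |t| ^ 2))
    rw [sq_abs, sq_abs] at this
    rw [Gop, ← this, Gop.eq_1 a gam]
    refine congrArg _ (integral_congr_ae (Eventually.of_forall fun x => ?_))
    simp only [Y1]
    rw [psi_Gop ha _ (int_gau1 a hY _ _)]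
  have h3 := abs_Dop_sub_le ha (unif (κ1 → Bool)) fun x => h κ2 h2 t (fun y => Y (s * Wk x + y)) ht
    fun y y' => by simpa using hY (s * Wk x + y) (s * Wk x + y')
  have h4 := h κ1 h1 s Y1 hs hY1
  rw [e1, e2]
  linarith [abs_sub_le (Dop a (unif (κ1 → Bool)) fun x => Dop a (unif (κ2 → Bool)) fun y =>
    Y (s * Wk x + t * Wk y)) (Dop a (unif (κ1 → Bool)) fun x => Y1 (s * Wk x))
    (Gop a gam fun x => Y1 (|s| * x))]

end Vale.Agent.P157
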