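import Vale.Agent.P157.IntC

/-!
# P157: layered interpolation
-/

namespace Vale.Agent.P157

open Vale.Agent.P168 Vale.Agent.P168.PW Finset MeasureTheory Filter Topology
open scoped BigOperators

theorem int_le (c W ε : ℝ) (hε : 0 < ε) (m : ℕ) : ∃ K0 : ℕ, ∀ K, K0 ≤ K →
    ∀ (n : ℕ) (Ω 𝒜 Λ : Type) [Fintype Ω] [Fintype 𝒜] [DecidableEq 𝒜] [Fintype Λ]
      (P : Ch Ω) (ρ : PW Ω) (L : Lay K Ω 𝒜 Λ), Fintype.card Λ ≤ m → L.Ok c W P ρ →
      ∀ (β : Bool) (e : ℝ), (∀ C, L.inc n P ρ C β - L.inc n P ρ C (!β) ≤ e) →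
        Fr n P ρ (L.G fun _ => some β) - Fr n P ρ (L.G fun _ => some (!β)) ≤ e + ε := by
  set U : ℝ := m + W with hUdef
  obtain ⟨K1, h1⟩ := IntA.ev_small (IntA.B1 |c| W U) (1 / 2) (by norm_num)
  set A : ℝ := 48 * IntA.B1 |c| W U ^ 3 + 2 * (IntA.B1 |c| W U * IntA.B2 |c| W U) + |c| * U ^ 3
    with hA
  obtain ⟨K2, h2⟩ := IntA.ev_small (2 * A) ε hε
  refine ⟨max K1 K2, fun K hK n Ω 𝒜 Λ _ _ _ _ P ρ L hm h β e he => ?_⟩
  obtain ⟨hK1, hb⟩ := h1 K (le_of_max_le_left hK)
  have hA2 := (h2 K (le_of_max_le_right hK)).2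
  have hU := IntA.sum_abs_u h hm
  have hKp : (0 : ℝ) < K := by exact_mod_cast hK1
  have key : ∀ s : Finset (Fin K),
      Fr n P ρ (L.G fun k => if k ∈ s then some β else some (!β)) -
        Fr n P ρ (L.G fun _ => some (!β)) ≤ s.card * ((e + ε) / K) := fun s => by
    induction s using Finset.induction_on with
    | empty => simp
    | insert k s hk ih =>
      set C0 : Fin K → Option Bool :=
        Function.update (fun i => if i ∈ s then some β else some (!β)) k none with hC0
      have hC : C0 k = none := Function.update_self ..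
      have e1 : (fun i => if i ∈ insert k s then some β else some (!β)) =
          Function.update C0 k (some β) := by
        funext i
        by_cases hi : i = k
        · subst hi; simp
        · simp [hC0, hi]
      have e2 : (fun i => if i ∈ s then some β else some (!β)) =
          Function.update C0 k (some (!β)) := by
        funext i
        by_cases hi : i = k
        · subst hi; simp [hk]
        · simp [hC0, hi]
      have a1 := (abs_le.mp (IntA.Fr_update (n := n) (IntA.ok_abs h) (abs_nonneg c) hU hK1 hC hb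
        β)).2
      have a2 := (abs_le.mp (IntA.Fr_update (n := n) (IntA.ok_abs h) (abs_nonneg c) hU hK1 hC hb
        (!β))).1
      have a3 := div_le_div_of_nonneg_right (he C0) hKp.le
      have a4 := mul_le_mul_of_nonneg_right hA2 (inv_nonneg.mpr hKp.le)
      rw [e2] at ih
      rw [e1, card_insert_of_notMem hk]
      rw [← hA, pow_succ' _ 2, IntA.r_sq] at a1 a2
      push_cast
      simp only [div_eq_mul_inv] at a1 a2 a3 ih ⊢
      linarith
  have := key univ
  simp only [mem_univ, if_true, card_univ, Fintype.card_fin] at this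
  rwa [mul_div_cancel₀ _ hKp.ne'] at this

theorem mom (c W t : ℝ) : ∃ M : ℝ, ∀ m : ℕ, ∃ K0 : ℕ, ∀ K, K0 ≤ K →
    ∀ (n : ℕ) (Ω 𝒜 Λ : Type) [Fintype Ω] [Fintype 𝒜] [DecidableEq 𝒜] [Fintype Λ]
      (P : Ch Ω) (ρ : PW Ω) (L : Lay K Ω 𝒜 Λ), Fintype.card Λ ≤ m → L.Ok c W P ρ →
      ∀ C, Eh n P ρ 0 (fun ω => Real.exp (t * L.G C ω)) ≤ M := by
  set M0 : ℝ := |t| * (|W| + |c| * |W| / 2) + 2 * t ^ 2 * (|c| ^ 2 * |W|) + 1 with hM0
  have hM : 0 ≤ M0 := by positivity
  refine ⟨Real.exp M0, fun m => ?_⟩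
  set U : ℝ := m + W with hUdef
  obtain ⟨K1, h1⟩ := IntA.ev_small (|t| * IntA.B1 |c| W U) 1 one_pos
  obtain ⟨K2, h2⟩ := IntA.ev_small (|t| * (|c| * U ^ 3) + 2 * t ^ 2 * IntA.B2 |c| W U ^ 2) 1 one_pos
  refine ⟨max K1 K2, fun K hK n Ω 𝒜 Λ _ _ _ _ P ρ L hm h C => ?_⟩
  obtain ⟨hK1, hb⟩ := h1 K (le_of_max_le_left hK)
  have hb' := (h2 K (le_of_max_le_right hK)).2
  have hU := IntA.sum_abs_u h hm
  have hKp : (0 : ℝ) < K := by exact_mod_cast hK1
  have key : ∀ s : Finset (Fin K),
      Eh n P ρ 0 (fun ω => Real.exp (t * L.G (fun k => if k ∈ s then C k else none) ω)) ≤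
        Real.exp (s.card * (M0 / K)) := fun s => by
    induction s using Finset.induction_on with
    | empty => simp [Lay.G, Lay.Z, Eh_const]
    | insert k s hk ih =>
      have e1 : (fun i => if i ∈ insert k s then C i else none) =
          Function.update (fun i => if i ∈ s then C i else none) k (C k) := by
        funext i
        by_cases hi : i = k
        · subst hi; simp
        · simp [hi]
      have hC : (fun i => if i ∈ s then C i else none) k = none := by simp [hk]
      have a0 : 1 + M0 / K ≤ Real.exp (M0 / K) := by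
        rw [add_comm]; exact Real.add_one_le_exp _
      have a1 : 0 ≤ M0 / K := by positivity
      rw [e1, card_insert_of_notMem hk]
      push_cast
      rw [add_mul, one_mul, Real.exp_add, mul_comm (Real.exp _)]
      refine le_trans ?_ (mul_le_mul a0 ih (Eh_nonneg fun _ => (Real.exp_pos _).le)
        (Real.exp_pos _).le)
      cases hCk : C k with
      | none =>
        rw [Function.update_eq_self_iff.mpr hC.symm]
        exact le_mul_of_one_le_left (Eh_nonneg fun _ => (Real.exp_pos _).le) (by linarith)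
      | some β =>
        have := IntA.mom_update (n := n) (C := fun i => if i ∈ s then C i else none) (k := k)
          (IntA.ok_abs h) (abs_nonneg c) hU hK1 hC hb hb' β
        rwa [hM0, abs_of_nonneg (IntA.W_nonneg h)]
  have := key univ
  simp only [mem_univ, if_true, card_univ, Fintype.card_fin] at this
  rwa [mul_div_cancel₀ _ hKp.ne'] at this

theorem shift {K n : ℕ} {Ω 𝒜 Λ : Type} [Fintype Ω] [Fintype 𝒜] [DecidableEq 𝒜] [Fintype Λ]
    {P : Ch Ω} {ρ : PW Ω} {L : Lay K Ω 𝒜 Λ} {c W : ℝ} (h : L.Ok c W P ρ)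
    (C : Fin K → Option Bool) :
    Eh n P ρ 0 (fun ω => ∑ a, (L.Z C a ω - L.S a ω) ^ 2) ≤ W := by
  have h1 : ∀ a ω, L.Z C a ω - L.S a ω =
      ∑ q : Fin K × Λ with L.pa q.2 = a ∧ C q.1 = some (L.ty q.2),
        sp (L.s.τ q ω) * (L.u q.2 ω / Real.sqrt K) := fun a ω => by
    rw [Lay.Z, add_sub_cancel_left]
    simp only [sum_filter, Fintype.sum_prod_type, mul_div_assoc]
  have h2 : ∀ a, Eh n P ρ 0 (fun ω => (L.Z C a ω - L.S a ω) ^ 2) =
      Eh n P ρ 0 fun ω => ∑ q : Fin K × Λ with L.pa q.2 = a ∧ C q.1 = some (L.ty q.2),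
        (L.u q.2 ω / Real.sqrt K) ^ 2 := fun a => by
    have := IntA.Eh_quad (n := n) h.ok
      (univ.filter fun q : Fin K × Λ => L.pa q.2 = a ∧ C q.1 = some (L.ty q.2))
      (F := fun q ω => L.u q.2 ω / Real.sqrt K) (fun q l ω => by simp only [h.inv_u _ l ω])
      (w := fun _ => 1) (fun _ _ => rfl) 0
    simpa only [one_mul, h1] using this
  rw [Eh_sum, sum_congr rfl fun a _ => h2 a, ← Eh_sum]
  refine Eh_le_const fun ω => ?_
  rw [IntA.sum_fib (fun q : Fin K × Λ => L.pa q.2) (fun q => C q.1 = some (L.ty q.2))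
    fun _ q => (L.u q.2 ω / Real.sqrt K) ^ 2]
  refine (sum_le_sum_of_subset_of_nonneg (filter_subset _ _) fun _ _ _ => sq_nonneg _).trans ?_
  simp only [Fintype.sum_prod_type, div_pow, Real.sq_sqrt (Nat.cast_nonneg K), ← sum_div,
    sum_const, card_univ, Fintype.card_fin, nsmul_eq_mul]
  rcases Nat.eq_zero_or_pos K with rfl | hK
  · simpa using IntA.W_nonneg h
  · have hKp : (0 : ℝ) < K := by exact_mod_cast hK
    rw [mul_div_cancel_left₀ _ hKp.ne']
    exact h.bd_u ω

end Vale.Agent.P157
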