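import Vale.Agent.P157.Base

/-!
# P157: second order expansions for the layered interpolation
-/

namespace Vale.Agent.P157.IntA

open Vale.Agent.P168 Vale.Agent.P168.PW Finset
open scoped BigOperators

theorem mvt01 {g g' : ℝ → ℝ} {M : ℝ} (h : ∀ t, HasDerivAt g (g' t) t)
    (hM : ∀ t, 0 ≤ t → t ≤ 1 → |g' t| ≤ M) {t : ℝ} (h0 : 0 ≤ t) (h1 : t ≤ 1) :
    |g t - g 0| ≤ M := by
  have hM0 : 0 ≤ M := (abs_nonneg _).trans (hM 0 le_rfl zero_le_one)
  rcases h0.eq_or_lt with rfl | h0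
  · simpa using hM0
  · obtain ⟨s, hs, e⟩ := exists_hasDerivAt_eq_slope g g' h0
      (fun s _ => (h s).continuousAt.continuousWithinAt) (fun s _ => h s)
    rw [sub_zero, eq_div_iff h0.ne'] at e
    rw [← e, abs_mul, abs_of_pos h0]
    have := hM s hs.1.le (hs.2.le.trans h1)
    nlinarith [abs_nonneg (g' s)]

theorem taylor2 {f f1 f2 : ℝ → ℝ} {M q : ℝ} (h1 : ∀ t, HasDerivAt f (f1 t) t)
    (h2 : ∀ t, HasDerivAt f1 (f2 t) t) (hM : ∀ t, 0 ≤ t → t ≤ 1 → |f2 t - q| ≤ M) :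
    |f 1 - f 0 - f1 0 - q / 2| ≤ M := by
  have k1 : ∀ t, HasDerivAt (fun t => f1 t - q * t) (f2 t - q) t := fun t =>
    ((h2 t).sub ((hasDerivAt_id t).const_mul q)).congr_deriv (by simp)
  have k2 : ∀ t, HasDerivAt (fun t => f t - f1 0 * t - q * t ^ 2 / 2) (f1 t - q * t - f1 0) t :=
    fun t => by
      have := ((h1 t).sub ((hasDerivAt_id t).const_mul (f1 0))).sub
        (((hasDerivAt_pow 2 t).const_mul q).div_const 2)
      refine this.congr_deriv ?_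
      simp; ring
  have := mvt01 k2 (M := M) (fun t a b => by simpa using mvt01 k1 hM a b) zero_le_one le_rfl
  refine le_trans (le_of_eq ?_) this
  congr 1; ring

theorem Sm_taylor {c : ℝ} {F : ℕ → ℝ → ℝ} (h : Sm c 3 F) (s z : ℝ) :
    |F 0 (s + z) - F 0 s - F 1 s * z - F 2 s * z ^ 2 / 2| ≤ c * |z| ^ 3 := by
  have hl : ∀ t : ℝ, HasDerivAt (fun t : ℝ => s + t * z) z t := fun t => by
    simpa using ((hasDerivAt_id t).mul_const z).const_add s
  have d : ∀ i < 3, ∀ t : ℝ, HasDerivAt (fun t : ℝ => F i (s + t * z))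
      (F (i + 1) (s + t * z) * z) t := fun i hi t => (h.1 i hi _).comp t (hl t)
  have := taylor2 (f := fun t => F 0 (s + t * z)) (f1 := fun t => F 1 (s + t * z) * z)
    (f2 := fun t => F 2 (s + t * z) * z * z) (q := F 2 s * z ^ 2) (M := c * |z| ^ 3)
    (d 0 (by norm_num)) (fun t => (d 1 (by norm_num) t).mul_const z) fun t a b => by
      have h3 := mvt01 (d 2 (by norm_num)) (M := c * |z|)
        (fun t _ _ => abs_mul_le' (h.2 3 (by norm_num) le_rfl _) le_rfl) a b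
      simp only [zero_mul, add_zero] at h3
      rw [show F 2 (s + t * z) * z * z - F 2 s * z ^ 2 = (F 2 (s + t * z) - F 2 s) * z ^ 2 by ring,
        show c * |z| ^ 3 = c * |z| * |z| ^ 2 by ring]
      exact abs_mul_le' h3 (by rw [abs_pow])
  simpa using this

variable {Ω : Type} [Fintype Ω] {n : ℕ} {P : Ch Ω} {ρ : PW Ω}

theorem X_second {a : ℕ → ℝ} (ha : ∀ i, 0 < a i) (ha' : Antitone a) (ha1 : a 0 ≤ 1) {G : Ω → ℝ}
    {b : ℝ} (hG : ∀ ω, |G ω| ≤ b) (hb : b ≤ 1 / 2) (p : ℕ) (ω : Ω) :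
    |X a P 0 G p ω - A P 0 p G ω - Rs a P 0 G G p ω / 2| ≤ 48 * b ^ 3 := by
  have hb0 : 0 ≤ b := (abs_nonneg _).trans (hG ω)
  have hl : ∀ (t : ℝ) x, HasDerivAt (fun t : ℝ => t * G x) (G x) t := fun t x => by
    simpa using (hasDerivAt_id t).mul_const (G x)
  have := taylor2 (f := fun t => X a P 0 (fun x => t * G x) p ω)
    (f1 := fun t => A (T a P 0 fun x => t * G x) 0 p G ω)
    (f2 := fun t => Rs a (T a P 0 fun x => t * G x) 0 G G p ω) (q := Rs a P 0 G G p ω)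
    (M := 48 * b ^ 3) (fun t => hasDerivAt_X ha (hl t) p ω)
    (fun t => by
      have := hasDerivAt_A_T (P := P) (j := 0) ha (hl t) (G := fun _ => G) (G' := fun _ => 0)
        (fun x => hasDerivAt_const t (G x)) le_rfl p (Nat.zero_le p) ω
      simpa only [A_const', zero_add, A_of_le (le_refl 0)] using this)
    fun t t0 t1 => by
      have hn := near_T (P := P) (j := 0) ha ha' ha1 (G := fun x => t * G x) (b := b)
        (fun x => by
          rw [abs_mul, abs_of_nonneg t0]; nlinarith [hG x, abs_nonneg (G x)]) hb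
      have := hn.Rs ha ha' ha1 (by positivity) (Nat.zero_le p) hG hG hG (G' := G) (d := 0)
        (d' := 0) (by simp) (by simp) ω
      exact this.trans (le_of_eq (by ring))
  simp only [one_mul, zero_mul, X_const ha, T_const ha, sub_zero] at this
  exact this

variable {Λ : Type} {s : Fam Λ Ω}

theorem Eh_lin (h : s.Ok P ρ) (t : Finset Λ) {F : Λ → Ω → ℝ} (hF : ∀ l, s.Inv (F l))
    {w : Ω → ℝ} (hw : s.Inv w) (j : ℕ) :
    Eh n P ρ j (fun ω => w ω * ∑ l ∈ t, sp (s.τ l ω) * F l ω) = 0 := by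
  simp only [mul_sum]
  rw [Eh_sum]
  refine sum_eq_zero fun l _ => (h.sy l).Eh_odd j fun ω => ?_
  rw [(h.sy l).self, sp_not, hF l l, hw l]; ring

theorem Eh_quad (h : s.Ok P ρ) (t : Finset Λ) {F : Λ → Ω → ℝ} (hF : ∀ l, s.Inv (F l))
    {w : Ω → ℝ} (hw : s.Inv w) (j : ℕ) :
    Eh n P ρ j (fun ω => w ω * (∑ l ∈ t, sp (s.τ l ω) * F l ω) ^ 2) =
      Eh n P ρ j fun ω => w ω * ∑ l ∈ t, F l ω ^ 2 := by
  classical
  simp only [sq, sum_mul_sum]
  simp only [mul_sum]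
  rw [Eh_sum, Eh_sum]
  refine sum_congr rfl fun l hl => ?_
  rw [Eh_sum, sum_eq_single l]
  · refine Eh_congr fun ω => ?_
    have := sp_sq (s.τ l ω)
    linear_combination (w ω * F l ω * F l ω) * this
  · intro l' _ hne
    refine (h.sy l).Eh_odd j fun ω => ?_
    rw [(h.sy l).self, sp_not, hF l l, hF l' l, hw l, h.ne l l' hne.symm]; ring
  · intro h'; exact absurd hl h'

theorem A_lin (h : s.Ok P ρ) (t : Finset Λ) {F : Λ → Ω → ℝ} (hF : ∀ l, s.Inv (F l)) (j : ℕ)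
    (ω : Ω) : A P 0 j (fun ω => ∑ l ∈ t, sp (s.τ l ω) * F l ω) ω =
      ∑ l ∈ t with j ≤ s.lv l, sp (s.τ l ω) * A P 0 j (F l) ω := by
  rw [A_sum, sum_filter]
  refine sum_congr rfl fun l _ => ?_
  split_ifs with hj
  · exact (h.sy l).A_frozen hj _ _
  · exact (h.sy l).A_kill (Nat.zero_le _) (by omega) (hF l l) _

theorem E_Rs_lin (h : s.Ok P ρ) (t : Finset Λ) {F : Λ → Ω → ℝ} (hF : ∀ l, s.Inv (F l)) :
    ρ.E (Rs (al n) P 0 (fun ω => ∑ l ∈ t, sp (s.τ l ω) * F l ω)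
      (fun ω => ∑ l ∈ t, sp (s.τ l ω) * F l ω) (n + 1)) =
      Eh n P ρ 0 (fun ω => ∑ l ∈ t, F l ω ^ 2) - wt n * ∑ j ∈ Icc 1 (n + 1),
        E2 n P ρ j fun x y => ∑ l ∈ t with j ≤ s.lv l, F l x * F l y := by
  have h1 : s.Inv fun _ => (1 : ℝ) := fun _ _ => rfl
  rw [E_congr _ (Rs_top _ _), E_sub, E_const_mul, E_sum]
  congr 1
  · have := Eh_quad (n := n) h t hF h1 0
    simp only [one_mul] at this
    rw [← this]
    simp only [sq]; rfl
  · congr 1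
    refine sum_congr rfl fun j _ => ?_
    have := Eh_quad (n := n) h (t.filter fun l => j ≤ s.lv l) (F := fun l => A P 0 j (F l))
      (fun l l' ω => (h.sy l').A_inv (hF l l') 0 j ω) h1 j
    simp only [one_mul] at this
    rw [E2_sum]
    simp only [E2_mul, A_lin h t hF]
    rw [← Eh_sum]
    simp only [sq] at this
    exact this

theorem Fr_layer (h : s.Ok P ρ) (t : Finset Λ) {F : Λ → Ω → ℝ} (hF : ∀ l, s.Inv (F l))
    {D : Ω → ℝ} {b b2 : ℝ} (hb : b ≤ 1 / 2) (hD : ∀ ω, |D ω| ≤ b)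
    (hD1 : ∀ ω, |∑ l ∈ t, sp (s.τ l ω) * F l ω| ≤ b)
    (hD2 : ∀ ω, |D ω - ∑ l ∈ t, sp (s.τ l ω) * F l ω| ≤ b2) :
    |Fr n P ρ D - (Eh n P ρ 0 (fun ω => D ω - ∑ l ∈ t, sp (s.τ l ω) * F l ω) +
      (Eh n P ρ 0 (fun ω => ∑ l ∈ t, F l ω ^ 2) - wt n * ∑ j ∈ Icc 1 (n + 1),
        E2 n P ρ j fun x y => ∑ l ∈ t with j ≤ s.lv l, F l x * F l y) / 2)| ≤
      48 * b ^ 3 + 2 * (b * b2) := by
  have h0 := Eh_lin (n := n) h t hF (w := fun _ => 1) (fun _ _ => rfl) 0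
  simp only [one_mul] at h0
  rw [← E_Rs_lin h t hF, Eh_sub, h0, sub_zero, Fr, Eh, ← E_div_const, ← E_add]
  refine abs_E_sub_le_const _ fun ω => ?_
  set D1 : Ω → ℝ := fun ω => ∑ l ∈ t, sp (s.τ l ω) * F l ω with hD1def
  have k1 := X_second (P := P) (al_pos n) (al_anti n) (al_le_one n) hD hb (n + 1) ω
  have k2 := abs_Rs_le (P := P) (j := 0) (p := n + 1) (al_pos n) (al_anti n) (al_le_one n)
    (Nat.zero_le _) hD hD2 ω
  have k3 := abs_Rs_le (P := P) (j := 0) (p := n + 1) (al_pos n) (al_anti n) (al_le_one n)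
    (Nat.zero_le _) hD1 hD2 ω
  rw [Rs_sub_right] at k2 k3
  rw [Rs_comm D1 D] at k3
  rw [abs_le] at k1 k2 k3 ⊢
  simp only [Xn]
  constructor <;> linarith [k1.1, k1.2, k2.1, k2.2, k3.1, k3.2]

end Vale.Agent.P157.IntA
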