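import Vale.Agent.P157.IntA

/-!
# P157: adding one layer
-/

namespace Vale.Agent.P157.IntA

open Vale.Agent.P168 Vale.Agent.P168.PW Finset
open scoped BigOperators

variable {K n : ℕ} {Ω 𝒜 Λ : Type} [Fintype 𝒜] [DecidableEq 𝒜] [Fintype Λ]

theorem sum_fib (pa : Λ → 𝒜) (p : Λ → Prop) [DecidablePred p] (f : 𝒜 → Λ → ℝ) :
    ∑ a, ∑ l with pa l = a ∧ p l, f a l = ∑ l with p l, f (pa l) l := by
  simp only [sum_filter]
  rw [sum_comm]
  refine sum_congr rfl fun l _ => ?_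
  by_cases h : p l <;> simp [h]

variable (L : Lay K Ω 𝒜 Λ)

/-- The signs of layer `k`. -/
def fam (k : Fin K) : Fam Λ Ω := L.s.comap fun l => (k, l)

/-- Increment of the argument of `φ a`. -/
noncomputable def zz (k : Fin K) (β : Bool) (a : 𝒜) (ω : Ω) : ℝ :=
  ∑ l with L.pa l = a ∧ L.ty l = β, sp ((fam L k).τ l ω) * (L.u l ω / Real.sqrt K)

/-- First order part of the energy increment. -/
noncomputable def D1 (C : Fin K → Option Bool) (k : Fin K) (β : Bool) (ω : Ω) : ℝ :=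
  ∑ l with L.ty l = β, sp ((fam L k).τ l ω) * (L.d1 C l ω / Real.sqrt K)

/-- Second order part of the energy increment. -/
noncomputable def D2 (C : Fin K → Option Bool) (k : Fin K) (β : Bool) (ω : Ω) : ℝ :=
  (∑ a, L.φ a ω 2 (L.Z C a ω) * zz L k β a ω ^ 2) / 2 + L.R β ω / K

/-- The energy increment. -/
noncomputable def DD (C : Fin K → Option Bool) (k : Fin K) (β : Bool) (ω : Ω) : ℝ :=
  ∑ a, (L.φ a ω 0 (L.Z C a ω + zz L k β a ω) - L.φ a ω 0 (L.Z C a ω)) + L.R β ω / K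

variable {L} {C : Fin K → Option Bool} {k : Fin K}

theorem sum_update {f : Fin K → Option Bool → ℝ} (hC : C k = none) (hf : f k none = 0)
    (o : Option Bool) :
    ∑ i, f i (Function.update C k o i) = ∑ i, f i (C i) + f k o := by
  rw [← add_sum_erase _ _ (mem_univ k), ← add_sum_erase _ (fun i => f i (C i)) (mem_univ k),
    Function.update_self, hC, hf, zero_add, add_comm]
  congr 1
  exact sum_congr rfl fun i hi => by rw [Function.update_of_ne (ne_of_mem_erase hi)]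

omit [Fintype 𝒜] in
theorem Z_update (hC : C k = none) (β : Bool) (a : 𝒜) (ω : Ω) :
    L.Z (Function.update C k (some β)) a ω = L.Z C a ω + zz L k β a ω := by
  have := sum_update (f := fun i o => ∑ l with L.pa l = a ∧ o = some (L.ty l),
    sp (L.s.τ (i, l) ω) * L.u l ω / Real.sqrt K) hC (by simp) (some β)
  simp only [Lay.Z, this, zz, add_assoc]
  congr 2
  refine sum_congr ?_ fun l _ => by rw [mul_div_assoc]; rfl
  ext l; simp [eq_comm]

theorem G_update (hC : C k = none) (β : Bool) (ω : Ω) :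
    L.G (Function.update C k (some β)) ω = L.G C ω + DD L C k β ω := by
  have := sum_update (f := fun _ o => o.elim 0 fun β => L.R β ω) hC rfl (some β)
  simp only [Lay.G, this, Z_update hC, DD, Option.elim_some, sum_sub_distrib]
  ring

theorem sum_phi_zz (β : Bool) (ω : Ω) :
    ∑ a, L.φ a ω 1 (L.Z C a ω) * zz L k β a ω = D1 L C k β ω := by
  simp only [zz, mul_sum]
  rw [sum_fib L.pa (fun l => L.ty l = β)]
  exact sum_congr rfl fun l _ => by rw [Lay.d1]; ring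

theorem sum_abs_zz {U : ℝ} {ω : Ω} (hU : ∑ l, |L.u l ω| ≤ U) (β : Bool) :
    ∑ a, |zz L k β a ω| ≤ U / Real.sqrt K := by
  have h1 : ∀ a, |zz L k β a ω| ≤ ∑ l with L.pa l = a ∧ L.ty l = β, |L.u l ω| / Real.sqrt K :=
    fun a => (abs_sum_le_sum_abs _ _).trans (le_of_eq (sum_congr rfl fun l _ => by
      rw [abs_mul, abs_sp, one_mul, abs_div, abs_of_nonneg (Real.sqrt_nonneg _)]))
  refine (sum_le_sum fun a _ => h1 a).trans ?_
  rw [sum_fib L.pa (fun l => L.ty l = β) fun _ l => |L.u l ω| / Real.sqrt K, ← sum_div]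
  refine div_le_div_of_nonneg_right (le_trans ?_ hU) (Real.sqrt_nonneg _)
  exact sum_le_sum_of_subset_of_nonneg (filter_subset _ _) fun _ _ _ => abs_nonneg _

omit [DecidableEq 𝒜] in
theorem sum_pow_le {x : 𝒜 → ℝ} {y : ℝ} (h : ∑ a, |x a| ≤ y) (m : ℕ) :
    ∑ a, |x a| ^ (m + 1) ≤ y ^ (m + 1) := by
  have h0 : 0 ≤ y := (sum_nonneg fun _ _ => abs_nonneg _).trans h
  have h1 : ∀ a, |x a| ≤ y := fun a =>
    (single_le_sum (f := fun a => |x a|) (fun _ _ => abs_nonneg _) (mem_univ a)).trans h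
  calc ∑ a, |x a| ^ (m + 1) ≤ ∑ a, y ^ m * |x a| := sum_le_sum fun a _ => by
        rw [pow_succ]; gcongr; exact h1 a
    _ ≤ y ^ (m + 1) := by rw [← mul_sum, pow_succ]; gcongr

variable [Fintype Ω] {P : Ch Ω} {ρ : PW Ω} {c W U : ℝ}

theorem abs_D1_le (h : L.Ok c W P ρ) (hc : 0 ≤ c) {ω : Ω} (hU : ∑ l, |L.u l ω| ≤ U) (β : Bool) :
    |D1 L C k β ω| ≤ c * (U / Real.sqrt K) := by
  rw [← sum_phi_zz]
  refine (abs_sum_le_sum_abs _ _).trans ((sum_le_sum fun a _ =>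
    abs_mul_le' ((h.sm a ω).2 1 le_rfl (by norm_num) _) le_rfl).trans ?_)
  rw [← mul_sum]
  exact mul_le_mul_of_nonneg_left (sum_abs_zz hU β) hc

theorem abs_D2_le (h : L.Ok c W P ρ) (hc : 0 ≤ c) {ω : Ω} (hU : ∑ l, |L.u l ω| ≤ U) (β : Bool) :
    |D2 L C k β ω| ≤ c * (U / Real.sqrt K) ^ 2 / 2 + W / K := by
  refine (abs_add_le _ _).trans (add_le_add ?_ ?_)
  · rw [abs_div, abs_two]
    refine div_le_div_of_nonneg_right ?_ zero_le_two
    refine (abs_sum_le_sum_abs _ _).trans ((sum_le_sum fun a _ =>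
      abs_mul_le' ((h.sm a ω).2 2 (by norm_num) (by norm_num) _) (abs_pow _ _).le).trans ?_)
    rw [← mul_sum]
    exact mul_le_mul_of_nonneg_left (sum_pow_le (sum_abs_zz hU β) 1) hc
  · rw [abs_div, Nat.abs_cast]
    exact div_le_div_of_nonneg_right (h.bd_R β ω) (Nat.cast_nonneg _)

theorem abs_D3_le (h : L.Ok c W P ρ) (hc : 0 ≤ c) {ω : Ω} (hU : ∑ l, |L.u l ω| ≤ U) (β : Bool) :
    |DD L C k β ω - D1 L C k β ω - D2 L C k β ω| ≤ c * (U / Real.sqrt K) ^ 3 := by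
  have e : DD L C k β ω - D1 L C k β ω - D2 L C k β ω =
      ∑ a, (L.φ a ω 0 (L.Z C a ω + zz L k β a ω) - L.φ a ω 0 (L.Z C a ω) -
        L.φ a ω 1 (L.Z C a ω) * zz L k β a ω - L.φ a ω 2 (L.Z C a ω) * zz L k β a ω ^ 2 / 2) := by
    rw [← sum_phi_zz, DD, D2, sum_sub_distrib _ (fun a => _ / 2), sum_sub_distrib _ (fun a => _ * _),
      ← sum_div]
    ring
  rw [e]
  refine (abs_sum_le_sum_abs _ _).trans ((sum_le_sum fun a _ => Sm_taylor (h.sm a ω) _ _).trans ?_)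
  rw [← mul_sum]
  exact mul_le_mul_of_nonneg_left (sum_pow_le (sum_abs_zz hU β) 2) hc

omit [Fintype 𝒜] [DecidableEq 𝒜] in
theorem fam_ok (h : L.Ok c W P ρ) (k : Fin K) : (fam L k).Ok P ρ :=
  h.ok.comap fun _ _ e => (Prod.ext_iff.mp e).2

omit [Fintype 𝒜] [DecidableEq 𝒜] [Fintype Λ] [Fintype Ω] in
theorem fam_inv {β : Type} {F : Ω → β} (hF : L.s.Inv F) (k : Fin K) : (fam L k).Inv F :=
  fun l ω => hF (k, l) ω

omit [Fintype 𝒜] in
theorem inv_Z (h : L.Ok c W P ρ) (hC : C k = none) (a : 𝒜) : (fam L k).Inv (L.Z C a) := by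
  intro l ω
  simp only [Lay.Z, fam_inv (h.inv_S a) k l ω]
  congr 1
  refine sum_congr rfl fun i _ => sum_congr rfl fun l' hl' => ?_
  have hik : (k, l) ≠ (i, l') := fun e => by
    obtain rfl : k = i := (Prod.ext_iff.mp e).1
    simp [hC] at hl'
  rw [fam_inv (h.inv_u l') k l ω]
  exact congrArg (fun b => sp b * L.u l' ω / Real.sqrt K) (h.ok.ne _ _ hik ω)

theorem inv_G (h : L.Ok c W P ρ) (hC : C k = none) : (fam L k).Inv (L.G C) := by
  intro l ω
  simp only [Lay.G, fam_inv (h.inv_S _) k l ω, fam_inv (h.inv_φ _) k l ω, inv_Z h hC _ l ω,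
    fam_inv (h.inv_R _) k l ω]

omit [Fintype 𝒜] in
theorem inv_d1 (h : L.Ok c W P ρ) (hC : C k = none) (l : Λ) :
    (fam L k).Inv fun ω => L.d1 C l ω / Real.sqrt K := by
  intro l' ω
  simp only [Lay.d1, fam_inv (h.inv_u _) k l' ω, fam_inv (h.inv_φ _) k l' ω, inv_Z h hC _ l' ω]

theorem Eh_D2 (h : L.Ok c W P ρ) (hC : C k = none) {Q : Ch Ω} (hQ : (fam L k).Ok Q ρ)
    {w : Ω → ℝ} (hw : (fam L k).Inv w) (β : Bool) :
    Eh n Q ρ 0 (fun ω => w ω * D2 L C k β ω) =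
      Eh n Q ρ 0 fun ω => w ω * ((L.R β ω + (∑ l with L.ty l = β, L.d2 C l ω) / 2) / K) := by
  have h1 : ∀ a, Eh n Q ρ 0 (fun ω => w ω * L.φ a ω 2 (L.Z C a ω) * zz L k β a ω ^ 2) =
      Eh n Q ρ 0 fun ω => w ω * L.φ a ω 2 (L.Z C a ω) *
        ∑ l with L.pa l = a ∧ L.ty l = β, (L.u l ω / Real.sqrt K) ^ 2 := fun a =>
    Eh_quad hQ _ (F := fun l ω => L.u l ω / Real.sqrt K)
      (fun l l' ω => by simp only [fam_inv (h.inv_u _) k l' ω])
      (w := fun ω => w ω * L.φ a ω 2 (L.Z C a ω))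
      (fun l' ω => by simp only [fam_inv (h.inv_φ _) k l' ω, inv_Z h hC _ l' ω, hw l' ω]) 0
  have h2 := sum_congr (s₁ := univ) rfl fun a _ => h1 a
  rw [← Eh_sum, ← Eh_sum] at h2
  rw [Eh_congr (G := fun ω => (1 / 2) * (∑ a, w ω * L.φ a ω 2 (L.Z C a ω) * zz L k β a ω ^ 2) +
    w ω * (L.R β ω / K)) fun ω => by simp only [D2, mul_assoc, ← mul_sum]; ring,
    Eh_add, Eh_const_mul, h2, ← Eh_const_mul, ← Eh_add]
  refine Eh_congr fun ω => ?_
  rw [sum_congr rfl fun a _ => mul_sum _ _ _, sum_fib L.pa (fun l => L.ty l = β)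
    fun a l => w ω * L.φ a ω 2 (L.Z C a ω) * (L.u l ω / Real.sqrt K) ^ 2,
    sum_congr rfl (g := fun l => w ω / K * L.d2 C l ω) fun l _ => by
      rw [div_pow, Real.sq_sqrt (Nat.cast_nonneg K), Lay.d2]; ring, ← mul_sum]
  ring

end Vale.Agent.P157.IntA
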