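import Vale.Agent.P157.IntB

/-!
# P157: effect of one layer on the free energy and on exponential moments
-/

namespace Vale.Agent.P157.IntA

open Vale.Agent.P168 Vale.Agent.P168.PW Finset
open scoped BigOperators

theorem ev_small (A δ : ℝ) (hδ : 0 < δ) :
    ∃ K0 : ℕ, ∀ K : ℕ, K0 ≤ K → 1 ≤ K ∧ A * (Real.sqrt K)⁻¹ ≤ δ := by
  refine ⟨⌈(A / δ) ^ 2⌉₊ + 1, fun K hK => ⟨by omega, ?_⟩⟩
  have h1 : (A / δ) ^ 2 ≤ K := (Nat.le_ceil _).trans (by exact_mod_cast (by omega))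
  have h2 : (0 : ℝ) < Real.sqrt K := Real.sqrt_pos.mpr (by exact_mod_cast (by omega))
  have h3 : A / δ ≤ Real.sqrt K := Real.le_sqrt_of_sq_le h1
  rw [← div_eq_mul_inv, div_le_iff₀ h2]
  rwa [div_le_iff₀ hδ, mul_comm] at h3

theorem r_sq (K : ℕ) : (Real.sqrt K)⁻¹ ^ 2 = (K : ℝ)⁻¹ := by
  rw [inv_pow, Real.sq_sqrt (Nat.cast_nonneg K)]

theorem r_le_one {K : ℕ} (h : 1 ≤ K) : (Real.sqrt K)⁻¹ ≤ 1 :=
  inv_le_one_of_one_le₀ (Real.one_le_sqrt.mpr (by exact_mod_cast h))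

/-- Constant of the second order bound. -/
noncomputable def B2 (c W U : ℝ) : ℝ := c * U ^ 2 / 2 + W + c * U ^ 3

/-- Constant of the first order bound. -/
noncomputable def B1 (c W U : ℝ) : ℝ := c * U + B2 c W U

variable {K n : ℕ} {Ω 𝒜 Λ : Type} [Fintype 𝒜] [DecidableEq 𝒜] [Fintype Λ] [Fintype Ω]
  {L : Lay K Ω 𝒜 Λ} {C : Fin K → Option Bool} {k : Fin K} {P : Ch Ω} {ρ : PW Ω} {c W U : ℝ}

omit [Fintype 𝒜] [DecidableEq 𝒜] in
theorem ok_abs (h : L.Ok c W P ρ) : L.Ok |c| W P ρ :=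
  { h with sm := fun a ω => ⟨(h.sm a ω).1, fun i h1 h2 x =>
      ((h.sm a ω).2 i h1 h2 x).trans (le_abs_self c)⟩ }

omit [Fintype 𝒜] [DecidableEq 𝒜] in
theorem W_nonneg (h : L.Ok c W P ρ) : 0 ≤ W := by
  obtain ⟨ω⟩ := ρ.nonempty
  exact (abs_nonneg _).trans (h.bd_R true ω)

omit [Fintype 𝒜] [DecidableEq 𝒜] in
theorem sum_abs_u (h : L.Ok c W P ρ) {m : ℕ} (hm : Fintype.card Λ ≤ m) (ω : Ω) :
    ∑ l, |L.u l ω| ≤ m + W := by
  have h1 : ∀ l, |L.u l ω| ≤ 1 + L.u l ω ^ 2 := fun l => by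
    rw [abs_le]; constructor <;> nlinarith [sq_nonneg (L.u l ω + 1), sq_nonneg (L.u l ω - 1)]
  refine (sum_le_sum fun l _ => h1 l).trans ?_
  rw [sum_add_distrib]
  refine add_le_add ?_ (h.bd_u ω)
  simpa using hm

section
variable (h : L.Ok c W P ρ) (hc : 0 ≤ c) (hU : ∀ ω, ∑ l, |L.u l ω| ≤ U) (hK : 1 ≤ K)
include h hc hU hK

theorem abs_DD_sub (β : Bool) (ω : Ω) :
    |DD L C k β ω - D1 L C k β ω| ≤ B2 c W U * (Real.sqrt K)⁻¹ ^ 2 := by
  have h2 := abs_D2_le (C := C) (k := k) h hc (hU ω) β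
  have h3 := abs_D3_le (C := C) (k := k) h hc (hU ω) β
  have hU0 : 0 ≤ U := (sum_nonneg fun _ _ => abs_nonneg _).trans (hU ω)
  rw [div_eq_mul_inv U, div_eq_mul_inv W, ← r_sq] at h2
  rw [div_eq_mul_inv U] at h3
  have r1 := r_le_one hK
  have r0 : 0 ≤ (Real.sqrt K)⁻¹ := by positivity
  generalize (Real.sqrt K)⁻¹ = r at *
  have : c * U ^ 3 * r ^ 2 * r ≤ c * U ^ 3 * r ^ 2 := mul_le_of_le_one_right (by positivity) r1
  rw [abs_le] at h2 h3 ⊢
  unfold B2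
  constructor <;> nlinarith [h2.1, h2.2, h3.1, h3.2]

omit hK [Fintype 𝒜] [DecidableEq 𝒜] in
theorem B2_nonneg : 0 ≤ B2 c W U := by
  obtain ⟨ω⟩ := ρ.nonempty
  have hU0 : 0 ≤ U := (sum_nonneg fun _ _ => abs_nonneg _).trans (hU ω)
  have := W_nonneg h
  unfold B2; positivity

omit hK in
theorem abs_D1_le' (β : Bool) (ω : Ω) : |D1 L C k β ω| ≤ B1 c W U * (Real.sqrt K)⁻¹ := by
  refine (abs_D1_le h hc (hU ω) β).trans ?_
  have := B2_nonneg h hc hU
  rw [div_eq_mul_inv, ← mul_assoc, B1]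
  gcongr; linarith

theorem abs_DD_le (β : Bool) (ω : Ω) : |DD L C k β ω| ≤ B1 c W U * (Real.sqrt K)⁻¹ := by
  have h1 := abs_D1_le (C := C) (k := k) h hc (hU ω) β
  have h2 := abs_DD_sub (C := C) (k := k) h hc hU hK β ω
  have h3 := B2_nonneg h hc hU
  rw [div_eq_mul_inv U] at h1
  have r1 := r_le_one hK
  have r0 : 0 ≤ (Real.sqrt K)⁻¹ := by positivity
  generalize (Real.sqrt K)⁻¹ = r at *
  have : B2 c W U * r * r ≤ B2 c W U * r := mul_le_of_le_one_right (by positivity) r1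
  rw [abs_le] at h1 h2 ⊢
  unfold B1
  constructor <;> nlinarith [h2.1, h2.2, h1.1, h1.2]

theorem Fr_update (hC : C k = none) (hb : B1 c W U * (Real.sqrt K)⁻¹ ≤ 1 / 2) (β : Bool) :
    |Fr n P ρ (L.G (Function.update C k (some β))) - Fr n P ρ (L.G C) - L.inc n P ρ C β / K| ≤
      (48 * B1 c W U ^ 3 + 2 * (B1 c W U * B2 c W U) + c * U ^ 3) * (Real.sqrt K)⁻¹ ^ 3 := by
  have hQ := (fam_ok h k).Tn (n := n) (inv_G h hC)
  have k1 := Fr_layer (n := n) hQ (univ.filter fun l => L.ty l = β) (inv_d1 h hC) hb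
    (abs_DD_le (C := C) (k := k) h hc hU hK β) (abs_D1_le' h hc hU β) (abs_DD_sub h hc hU hK β)
  have k2 := Eh_D2 (n := n) h hC hQ (w := fun _ => 1) (fun _ _ => rfl) β
  have k3 := abs_Eh_le_const (n := n) (P := Tn n P (L.G C)) (ρ := ρ) (j := 0)
    fun ω => abs_D3_le (C := C) (k := k) h hc (hU ω) β
  simp only [one_mul] at k2
  rw [Eh_sub, k2, div_eq_mul_inv U] at k3
  rw [funext (G_update hC β), Fr_add]
  have e : L.inc n P ρ C β / K = Eh n (Tn n P (L.G C)) ρ 0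
      (fun ω => (L.R β ω + (∑ l with L.ty l = β, L.d2 C l ω) / 2) / K) +
      (Eh n (Tn n P (L.G C)) ρ 0 (fun ω => ∑ l with L.ty l = β, (L.d1 C l ω / Real.sqrt K) ^ 2) -
        wt n * ∑ j ∈ Icc 1 (n + 1), E2 n (Tn n P (L.G C)) ρ j fun x y =>
          ∑ l ∈ univ.filter (fun l => L.ty l = β) with j ≤ (fam L k).lv l,
            L.d1 C l x / Real.sqrt K * (L.d1 C l y / Real.sqrt K)) / 2 := by
    have e1 : ∀ j, (E2 n (Tn n P (L.G C)) ρ j fun x y =>
          ∑ l ∈ univ.filter (fun l => L.ty l = β) with j ≤ (fam L k).lv l,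
            L.d1 C l x / Real.sqrt K * (L.d1 C l y / Real.sqrt K)) =
        (K : ℝ)⁻¹ * E2 n (Tn n P (L.G C)) ρ j fun x y =>
          ∑ l with L.ty l = β ∧ j ≤ L.lv l, L.d1 C l x * L.d1 C l y := fun j => by
      rw [← E2_const_mul]
      refine E2_congr fun x y => ?_
      rw [mul_sum, filter_filter]
      refine sum_congr ?_ fun l _ => ?_
      · ext l; simp [fam, Fam.comap, h.lv]
      · rw [← r_sq]; ring
    have e2 : Eh n (Tn n P (L.G C)) ρ 0
        (fun ω => (L.R β ω + (∑ l with L.ty l = β, L.d2 C l ω) / 2) / K) +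
        Eh n (Tn n P (L.G C)) ρ 0
          (fun ω => ∑ l with L.ty l = β, (L.d1 C l ω / Real.sqrt K) ^ 2) / 2 =
        (K : ℝ)⁻¹ * Eh n (Tn n P (L.G C)) ρ 0 (fun ω => L.R β ω +
          (∑ l with L.ty l = β, (L.d2 C l ω + L.d1 C l ω ^ 2)) / 2) := by
      rw [div_eq_inv_mul _ (2 : ℝ), ← Eh_const_mul, ← Eh_const_mul, ← Eh_add]
      refine Eh_congr fun ω => ?_
      simp only [div_pow, Real.sq_sqrt (Nat.cast_nonneg K), ← sum_div, sum_add_distrib]
      ring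
    simp only [e1, ← mul_sum]
    rw [Lay.inc]
    linear_combination -e2
  rw [e]
  rw [abs_le] at k1 k3 ⊢
  simp only [D1] at k3
  constructor <;> linarith [k1.1, k1.2, k3.1, k3.2]

theorem mom_update (hC : C k = none) {t : ℝ} (hb : |t| * B1 c W U * (Real.sqrt K)⁻¹ ≤ 1)
    (hb' : (|t| * (c * U ^ 3) + 2 * t ^ 2 * B2 c W U ^ 2) * (Real.sqrt K)⁻¹ ≤ 1) (β : Bool) :
    Eh n P ρ 0 (fun ω => Real.exp (t * L.G (Function.update C k (some β)) ω)) ≤
      (1 + (|t| * (W + c * W / 2) + 2 * t ^ 2 * (c ^ 2 * W) + 1) / K) *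
        Eh n P ρ 0 fun ω => Real.exp (t * L.G C ω) := by
  have hQ := fam_ok h k
  have hw : (fam L k).Inv fun ω => Real.exp (t * L.G C ω) := fun l ω => by
    simp only [inv_G h hC l ω]
  have k1 := Eh_lin (n := n) hQ (univ.filter fun l => L.ty l = β) (inv_d1 h hC) hw 0
  have k2 := Eh_D2 (n := n) h hC hQ hw β
  have k3 := Eh_quad (n := n) hQ (univ.filter fun l => L.ty l = β) (inv_d1 h hC) hw 0
  have r1 := r_le_one hK
  have r0 : 0 ≤ (Real.sqrt K)⁻¹ := by positivity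
  have p1 : ∀ ω, Real.exp (t * L.G (Function.update C k (some β)) ω) ≤
      (1 + (K : ℝ)⁻¹) * Real.exp (t * L.G C ω) + (t * (Real.exp (t * L.G C ω) * D1 L C k β ω) +
        (t * (Real.exp (t * L.G C ω) * D2 L C k β ω) +
          2 * t ^ 2 * (Real.exp (t * L.G C ω) * D1 L C k β ω ^ 2))) := fun ω => by
    have a1 := abs_DD_le (C := C) (k := k) h hc hU hK β ω
    have a2 := abs_DD_sub (C := C) (k := k) h hc hU hK β ω
    have a3 := abs_D3_le (C := C) (k := k) h hc (hU ω) β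
    have a4 := (abs_le.mp (Real.abs_exp_sub_one_sub_id_le (x := t * DD L C k β ω)
      ((abs_mul_le' le_rfl a1).trans (by linarith)))).2
    have a5 := (abs_le.mp (abs_mul_le' (le_refl |t|) a3)).2
    have a6 := sq_le_sq' (abs_le.mp a2).1 (abs_le.mp a2).2
    rw [G_update hC, mul_add, Real.exp_add, ← r_sq]
    rw [div_eq_mul_inv U] at a5
    generalize (Real.sqrt K)⁻¹ = r at *
    have a7 : Real.exp (t * DD L C k β ω) ≤ 1 + r ^ 2 + (t * D1 L C k β ω + (t * D2 L C k β ω +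
        2 * t ^ 2 * D1 L C k β ω ^ 2)) := by
      have b1 : DD L C k β ω ^ 2 ≤ 2 * D1 L C k β ω ^ 2 + 2 * (B2 c W U * r ^ 2) ^ 2 := by
        nlinarith [sq_nonneg (DD L C k β ω - 2 * D1 L C k β ω)]
      have b2 := mul_le_mul_of_nonneg_left b1 (sq_nonneg t)
      have b3 := mul_le_mul_of_nonneg_right hb' (sq_nonneg r)
      have b4 : t ^ 2 * B2 c W U ^ 2 * r ^ 3 * r ≤ t ^ 2 * B2 c W U ^ 2 * r ^ 3 :=
        mul_le_of_le_one_right (by positivity) r1
      nlinarith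
    refine (mul_le_mul_of_nonneg_left a7 (Real.exp_pos _).le).trans (le_of_eq (by ring))
  have p2 : ∀ ω, t * (Real.exp (t * L.G C ω) *
      ((L.R β ω + (∑ l with L.ty l = β, L.d2 C l ω) / 2) / K)) ≤
      |t| * (W + c * W / 2) / K * Real.exp (t * L.G C ω) := fun ω => by
    have a1 : |∑ l with L.ty l = β, L.d2 C l ω| ≤ c * W := by
      refine (abs_sum_le_sum_abs _ _).trans ((sum_le_sum_of_subset_of_nonneg (filter_subset _ _)
        fun _ _ _ => abs_nonneg _).trans ((sum_le_sum fun l _ => abs_mul_le'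
          ((h.sm _ ω).2 2 (by norm_num) (by norm_num) _) (abs_sq _).le).trans ?_))
      rw [← mul_sum]
      exact mul_le_mul_of_nonneg_left (h.bd_u ω) hc
    have a2 : |L.R β ω + (∑ l with L.ty l = β, L.d2 C l ω) / 2| ≤ W + c * W / 2 := by
      have := h.bd_R β ω
      rw [abs_le] at this a1 ⊢
      constructor <;> linarith [this.1, this.2, a1.1, a1.2]
    have a3 := (abs_le.mp (abs_mul_le' (le_refl |t|) a2)).2
    have a4 : 0 ≤ Real.exp (t * L.G C ω) / K := by positivity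
    refine le_trans (le_of_eq (by ring)) ((mul_le_mul_of_nonneg_left a3 a4).trans
      (le_of_eq (by ring)))
  have p3 : ∀ ω, 2 * t ^ 2 * (Real.exp (t * L.G C ω) *
      ∑ l with L.ty l = β, (L.d1 C l ω / Real.sqrt K) ^ 2) ≤
      2 * t ^ 2 * (c ^ 2 * W) / K * Real.exp (t * L.G C ω) := fun ω => by
    have a1 : ∑ l with L.ty l = β, L.d1 C l ω ^ 2 ≤ c ^ 2 * W := by
      refine (sum_le_sum_of_subset_of_nonneg (filter_subset _ _) fun _ _ _ => sq_nonneg _).trans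
        ((sum_le_sum (g := fun l => c ^ 2 * L.u l ω ^ 2) fun l _ => ?_).trans ?_)
      · have := abs_le.mp ((h.sm (L.pa l) ω).2 1 le_rfl (by norm_num) (L.Z C (L.pa l) ω))
        rw [Lay.d1, mul_pow]
        exact mul_le_mul_of_nonneg_right (sq_le_sq' this.1 this.2) (sq_nonneg _)
      · rw [← mul_sum]
        exact mul_le_mul_of_nonneg_left (h.bd_u ω) (sq_nonneg c)
    simp only [div_pow, Real.sq_sqrt (Nat.cast_nonneg K), ← sum_div]
    have a4 : 0 ≤ 2 * t ^ 2 * Real.exp (t * L.G C ω) / K := by positivity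
    refine le_trans (le_of_eq (by ring)) ((mul_le_mul_of_nonneg_left a1 a4).trans
      (le_of_eq (by ring)))
  have q1 := Eh_mono (n := n) (P := P) (ρ := ρ) (j := 0) p1
  have q2 := Eh_mono (n := n) (P := P) (ρ := ρ) (j := 0) p2
  have q3 := Eh_mono (n := n) (P := P) (ρ := ρ) (j := 0) p3
  simp only [Eh_add, Eh_const_mul] at q1 q2 q3
  rw [k2] at q1
  simp only [D1] at q1
  rw [k1, k3] at q1
  refine q1.trans ?_
  refine le_trans (add_le_add le_rfl (add_le_add le_rfl (add_le_add q2 q3))) (le_of_eq (by ring))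

end

end Vale.Agent.P157.IntA
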