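import Vale.Agent.P157.LBW

/-!
# P157: the lower bound
-/

namespace Vale.Agent.P157

open Vale.Agent.P168 Vale.Agent.P168.PW Finset MeasureTheory Filter Topology
open scoped BigOperators

set_option synthInstance.maxSize 8192

theorem ev_small (a : ℝ) {b : ℝ} (hb : 0 < b) : ∀ᶠ x in 𝓝[>] (0 : ℝ), a * x ≤ b :=
  ((continuous_const.mul continuous_id).tendsto' 0 0 (by simp)).eventually_le_const hb
    |>.filter_mono nhdsWithin_le_nhds

theorem ev_sqrt (a : ℝ) {b : ℝ} (hb : 0 < b) : ∀ᶠ N : ℕ in atTop, a / Real.sqrt N ≤ b :=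
  (tendsto_const_nhds.div_atTop
    (Real.tendsto_sqrt_atTop.comp tendsto_natCast_atTop_atTop)).eventually_le_const hb

theorem coarse {ω : ℝ} (hω : 0 < ω) : ∃ Q n1 : ℕ, ∀ n, n1 ≤ n → ∃ T : Finset ℕ, T.card ≤ Q ∧
    ∀ l, l ≤ n + 1 → ∃ l0 ∈ T, l0 ≤ l ∧ l0 ≤ n ∧ ((l : ℝ) - l0) * wt n ≤ ω := by
  obtain ⟨Q, hQ⟩ := exists_nat_ge (1 / ω)
  rw [div_le_iff₀ hω] at hQ
  refine ⟨2 * Q + 1, Q, fun n hn => ?_⟩
  have hn' : (Q : ℝ) ≤ n := by exact_mod_cast hn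
  obtain ⟨m, hm⟩ : ∃ m, m = ⌊ω * (n + 1)⌋₊ := ⟨_, rfl⟩
  have h1 : (m : ℝ) ≤ ω * (n + 1) := hm ▸ Nat.floor_le (by positivity)
  have h2 : ω * (n + 1) < m + 1 := hm ▸ Nat.lt_floor_add_one _
  have h3 : 1 ≤ m := hm ▸ Nat.le_floor (by push_cast; nlinarith)
  have h4 : n ≤ 2 * Q * m := by
    have : (1 : ℝ) ≤ m := by exact_mod_cast h3
    have : (n : ℝ) ≤ 2 * Q * m := by nlinarith [Nat.cast_nonneg (α := ℝ) Q]
    exact_mod_cast this
  refine ⟨(range (2 * Q + 1)).image (· * m), card_image_le.trans (card_range _).le, fun l hl => ?_⟩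
  have h5 := Nat.div_add_mod' (min l n) m
  have h6 := Nat.mod_lt (min l n) h3
  refine ⟨min l n / m * m, mem_image_of_mem _ (mem_range.mpr (Nat.lt_succ_of_le
    (Nat.div_le_of_le_mul (by rw [mul_comm]; omega)))), by omega, by omega, ?_⟩
  have h7 : (l : ℝ) ≤ (min l n / m * m : ℕ) + m := by exact_mod_cast (by omega)
  nlinarith [wt_mul n, wt_pos n]

section
variable {n Kf cc N : ℕ} {D J : Type} [Fintype D] [Fintype J] [DecidableEq J] {ν : PW D}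
  {θ : D → J → ℝ} {F : ℕ → ℝ → ℝ} {c d : ℝ}

variable (Kf cc N ν θ F d) in
noncomputable def Fg (β γ : Fin (n + 1) → ℝ) : ℝ :=
  ∫ g, Fm n Kf ν θ F (1 / Real.sqrt (N * d)) β γ g ∂(gM (A0 N cc) (Fin N × J))

theorem Fg_close (hF : Sm c 4 F) (hθ : ∀ a, ∑ i, θ a i ^ 2 = d) (hd : 0 < d) (hN : 0 < N) {δ : ℝ}
    (hδ : 0 < δ) : ∃ K0 : ℕ, ∀ (κ : Type) [Fintype κ] [DecidableEq κ], K0 ≤ Fintype.card κ →
    ∀ β γ : Fin (n + 1) → ℝ, ∑ l, |γ l| ≤ 1 → |Fg Kf cc N ν θ F d β γ -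
      FK n Kf (Fin N) (A0 N cc) κ ν θ F (1 / Real.sqrt (N * d)) β γ| ≤ δ := by
  obtain ⟨K0, h⟩ := lip_clt (A0 N cc) (Fin N × J) (2 * c) δ hδ
  refine ⟨K0, fun κ _ _ hκ β γ hγ => ?_⟩
  rw [FK_eq]
  refine h κ hκ _ (Fm_lip hF hθ ?_ β hγ)
  have : (1 : ℝ) ≤ N := by exact_mod_cast hN
  rw [abs_of_nonneg (by positivity), one_div_mul_eq_div, div_le_one (by positivity)]
  exact Real.sqrt_le_sqrt (by nlinarith)

theorem Fg_le (hF : Sm c 4 F) (hθ : ∀ a, ∑ i, θ a i ^ 2 = d) (hd : 0 < d) (hN : 0 < N) (hK : 0 < Kf)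
    (β γ : Fin (n + 1) → ℝ) (hγ : ∑ l, |γ l| ≤ 1) : Fg Kf cc N ν θ F d β γ ≤
      fZ (PW.pi fun _ : Fin N => ν) (fun σ (i : Fin N × J) => θ (σ i.1) i.2 / Real.sqrt (N * d))
        (F 0) (Fin N × Fin cc) + (N * cc * (c * ∑ l, |γ l|) + N * d * (∑ l, β l ^ 2) / 2) := by
  have h0 : ∀ g : A0 N cc → Fin N × J → ℝ, Fm n Kf ν θ F (1 / Real.sqrt (N * d)) 0 0 g =
      Real.log ((PW.pi fun _ : Fin N => ν).E fun σ =>
        Real.exp (∑ a, F 0 (∑ i, g a i * (θ (σ i.1) i.2 * (1 / Real.sqrt (N * d)))))) := fun g => by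
    rw [← FU_nosign (n := n) _ (lvf : Lf n Kf J (Fin N) (A0 N cc) → ℕ)]
    simp [Fm, Ef]
  refine le_of_forall_pos_le_add fun δ hδ => ?_
  obtain ⟨K0, h⟩ := Fg_close (n := n) (Kf := Kf) (cc := cc) (ν := ν) hF hθ hd hN (half_pos hδ)
  have h1 := (abs_le.mp (h (Fin K0) (by simp) β γ hγ)).2
  have h2 := (abs_le.mp (h (Fin K0) (by simp) 0 0 (by simp))).1
  have h3 := E_mono (unif (A0 N cc × (Fin N × J) × Fin K0 → Bool)) fun ξ =>
    Fm_le (ν := ν) hF hθ hK (1 / Real.sqrt (N * d)) β γ fun a i => Wk fun k => ξ (a, i, k)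
  simp only [← h0, E_add_const, ← FK_eq, Fintype.card_prod, Fintype.card_fin, Nat.cast_mul] at h3
  simp only [Fg, h0, mul_one_div] at h2
  rw [fZ]
  linarith

end

theorem lb_num {c d N N1 cc n R η η2 : ℝ} (hc : 0 ≤ c) (hd : 1 ≤ d) (hN : 1 ≤ N) (hN1 : N ≤ N1)
    (hn : 0 ≤ n) (hR : 0 ≤ R) :
    1 / Real.sqrt (N1 * d) ≤ 1 / Real.sqrt N ∧ (n + 1) * R * (16 * c * Real.sqrt (N * cc) + (n + 1)) *
      (1 / (N * d) / η ^ 2 + (1 / Real.sqrt (N1 * d)) ^ 2 / η2 ^ 2) ≤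
      (n + 1) * R * (16 * c * Real.sqrt cc + (n + 1)) * (1 / η ^ 2 + 1 / η2 ^ 2) / Real.sqrt N := by
  have h0 : 0 < N := by linarith
  have h1 : 1 / Real.sqrt (N1 * d) ≤ 1 / Real.sqrt N :=
    one_div_le_one_div_of_le (by positivity) (Real.sqrt_le_sqrt (by nlinarith))
  refine ⟨h1, ?_⟩
  have h2 : 1 ≤ Real.sqrt N := Real.one_le_sqrt.mpr hN
  have h3 : 1 / (N * d) ≤ (1 / Real.sqrt N) ^ 2 := by
    rw [div_pow, Real.sq_sqrt h0.le, one_pow]
    exact one_div_le_one_div_of_le h0 (by nlinarith)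
  rw [Real.sqrt_mul h0.le]
  calc _ ≤ (n + 1) * R * (16 * c * (Real.sqrt N * Real.sqrt cc) + (n + 1) * Real.sqrt N) *
      ((1 / Real.sqrt N) ^ 2 / η ^ 2 + (1 / Real.sqrt N) ^ 2 / η2 ^ 2) := by
        gcongr
        exact le_mul_of_one_le_right (by positivity) h2
    _ = _ := by field_simp

theorem lb_tel {G : ℕ → ℝ} {N0 : ℕ} {a b : ℝ} (st : ∀ N, N0 ≤ N → G N + a ≤ G (N + 1)) (hb : 0 < b) :
    ∀ᶠ N : ℕ in atTop, N * a - N * b ≤ G N := by
  have tel : ∀ k : ℕ, G N0 + k * a ≤ G (N0 + k) := fun k => by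
    induction k with
    | zero => simp
    | succ k ih => have := st (N0 + k) (by omega); push_cast; rw [← add_assoc]; linarith
  filter_upwards [eventually_ge_atTop N0, (tendsto_natCast_atTop_atTop.atTop_mul_const
    hb).eventually_ge_atTop (N0 * a - G N0)] with N h1 h3
  obtain ⟨k, rfl⟩ := Nat.exists_eq_add_of_le h1
  have := tel k
  push_cast at h3 ⊢
  linarith

set_option maxHeartbeats 800000 in
theorem lb (c α ε : ℝ) (hε : 0 < ε) : ∃ ε0 V : ℝ, 0 < ε0 ∧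
    ∀ (D J : Type) [Fintype D] [Fintype J] [DecidableEq J] (ν : PW D) (θ : D → J → ℝ) (d : ℝ)
      (cc : ℕ), 1 ≤ d → (∀ a, ∑ i, θ a i ^ 2 = d) → cc ≤ α * d → ∃ n0 : ℕ, ∀ n, n0 ≤ n →
      ∀ (F : ℕ → ℝ → ℝ) (L : ℝ), Sm c 4 F → (∀ x, |F 0 x| ≤ c) →
        HL n (cc / d) (F 0) ν θ d L ε0 V → ∀ᶠ N : ℕ in atTop, N * d * (L - ε) ≤
          fZ (PW.pi fun _ : Fin N => ν)
            (fun σ (i : Fin N × J) => θ (σ i.1) i.2 / Real.sqrt (N * d)) (F 0) (Fin N × Fin cc) := by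
  obtain ⟨ω, hω, h2⟩ := step2 c α (ε / 8) (by positivity)
  obtain ⟨Q, n1, hQ⟩ := coarse hω
  obtain ⟨ε1, hε1, a1, a2⟩ : ∃ ε1 : ℝ, 0 < ε1 ∧ ε1 ≤ 1 / 8 ∧ ε1 ≤ ε / 8 :=
    ⟨min _ _, by positivity, min_le_left _ _, min_le_right _ _⟩
  obtain ⟨η1, ⟨a3, a4⟩, hη1⟩ := (((ev_small (Q : ℝ) hε1).and (ev_small 2 one_pos)).and
    self_mem_nhdsWithin).exists
  replace hη1 : 0 < η1 := hη1
  obtain ⟨ε0, hε0, h2⟩ := h2 η1 hη1
  refine ⟨ε0, α * c ^ 2 + 1, hε0, fun D J _ _ _ ν θ d cc hd hθ hcc => ?_⟩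
  have hd0 : 0 < d := by linarith
  obtain ⟨C, hC, h2⟩ := h2 d hd
  obtain ⟨t, ht, a5⟩ : ∃ t : ℝ, 0 < t ∧ C * (7 * t) ≤ ε / 8 :=
    ⟨ε / 56 / (C + 1), by positivity, by
      rw [mul_div_assoc', mul_div_assoc', div_le_iff₀ (by positivity)]; nlinarith⟩
  obtain ⟨n2, ho⟩ := ocb c α t ht
  refine ⟨max n1 n2, fun n hn F L hF hc hH => ?_⟩
  obtain ⟨Co, hCo, ho⟩ := ho n (le_of_max_le_right hn)
  obtain ⟨T, hT, hQ⟩ := hQ n (le_of_max_le_left hn)
  obtain ⟨Kf0, h2⟩ := h2 n cc D J ν θ F L hF hc hθ hcc hH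
  have hc0 := hF.nonneg
  obtain ⟨η, ⟨b1, b2⟩, hη⟩ := (((ev_small (2 * (n + 1 : ℝ)) hε1).and (ev_small 4 one_pos)).and
    self_mem_nhdsWithin).exists
  replace hη : 0 < η := hη
  obtain ⟨η2, ⟨⟨⟨⟨b3, b4⟩, b5⟩, b6⟩, b7⟩, hη2⟩ := ((((((ev_small ((n + 1 : ℝ) * 2) one_pos).and
    (ev_small ((n + 1 : ℝ) * 2) ht)).and (ev_small (2 * c) one_half_pos)).and
    (ev_small (Co * (2 * c * (1 + α * c ^ 2) ^ 2)) ht)).and
    (ev_small (α * c * ((n + 1 : ℝ) * 2)) (show 0 < ε / 8 by positivity))).and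
    self_mem_nhdsWithin).exists
  replace hη2 : 0 < η2 := hη2
  obtain ⟨Kf, ⟨b8, b9⟩, hK⟩ := (((ev_sqrt (Real.sqrt d) one_half_pos).and (ev_sqrt
    (Co * (Real.sqrt d * (1 + Fintype.card J) ^ 2)) ht)).and (eventually_ge_atTop (Kf0 + 1))).exists
  obtain ⟨R, b10, hR⟩ := (((tendsto_const_div_atTop_nhds_zero_nat (Co * ((n + 1) *
    (4 * (Fintype.card J * Kf * (Real.sqrt d / Real.sqrt Kf) / d) / η + 4 * (α * c) / η2)))
    ).eventually_le_const ht).and (eventually_gt_atTop 0)).exists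
  have : NeZero R := ⟨hR.ne'⟩
  have hR' : (0 : ℝ) < R := by exact_mod_cast hR
  obtain ⟨N0, hN0⟩ := eventually_atTop.mp (((ev_sqrt 1 ht).and (ev_sqrt (Co * ((n + 1) * R *
    (16 * c * Real.sqrt cc + (n + 1)) * (1 / η ^ 2 + 1 / η2 ^ 2))) ht)).and (eventually_gt_atTop 0))
  obtain ⟨β0, hβ0⟩ : ∃ β0 : Fin (n + 1) → ℝ, β0 = fun l : Fin (n + 1) =>
    η + if (l : ℕ) ∈ T then η1 else 0 := ⟨_, rfl⟩
  have wβ : ∀ (z : Fin (n + 1) → Fin R) l, β0 l ≤ win β0 (η / R) z l ∧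
      win β0 (η / R) z l ≤ β0 l + η := fun z l => by
    simpa only [div_mul_cancel₀ _ hR'.ne'] using win_mem β0 (by positivity : 0 ≤ η / R) z l
  have sβ : ∀ z : Fin (n + 1) → Fin R, ∑ l, win β0 (η / R) z l ^ 2 ≤ 2 * ε1 := fun z => by
    have h1 : ∑ l : Fin (n + 1), (if (l : ℕ) ∈ T then η1 else 0) ≤ Q * η1 := by
      rw [← sum_filter, sum_const, nsmul_eq_mul]
      gcongr
      exact (card_le_card_of_injOn (fun l : Fin (n + 1) => (l : ℕ)) (fun l hl => by simpa using hl)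
        fun a _ b _ h => Fin.ext h).trans hT
    refine (sum_le_sum (g := fun l : Fin (n + 1) => 2 * η + if (l : ℕ) ∈ T then η1 else 0)
      fun l _ => ?_).trans ?_
    · have := wβ z l
      simp only [hβ0] at this ⊢
      rw [sq]
      split_ifs at this ⊢ <;>
        exact (mul_le_of_le_one_left (by linarith) (by linarith)).trans (by linarith)
    · rw [sum_add_distrib, sum_const, card_univ, Fintype.card_fin, nsmul_eq_mul]
      push_cast
      linarith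
  have sγ : ∀ z : Fin (n + 1) → Fin R, ∑ l, |win (fun _ => η2) (η2 / R) z l| ≤ (n + 1) * (2 * η2) :=
    fun z => sum_abs_le_of_mem fun l => by
      have := win_mem (fun _ => η2) (by positivity : 0 ≤ η2 / R) z l
      rw [div_mul_cancel₀ _ hR'.ne'] at this
      constructor <;> linarith
  obtain ⟨G, hG⟩ : ∃ G : ℕ → ℝ, G = fun N => (unif (Fin (n + 1) → Fin R)).E fun z =>
    (unif (Fin (n + 1) → Fin R)).E fun z' =>
      Fg Kf cc N ν θ F d (win β0 (η / R) z) (win (fun _ => η2) (η2 / R) z') := ⟨_, rfl⟩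
  have st : ∀ N, N0 ≤ N → G N + d * (L - 3 * ε / 8) ≤ G (N + 1) := fun N hN => by
    obtain ⟨⟨c1, c2⟩, c3⟩ := hN0 N hN
    obtain ⟨K1, h2⟩ := h2 Kf (by omega) N c3
    obtain ⟨K2, h3⟩ := Fg_close (n := n) (Kf := Kf) (cc := cc) (ν := ν) hF hθ hd0 c3
      (show 0 < ε / 16 by positivity)
    obtain ⟨K3, h4⟩ := Fg_close (n := n) (Kf := Kf) (cc := cc) (ν := ν) hF hθ hd0 (Nat.succ_pos N)
      (show 0 < ε / 16 by positivity)
    obtain ⟨K, hK⟩ : ∃ K, K = K1 + K2 + K3 := ⟨_, rfl⟩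
    have hKN : K ≤ K * N := Nat.le_mul_of_pos_right K c3
    obtain ⟨he0, hα, -⟩ := e_facts (N := N) hd hcc
    have h5 := ho Kf R D J (Fin N) (A0 N cc) (Fin (K * N)) ν θ F d _ η η2 β0 hF hc hθ hd0 (by omega)
      hη hη2 (fun l => by rw [hβ0]; dsimp only; split_ifs <;> constructor <;> linarith)
      (by linarith) b8 (by linarith) (by simpa using c3) he0 hα
    obtain ⟨c4, c5⟩ := lb_num (N := N) (N1 := (N + 1 : ℕ)) (cc := cc) (n := n) (R := R) (η := η)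
      (η2 := η2) hc0 hd (by exact_mod_cast c3) (by simp) (by positivity) hR'.le
    simp only [Fintype.card_prod, Fintype.card_fin, Nat.cast_mul] at h5
    replace h5 := h5.trans (show _ ≤ 5 * t by
      have := mul_le_mul_of_nonneg_left c5 hCo
      rw [mul_div_assoc] at b9 b10 c2
      rw [mul_div_right_comm] at b9
      simp only [mul_add Co]
      linarith)
    have h6 : ∀ z z' : Fin (n + 1) → Fin R,
        Fg Kf cc N ν θ F d (win β0 (η / R) z) (win (fun _ => η2) (η2 / R) z') ≤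
        Fg Kf cc (N + 1) ν θ F d (win β0 (η / R) z) (win (fun _ => η2) (η2 / R) z') +
        C * dxy n Kf (Fin N) (A0 N cc) (Fin (K * N)) ν θ F d (1 / Real.sqrt ((N + 1 : ℕ) * d))
          (win β0 (η / R) z) (win (fun _ => η2) (η2 / R) z') +
        (C * (2 * t) + ε / 8 - d * (L - ε / 8)) := fun z z' => by
      have g1 := (sγ z').trans (show _ ≤ 1 by linarith)
      have e1 : (fun l : Fin (n + 1) => (fun l : ℕ => if h : l < n + 1 then
        win β0 (η / R) z ⟨l, h⟩ else 0) l) = win β0 (η / R) z := funext fun l => dif_pos l.2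
      have h7 := h2 K (by omega) (fun l => if h : l < n + 1 then win β0 (η / R) z ⟨l, h⟩ else 0)
        (win (fun _ => η2) (η2 / R) z') _ (dxy n Kf (Fin N) (A0 N cc) (Fin (K * N)) ν θ F d
          (1 / Real.sqrt ((N + 1 : ℕ) * d)) (win β0 (η / R) z) (win (fun _ => η2) (η2 / R) z') +
          2 * t) rfl (le_trans (le_of_eq (sum_congr rfl fun l _ => by
            rw [dif_pos l.2])) ((sβ z).trans (by linarith))) (fun l hl => by
          obtain ⟨l0, d1, d2, d3, d4⟩ := hQ l hl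
          refine ⟨l0, d2, d3, ?_, d4⟩
          rw [dif_pos (Nat.lt_succ_of_le d3)]
          refine le_trans ?_ (wβ z _).1
          simp [hβ0, d1, hη.le]) g1 (by rw [e1]; linarith [sγ z'])
      rw [e1] at h7
      linarith [(abs_le.mp (h3 (Fin (K * N) ⊕ Fin K) (by simp; omega) (win β0 (η / R) z) _ g1)).2,
        (abs_le.mp (h4 (Fin (K * N)) (by simp; omega) (win β0 (η / R) z) _ g1)).1]
    have h8 := E_mono (unif (Fin (n + 1) → Fin R)) fun z => E_mono (unif (Fin (n + 1) → Fin R)) (h6 z)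
    simp only [E_add, E_const, E_const_mul] at h8
    simp only [hG]
    linarith [mul_le_mul_of_nonneg_left h5 hC, mul_le_mul_of_nonneg_right hd hε.le]
  filter_upwards [eventually_ge_atTop N0, lb_tel st (show 0 < d * (3 * ε / 8) by positivity)]
    with N h1 h3
  have h4 : G N ≤ fZ (PW.pi fun _ : Fin N => ν)
      (fun σ (i : Fin N × J) => θ (σ i.1) i.2 / Real.sqrt (N * d)) (F 0) (Fin N × Fin cc) +
      (N * d * (ε / 8) + N * d * (ε / 4) / 2) := by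
    rw [hG]
    refine E_le_const _ fun z => E_le_const _ fun z' =>
      (Fg_le hF hθ hd0 (hN0 _ h1).2 (by omega) _ _ ((sγ z').trans (by linarith))).trans
        (add_le_add le_rfl (add_le_add ?_ ?_))
    · have := sγ z'
      have h0 : 0 ≤ α * d := le_trans (by positivity) hcc
      calc _ ≤ N * (α * d) * (c * ((n + 1) * (2 * η2))) := by gcongr
        _ = N * d * (α * c * ((n + 1) * 2) * η2) := by ring
        _ ≤ _ := by gcongr
    · have := (sβ z).trans (show _ ≤ ε / 4 by linarith)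
      gcongr
  linarith

end Vale.Agent.P157
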