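import Vale.Agent.P157.Ovl
import Vale.Agent.P157.Dens
import Vale.Agent.P157.Gau

/-!
# P157: the enriched block model
-/

namespace Vale.Agent.P157

open Vale.Agent.P168 Vale.Agent.P168.PW Finset MeasureTheory Filter Topology
open scoped BigOperators

set_option synthInstance.maxSize 4096

theorem Sm.lip {c : ℝ} {k : ℕ} {F : ℕ → ℝ → ℝ} (h : Sm c k F) {i : ℕ} (hi : i < k) (x y : ℝ) :
    |F i x - F i y| ≤ c * |x - y| := by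
  have := Convex.norm_image_sub_le_of_norm_hasDerivWithin_le (f := F i) (f' := F (i + 1))
    (s := Set.univ) (C := c) (fun z _ => (h.1 i hi z).hasDerivWithinAt)
    (fun z _ => h.2 (i + 1) (by omega) (by omega) z) convex_univ (Set.mem_univ y) (Set.mem_univ x)
  simpa using this

theorem Sm.mono {c : ℝ} {k k' : ℕ} {F : ℕ → ℝ → ℝ} (h : Sm c k F) (hk : k' ≤ k) : Sm c k' F :=
  ⟨fun i hi => h.1 i (by omega), fun i h1 h2 => h.2 i h1 (by omega)⟩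

theorem Sm.nonneg {c : ℝ} {k : ℕ} {F : ℕ → ℝ → ℝ} (h : Sm c (k + 1) F) : 0 ≤ c :=
  (abs_nonneg _).trans (h.2 1 le_rfl (by omega) 0)

/-- The potential modified by the response field. -/
def phy (F : ℕ → ℝ → ℝ) (η : ℝ) (i : ℕ) (x : ℝ) : ℝ := F i x + η * F (i + 1) x

theorem Sm.phy {c η : ℝ} {F : ℕ → ℝ → ℝ} (h : Sm c 4 F) (hη : |η| ≤ 1) : Sm (2 * c) 3 (phy F η) :=
  ⟨fun i hi x => (h.1 i (by omega) x).add ((h.1 (i + 1) (by omega) x).const_mul η),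
    fun i h1 h2 x => by
      have a := h.2 i h1 (by omega) x
      have b := abs_mul_le' hη (h.2 (i + 1) (by omega) (by omega) x)
      exact (abs_add_le _ _).trans (by linarith)⟩

theorem abs_sign_sum_le {ι : Type} [Fintype ι] (γ : ι → ℝ) (ξ : ι → Bool) :
    |∑ l, γ l * sp (ξ l)| ≤ ∑ l, |γ l| :=
  (abs_sum_le_sum_abs _ _).trans (le_of_eq (by simp only [abs_mul, abs_sp, mul_one]))

theorem abs_le_sqrt_of_sum {J : Type} [Fintype J] {x : J → ℝ} {d : ℝ} (h : ∑ i, x i ^ 2 = d)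
    (i : J) : |x i| ≤ Real.sqrt d :=
  Real.abs_le_sqrt (h ▸ single_le_sum (f := fun i => x i ^ 2) (fun _ _ => sq_nonneg _) (mem_univ i))

abbrev Lf (n Kf : ℕ) (J ι 𝒜 : Type) := (Fin (n + 1) × (ι × J × Fin Kf)) ⊕ (Fin (n + 1) × 𝒜)
abbrev Lm (n Kf : ℕ) (J ι 𝒜 κ : Type) := (𝒜 × (ι × J) × κ) ⊕ Lf n Kf J ι 𝒜
abbrev Um (n Kf : ℕ) (D J ι 𝒜 κ : Type) := U (ι → D) (Lm n Kf J ι 𝒜 κ)

variable {n Kf : ℕ} {D J ι 𝒜 κ : Type}

def lvf : Lf n Kf J ι 𝒜 → ℕ := Sum.elim (fun l => l.1) fun l => l.1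
def lvm : Lm n Kf J ι 𝒜 κ → ℕ := Sum.elim (fun _ => n + 1) lvf

variable [Fintype D] [Fintype J] [DecidableEq J] [Fintype ι] [DecidableEq ι] [Fintype 𝒜]
  [DecidableEq 𝒜] [Fintype κ] [DecidableEq κ] (ν : PW D) (θ : D → J → ℝ) (F : ℕ → ℝ → ℝ)

/-- The energy given the arguments of the potential. -/
noncomputable def Ef (β γ : Fin (n + 1) → ℝ) (S : 𝒜 → ℝ) (σ : ι → D)
    (ξ : Lf n Kf J ι 𝒜 → Bool) : ℝ :=
  ∑ a, F 0 (S a) + ∑ l, γ l * ∑ a, sp (ξ (Sum.inr (l, a))) * F 1 (S a) +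
    ∑ l, β l * ∑ j : ι × J × Fin Kf, sp (ξ (Sum.inl (l, j))) * (θ (σ j.1) j.2.1 / Real.sqrt Kf)

variable (n Kf) in
noncomputable def Fm (e : ℝ) (β γ : Fin (n + 1) → ℝ) (g : 𝒜 → ι × J → ℝ) : ℝ :=
  FU n (PW.pi fun _ : ι => ν) (lvf : Lf n Kf J ι 𝒜 → ℕ) fun ω =>
    Ef θ F β γ (fun a => ∑ i, g a i * (θ (ω.1 i.1) i.2 * e)) ω.1 ω.2

noncomputable def Sa (e : ℝ) (a : 𝒜) (ω : Um n Kf D J ι 𝒜 κ) : ℝ :=
  ∑ i, Wk (fun k => ω.2 (Sum.inl (a, i, k))) * (θ (ω.1 i.1) i.2 * e)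

noncomputable def Em (e : ℝ) (β γ : Fin (n + 1) → ℝ) (ω : Um n Kf D J ι 𝒜 κ) : ℝ :=
  Ef θ F β γ (fun a => Sa θ e a ω) ω.1 fun l => ω.2 (Sum.inr l)

variable (n Kf ι 𝒜 κ) in
noncomputable def Pm : Ch (Um n Kf D J ι 𝒜 κ) := PU (PW.pi fun _ : ι => ν) lvm

variable (n Kf J ι 𝒜 κ) in
noncomputable def rm : PW (Um n Kf D J ι 𝒜 κ) := ρU (PW.pi fun _ : ι => ν) _

variable (n Kf ι 𝒜 κ) in
noncomputable def FK (e : ℝ) (β γ : Fin (n + 1) → ℝ) : ℝ :=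
  Fr n (Pm n Kf ι 𝒜 κ ν) (rm n Kf J ι 𝒜 κ ν) (Em θ F e β γ)

theorem FK_eq (e : ℝ) (β γ : Fin (n + 1) → ℝ) : FK n Kf ι 𝒜 κ ν θ F e β γ =
    (unif (𝒜 × (ι × J) × κ → Bool)).E
      fun ξ => Fm n Kf ν θ F e β γ fun a i => Wk fun k => ξ (a, i, k) :=
  FU_top (PW.pi fun _ : ι => ν) lvf (Em θ F e β γ)

variable (n Kf D J ι 𝒜 κ) in
def sx : Fam (Fin (n + 1) × (ι × J × Fin Kf)) (Um n Kf D J ι 𝒜 κ) :=
  (famU (ι → D) lvm).comap fun l => Sum.inr (Sum.inl l)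

variable (n Kf D J ι 𝒜 κ) in
def sy : Fam (Fin (n + 1) × 𝒜) (Um n Kf D J ι 𝒜 κ) :=
  (famU (ι → D) lvm).comap fun l => Sum.inr (Sum.inr l)

noncomputable def ux (j : ι × J × Fin Kf) (ω : Um n Kf D J ι 𝒜 κ) : ℝ :=
  θ (ω.1 j.1) j.2.1 / Real.sqrt Kf

noncomputable def uy (e : ℝ) (a : 𝒜) (ω : Um n Kf D J ι 𝒜 κ) : ℝ := F 1 (Sa θ e a ω)

/-- The response field seen by pattern `a`. -/
noncomputable def eta (γ : Fin (n + 1) → ℝ) (a : 𝒜) (ω : Um n Kf D J ι 𝒜 κ) : ℝ :=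
  ∑ l, γ l * sp (ω.2 (Sum.inr (Sum.inr (l, a))))

/-- The overlap of two configurations. -/
noncomputable def Rx (N : ℝ) (σ σ' : ι → D) : ℝ := (∑ b, ∑ i, θ (σ b) i * θ (σ' b) i) / N

omit [Fintype D] in
theorem Em_eq (e : ℝ) (β γ : Fin (n + 1) → ℝ) (ω : Um n Kf D J ι 𝒜 κ) :
    Em θ F e β γ ω = ∑ a, F 0 (Sa θ e a ω) + tot (fld (sy n Kf D J ι 𝒜 κ) (uy θ F e)) γ ω +
      tot (fld (sx n Kf D J ι 𝒜 κ) (ux θ)) β ω := rfl

omit [Fintype D] [DecidableEq J] [DecidableEq ι] [DecidableEq 𝒜] in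
theorem Ef_eq (β γ : Fin (n + 1) → ℝ) (S : 𝒜 → ℝ) (σ : ι → D) (ξ : Lf n Kf J ι 𝒜 → Bool) :
    Ef θ F β γ S σ ξ = ∑ a, phy F (∑ l, γ l * sp (ξ (Sum.inr (l, a)))) 0 (S a) +
      ∑ l, β l * ∑ j : ι × J × Fin Kf,
        sp (ξ (Sum.inl (l, j))) * (θ (σ j.1) j.2.1 / Real.sqrt Kf) := by
  simp only [Ef, phy, sum_add_distrib, mul_sum, sum_mul, mul_assoc, zero_add]
  rw [sum_comm (s := univ (α := Fin (n + 1))) (t := univ (α := 𝒜))]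

omit [Fintype D] in
theorem Em_eq' (e : ℝ) (β γ : Fin (n + 1) → ℝ) (ω : Um n Kf D J ι 𝒜 κ) :
    Em θ F e β γ ω = ∑ a, phy F (eta γ a ω) 0 (Sa θ e a ω) +
      tot (fld (sx n Kf D J ι 𝒜 κ) (ux θ)) β ω := Ef_eq θ F β γ _ _ _

omit [Fintype D] [DecidableEq J] [DecidableEq ι] [Fintype 𝒜] [DecidableEq 𝒜] [Fintype κ]
  [DecidableEq κ] in
theorem ov_ux (hK : 0 < Kf) (N : ℝ) (x y : Um n Kf D J ι 𝒜 κ) :
    ov (ux θ) N x y = Rx θ N x.1 y.1 := by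
  have h : (0 : ℝ) < Kf := by exact_mod_cast hK
  simp only [ov, Rx, ux, Fintype.sum_prod_type, div_mul_div_comm, Real.mul_self_sqrt h.le,
    sum_const, card_univ, Fintype.card_fin, nsmul_eq_mul, mul_div_cancel₀ _ h.ne']

variable {ν θ F} {c d : ℝ}

omit [Fintype D] [DecidableEq J] [DecidableEq ι] [Fintype 𝒜] [DecidableEq 𝒜] [Fintype κ]
  [DecidableEq κ] in
theorem sum_ux_sq (hK : 0 < Kf) (hθ : ∀ a, ∑ i, θ a i ^ 2 = d) (x : Um n Kf D J ι 𝒜 κ) :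
    ∑ j, ux θ j x ^ 2 = Fintype.card ι * d := by
  have := ov_ux θ hK 1 x x
  simp only [ov, Rx, div_one, ← sq, hθ, sum_const, card_univ, nsmul_eq_mul] at this
  exact this

omit [Fintype D] [DecidableEq J] [Fintype ι] [DecidableEq ι] [Fintype 𝒜] [DecidableEq 𝒜]
  [Fintype κ] [DecidableEq κ] in
theorem abs_ux_le (hθ : ∀ a, ∑ i, θ a i ^ 2 = d) (j : ι × J × Fin Kf) (x : Um n Kf D J ι 𝒜 κ) :
    |ux θ j x| ≤ Real.sqrt d / Real.sqrt Kf := by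
  rw [ux, abs_div, abs_of_nonneg (Real.sqrt_nonneg _)]
  exact div_le_div_of_nonneg_right (abs_le_sqrt_of_sum (hθ _) _) (Real.sqrt_nonneg _)

theorem ok_m : (famU (ι → D) lvm).Ok (Pm n Kf ι 𝒜 κ ν) (rm n Kf J ι 𝒜 κ ν) := ok_famU _ _

theorem fs_x (hθ : ∀ a, ∑ i, θ a i ^ 2 = d) (e : ℝ) (γ : Fin (n + 1) → ℝ) :
    FS (sx n Kf D J ι 𝒜 κ) (ux θ) (Real.sqrt d / Real.sqrt Kf)
      (Tn n (Pm n Kf ι 𝒜 κ ν) fun ω => ∑ a, F 0 (Sa θ e a ω) +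
        tot (fld (sy n Kf D J ι 𝒜 κ) (uy θ F e)) γ ω) (rm n Kf J ι 𝒜 κ ν) where
  ok := (ok_m.comap fun a b h => by simpa using h).Tn fun l ω => by
    simp [sx, sy, Fam.comap, famU, tot, fld, uy, Sa]
  lv := fun _ _ => rfl
  inv := fun _ _ _ => rfl
  bd := abs_ux_le hθ

theorem fs_y (hF : Sm c 4 F) (e : ℝ) (β : Fin (n + 1) → ℝ) :
    FS (sy n Kf D J ι 𝒜 κ) (uy θ F e) c
      (Tn n (Pm n Kf ι 𝒜 κ ν) fun ω => ∑ a, F 0 (Sa θ e a ω) +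
        tot (fld (sx n Kf D J ι 𝒜 κ) (ux θ)) β ω) (rm n Kf J ι 𝒜 κ ν) where
  ok := (ok_m.comap fun a b h => by simpa using h).Tn fun l ω => by
    simp [sx, sy, Fam.comap, famU, tot, fld, ux, Sa]
  lv := fun _ _ => rfl
  inv := fun a l ω => by simp [sy, Fam.comap, famU, uy, Sa]
  bd := fun _ _ => hF.2 1 le_rfl (by norm_num) _

theorem Tn_x (e : ℝ) (β γ : Fin (n + 1) → ℝ) :
    Tn n (Tn n (Pm n Kf ι 𝒜 κ ν) fun ω => ∑ a, F 0 (Sa θ e a ω) +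
      tot (fld (sy n Kf D J ι 𝒜 κ) (uy θ F e)) γ ω) (tot (fld (sx n Kf D J ι 𝒜 κ) (ux θ)) β) =
      Tn n (Pm n Kf ι 𝒜 κ ν) (Em θ F e β γ) := Tn_Tn _ _

theorem Tn_y (e : ℝ) (β γ : Fin (n + 1) → ℝ) :
    Tn n (Tn n (Pm n Kf ι 𝒜 κ ν) fun ω => ∑ a, F 0 (Sa θ e a ω) +
      tot (fld (sx n Kf D J ι 𝒜 κ) (ux θ)) β ω) (tot (fld (sy n Kf D J ι 𝒜 κ) (uy θ F e)) γ) =
      Tn n (Pm n Kf ι 𝒜 κ ν) (Em θ F e β γ) := by
  rw [Tn_Tn]; congr 1; funext ω; rw [Em_eq]; ring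

omit [Fintype D] [DecidableEq J] [DecidableEq ι] [DecidableEq 𝒜] in
theorem abs_Ef_sub_le (hF : Sm c 4 F) (β : Fin (n + 1) → ℝ) {γ : Fin (n + 1) → ℝ}
    (hγ : ∑ l, |γ l| ≤ 1) (S S' : 𝒜 → ℝ) (σ : ι → D) (ξ : Lf n Kf J ι 𝒜 → Bool) :
    |Ef θ F β γ S σ ξ - Ef θ F β γ S' σ ξ| ≤ 2 * c * ∑ a, |S a - S' a| := by
  rw [Ef_eq, Ef_eq, add_sub_add_right_eq_sub, ← sum_sub_distrib, mul_sum]
  exact (abs_sum_le_sum_abs _ _).trans (sum_le_sum fun a _ =>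
    (hF.phy ((abs_sign_sum_le _ _).trans hγ)).lip (by norm_num) _ _)

theorem Fm_lip (hF : Sm c 4 F) (hθ : ∀ a, ∑ i, θ a i ^ 2 = d) {e : ℝ} (he : |e| * Real.sqrt d ≤ 1)
    (β : Fin (n + 1) → ℝ) {γ : Fin (n + 1) → ℝ} (hγ : ∑ l, |γ l| ≤ 1) (g g' : 𝒜 → ι × J → ℝ) :
    |Fm n Kf ν θ F e β γ g - Fm n Kf ν θ F e β γ g'| ≤ 2 * c * ∑ a, ∑ i, |g a i - g' a i| := by
  refine abs_Fr_sub_le fun ω => (abs_Ef_sub_le hF β hγ _ _ _ _).trans ?_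
  have := hF.nonneg
  gcongr with a
  rw [← sum_sub_distrib]
  refine (abs_sum_le_sum_abs _ _).trans (sum_le_sum fun i _ => ?_)
  rw [← sub_mul, abs_mul]
  refine mul_le_of_le_one_right (abs_nonneg _) ?_
  rw [abs_mul, mul_comm]
  exact (mul_le_mul_of_nonneg_left (abs_le_sqrt_of_sum (hθ _) _) (abs_nonneg _)).trans he

theorem es_Em (hF : Sm c 4 F) (hc : ∀ x, |F 0 x| ≤ c) (e : ℝ) (β : Fin (n + 1) → ℝ)
    {γ : Fin (n + 1) → ℝ} (hγ : ∑ l, |γ l| ≤ 1) :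
    (rm n Kf J ι 𝒜 κ ν).E (fun ω => |Xn n (Pm n Kf ι 𝒜 κ ν) (Em θ F e β γ) ω -
      Fr n (Pm n Kf ι 𝒜 κ ν) (rm n Kf J ι 𝒜 κ ν) (Em θ F e β γ)|) ≤
      4 * c * Real.sqrt (Fintype.card 𝒜) := by
  refine es (PW.pi fun _ : ι => ν) lvm (Sum.elim (fun l => some l.1) fun _ => none)
    (Em θ F e β γ) (fun a σ ξ ξ' h => ?_) fun l hl => ?_
  · have h1 : (fun l => ξ (Sum.inr l)) = fun l => ξ' (Sum.inr l) := funext fun l => h _ (by simp)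
    have h2 : ∀ a', a' ≠ a → Sa θ e a' ((σ, ξ) : Um n Kf D J ι 𝒜 κ) = Sa θ e a' (σ, ξ') :=
      fun a' ha => by
        simp only [Sa]
        refine sum_congr rfl fun i _ => ?_
        rw [show (fun k => ξ (Sum.inl (a', i, k))) = fun k => ξ' (Sum.inl (a', i, k)) from
          funext fun k => h _ (by simpa using ha)]
    simp only [Em]
    rw [h1, Ef_eq, Ef_eq, add_sub_add_right_eq_sub, ← sum_sub_distrib,
      sum_eq_single a (fun a' _ ha => by rw [h2 a' ha, sub_self]) (by simp)]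
    have b : ∀ η x, |η| ≤ 1 → |phy F η 0 x| ≤ 2 * c := fun η x hη =>
      (abs_add_le _ _).trans (by
        linarith [hc x, abs_mul_le' hη (hF.2 (0 + 1) le_rfl (by norm_num) x)])
    refine (abs_sub _ _).trans ?_
    linarith [b _ (Sa θ e a ((σ, ξ) : Um n Kf D J ι 𝒜 κ))
      ((abs_sign_sum_le γ fun l => ξ' (Sum.inr (Sum.inr (l, a)))).trans hγ),
      b _ (Sa θ e a ((σ, ξ') : Um n Kf D J ι 𝒜 κ))
      ((abs_sign_sum_le γ fun l => ξ' (Sum.inr (Sum.inr (l, a)))).trans hγ)]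
  · left
    rcases l with l | l | l
    · simp at hl
    · exact Nat.lt_succ_iff.mp l.1.2
    · exact Nat.lt_succ_iff.mp l.1.2

theorem Fm_le (hF : Sm c 4 F) (hθ : ∀ a, ∑ i, θ a i ^ 2 = d) (hK : 0 < Kf) (e : ℝ)
    (β γ : Fin (n + 1) → ℝ) (g : 𝒜 → ι × J → ℝ) :
    Fm n Kf ν θ F e β γ g ≤ Real.log ((PW.pi fun _ : ι => ν).E fun σ =>
        Real.exp (∑ a, F 0 (∑ i, g a i * (θ (σ i.1) i.2 * e)))) +
      (Fintype.card 𝒜 * (c * ∑ l, |γ l|) + Fintype.card ι * d * (∑ l, β l ^ 2) / 2) := by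
  have hK' : (0 : ℝ) < Kf := by exact_mod_cast hK
  set H : (ι → D) → ℝ := fun σ => ∑ a, F 0 (∑ i, g a i * (θ (σ i.1) i.2 * e)) with hH
  set s : Fam (Fin (n + 1) × (ι × J × Fin Kf)) (U (ι → D) (Lf n Kf J ι 𝒜)) :=
    (famU (ι → D) lvf).comap Sum.inl with hs
  set u : Fin (n + 1) × (ι × J × Fin Kf) → U (ι → D) (Lf n Kf J ι 𝒜) → ℝ :=
    fun l ω => β l.1 * (θ (ω.1 l.2.1) l.2.2.1 / Real.sqrt Kf) with hu
  have h1 : Fm n Kf ν θ F e β γ g ≤ FU n (PW.pi fun _ : ι => ν) (lvf : Lf n Kf J ι 𝒜 → ℕ)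
      (fun ω => (H ω.1 + ∑ l, sp (s.τ l ω) * u l ω) + Fintype.card 𝒜 * (c * ∑ l, |γ l|)) := by
    refine Fr_mono fun ω => ?_
    rw [Ef_eq]
    have e1 : ∑ l, β l * ∑ j : ι × J × Fin Kf,
        sp (ω.2 (Sum.inl (l, j))) * (θ (ω.1 j.1) j.2.1 / Real.sqrt Kf) =
        ∑ l, sp (s.τ l ω) * u l ω := by
      rw [Fintype.sum_prod_type]
      refine sum_congr rfl fun l _ => ?_
      rw [mul_sum]
      exact sum_congr rfl fun j _ => by simp only [hs, hu, Fam.comap, famU]; ring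
    rw [e1, add_right_comm, add_le_add_iff_right, hH, ← nsmul_eq_mul, ← card_univ, ← sum_const,
      ← sum_add_distrib]
    refine sum_le_sum fun a _ => add_le_add le_rfl ((le_abs_self _).trans ?_)
    rw [mul_comm c]
    exact abs_mul_le' (abs_sign_sum_le _ _) (hF.2 _ le_rfl (by norm_num) _)
  have ok : s.Ok (Tn n (PU (PW.pi fun _ : ι => ν) lvf) fun ω => H ω.1) (ρU _ _) :=
    ((ok_famU _ _).comap Sum.inl_injective).Tn fun _ _ => rfl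
  have h2 := linmom (n := n) ok (u := u) (fun _ _ _ => rfl)
    (W := Fintype.card ι * d * ∑ l, β l ^ 2) fun ω => le_of_eq (by
      simp only [hu, Fintype.sum_prod_type, mul_pow, div_pow, Real.sq_sqrt hK'.le, sum_const,
        card_univ, Fintype.card_fin, nsmul_eq_mul, ← mul_sum, mul_left_comm (Kf : ℝ),
        mul_div_cancel₀ _ hK'.ne', hθ, ← sum_mul]
      ring)
  have h3 := (Fr_le_log _).trans (Real.log_le_log (E_pos _ fun _ => E_pos _ fun _ =>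
    Real.exp_pos _) h2)
  rw [Real.log_exp] at h3
  rw [FU, Fr_add_const, Fr_add] at h1
  have h4 := FU_nosign (n := n) (PW.pi fun _ : ι => ν) (lvf : Lf n Kf J ι 𝒜 → ℕ) H
  rw [FU] at h4
  linarith

end Vale.Agent.P157
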