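import Vale.Agent.P157.Red

/-!
# P157: from Borel to smooth potentials
-/

namespace Vale.Agent.P157

open Vale.Agent.P168 Vale.Agent.P168.PW Finset MeasureTheory Filter Topology
open Vale.Agent.P157.AnL
open scoped BigOperators

theorem cas_bdSm {f : ℝ → ℝ} {c : ℝ} (hf : Measurable f) (hc : ∀ x, |f x| ≤ c) (n : ℕ) (v : ℕ → ℝ)
    {l : ℕ} (hl : l ≤ n + 1) : Measurable (cas n v f l) ∧ ∀ x, |cas n v f l x| ≤ c := by
  induction l with
  | zero => exact ⟨hf, hc⟩
  | succ l ih =>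
    obtain ⟨h1, h2⟩ := ih (by omega)
    have hz := ze_pos (show l ≤ n by omega)
    refine ⟨(meas_log_int (μ := gam) (H := fun x z => ze n l * cas n v f l (x + √(v l) * z))
      (by fun_prop)).div_const _, fun x => ?_⟩
    rw [cas, abs_div, abs_of_pos hz, div_le_iff₀' hz]
    exact abs_log_int_le (by fun_prop) fun z => by
      rw [abs_mul, abs_of_pos hz]; exact mul_le_mul_of_nonneg_left (h2 _) hz.le

theorem abs_ze_mulSm {n l : ℕ} (hl : l ≤ n) {y c : ℝ} (h : |y| ≤ c) : |ze n l * y| ≤ c := by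
  rw [abs_mul, abs_of_pos (ze_pos hl)]
  exact (mul_le_of_le_one_left (abs_nonneg _) (ze_le_one n l)).trans h

/-- convexity of the recursion -/
theorem cas_convSm {f u w : ℝ → ℝ} {c k t : ℝ} (hf : Measurable f) (hu : Measurable u)
    (hw : Measurable w) (cf : ∀ x, |f x| ≤ c) (cu : ∀ x, |u x| ≤ c) (cw : ∀ x, |w x| ≤ c)
    (h0 : 0 ≤ t) (ht : t ≤ 1) (h : ∀ x, f x ≤ (1 - t) * u x + t * w x + k) (n : ℕ) (v : ℕ → ℝ)
    {l : ℕ} (hl : l ≤ n + 1) (x : ℝ) :
    cas n v f l x ≤ (1 - t) * cas n v u l x + t * cas n v w l x + k := by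
  induction l generalizing x with
  | zero => exact h x
  | succ l ih =>
    have hl' : l ≤ n := by omega
    have hz := ze_pos hl'
    obtain ⟨f1, f2⟩ := cas_bdSm hf cf n v (show l ≤ n + 1 by omega)
    obtain ⟨u1, u2⟩ := cas_bdSm hu cu n v (show l ≤ n + 1 by omega)
    obtain ⟨w1, w2⟩ := cas_bdSm hw cw n v (show l ≤ n + 1 by omega)
    have a1 := holder_log (μ := gam) (u := fun z => ze n l * cas n v u l (x + √(v l) * z))
      (w := fun z => ze n l * cas n v w l (x + √(v l) * z)) (by fun_prop) (by fun_prop)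
      (fun z => abs_ze_mulSm hl' (u2 _)) (fun z => abs_ze_mulSm hl' (w2 _)) h0 ht
    have a2 := log_int_mono (μ := gam) (u := fun z => ze n l * cas n v f l (x + √(v l) * z))
      (w := fun z => (1 - t) * (ze n l * cas n v u l (x + √(v l) * z)) +
        t * (ze n l * cas n v w l (x + √(v l) * z))) (c := ze n l * k)
      (int_exp_bd (by fun_prop) fun z => abs_ze_mulSm hl' (f2 _))
      (int_exp_bd (b := c) (by fun_prop) fun z => by
        have b1 := abs_le.1 (abs_ze_mulSm hl' (u2 (x + √(v l) * z)))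
        have b2 := abs_le.1 (abs_ze_mulSm hl' (w2 (x + √(v l) * z)))
        rw [abs_le]; constructor <;> nlinarith [b1.1, b1.2, b2.1, b2.2])
      fun z => by nlinarith [mul_le_mul_of_nonneg_left (ih (by omega) (x + √(v l) * z)) hz.le]
    simp only [cas]
    rw [div_le_iff₀ hz, ← mul_div_assoc, ← mul_div_assoc, ← add_div, add_mul,
      div_mul_cancel₀ _ hz.ne']
    linarith

theorem ann_stepSm {w φ : ℝ → ℝ} {c s v : ℝ} (hw : Measurable w) (cw : ∀ x, |w x| ≤ c)
    (hφ : Measurable φ) (cφ : ∀ x, |φ x| ≤ c) (hs : 0 ≤ s) (hv : 0 ≤ v)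
    (h : ∀ x, φ x ≤ Real.log (∫ z, Real.exp (w (x + √s * z)) ∂gam)) (x : ℝ) :
    Real.log (∫ z, Real.exp (φ (x + √v * z)) ∂gam) ≤
      Real.log (∫ z, Real.exp (w (x + √(s + v) * z)) ∂gam) := by
  have hb : ∀ y, |Real.exp (w y)| ≤ Real.exp c := fun y => by
    rw [abs_of_pos (Real.exp_pos _)]; exact Real.exp_le_exp.2 (abs_le.1 (cw y)).2
  have i1 : Integrable (fun z => Real.exp (φ (x + √v * z))) gam :=
    int_exp_bd (by fun_prop) fun z => cφ _
  rw [← gam_conv (φ := fun y => Real.exp (w y)) hw.exp hb hs hv]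
  refine Real.log_le_log (int_exp_pos i1) (integral_mono i1 (swapRed gam gam
    (L := fun z z' => Real.exp (w (x + √v * z + √s * z'))) (by fun_prop) fun _ _ => hb _).1
    fun z => ?_)
  exact (Real.le_log_iff_exp_le (int_exp_pos (int_exp_bd (by fun_prop) fun z => cw _))).1 (h _)

/-- annealed bound -/
theorem cas_annSm {w : ℝ → ℝ} {c : ℝ} (hw : Measurable w) (cw : ∀ x, |w x| ≤ c) (n : ℕ)
    {v : ℕ → ℝ} (hv : ∀ l, l ≤ n + 1 → 0 ≤ v l) {l : ℕ} (hl : l ≤ n + 1) (x : ℝ) :
    cas n v w l x ≤ Real.log (∫ z, Real.exp (w (x + √(∑ i ∈ range l, v i) * z)) ∂gam) := by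
  induction l generalizing x with
  | zero => simp [cas]
  | succ l ih =>
    obtain ⟨w1, w2⟩ := cas_bdSm hw cw n v (show l ≤ n + 1 by omega)
    rw [cas, sum_range_succ]
    exact (pow_mean (u := fun z => cas n v w l (x + √(v l) * z)) (by fun_prop) (fun z => w2 _)
      (ze_pos (by omega)) (ze_le_one _ _)).trans (ann_stepSm hw cw w1 w2
        (sum_nonneg fun i hi => hv i (by have := mem_range.1 hi; omega)) (hv l (by omega))
        (ih (by omega)) x)

theorem Cas_intSm {f : ℝ → ℝ} {c : ℝ} (hf : Measurable f) (hc : ∀ x, |f x| ≤ c) (n : ℕ)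
    (v : ℕ → ℝ) : Integrable (fun z => cas n v f (n + 1) (√(v (n + 1)) * z)) gam := by
  obtain ⟨h1, h2⟩ := cas_bdSm hf hc n v le_rfl
  exact int_bd (by fun_prop) fun z => h2 _

theorem Cas_annSm {w : ℝ → ℝ} {c : ℝ} (hw : Measurable w) (cw : ∀ x, |w x| ≤ c) {n : ℕ}
    {p : ℕ → ℝ} (hp : Adm n p) : Cas n (vr n p) w ≤ Real.log (∫ z, Real.exp (w z) ∂gam) := by
  obtain ⟨w1, w2⟩ := cas_bdSm hw cw n (vr n p) le_rfl
  have hv : ∀ l, l ≤ n + 1 → 0 ≤ vr n p l := fun l => vr_nonneg hp.2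
  have := ann_stepSm hw cw w1 w2 (sum_nonneg fun i hi => hv i (by have := mem_range.1 hi; omega))
    (hv (n + 1) le_rfl) (cas_annSm hw cw n hv le_rfl) 0
  rw [← sum_range_succ, sum_vr, hp.1] at this
  simp only [zero_add, Real.sqrt_one, one_mul] at this
  exact (int_le_log (Cas_intSm hw cw n _) (int_exp_bd (by fun_prop) fun z => w2 _)).trans this

theorem abs_Cas_le {f : ℝ → ℝ} {c : ℝ} (hf : Measurable f) (hc : ∀ x, |f x| ≤ c) (n : ℕ)
    (v : ℕ → ℝ) : |Cas n v f| ≤ c := by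
  simpa [Cas] using norm_integral_le_of_norm_le_const (μ := gam)
    (f := fun z => cas n v f (n + 1) (√(v (n + 1)) * z))
    (Eventually.of_forall fun z => (cas_bdSm hf hc n v le_rfl).2 _)

theorem Cas_cmpSm {f g : ℝ → ℝ} {c t : ℝ} (hf : Measurable f) (hg : Measurable g)
    (cf : ∀ x, |f x| ≤ c) (cg : ∀ x, |g x| ≤ c) (h0 : 0 < t) (ht : t ≤ 1)
    (h : ∫ z, Real.exp ((f z - g z) / t) ∂gam ≤ Real.exp 2) {n : ℕ} {p : ℕ → ℝ} (hp : Adm n p) :
    Cas n (vr n p) f ≤ Cas n (vr n p) g + t * (2 * c + 2) := by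
  have hD : ∀ z, |(f z - g z) / t| ≤ 2 * c / t := fun z => by
    rw [abs_div, abs_of_pos h0]
    gcongr
    linarith [abs_sub (f z) (g z), cf z, cg z]
  have hc0 : 0 ≤ c := (abs_nonneg _).trans (cf 0)
  have hc1 : 0 ≤ 2 * c / t := by positivity
  have mD : Measurable fun z => (f z - g z) / t := by fun_prop
  have cD : ∀ z, |(f z - g z) / t| ≤ c + 2 * c / t := fun z => by linarith [hD z]
  have h1 := fun x => cas_convSm (c := c + 2 * c / t) (k := t * c) hf hg mD
    (fun z => by linarith [cf z]) (fun z => by linarith [cg z]) cD h0.le ht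
    (fun z => by
      rw [mul_div_cancel₀ _ h0.ne']
      nlinarith [(abs_le.1 (cg z)).2]) n (vr n p) le_rfl x
  have i1 := Cas_intSm hg cg n (vr n p)
  have i2 := Cas_intSm mD cD n (vr n p)
  have h2 := integral_mono (Cas_intSm hf cf n (vr n p))
    (((i1.const_mul (1 - t)).add (i2.const_mul t)).add (integrable_const (t * c))) fun z => h1 _
  rw [integral_add' ((i1.const_mul (1 - t)).add (i2.const_mul t)) (integrable_const _),
    integral_add' (i1.const_mul (1 - t)) (i2.const_mul t), integral_const_mul,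
    integral_const_mul] at h2
  simp only [integral_const, probReal_univ, one_smul] at h2
  have h3 := Cas_annSm mD cD hp
  rw [← Real.log_le_iff_le_exp (int_exp_pos (int_exp_bd mD hD))] at h
  have h4 := (abs_le.1 (abs_Cas_le hg cg n (vr n p))).1
  change Cas n (vr n p) f ≤ (1 - t) * Cas n (vr n p) g +
    t * Cas n (vr n p) (fun z => (f z - g z) / t) + t * c at h2
  nlinarith [mul_le_mul_of_nonneg_left (h3.trans h) h0.le]

theorem exists_smoothSm {f : ℝ → ℝ} {B : ℝ} (hf : Measurable f) (hB : ∀ x, |f x| ≤ B) {η : ℝ}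
    (hη : 0 < η) : ∃ G : ℝ → ℝ, ContDiff ℝ 4 G ∧ HasCompactSupport G ∧ (∀ x, |G x| ≤ B + 1) ∧
      ∫ z, |f z - G z| ∂gam ≤ η := by
  have hB0 : 0 < B + 1 := by linarith [(abs_nonneg _).trans (hB 0)]
  have m : Measurable fun x => Real.arcsin (f x / (B + 1)) :=
    Real.continuous_arcsin.measurable.comp (hf.div_const _)
  have i1 : Integrable (fun x => Real.arcsin (f x / (B + 1))) gam :=
    int_bd (b := Real.pi / 2) m fun x =>
      abs_le.2 ⟨Real.neg_pi_div_two_le_arcsin _, Real.arcsin_le_pi_div_two _⟩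
  obtain ⟨g, h1, h2, h3⟩ := (memLp_one_iff_integrable.2 i1).exist_eLpNorm_sub_le
    ENNReal.one_ne_top le_rfl (show 0 < η / (B + 1) by positivity)
  have i2 : Integrable g gam := h2.continuous.integrable_of_hasCompactSupport h1
  rw [eLpNorm_one_eq_lintegral_enorm, ← ofReal_integral_norm_eq_lintegral_enorm (i1.sub i2),
    ENNReal.ofReal_le_ofReal_iff (by positivity), le_div_iff₀' hB0, ← integral_const_mul] at h3
  refine ⟨fun x => (B + 1) * Real.sin (g x), contDiff_const.mul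
    (Real.contDiff_sin.comp (contDiff_infty.1 h2 4)),
    h1.comp_left (g := fun y => (B + 1) * Real.sin y) (by simp), fun x => ?_,
    (integral_mono_of_nonneg (Eventually.of_forall fun _ => abs_nonneg _)
      ((i1.sub i2).norm.const_mul _) (Eventually.of_forall fun x => ?_)).trans h3⟩
  · rw [abs_mul, abs_of_pos hB0]
    exact mul_le_of_le_one_right hB0.le (Real.abs_sin_le_one _)
  · have h4 := abs_le.1 (hB x)
    have e : f x = (B + 1) * Real.sin (Real.arcsin (f x / (B + 1))) := by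
      rw [Real.sin_arcsin ((le_div_iff₀ hB0).2 (by linarith)) ((div_le_one hB0).2 (by linarith))]
      field_simp
    have h5 := Real.abs_sin_sub_sin_le (Real.arcsin (f x / (B + 1))) (g x)
    simp only [Pi.sub_apply, Real.norm_eq_abs]
    conv_lhs => rw [e]
    rw [← mul_sub, abs_mul, abs_of_pos hB0]
    gcongr

theorem exp_momSm {D : ℝ → ℝ} {b t : ℝ} (hD : Measurable D) (hb : ∀ x, |D x| ≤ b) (h0 : 0 < t)
    (h : ∫ z, |D z| ∂gam ≤ t * Real.exp (-(b / t))) :
    ∫ z, Real.exp (D z / t) ∂gam ≤ Real.exp 2 := by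
  have i1 : Integrable (fun z => |D z|) gam := (int_bd hD hb).abs
  have h1 : ∫ z, Real.exp (D z / t) ∂gam ≤ ∫ z, (1 + Real.exp (b / t) / t * |D z|) ∂gam := by
    refine integral_mono_of_nonneg (Eventually.of_forall fun _ => (Real.exp_pos _).le)
      ((integrable_const _).add (i1.const_mul _)) (Eventually.of_forall fun z => ?_)
    have a1 := mul_le_mul_of_nonneg_right (Real.add_one_le_exp (-(D z / t)))
      (Real.exp_pos (D z / t)).le
    rw [← Real.exp_add, neg_add_cancel, Real.exp_zero] at a1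
    have a2 : D z / t * Real.exp (D z / t) ≤ |D z| / t * Real.exp (b / t) := by
      gcongr
      · exact le_abs_self _
      · exact (le_abs_self _).trans (hb z)
    have a3 : Real.exp (b / t) / t * |D z| = |D z| / t * Real.exp (b / t) := by ring
    simp only
    linarith
  rw [integral_add (integrable_const _) (i1.const_mul _), integral_const_mul] at h1
  simp only [integral_const, probReal_univ, one_smul] at h1
  have h2 : Real.exp (b / t) / t * ∫ z, |D z| ∂gam ≤ 1 := by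
    refine (mul_le_mul_of_nonneg_left h (by positivity)).trans (le_of_eq ?_)
    rw [Real.exp_neg]; field_simp
  linarith [Real.add_one_le_exp 2]

theorem smooth_approx {f : ℝ → ℝ} {B : ℝ} (hf : Measurable f) (hB : ∀ x, |f x| ≤ B) {ε : ℝ}
    (hε : 0 < ε) : ∃ (F : ℕ → ℝ → ℝ) (c : ℝ), Sm c 4 F ∧ (∀ x, |F 0 x| ≤ c) ∧
      (∀ n p, Adm n p → |Cas n (vr n p) f - Cas n (vr n p) (F 0)| ≤ ε) ∧
      ∀ (S I 𝒜 : Type) [MeasurableSpace S] [Fintype I] [Fintype 𝒜] (μ : Measure S)
        [IsProbabilityMeasure μ] (x : S → I → ℝ), Measurable x → (∀ᵐ σ ∂μ, ∑ i, x σ i ^ 2 = 1) →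
        |gZ μ x f 𝒜 - gZ μ x (F 0) 𝒜| ≤ ε * Fintype.card 𝒜 := by
  have hB0 : 0 ≤ B := (abs_nonneg _).trans (hB 0)
  set t := min 1 (ε / (2 * (B + 1) + 2)) with ht
  have h0 : 0 < t := by positivity
  have ht1 : t ≤ 1 := min_le_left _ _
  have ht2 : t * (2 * (B + 1) + 2) ≤ ε := by
    rw [← le_div_iff₀ (by positivity), ht]; exact min_le_right _ _
  obtain ⟨G, h1, h2, h3, h4⟩ := exists_smoothSm hf hB
    (show 0 < t * Real.exp (-(2 * (B + 1) / t)) by positivity)
  have hG := h1.continuous.measurable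
  have hB' : ∀ x, |f x| ≤ B + 1 := fun x => by linarith [hB x]
  have e1 : ∫ z, Real.exp ((f z - G z) / t) ∂gam ≤ Real.exp 2 :=
    exp_momSm (hf.sub hG) (fun x => by linarith [abs_sub (f x) (G x), hB' x, h3 x]) h0 h4
  have e2 : ∫ z, Real.exp ((G z - f z) / t) ∂gam ≤ Real.exp 2 :=
    exp_momSm (b := 2 * (B + 1)) (hG.sub hf) (fun x => by linarith [abs_sub (G x) (f x), hB' x, h3 x]) h0
      (by simpa only [abs_sub_comm] using h4)
  have hs : ∀ i, HasCompactSupport (iteratedDeriv i G) := fun i => by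
    induction i with
    | zero => simpa using h2
    | succ i ih => rw [iteratedDeriv_succ]; exact ih.deriv
  have hb : ∀ i : Fin 5, ∃ C, ∀ x, |iteratedDeriv i G x| ≤ C := fun i =>
    (h1.continuous_iteratedDeriv i (by exact_mod_cast Nat.lt_succ_iff.1 i.2)
      ).bounded_above_of_compact_support (hs i)
  choose C hC using hb
  obtain ⟨c, hc⟩ := (Set.finite_range C).bddAbove
  have hc' : ∀ i ≤ 4, ∀ x, |iteratedDeriv i G x| ≤ c := fun i hi x =>
    (hC ⟨i, by omega⟩ x).trans (hc ⟨_, rfl⟩)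
  refine ⟨fun i => iteratedDeriv i G, c, ⟨fun i hi x => ?_, fun i _ hi => hc' i hi⟩,
    hc' 0 (by omega), fun n p hp => ?_, fun S I 𝒜 _ _ _ μ _ x hx h => ?_⟩
  · simp only [iteratedDeriv_succ]
    exact (h1.differentiable_iteratedDeriv i (by exact_mod_cast hi) x).hasDerivAt
  · have a1 := Cas_cmpSm hf hG hB' h3 h0 ht1 e1 hp
    have a2 := Cas_cmpSm hG hf h3 hB' h0 ht1 e2 hp
    simp only [iteratedDeriv_zero]
    rw [abs_le]; constructor <;> linarith
  · have key : ∀ (φ : ℝ → ℝ), Measurable φ → ∫ z, φ z ∂gam ≤ Real.exp 2 →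
        ∀ᵐ σ ∂μ, ∫ g, φ (∑ i, g i * x σ i) ∂(gI I) ≤ Real.exp 2 := fun φ hφ h' => by
      filter_upwards [h] with σ hσ
      rwa [← (mp_lin hσ).map_eq, integral_map (mp_lin hσ).aemeasurable
        hφ.aestronglyMeasurable] at h'
    have a1 := gZ_cmp hf hB' hG h3 μ hx hx h0 ht1 (key _ (by fun_prop) e1) 𝒜
    have a2 := gZ_cmp hG h3 hf hB' μ hx hx h0 ht1 (key _ (by fun_prop) e2) 𝒜
    have a3 := mul_le_mul_of_nonneg_right ht2 (Nat.cast_nonneg (α := ℝ) (Fintype.card 𝒜))
    simp only [iteratedDeriv_zero]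
    rw [abs_le]; constructor <;> linarith

end Vale.Agent.P157
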