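import Vale.Agent.P157.UB
import Vale.Agent.P157.LB
import Vale.Agent.P157.LBA
import Vale.Agent.P157.Conc
import Vale.Agent.P157.Smooth

/-!
# P157: the Ising model
-/

namespace Vale.Agent.P157

open Vale.Agent.P168 Vale.Agent.P168.PW Finset MeasureTheory Filter Topology
open scoped BigOperators

theorem lc_eqIsing (x : ℝ) : lam 1 (unif Bool) (fun σ => x * sp σ) = lc x := by
  simp [lam, lc, E, unif, sp, Real.cosh_eq, div_eq_inv_mul, mul_add]

theorem lc_lipIsing (x y : ℝ) : |lc x - lc y| ≤ |x - y| := by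
  rw [← lc_eqIsing, ← lc_eqIsing]
  exact abs_lam_sub_le one_pos _ fun σ => by rw [← sub_mul, abs_mul, abs_sp, mul_one]

theorem psi_limIsing (n : ℕ) (V ε : ℝ) (hε : 0 < ε) : ∃ K0 : ℕ, ∀ K1, K0 ≤ K1 → ∀ K2, K0 ≤ K2 →
    ∀ v β : ℕ → ℝ, (∀ l, l ≤ n + 1 → 0 ≤ v l) → ∑ l ∈ range (n + 2), tv n v β l ≤ V → ∀ N : ℕ,
      |psi2 n (unif (Fin N → Bool)) (fun σ i => sp (σ i)) K1 K2 v β - N * Cas n (tv n v β) lc| ≤
        N * ε := by
  obtain ⟨K0, h⟩ := rwc n Unit 1 V ε hε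
  refine ⟨K0, fun K1 h1 K2 h2 v β hv hV N => ?_⟩
  have a := h K1 h1 K2 h2 v β (fun x => lc (x ())) hv hV fun x y => by simpa using lc_lipIsing _ _
  have b := FU_pi (n := n) (ι := Fin N) (unif Bool) (lv2 : L2 n Unit (Fin K1) (Fin K2) → ℕ)
    fun ω => hh v β ω.2 () * sp ω.1
  have c := FU_pull (n := n) (μ := unif (Fin N → Bool)) (μ' := PW.pi fun _ : Fin N => unif Bool)
    (lv := (lv2 : L2 n (Fin N) (Fin K1) (Fin K2) → ℕ))
    (lv' := fun l : Fin N × L2 n Unit (Fin K1) (Fin K2) => lv2 l.2) (g := id)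
    (e := Sum.elim (fun l => (l.2.1, .inl (l.1, (), l.2.2))) fun l => (l.2.1, .inr (l.1, (), l.2.2)))
    (fun F => by rw [pi_unif]; rfl)
    (by rintro (⟨a, b, c⟩ | ⟨a, b, c⟩) (⟨a', b', c'⟩ | ⟨a', b', c'⟩) e <;> simp_all)
    (by rintro (_ | _) <;> rfl) fun ω => ∑ i, hh v β ω.2 i * sp (ω.1 i)
  rw [FU_spin (unif Bool), Fintype.card_fin] at b
  rw [CasI_unit] at a
  rw [psi2, c.symm.trans b, ← mul_sub, abs_mul, Nat.abs_cast]
  refine mul_le_mul_of_nonneg_left (a.trans_eq' ?_) (Nat.cast_nonneg N)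
  simp only [← lc_eqIsing, lam, one_mul, div_one]

theorem Cas_congrIsing {n : ℕ} {v v' : ℕ → ℝ} (h : ∀ l, l ≤ n + 1 → v l = v' l) (G : ℝ → ℝ) :
    Cas n v G = Cas n v' G := by
  have : ∀ l, l ≤ n + 1 → cas n v G l = cas n v' G l := fun l hl => by
    induction l with
    | zero => rfl
    | succ l ih => simp only [cas, ih (by omega), h l (by omega)]
  rw [Cas, Cas, this _ le_rfl, h _ le_rfl]

theorem spinI_eqIsing (n : ℕ) (p q : ℕ → ℝ) :
    spinI n p q = Cas n (vr n q) lc - pen n p (vr n q) := by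
  have h : ∀ x : ℝ, x / (2 * ((n : ℝ) + 1)) = wt n * x / 2 := fun x => by rw [wt]; field_simp
  simp only [spinI, pen, mul_sub, mul_one, sum_sub_distrib, sum_vr, sum_vr_cum, h]
  unfold lc
  ring

theorem spin_leIsing {n : ℕ} {p v : ℕ → ℝ} {s : ℝ} (h : ∀ q, Mono n q → spinI n p q ≤ s)
    (hv : ∀ l, l ≤ n + 1 → 0 ≤ v l) : Cas n v lc - pen n p v ≤ s := by
  have e : ∀ l, l ≤ n + 1 → ∑ k ∈ Ico l (n + 2), v k = v l + ∑ k ∈ Ico (l + 1) (n + 2), v k :=
    fun l hl => sum_eq_sum_Ico_succ_bot (by omega) v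
  have e' : ∀ l, l ≤ n + 1 → vr n (fun j => ∑ k ∈ Ico j (n + 2), v k) l = v l := fun l hl => by
    rw [vr, e l hl]
    split_ifs with k
    · ring
    · rw [Ico_eq_empty (by omega), sum_empty, add_zero]
  have := h (fun j => ∑ k ∈ Ico j (n + 2), v k) ⟨fun j hj => by
    linarith [e j (by omega), hv j (by omega)],
      sum_nonneg fun k hk => hv k (by have := (mem_Ico.1 hk).2; omega)⟩
  rwa [spinI_eqIsing, Cas_congrIsing e', pen, sum_congr rfl fun l hl => by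
    rw [e' l (by have := mem_range.1 hl; omega)]] at this

theorem tv_nonnegIsing {n : ℕ} {v : ℕ → ℝ} (hv : ∀ l, l ≤ n + 1 → 0 ≤ v l) (β : ℕ → ℝ) :
    ∀ l, l ≤ n + 1 → 0 ≤ tv n v β l := fun l hl => add_nonneg (hv l hl) (by positivity)

theorem pressI_eq (α : ℝ) (f : ℝ → ℝ) (N : ℕ) : pressI α f N = (1 / (N : ℝ)) *
    gZ (toM (unif (Fin N → Bool))) (fun σ i => sp (σ i) / Real.sqrt N) f (Fin ⌊α * N⌋₊) := by
  rw [← fZ_eq_gZ, pressI, fZ, integral_const_mul]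
  simp only [E_unif, wgt, sum_div, mul_div_assoc]
  rfl

theorem measIsing {c : ℝ} {F : ℕ → ℝ → ℝ} (hF : Sm c 4 F) : Measurable (F 0) :=
  (continuous_iff_continuousAt.mpr fun x => (hF.1 0 (by norm_num) x).continuousAt).measurable

theorem upI {α : ℝ} (hα : 0 < α) {c : ℝ} {F : ℕ → ℝ → ℝ} (hF : Sm c 4 F) (hc : ∀ x, |F 0 x| ≤ c)
    {ε : ℝ} (hε : 0 < ε) : ∃ n0 : ℕ, ∀ n, n0 ≤ n → ∀ t ∈ trialI α (F 0) n,
      ∀ᶠ N in atTop, pressI α (F 0) N ≤ t + ε := by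
  obtain ⟨e, he, he'⟩ : ∃ e : ℝ, 0 < e ∧ (α + 3) * e = ε := ⟨ε / (α + 3), by positivity, by field_simp⟩
  refine (ub c α e he).imp fun n0 h n hn => ?_
  rintro _ ⟨p, s, hp, hs, rfl⟩
  obtain ⟨V, N0, h⟩ := h n hn F (hF.mono (by norm_num)) hc p s hp
  obtain ⟨K0, hK⟩ := psi_limIsing n V e he
  filter_upwards [tendsto_natCast_atTop_atTop.eventually_ge_atTop N0, eventually_gt_atTop 0,
    tendsto_natCast_atTop_atTop.eventually_ge_atTop ((c + e) / e)] with N h1 h2 h3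
  have hN : (0 : ℝ) < N := by exact_mod_cast h2
  have m1 := Nat.floor_le (show 0 ≤ α * N by positivity)
  have m2 := Nat.lt_floor_add_one (α * N)
  have := h N h1 _ _ (unif (Fin N → Bool)) (fun σ i => sp (σ i)) ⌊α * N⌋₊
    (fun σ => by simp [sq, sp_sq]) m1 ⟨K0, fun K k β hβ => by
      have := spin_leIsing hs (tv_nonnegIsing (v := fun _ => 0) (fun _ _ => le_rfl) β)
      nlinarith [(abs_le.1 (hK K k K k _ β (fun _ _ => le_rfl) hβ N)).2]⟩
  rw [pressI_eq, ← fZ_eq_gZ, one_div, inv_mul_le_iff₀ hN, ← he']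
  rw [div_le_iff₀ he] at h3
  have := abs_le.1 (abs_Cas_le (measIsing hF) hc n (vr n p))
  nlinarith

theorem blockIsing {c : ℝ} {f : ℝ → ℝ} (hf : Measurable f) (hc : ∀ x, |f x| ≤ c)
    (hl : ∀ x y, |f x - f y| ≤ c * |x - y|) {ε : ℝ} (hε : 0 < ε) : ∃ δ : ℝ, 0 < δ ∧
    ∀ (N d r k : ℕ), 0 < N * d → 2 * (r : ℝ) ≤ δ * (N * d + r : ℕ) →
      fZ (PW.pi fun _ : Fin N => unif (Fin d → Bool))
        (fun σ (i : Fin N × Fin d) => sp (σ i.1 i.2) / Real.sqrt (N * d)) f (Fin N × Fin k) ≤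
      gZ (toM (unif (Fin (N * d + r) → Bool))) (fun σ i => sp (σ i) / Real.sqrt (N * d + r : ℕ)) f
        (Fin N × Fin k) + ε * (N * k) := by
  refine (gZ_feat c ε hε).imp fun δ h => ⟨h.1, fun N d r k h1 h2 => ?_⟩
  let e : (Fin N × Fin d) ⊕ Fin r ≃ Fin (N * d + r) :=
    (finProdFinEquiv.sumCongr (Equiv.refl _)).trans finSumFinEquiv
  have inj : Function.Injective fun i => e (.inl i) := e.injective.comp Sum.inl_injective
  have a := h.2 _ _ (Fin N × Fin k) (toM (unif (Fin (N * d + r) → Bool)))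
    (fun σ i => sp (σ i) / Real.sqrt (N * d + r : ℕ))
    (fun σ i => sp (σ i) * Sum.elim (fun _ => (Real.sqrt (N * d))⁻¹) (fun _ => 0) (e.symm i)) f
    (measurable_of_finite _) (measurable_of_finite _) hc hl (ae_of_all _ fun σ => by
      have m0 : (0 : ℝ) < N * d := by exact_mod_cast h1
      have r0 : (0 : ℝ) ≤ r := Nat.cast_nonneg r
      simp only [div_eq_mul_inv, ← mul_sub, mul_pow, sq (sp _), sp_sq, one_mul, ← e.sum_comp,
        Equiv.symm_apply_apply, Fintype.sum_sum_type, Sum.elim_inl, Sum.elim_inr, sum_const,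
        card_univ, Fintype.card_prod, Fintype.card_fin, nsmul_eq_mul, sub_zero]
      push_cast at h2 ⊢
      generalize (N : ℝ) * d = m at *
      obtain ⟨x, x0, rfl⟩ : ∃ x, 0 < x ∧ m = x ^ 2 := ⟨_, Real.sqrt_pos.2 m0, (Real.sq_sqrt m0.le).symm⟩
      obtain ⟨y, y0, hy⟩ : ∃ y, 0 < y ∧ x ^ 2 + r = y ^ 2 :=
        ⟨_, Real.sqrt_pos.2 (by positivity), (Real.sq_sqrt (by positivity)).symm⟩
      have xy : x ≤ y := abs_le_of_sq_le_sq' (by linarith) y0.le |>.2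
      rw [hy] at h2 ⊢
      rw [Real.sqrt_sq x0.le, Real.sqrt_sq y0.le, show x ^ 2 * (y⁻¹ - x⁻¹) ^ 2 + r * y⁻¹ ^ 2 =
        ((x - y) ^ 2 + r) / y ^ 2 by field_simp, div_le_iff₀ (by positivity)]
      nlinarith)
  rw [gZ_index hf hc (toM (unif (Fin (N * d + r) → Bool))) (x := fun σ (i : Fin N × Fin d) => sp (σ (e (.inl i))) / Real.sqrt (N * d))
    (x' := fun σ i => sp (σ i) * Sum.elim (fun _ => (Real.sqrt (N * d))⁻¹) (fun _ => 0) (e.symm i))
    (measurable_of_finite _) inj (fun σ i => by simp [div_eq_mul_inv]) (fun σ i h => by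
      obtain ⟨i | i, rfl⟩ := e.surjective i
      exacts [absurd rfl (h i), by simp]), ← fZ_eq_gZ (unif (Fin (N * d + r) → Bool))
      fun σ (i : Fin N × Fin d) => sp (σ (e (.inl i))) / _] at a
  have b : ∀ F : (Fin N → Fin d → Bool) → ℝ, (unif (Fin (N * d + r) → Bool)).E
      (fun σ => F fun i j => σ (e (.inl (i, j)))) =
      (PW.pi fun _ : Fin N => unif (Fin d → Bool)).E F := fun F => by
    have := (emb_pull (μ := PW.pure ()) (μ' := PW.pure ()) (lv := fun _ => 0) (lv' := fun _ => 0)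
      (g := id) (fun _ => rfl) inj fun _ => rfl).top fun ω => F (Function.curry ω.2)
    simp only [ρU, E_prod, E_pure] at this
    rw [pi_unif, ← E_unif_equiv (Equiv.curry _ _ _)]
    exact this
  simp only [fZ, ← b] at a ⊢
  simp only [Fintype.card_prod, Fintype.card_fin, Nat.cast_mul] at a
  linarith [(abs_le.1 a).1]

theorem loI {α : ℝ} (hα : 0 < α) {c : ℝ} {F : ℕ → ℝ → ℝ} (hF : Sm c 4 F) (hc : ∀ x, |F 0 x| ≤ c)
    {ε : ℝ} (hε : 0 < ε) : ∃ n0 : ℕ, ∀ n, n0 ≤ n → ∀ L ∈ lowerBounds (trialI α (F 0) n),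
      ∀ᶠ N in atTop, L - ε ≤ pressI α (F 0) N := by
  obtain ⟨e, he, he'⟩ : ∃ e : ℝ, 0 < e ∧ (α + 4) * e = ε := ⟨ε / (α + 4), by positivity, by field_simp⟩
  have c0 := hF.nonneg
  obtain ⟨ε0, V, h0, h⟩ := lb c α e he
  obtain ⟨d, hd⟩ := exists_nat_gt (c / e + 1)
  have d1 : (1 : ℝ) ≤ d := by linarith [div_nonneg c0 he.le]
  have d2 : c ≤ e * d := by linarith [(div_le_iff₀' he).1 (show c / e ≤ d by linarith)]
  have k1 := Nat.floor_le (show 0 ≤ α * d by positivity)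
  have k2 := Nat.lt_floor_add_one (α * d)
  generalize ⌊α * d⌋₊ = k at k1 k2
  refine (h _ _ (unif (Fin d → Bool)) (fun σ i => sp (σ i)) d k d1 (fun σ => by simp [sq, sp_sq])
    k1).imp fun n0 h n hn L hL => ?_
  obtain ⟨K0, hK⟩ := psi_limIsing n V ε0 h0
  have a := h n hn F (L - e) hF hc ⟨K0, fun K1 a1 K2 a2 v β hv hV => by
    obtain ⟨p, p1, p2⟩ := conc n _ (tv_nonnegIsing hv β)
    have t := hL ⟨p, _, p1, fun q hq => (spinI_eqIsing n p q).trans_le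
      (p2 _ fun l hl => vr_nonneg hq hl), rfl⟩
    refine ⟨p, _, p1, le_trans ?_ (add_le_add_left (?_ : α * Cas n (vr n p) (F 0) - e ≤ _)
      (Cas n (tv n v β) lc - pen n p (tv n v β))), ?_, fun β' hβ => ?_⟩
    · linarith
    · have := abs_le.1 (abs_Cas_le (measIsing hF) hc n (vr n p))
      rw [div_mul_eq_mul_div, le_div_iff₀ (by linarith)]
      nlinarith
    · linarith [(abs_le.1 (hK K1 a1 K2 a2 v β hv hV d)).1]
    · nlinarith [(abs_le.1 (hK K1 a1 K2 a2 v β' hv hβ d)).2, p2 _ (tv_nonnegIsing hv β')]⟩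
  obtain ⟨δ, δ0, hδ⟩ := blockIsing (measIsing hF) hc (hF.lip (by norm_num)) he
  have dp : 0 < d := by exact_mod_cast zero_lt_one.trans_le d1
  filter_upwards [(Nat.tendsto_div_const_atTop dp.ne').eventually a, eventually_ge_atTop d,
    tendsto_natCast_atTop_atTop.eventually_ge_atTop (2 * d / δ),
    tendsto_natCast_atTop_atTop.eventually_ge_atTop ((d * |L - e - e| + c * (α * d + 1)) / e)]
    with M b1 b2 b3 b4
  obtain ⟨N, r, r1, rfl, N1, hN⟩ : ∃ N r, r < d ∧ M = N * d + r ∧ 0 < N ∧ M / d = N :=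
    ⟨_, _, Nat.mod_lt M dp, (Nat.div_add_mod' M d).symm, Nat.div_pos b2 dp, rfl⟩
  have r0 : (0 : ℝ) ≤ r := Nat.cast_nonneg r
  have r2 : (r : ℝ) ≤ d := by exact_mod_cast r1.le
  have N0 : (0 : ℝ) < N := by exact_mod_cast N1
  rw [div_le_iff₀ δ0] at b3
  rw [div_le_iff₀ he] at b4
  rw [hN] at b1
  have g1 := b1.trans (hδ N d r k (Nat.mul_pos N1 dp) (by linarith))
  have g2 := gZ_card (measIsing hF) hc (toM (unif (Fin (N * d + r) → Bool)))
    (x := fun σ i => sp (σ i) / Real.sqrt (N * d + r : ℕ)) (measurable_of_finite _)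
    (Fin N × Fin k) (Fin ⌊α * (N * d + r : ℕ)⌋₊)
  have m1 := Nat.floor_le (show 0 ≤ α * (N * d + r : ℕ) by positivity)
  have m2 := Nat.lt_floor_add_one (α * (N * d + r : ℕ))
  have g3 : |(Fintype.card (Fin N × Fin k) : ℝ) - Fintype.card (Fin ⌊α * (N * d + r : ℕ)⌋₊)| ≤
      α * d + N + 1 := by
    simp only [Fintype.card_prod, Fintype.card_fin, Nat.cast_mul]
    generalize (⌊α * (N * d + r : ℕ)⌋₊ : ℝ) = m at *
    push_cast at m1 m2
    rw [abs_le]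
    constructor <;> nlinarith
  have g4 := (abs_le.1 (g2.trans (mul_le_mul_of_nonneg_left g3 c0))).2
  rw [pressI_eq, one_div, le_inv_mul_iff₀ (by push_cast; positivity), ← he']
  replace g1 := g1.trans (add_le_add_left (sub_le_iff_le_add'.1 g4) _)
  refine le_trans ?_ (sub_le_iff_le_add.2 (sub_le_iff_le_add.2 g1))
  push_cast at b4 ⊢
  nlinarith [mul_le_mul_of_nonneg_left (le_abs_self (L - e - e)) r0,
    mul_le_mul_of_nonneg_right r2 (abs_nonneg (L - e - e)),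
    mul_le_mul_of_nonneg_left k1 (mul_pos he N0).le, mul_le_mul_of_nonneg_left d2 N0.le,
    mul_nonneg (mul_pos hα he).le r0, mul_nonneg he.le r0]

end Vale.Agent.P157
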