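import Vale.Agent.P157.Ovl
import Vale.Agent.P157.Dens

/-!
# P157: overlap concentration averaged over a window of amplitudes
-/

namespace Vale.Agent.P157

open Vale.Agent.P168 Vale.Agent.P168.PW Finset MeasureTheory Filter Topology
open scoped BigOperators

theorem win_mem {J : Type} {R : ℕ} (β0 : J → ℝ) {h : ℝ} (hh : 0 ≤ h) (z : J → Fin R) (j : J) :
    β0 j ≤ win β0 h z j ∧ win β0 h z j ≤ β0 j + h * R := by
  have : ((z j : ℕ) : ℝ) ≤ R := by exact_mod_cast (z j).2.le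
  unfold win
  constructor
  · have : 0 ≤ h * ((z j : ℕ) : ℝ) := by positivity
    linarith
  · gcongr

theorem oc_win (c0 θ : ℝ) (hθ : 0 < θ) : ∃ n0 : ℕ, ∀ n, n0 ≤ n → ∃ C : ℝ, 0 ≤ C ∧
    ∀ (Ω I : Type) [Fintype Ω] [Fintype I] (P : Ch Ω) (ρ : PW Ω) (H : Ω → ℝ)
      (s : Fam (Fin (n + 1) × I) Ω) (u : I → Ω → ℝ) (cu N η Bm ϖ h Lp fl : ℝ)
      (β0 : Fin (n + 1) → ℝ) (R : ℕ) [NeZero R], FS s u cu (Tn n P H) ρ → 0 ≤ cu →
      0 < N → 0 < η → 0 < h →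
      (∀ ω, ∑ i, u i ω ^ 2 ≤ c0 * N) → (∀ l, η ≤ β0 l ∧ β0 l + h * R ≤ Bm) → Bm * cu ≤ 1 / 2 →
      Fintype.card I * cu ^ 2 ≤ ϖ * N →
      (∀ β : Fin (n + 1) → ℝ, (∀ j, β0 j - h ≤ β j ∧ β j ≤ β0 j + h * R) → ∀ l,
        |Eh n (Tn n P fun ω => H ω + tot (fld s u) β ω) ρ 0 (fld s u l)| ≤ Lp) →
      (∀ β : Fin (n + 1) → ℝ, (∀ j, β0 j - h ≤ β j ∧ β j ≤ β0 j + h * R) →
        ρ.E (fun x => |Xn n P (fun ω => H ω + tot (fld s u) β ω) x -
          Fr n P ρ fun ω => H ω + tot (fld s u) β ω|) ≤ fl) →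
      (unif (Fin (n + 1) → Fin R)).E (fun z =>
        dev n (Tn n P fun ω => H ω + tot (fld s u) (win β0 h z) ω) ρ fun j x y => ov u N x y -
          prof n (Tn n P fun ω => H ω + tot (fld s u) (win β0 h z) ω) ρ (ov u N) j) ≤
        θ + C * ((n + 1) * (4 * Lp / R + (4 * fl + (n + 1)) / h) / N / η +
          Bm * cu * (1 + ϖ) ^ 2) := by
  obtain ⟨n0, h0⟩ := oc c0 θ hθ
  refine ⟨n0, fun n hn => ?_⟩
  obtain ⟨C, hC, h1⟩ := h0 n hn
  refine ⟨C, hC, fun Ω I _ _ P ρ H s u cu N η Bm ϖ h Lp fl β0 R _ hfs hcu hN hη hh hu hβ hB hϖ hL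
    hf => ?_⟩
  set κ : (Fin (n + 1) → Fin R) → ℝ := fun z => (∑ l, Eh n
    (Tn n P fun ω => H ω + tot (fld s u) (win β0 h z) ω) ρ 0 fun x => |fld s u l x -
      Eh n (Tn n P fun ω => H ω + tot (fld s u) (win β0 h z) ω) ρ 0 (fld s u l)|) / N with hκ
  have h2 : ∀ z, dev n (Tn n P fun ω => H ω + tot (fld s u) (win β0 h z) ω) ρ
      (fun j x y => ov u N x y -
        prof n (Tn n P fun ω => H ω + tot (fld s u) (win β0 h z) ω) ρ (ov u N) j) ≤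
      θ + C * (κ z / η + Bm * cu * (1 + ϖ) ^ 2) := fun z => by
    have := h1 Ω I (Tn n P H) ρ s u cu N η Bm ϖ (κ z) (win β0 h z) hfs hcu hN hη hu
      (fun l => ⟨(hβ l).1.trans (win_mem β0 hh.le z l).1, (win_mem β0 hh.le z l).2.trans (hβ l).2⟩)
      hB hϖ (by rw [Tn_Tn, hκ]; simp only; rw [div_mul_cancel₀ _ hN.ne'])
    rwa [Tn_Tn] at this
  refine (E_mono _ h2).trans ?_
  rw [E_add, E_const, E_const_mul, E_add_const, E_div_const, hκ, E_div_const, E_sum]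
  refine add_le_add le_rfl (mul_le_mul_of_nonneg_left (add_le_add (div_le_div_of_nonneg_right
    (div_le_div_of_nonneg_right ?_ hN.le) hη.le) le_rfl) hC)
  refine (sum_le_sum fun l _ => kap P ρ H (fld s u) β0 hh l (fun β hb => hL β hb l) hf).trans ?_
  simp [mul_add]

end Vale.Agent.P157
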