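import Vale.Agent.P157.LBA
import Vale.Agent.P157.OcW

/-!
# P157: exchangeability and overlap concentration in the block model
-/

namespace Vale.Agent.P157

open Vale.Agent.P168 Vale.Agent.P168.PW Finset MeasureTheory Filter Topology
open scoped BigOperators

set_option synthInstance.maxSize 4096

variable {n Kf : ℕ} {D J ι ι' 𝒜 𝒜' κ κ' : Type}

/-- Relabelling blocks, patterns and layers. -/
def lmap (f : ι → ι') (g : 𝒜 → 𝒜') (k : κ → κ') : Lm n Kf J ι 𝒜 κ → Lm n Kf J ι' 𝒜' κ'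
  | Sum.inl (a, (b, i), r) => Sum.inl (g a, (f b, i), k r)
  | Sum.inr (Sum.inl (l, b, i, r)) => Sum.inr (Sum.inl (l, f b, i, r))
  | Sum.inr (Sum.inr (l, a)) => Sum.inr (Sum.inr (l, g a))

theorem lmap_inj {f : ι → ι'} {g : 𝒜 → 𝒜'} {k : κ → κ'} (hf : Function.Injective f)
    (hg : Function.Injective g) (hk : Function.Injective k) :
    Function.Injective (lmap f g k : Lm n Kf J ι 𝒜 κ → Lm n Kf J ι' 𝒜' κ') := by
  rintro (⟨a, ⟨b, i⟩, r⟩ | ⟨l, b, i, r⟩ | ⟨l, a⟩) (⟨a', ⟨b', i'⟩, r'⟩ | ⟨l', b', i', r'⟩ | ⟨l', a'⟩) h <;>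
    simp_all [lmap, hf.eq_iff, hg.eq_iff, hk.eq_iff]

theorem lvm_lmap (f : ι → ι') (g : 𝒜 → 𝒜') (k : κ → κ') (l : Lm n Kf J ι 𝒜 κ) :
    lvm (lmap f g k l) = lvm l := by
  rcases l with ⟨a, ⟨b, i⟩, r⟩ | ⟨l, b, i, r⟩ | ⟨l, a⟩ <;> rfl

variable [Fintype D] [Fintype J] [DecidableEq J] [Fintype ι] [DecidableEq ι] [Fintype 𝒜]
  [DecidableEq 𝒜] [Fintype κ] [DecidableEq κ] {ν : PW D} (θ : D → J → ℝ) {F : ℕ → ℝ → ℝ} {c d : ℝ}

/-- The field energy of one block. -/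
noncomputable def fxb (b : ι) (l : Fin (n + 1)) (ω : Um n Kf D J ι 𝒜 κ) : ℝ :=
  ∑ i, ∑ k, sp (ω.2 (Sum.inr (Sum.inl (l, b, i, k)))) * (θ (ω.1 b) i / Real.sqrt Kf)

omit [Fintype D] [Fintype 𝒜] [Fintype κ] in
theorem fld_sx (l : Fin (n + 1)) (ω : Um n Kf D J ι 𝒜 κ) :
    fld (sx n Kf D J ι 𝒜 κ) (ux θ) l ω = ∑ b, fxb θ b l ω := by
  simp only [fld, Fintype.sum_prod_type]; rfl

variable {θ}

theorem exch (e : ℝ) (β γ : Fin (n + 1) → ℝ) (b b' : ι) (l : Fin (n + 1)) :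
    Eh n (Tn n (Pm n Kf ι 𝒜 κ ν) (Em θ F e β γ)) (rm n Kf J ι 𝒜 κ ν) 0 (fxb θ b l) =
      Eh n (Tn n (Pm n Kf ι 𝒜 κ ν) (Em θ F e β γ)) (rm n Kf J ι 𝒜 κ ν) 0 (fxb θ b' l) := by
  set τ := Equiv.swap b b' with hτ
  have em : Emb (pull (fun (σ : ι → D) i => σ (τ i)) (lmap τ id id)) (Pm n Kf ι 𝒜 κ ν)
      (rm n Kf J ι 𝒜 κ ν) (Pm n Kf ι 𝒜 κ ν) (rm n Kf J ι 𝒜 κ ν) :=
    emb_pull (E_pi_equiv τ ν) (lmap_inj τ.injective Function.injective_id Function.injective_id)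
      (lvm_lmap _ _ _)
  have hS : ∀ a (ω : Um n Kf D J ι 𝒜 κ), Sa θ e a
      (pull (fun (σ : ι → D) i => σ (τ i)) (lmap τ id id) ω) = Sa θ e a ω := fun a ω => by
    simp only [Sa, Fintype.sum_prod_type]
    exact Equiv.sum_comp τ fun b => ∑ i, Wk (fun k => ω.2 (Sum.inl (a, (b, i), k))) * (θ (ω.1 b) i * e)
  have hE : ∀ ω : Um n Kf D J ι 𝒜 κ, Em θ F e β γ
      (pull (fun (σ : ι → D) i => σ (τ i)) (lmap τ id id) ω) = Em θ F e β γ ω := fun ω => by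
    simp only [Em_eq', hS, tot, fld_sx]
    congr 1
    exact sum_congr rfl fun l _ => congrArg _ (Equiv.sum_comp τ fun b => fxb θ b l ω)
  have h1 := (em.Tn (n := n) (Em θ F e β γ)).Eh (n := n) 0 (fxb θ b l)
  simp only [hE] at h1
  rw [← h1]
  refine Eh_congr fun ω => ?_
  change fxb θ (τ b) l ω = _
  rw [hτ, Equiv.swap_apply_left]

theorem cu_sq (hK : 0 < Kf) (hd : 0 ≤ d) : (Real.sqrt d / Real.sqrt Kf) ^ 2 * Kf = d := by
  have h : (0 : ℝ) < Kf := by exact_mod_cast hK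
  rw [div_pow, Real.sq_sqrt hd, Real.sq_sqrt h.le, div_mul_cancel₀ _ h.ne']

theorem ibp_block (hK : 0 < Kf) (hd : 0 < d) (hθ : ∀ a, ∑ i, θ a i ^ 2 = d) (e : ℝ)
    (β γ : Fin (n + 1) → ℝ) (b : ι) (l : Fin (n + 1)) (hβ : |β l| ≤ 1)
    (hcu : Real.sqrt d / Real.sqrt Kf ≤ 1 / 2) :
    |Eh n (Tn n (Pm n Kf ι 𝒜 κ ν) (Em θ F e β γ)) (rm n Kf J ι 𝒜 κ ν) 0 (fxb θ b l) -
      β l * d * (1 - cum n (prof n (Tn n (Pm n Kf ι 𝒜 κ ν) (Em θ F e β γ)) (rm n Kf J ι 𝒜 κ ν)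
        fun x y => Rx θ (Fintype.card ι * d) x.1 y.1) l)| ≤
      100 * d * (Fintype.card J * (Real.sqrt d / Real.sqrt Kf)) := by
  have hι : (0 : ℝ) < Fintype.card ι := by exact_mod_cast Fintype.card_pos_iff.mpr ⟨b⟩
  have hcu0 : 0 ≤ Real.sqrt d / Real.sqrt Kf := by positivity
  have h := ibp_avg (fs_x (Kf := Kf) (ι := ι) (𝒜 := 𝒜) (κ := κ) (ν := ν) (F := F) hθ e γ) β l
    ((mul_le_of_le_one_left hcu0 hβ).trans hcu) (N := Fintype.card ι * d) (by positivity)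
  rw [Tn_x, show ov (ux θ) (Fintype.card ι * d) = fun x y : Um n Kf D J ι 𝒜 κ =>
    Rx θ (Fintype.card ι * d) x.1 y.1 from funext fun x => funext fun y => ov_ux θ hK _ x y,
    Eh_congr (fld_sx θ l), Eh_sum, sum_congr rfl fun b' _ => exch e β γ b' b l,
    Eh_congr (sum_ux_sq hK hθ), Eh_const, sum_const, card_univ, nsmul_eq_mul] at h
  refine le_of_mul_le_mul_left ?_ hι
  rw [← abs_of_pos hι, ← abs_mul, abs_of_pos hι]
  refine le_trans (le_of_eq (congrArg _ (by ring))) (h.trans ?_)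
  have h2 := cu_sq hK hd.le
  have h3 : β l ^ 2 ≤ 1 := by rw [← sq_abs]; exact pow_le_one₀ (abs_nonneg _) hβ
  simp only [Fintype.card_prod, Fintype.card_fin]
  push_cast
  set cu := Real.sqrt d / Real.sqrt Kf
  calc _ = β l ^ 2 * (Fintype.card ι * (100 * (cu ^ 2 * Kf) * (Fintype.card J * cu))) := by ring
    _ ≤ 1 * (Fintype.card ι * (100 * (cu ^ 2 * Kf) * (Fintype.card J * cu))) := by gcongr
    _ = _ := by rw [h2, one_mul]

variable (n Kf ι 𝒜 κ ν θ F) in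
/-- The deviation of both overlaps from their profiles. -/
noncomputable def dxy (d e : ℝ) (β γ : Fin (n + 1) → ℝ) : ℝ :=
  dev n (Tn n (Pm n Kf ι 𝒜 κ ν) (Em θ F e β γ)) (rm n Kf J ι 𝒜 κ ν)
    (fun j x y => ov (ux θ) (Fintype.card ι * d) x y -
      prof n (Tn n (Pm n Kf ι 𝒜 κ ν) (Em θ F e β γ)) (rm n Kf J ι 𝒜 κ ν)
        (ov (ux θ) (Fintype.card ι * d)) j) +
  dev n (Tn n (Pm n Kf ι 𝒜 κ ν) (Em θ F e β γ)) (rm n Kf J ι 𝒜 κ ν)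
    fun j x y => ov (uy θ F e) (1 / e ^ 2) x y -
      prof n (Tn n (Pm n Kf ι 𝒜 κ ν) (Em θ F e β γ)) (rm n Kf J ι 𝒜 κ ν)
        (ov (uy θ F e) (1 / e ^ 2)) j

theorem abs_fld_le {Ω I : Type} [Fintype I] {s : Fam (Fin (n + 1) × I) Ω} {u : I → Ω → ℝ} {cu : ℝ}
    (h : ∀ i ω, |u i ω| ≤ cu) (l : Fin (n + 1)) (ω : Ω) : |fld s u l ω| ≤ Fintype.card I * cu := by
  refine (abs_sum_le_sum_abs _ _).trans ?_
  rw [← nsmul_eq_mul, ← card_univ, ← sum_const]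
  exact sum_le_sum fun i _ => by rw [abs_mul, abs_sp, one_mul]; exact h i ω

omit [Fintype D] [DecidableEq J] [DecidableEq ι] [DecidableEq 𝒜] [DecidableEq κ] in
theorem sum_uy_sq (hF : Sm c 4 F) {e α : ℝ} (he : 0 < e) (hα : e ^ 2 * Fintype.card 𝒜 ≤ α)
    (ω : Um n Kf D J ι 𝒜 κ) : ∑ a, uy θ F e a ω ^ 2 ≤ α * c ^ 2 * (1 / e ^ 2) := by
  have : ∑ a, uy θ F e a ω ^ 2 ≤ Fintype.card 𝒜 * c ^ 2 := by
    rw [← nsmul_eq_mul, ← card_univ, ← sum_const]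
    exact sum_le_sum fun a _ => sq_le_sq' (abs_le.mp (hF.2 1 le_rfl (by norm_num) _)).1
      (abs_le.mp (hF.2 1 le_rfl (by norm_num) _)).2
  refine this.trans ?_
  rw [mul_one_div, le_div_iff₀ (by positivity)]
  nlinarith [sq_nonneg c]

theorem sum_abs_le_of_mem {γ : Fin (n + 1) → ℝ} {η : ℝ} (h : ∀ l, 0 ≤ γ l ∧ γ l ≤ 2 * η) :
    ∑ l, |γ l| ≤ (n + 1) * (2 * η) := by
  refine (sum_le_sum fun l _ => (abs_of_nonneg (h l).1).le.trans (h l).2).trans (le_of_eq ?_)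
  simp

theorem ocb_num {θo C1 C2 n R N mJ Kf cu d η η' c α M e sM : ℝ} (hC1 : 0 ≤ C1) (hC2 : 0 ≤ C2)
    (hn : 0 ≤ n) (hR : 0 < R) (hN : 0 < N) (hJ : 0 ≤ mJ) (hK : 0 ≤ Kf) (hcu : 0 ≤ cu) (hd : 0 < d)
    (hη : 0 < η) (hη' : 0 < η') (hc : 0 ≤ c) (hα0 : 0 ≤ α) (hM : 0 ≤ sM) (he : 0 < e)
    (hα : e ^ 2 * M ≤ α) :
    θo / 2 + C1 * ((n + 1) * (4 * (N * (mJ * Kf) * cu) / R + (4 * (4 * c * sM) + (n + 1)) / (η / R)) /
      (N * d) / η + 1 * cu * (1 + mJ) ^ 2) + (θo / 2 + C2 * ((n + 1) * (4 * (M * c) / R +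
        (4 * (4 * c * sM) + (n + 1)) / (η' / R)) / (1 / e ^ 2) / η' +
        2 * η' * c * (1 + α * c ^ 2) ^ 2)) ≤
    θo + (C1 + C2) * ((n + 1) * (4 * (mJ * Kf * cu / d) / η + 4 * (α * c) / η') / R +
      (n + 1) * R * (16 * c * sM + (n + 1)) * (1 / (N * d) / η ^ 2 + e ^ 2 / η' ^ 2) +
      cu * (1 + mJ) ^ 2 + 2 * η' * c * (1 + α * c ^ 2) ^ 2) := by
  set Y := 16 * c * sM + (n + 1) with hY
  have hY0 : 0 ≤ Y := by positivity
  have e1 : (n + 1) * (4 * (N * (mJ * Kf) * cu) / R +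
      (4 * (4 * c * sM) + (n + 1)) / (η / R)) / (N * d) / η =
      (n + 1) * (4 * (mJ * Kf * cu / d) / η) / R + (n + 1) * R * Y * (1 / (N * d) / η ^ 2) := by
    rw [hY]; field_simp; ring
  have e2 : (n + 1) * (4 * (M * c) / R + (4 * (4 * c * sM) + (n + 1)) / (η' / R)) / (1 / e ^ 2) / η' =
      (n + 1) * (4 * (e ^ 2 * M * c) / η') / R + (n + 1) * R * Y * (e ^ 2 / η' ^ 2) := by
    rw [hY]; field_simp; ring
  rw [e1, e2]
  have b1 : (n + 1) * (4 * (e ^ 2 * M * c) / η') / R ≤ (n + 1) * (4 * (α * c) / η') / R := by gcongr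
  set A1 := (n + 1) * (4 * (mJ * Kf * cu / d) / η) / R with hA1
  set A2 := (n + 1) * (4 * (α * c) / η') / R with hA2
  set B1 := (n + 1) * R * Y * (1 / (N * d) / η ^ 2) with hB1
  set B2 := (n + 1) * R * Y * (e ^ 2 / η' ^ 2) with hB2
  set E1 := cu * (1 + mJ) ^ 2 with hE1
  set E2 := 2 * η' * c * (1 + α * c ^ 2) ^ 2 with hE2
  have : (n + 1) * (4 * (mJ * Kf * cu / d) / η + 4 * (α * c) / η') / R +
      (n + 1) * R * Y * (1 / (N * d) / η ^ 2 + e ^ 2 / η' ^ 2) + E1 + E2 =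
      (A1 + B1 + E1) + (A2 + B2 + E2) := by rw [hA1, hA2, hB1, hB2]; ring
  rw [this, one_mul]
  have p1 : 0 ≤ A1 + B1 + E1 := by positivity
  have p2 : 0 ≤ A2 + B2 + E2 := by positivity
  nlinarith [mul_le_mul_of_nonneg_left b1 hC2, mul_nonneg hC1 p2, mul_nonneg hC2 p1]

theorem ocb (c α θo : ℝ) (hθo : 0 < θo) : ∃ n0 : ℕ, ∀ n, n0 ≤ n → ∃ C : ℝ, 0 ≤ C ∧
    ∀ (Kf R : ℕ) [NeZero R] (D J ι 𝒜 κ : Type) [Fintype D] [Fintype J] [DecidableEq J] [Fintype ι]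
      [DecidableEq ι] [Fintype 𝒜] [DecidableEq 𝒜] [Fintype κ] [DecidableEq κ] (ν : PW D)
      (θ : D → J → ℝ) (F : ℕ → ℝ → ℝ) (d e η η' : ℝ) (β0 : Fin (n + 1) → ℝ), Sm c 4 F →
      (∀ x, |F 0 x| ≤ c) → (∀ a, ∑ i, θ a i ^ 2 = d) → 0 < d → 0 < Kf → 0 < η → 0 < η' →
      (∀ l, η ≤ β0 l ∧ β0 l + η ≤ 1) → (n + 1) * (2 * η') ≤ 1 →
      Real.sqrt d / Real.sqrt Kf ≤ 1 / 2 → 2 * η' * c ≤ 1 / 2 → 0 < Fintype.card ι → 0 < e →
      e ^ 2 * Fintype.card 𝒜 ≤ α →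
      (unif (Fin (n + 1) → Fin R)).E (fun z => (unif (Fin (n + 1) → Fin R)).E fun z' =>
        dxy n Kf ι 𝒜 κ ν θ F d e (win β0 (η / R) z) (win (fun _ => η') (η' / R) z')) ≤
      θo + C * ((n + 1) * (4 * (Fintype.card J * Kf * (Real.sqrt d / Real.sqrt Kf) / d) / η +
          4 * (α * c) / η') / R +
        (n + 1) * R * (16 * c * Real.sqrt (Fintype.card 𝒜) + (n + 1)) *
          (1 / (Fintype.card ι * d) / η ^ 2 + e ^ 2 / η' ^ 2) +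
        Real.sqrt d / Real.sqrt Kf * (1 + Fintype.card J) ^ 2 +
        2 * η' * c * (1 + α * c ^ 2) ^ 2) := by
  obtain ⟨n1, h1⟩ := oc_win 1 (θo / 2) (by positivity)
  obtain ⟨n2, h2⟩ := oc_win (α * c ^ 2) (θo / 2) (by positivity)
  refine ⟨max n1 n2, fun n hn => ?_⟩
  obtain ⟨C1, hC1, h1⟩ := h1 n (le_of_max_le_left hn)
  obtain ⟨C2, hC2, h2⟩ := h2 n (le_of_max_le_right hn)
  refine ⟨C1 + C2, by positivity, fun Kf R _ D J ι 𝒜 κ _ _ _ _ _ _ _ _ _ ν θ F d e η η' β0 hF hc hθ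
    hd hK hη hη' hβ hΓ hcu hcy hι he hα => ?_⟩
  have hR : (0 : ℝ) < R := by exact_mod_cast Nat.pos_of_ne_zero (NeZero.ne R)
  have hR1 : (1 : ℝ) ≤ R := by exact_mod_cast Nat.pos_of_ne_zero (NeZero.ne R)
  have hι' : (0 : ℝ) < Fintype.card ι := by exact_mod_cast hι
  have hc0 := hF.nonneg
  have hα0 : 0 ≤ α := le_trans (by positivity) hα
  have m1 : η / R * R = η := div_mul_cancel₀ _ hR.ne'
  have m2 : η' / R * R = η' := div_mul_cancel₀ _ hR.ne'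
  have hw : ∀ γ : Fin (n + 1) → ℝ, (∀ j, η' - η' / R ≤ γ j ∧ γ j ≤ η' + η' / R * R) →
      ∑ l, |γ l| ≤ 1 := fun γ h => (sum_abs_le_of_mem fun l => ⟨by
        linarith [(h l).1, div_le_self hη'.le hR1], by linarith [(h l).2]⟩).trans hΓ
  have hx := fun z' : Fin (n + 1) → Fin R => h1 _ _ (Pm n Kf ι 𝒜 κ ν) (rm n Kf J ι 𝒜 κ ν)
    (fun ω => ∑ a, F 0 (Sa θ e a ω) +
      tot (fld (sy n Kf D J ι 𝒜 κ) (uy θ F e)) (win (fun _ => η') (η' / R) z') ω)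
    (sx n Kf D J ι 𝒜 κ) (ux θ) (Real.sqrt d / Real.sqrt Kf)
    (Fintype.card ι * d) η 1 (Fintype.card J) (η / R)
    (Fintype.card (ι × J × Fin Kf) * (Real.sqrt d / Real.sqrt Kf)) (4 * c * Real.sqrt (Fintype.card 𝒜)) β0 R
    (fs_x (F := F) hθ e (win (fun _ => η') (η' / R) z')) (by positivity) (by positivity) hη
    (by positivity)
    (fun ω => (sum_ux_sq hK hθ ω).le.trans (one_mul _).ge) (fun l => by rw [m1]; exact hβ l)
    (by rwa [one_mul]) (le_of_eq (by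
      simp only [Fintype.card_prod, Fintype.card_fin]; push_cast
      conv_rhs => rw [← cu_sq hK hd.le]
      ring))
    (fun β _ l => abs_Eh_le_const (abs_fld_le (abs_ux_le hθ) l))
    (fun β _ => es_Em hF hc e β (hw _ fun j => by
      have := win_mem (fun _ => η') (by positivity : 0 ≤ η' / R) z' j
      exact ⟨by linarith [this.1, (by positivity : 0 ≤ η' / R)], this.2⟩))
  have eE : ∀ β γ : Fin (n + 1) → ℝ, (fun ω : Um n Kf D J ι 𝒜 κ => ∑ a, F 0 (Sa θ e a ω) +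
      tot (fld (sx n Kf D J ι 𝒜 κ) (ux θ)) β ω + tot (fld (sy n Kf D J ι 𝒜 κ) (uy θ F e)) γ ω) =
      Em θ F e β γ := fun β γ => funext fun ω => by rw [Em_eq]; ring
  have hy := fun z : Fin (n + 1) → Fin R => h2 _ _ (Pm n Kf ι 𝒜 κ ν) (rm n Kf J ι 𝒜 κ ν)
    (fun ω => ∑ a, F 0 (Sa θ e a ω) +
      tot (fld (sx n Kf D J ι 𝒜 κ) (ux θ)) (win β0 (η / R) z) ω) (sy n Kf D J ι 𝒜 κ) (uy θ F e) c
    (1 / e ^ 2) η' (2 * η') (α * c ^ 2) (η' / R) (Fintype.card 𝒜 * c)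
    (4 * c * Real.sqrt (Fintype.card 𝒜)) (fun _ => η') R
    (fs_y (θ := θ) hF e (win β0 (η / R) z)) hc0 (by positivity) hη' (by positivity)
    (sum_uy_sq hF he hα) (fun l => by rw [m2]; constructor <;> linarith) hcy
    (by rw [mul_one_div, le_div_iff₀ (by positivity)]; nlinarith [sq_nonneg c])
    (fun β _ l => abs_Eh_le_const (abs_fld_le (fun _ _ => hF.2 1 le_rfl (by norm_num) _) l))
    (fun γ hγ => by rw [eE]; exact es_Em hF hc e _ (hw γ hγ))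
  simp only [eE] at hy
  simp only [dxy, E_add]
  rw [E_comm]
  refine (add_le_add (E_le_const _ hx) (E_le_const _ hy)).trans ?_
  simp only [Fintype.card_prod, Fintype.card_fin]
  push_cast
  exact ocb_num hC1 hC2 (Nat.cast_nonneg n) hR hι' (Nat.cast_nonneg _) (Nat.cast_nonneg _)
    (by positivity) hd hη hη' hc0 hα0 (Real.sqrt_nonneg _) he hα

end Vale.Agent.P157
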