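import Vale.Agent.P157.LBO

/-!
# P157: the universe of one cavity step
-/

namespace Vale.Agent.P157

open Vale.Agent.P168 Vale.Agent.P168.PW Finset MeasureTheory Filter Topology
open scoped BigOperators

set_option synthInstance.maxSize 8192

abbrev A0 (N cc : ℕ) := Fin N × Fin cc
abbrev Ls (n Kf N cc K K1 : ℕ) (J : Type) :=
  Lm n Kf J (Fin (N + 1)) (A0 (N + 1) cc) (Fin K1) ⊕
    ((Fin K × (A0 N cc × (Fin N × J))) ⊕ ((Fin K1 × (Fin (n + 2) × J)) ⊕ (Fin K1 × Fin (n + 2))))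
abbrev Us (n Kf N cc K K1 : ℕ) (D J : Type) := U (Fin (N + 1) → D) (Ls n Kf N cc K K1 J)

variable {n Kf N cc K K1 : ℕ} {D J : Type}

def lvs : Ls n Kf N cc K K1 J → ℕ :=
  Sum.elim lvm (Sum.elim (fun _ => n + 1) (Sum.elim (fun l => l.2.1) fun l => l.2))

def sa (a : A0 N cc) : A0 (N + 1) cc := (a.1.succ, a.2)

theorem sa_inj : Function.Injective (sa : A0 N cc → A0 (N + 1) cc) := by
  rintro ⟨a, b⟩ ⟨a', b'⟩ h; simpa [sa] using h

def eB (l : Lm n Kf J (Fin N) (A0 N cc) (Fin K1)) : Ls n Kf N cc K K1 J :=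
  Sum.inl (lmap Fin.succ sa id l)

def e1 (l : Lm n Kf J (Fin (N + 1)) (A0 N cc) (Fin K1)) : Ls n Kf N cc K K1 J :=
  Sum.inl (lmap id sa id l)

def eN : Lm n Kf J (Fin N) (A0 N cc) (Fin K1 ⊕ Fin K) → Ls n Kf N cc K K1 J
  | Sum.inl (a, i, Sum.inl k) => eB (Sum.inl (a, i, k))
  | Sum.inl (a, i, Sum.inr k) => Sum.inr (Sum.inl (k, a, i))
  | Sum.inr l => eB (Sum.inr l)

def eP : L2 n J (Fin K1) (Fin Kf) → Ls n Kf N cc K K1 J
  | Sum.inl (l, i, k) => Sum.inr (Sum.inr (Sum.inl (k, l, i)))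
  | Sum.inr (l, i, k) => Sum.inl (Sum.inr (Sum.inl (l, 0, i, k)))

def eA : Fin K1 × ((A0 N cc × J) ⊕ (Fin (n + 2) × J)) → Ls n Kf N cc K K1 J
  | (k, Sum.inl (a, i)) => Sum.inl (Sum.inl (sa a, (0, i), k))
  | (k, Sum.inr l) => Sum.inr (Sum.inr (Sum.inl (k, l)))

def eC (m : Fin cc) : Fin K1 × ((Fin (N + 1) × J) ⊕ Fin (n + 2)) → Ls n Kf N cc K K1 J
  | (k, Sum.inl i) => Sum.inl (Sum.inl ((0, m), i, k))
  | (k, Sum.inr l) => Sum.inr (Sum.inr (Sum.inr (k, l)))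

theorem eB_inj : Function.Injective (eB : _ → Ls n Kf N cc K K1 J) :=
  Sum.inl_injective.comp (lmap_inj (Fin.succ_injective _) sa_inj Function.injective_id)

theorem e1_inj : Function.Injective (e1 : _ → Ls n Kf N cc K K1 J) :=
  Sum.inl_injective.comp (lmap_inj Function.injective_id sa_inj Function.injective_id)

theorem eN_inj : Function.Injective (eN : _ → Ls n Kf N cc K K1 J) := by
  rintro (⟨a, i, k | k⟩ | l) (⟨a', i', k' | k'⟩ | l') h <;>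
    first
    | (simp only [eN, eB_inj.eq_iff] at h; simp_all; done)
    | simp_all [eN, eB]

theorem eP_inj : Function.Injective (eP : _ → Ls n Kf N cc K K1 J) := by
  rintro (⟨a, i, k⟩ | ⟨a, i, k⟩) (⟨a', i', k'⟩ | ⟨a', i', k'⟩) h <;> simp_all [eP]

theorem eA_inj : Function.Injective (eA : _ → Ls n Kf N cc K K1 J) := by
  rintro ⟨k, ⟨a, i⟩ | l⟩ ⟨k', ⟨a', i'⟩ | l'⟩ h <;> simp_all [eA, sa_inj.eq_iff]

theorem eC_inj (m : Fin cc) : Function.Injective (eC m : _ → Ls n Kf N cc K K1 J) := by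
  rintro ⟨k, i | l⟩ ⟨k', i' | l'⟩ h <;> simp_all [eC]

theorem lvs_eB (l) : lvs (eB l : Ls n Kf N cc K K1 J) = lvm l := lvm_lmap _ _ _ l
theorem lvs_e1 (l) : lvs (e1 l : Ls n Kf N cc K K1 J) = lvm l := lvm_lmap _ _ _ l
theorem lvs_eN (l) : lvs (eN l : Ls n Kf N cc K K1 J) = lvm l := by
  rcases l with ⟨a, ⟨b, i⟩, k | k⟩ | ⟨l, b, i, r⟩ | ⟨l, a⟩ <;> rfl
theorem lvs_eP (l) : lvs (eP l : Ls n Kf N cc K K1 J) = lv2 l := by
  rcases l with ⟨a, i, k⟩ | ⟨a, i, k⟩ <;> rfl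

theorem eB_ne_eP (l x) : (eB l : Ls n Kf N cc K K1 J) ≠ eP x := by
  rcases l with ⟨a, ⟨b, i⟩, k⟩ | ⟨l, b, i, r⟩ | ⟨l, a⟩ <;> rcases x with ⟨a', i', k'⟩ | ⟨a', i', k'⟩ <;>
    simp [eB, eP, lmap]

theorem eB_ne_eA (l x) : (eB l : Ls n Kf N cc K K1 J) ≠ eA x := by
  rcases l with ⟨a, ⟨b, i⟩, k⟩ | ⟨l, b, i, r⟩ | ⟨l, a⟩ <;> rcases x with ⟨k', ⟨a', i'⟩ | l'⟩ <;>
    simp [eB, eA, lmap]

theorem e1_ne_eC (m l x) : (e1 l : Ls n Kf N cc K K1 J) ≠ eC m x := by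
  rcases l with ⟨a, ⟨b, i⟩, k⟩ | ⟨l, b, i, r⟩ | ⟨l, a⟩ <;> rcases x with ⟨k', i' | l'⟩ <;>
    simp [e1, eC, lmap, sa]

variable [Fintype D] [Fintype J] [DecidableEq J] (ν : PW D) (θ : D → J → ℝ) (F : ℕ → ℝ → ℝ)

variable (n Kf N cc K K1) in
noncomputable def Ps : Ch (Us n Kf N cc K K1 D J) := PU (PW.pi fun _ : Fin (N + 1) => ν) lvs

variable (n Kf N cc K K1 J) in
noncomputable def rs : PW (Us n Kf N cc K K1 D J) := ρU (PW.pi fun _ : Fin (N + 1) => ν) _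

def pB : Us n Kf N cc K K1 D J → Um n Kf D J (Fin N) (A0 N cc) (Fin K1) := pull Fin.tail eB
def p1 : Us n Kf N cc K K1 D J → Um n Kf D J (Fin (N + 1)) (A0 N cc) (Fin K1) := pull id e1
def pN : Us n Kf N cc K K1 D J → Um n Kf D J (Fin N) (A0 N cc) (Fin K1 ⊕ Fin K) := pull Fin.tail eN
def pI : Us n Kf N cc K K1 D J → Um n Kf D J (Fin (N + 1)) (A0 (N + 1) cc) (Fin K1) :=
  pull id Sum.inl

theorem E_tail (G : (Fin N → D) → ℝ) :
    (PW.pi fun _ : Fin (N + 1) => ν).E (fun σ => G (Fin.tail σ)) = (PW.pi fun _ : Fin N => ν).E G := by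
  simp [E_pi_cons]

theorem emb_pB : Emb pB (Ps n Kf N cc K K1 ν) (rs n Kf N cc K K1 J ν)
    (Pm n Kf (Fin N) (A0 N cc) (Fin K1) ν) (rm n Kf J (Fin N) (A0 N cc) (Fin K1) ν) :=
  emb_pull (E_tail ν) eB_inj lvs_eB

theorem emb_p1 : Emb p1 (Ps n Kf N cc K K1 ν) (rs n Kf N cc K K1 J ν)
    (Pm n Kf (Fin (N + 1)) (A0 N cc) (Fin K1) ν) (rm n Kf J (Fin (N + 1)) (A0 N cc) (Fin K1) ν) :=
  emb_pull (fun _ => rfl) e1_inj lvs_e1

theorem emb_pN : Emb pN (Ps n Kf N cc K K1 ν) (rs n Kf N cc K K1 J ν)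
    (Pm n Kf (Fin N) (A0 N cc) (Fin K1 ⊕ Fin K) ν)
    (rm n Kf J (Fin N) (A0 N cc) (Fin K1 ⊕ Fin K) ν) :=
  emb_pull (E_tail ν) eN_inj lvs_eN

theorem emb_pI : Emb pI (Ps n Kf N cc K K1 ν) (rs n Kf N cc K K1 J ν)
    (Pm n Kf (Fin (N + 1)) (A0 (N + 1) cc) (Fin K1) ν)
    (rm n Kf J (Fin (N + 1)) (A0 (N + 1) cc) (Fin K1) ν) :=
  emb_pull (fun _ => rfl) Sum.inl_injective fun _ => rfl

variable (n Kf N cc K K1 D J) in
/-- All the signs of the step universe. -/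
def fs : Fam (Ls n Kf N cc K K1 J) (Us n Kf N cc K K1 D J) := famU (Fin (N + 1) → D) lvs

theorem ok_fs : (fs n Kf N cc K K1 D J).Ok (Ps n Kf N cc K K1 ν) (rs n Kf N cc K K1 J ν) :=
  ok_famU _ _

omit [Fintype D] [Fintype J] in
theorem inv_pB {Λ β : Type} {e : Λ → Ls n Kf N cc K K1 J} (h : ∀ l x, eB l ≠ e x)
    (G : Um n Kf D J (Fin N) (A0 N cc) (Fin K1) → β) :
    ((fs n Kf N cc K K1 D J).comap e).Inv fun ω => G (pB ω) := fun x ω =>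
  congrArg G (pull_flip lvs Fin.tail (fun l => h l x) ω)

variable (d e : ℝ) (β γ : Fin (n + 1) → ℝ)

noncomputable def phi0 {ι 𝒜 κ : Type} (a : 𝒜) (ω : Um n Kf D J ι 𝒜 κ) : ℕ → ℝ → ℝ :=
  phy F (eta γ a ω)

/-- The cavity energy with its compensator. -/
noncomputable def HV (ω : Um n Kf D J (Fin N) (A0 N cc) (Fin K1)) : ℝ :=
  Em θ F e β γ ω + cavV (phi0 F γ) (Sa θ e) d e ω

/-- The field energy of the new block. -/
noncomputable def ownl (l : Fin (n + 1)) (ω : Us n Kf N cc K K1 D J) : ℝ := fxb θ 0 l (p1 ω)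

noncomputable def GA : Us n Kf N cc K K1 D J → ℝ :=
  cavG (fun a ω => phi0 F γ a (pB ω)) (fun a ω => Sa θ e a (pB ω)) d e (fun i ω => θ (ω.1 0) i)
    fun a i ω => Wk fun k => ω.2 (eA (k, Sum.inl (a, i)))

noncomputable def tB (i : Fin N × J) (ω : Us n Kf N cc K K1 D J) : ℝ :=
  θ (ω.1 i.1.succ) i.2 / Real.sqrt N

noncomputable def GB : Us n Kf N cc K K1 D J → ℝ :=
  cavG (fun a ω => phi0 F γ a (pB ω)) (fun a ω => Sa θ e a (pB ω)) d e (tB θ)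
    fun a i ω => Wk fun k => ω.2 (Sum.inr (Sum.inl (k, a, i)))

noncomputable def newp (m : Fin cc) (ω : Us n Kf N cc K K1 D J) : ℝ :=
  phy F (eta γ (0, m) (pI ω)) 0 (Sa θ e (0, m) (pI ω))

omit [Fintype D] in
theorem id1 (ω : Us n Kf N cc K K1 D J) :
    HV θ F d e β γ (pB ω) + tot (ownl θ) β ω + GA θ F d e γ ω = Em θ F e β γ (p1 ω) := by
  have hS : ∀ a, Sa θ e a (p1 ω) = Sa θ e a (pB ω) +
      e * ∑ i, (Wk fun k => ω.2 (eA (k, Sum.inl (a, i)))) * θ (ω.1 0) i := fun a => by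
    simp only [Sa, Fintype.sum_prod_type, Fin.sum_univ_succ, mul_sum]
    rw [add_comm]
    congr 1
    exact sum_congr rfl fun i _ => by
      change (Wk fun k => ω.2 (eA (k, Sum.inl (a, i)))) * (θ (ω.1 0) i * e) = _; ring
  have hx : tot (fld (sx n Kf D J (Fin (N + 1)) (A0 N cc) (Fin K1)) (ux θ)) β (p1 ω) =
      tot (fld (sx n Kf D J (Fin N) (A0 N cc) (Fin K1)) (ux θ)) β (pB ω) + tot (ownl θ) β ω := by
    simp only [tot, fld_sx, Fin.sum_univ_succ, mul_add, sum_add_distrib]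
    rw [add_comm]
    rfl
  simp only [HV, GA, cavG, Em_eq', hS, hx, sum_sub_distrib]
  have : cavV (fun a ω => phi0 F γ a (pB ω)) (fun a ω => Sa θ e a (pB ω)) d e ω =
    cavV (phi0 F γ) (Sa θ e) d e (pB ω) := rfl
  rw [this]
  have : ∀ a, phy F (eta γ a (p1 ω)) = phi0 F γ a (pB ω) := fun a => rfl
  simp only [this]
  have : ∀ a, phy F (eta γ a (pB ω)) = phi0 F γ a (pB ω) := fun a => rfl
  simp only [this]
  ring

omit [Fintype D] in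
theorem id2 (hN : 0 < N) (hK : 0 < K) (hK1 : K1 = K * N) (hd : 0 < d) (ω : Us n Kf N cc K K1 D J) :
    HV θ F d (1 / Real.sqrt ((N + 1 : ℕ) * d)) β γ (pB ω) +
      GB θ F d (1 / Real.sqrt ((N + 1 : ℕ) * d)) γ ω =
      Em θ F (1 / Real.sqrt (N * d)) β γ (pN ω) := by
  have hN' : (0 : ℝ) < N := by exact_mod_cast hN
  have hK' : (0 : ℝ) < K := by exact_mod_cast hK
  have c1 : Real.sqrt ((K1 + K : ℕ) : ℝ) * Real.sqrt (N * d) =
      Real.sqrt K1 * Real.sqrt ((N + 1 : ℕ) * d) := by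
    rw [← Real.sqrt_mul (by positivity), ← Real.sqrt_mul (by positivity), hK1]
    congr 1; push_cast; ring
  have c2 : Real.sqrt K1 = Real.sqrt K * Real.sqrt N := by
    rw [← Real.sqrt_mul (by positivity), hK1]; push_cast; rfl
  have hS : ∀ a, Sa θ (1 / Real.sqrt (N * d)) a (pN ω) =
      Sa θ (1 / Real.sqrt ((N + 1 : ℕ) * d)) a (pB ω) + 1 / Real.sqrt ((N + 1 : ℕ) * d) *
        ∑ i, (Wk fun k => ω.2 (Sum.inr (Sum.inl (k, a, i)))) * tB θ i ω := fun a => by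
    simp only [Sa, mul_sum, ← sum_add_distrib]
    refine sum_congr rfl fun i _ => ?_
    simp only [Wk, Fintype.sum_sum_type, Fintype.card_sum, Fintype.card_fin]
    change (∑ k, sp (ω.2 (eB (Sum.inl (a, i, k)))) + ∑ k, sp (ω.2 (Sum.inr (Sum.inl (k, a, i))))) /
        _ * (θ (ω.1 i.1.succ) i.2 * _) = (∑ k, sp (ω.2 (eB (Sum.inl (a, i, k))))) / _ *
        (θ (ω.1 i.1.succ) i.2 * _) + _ * (_ / _ * (θ (ω.1 i.1.succ) i.2 / _))
    rw [div_mul_eq_mul_div, mul_one_div, mul_div_assoc', div_div, mul_comm (Real.sqrt (N * d)), c1, c2]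
    have : 0 < Real.sqrt ((N + 1 : ℕ) * d) := by positivity
    field_simp
  simp only [HV, GB, cavG, Em_eq', hS, sum_sub_distrib]
  have : cavV (fun a ω => phi0 F γ a (pB ω))
    (fun a ω => Sa θ (1 / Real.sqrt ((N + 1 : ℕ) * d)) a (pB ω)) d
      (1 / Real.sqrt ((N + 1 : ℕ) * d)) ω =
    cavV (phi0 F γ) (Sa θ (1 / Real.sqrt ((N + 1 : ℕ) * d))) d
      (1 / Real.sqrt ((N + 1 : ℕ) * d)) (pB ω) := rfl
  rw [this]
  have : ∀ a, phy F (eta γ a (pN ω)) = phi0 F γ a (pB ω) := fun a => rfl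
  simp only [this]
  have : ∀ a, phy F (eta γ a (pB ω)) = phi0 F γ a (pB ω) := fun a => rfl
  simp only [this]
  have : tot (fld (sx n Kf D J (Fin N) (A0 N cc) (Fin K1 ⊕ Fin K)) (ux θ)) β (pN ω) =
      tot (fld (sx n Kf D J (Fin N) (A0 N cc) (Fin K1)) (ux θ)) β (pB ω) := rfl
  rw [this]
  ring

omit [Fintype D] in
theorem id3 (ω : Us n Kf N cc K K1 D J) :
    Em θ F e β γ (p1 ω) + ∑ m, newp θ F e γ m ω = Em θ F e β γ (pI ω) := by
  simp only [Em_eq', Fintype.sum_prod_type, Fin.sum_univ_succ]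
  have : tot (fld (sx n Kf D J (Fin (N + 1)) (A0 (N + 1) cc) (Fin K1)) (ux θ)) β (pI ω) =
      tot (fld (sx n Kf D J (Fin (N + 1)) (A0 N cc) (Fin K1)) (ux θ)) β (p1 ω) := rfl
  rw [this, add_right_comm, add_comm (∑ x, ∑ y, _)]
  rfl

omit [Fintype D] [DecidableEq J] in
theorem id4 (v β' : ℕ → ℝ) (ω : Us n Kf N cc K K1 D J) :
    tot (ownl θ) (fun l => β' l) ω + ∑ i, (∑ l : Fin (n + 2),
      Real.sqrt (v l) * Wk fun k => ω.2 (eA (k, Sum.inr (l, i)))) * θ (ω.1 0) i =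
      ∑ i, hh v β' (fun l => ω.2 (eP l)) i * θ (ω.1 0) i := by
  simp only [hh, add_mul, sum_add_distrib]
  rw [add_comm]
  congr 1
  simp only [tot, ownl, fxb, mul_sum, sum_mul, Wk, sum_div, Fintype.card_fin]
  rw [sum_comm]
  refine sum_congr rfl fun i _ => sum_congr rfl fun l _ => sum_congr rfl fun k _ => ?_
  change β' l * (sp (ω.2 (eP (Sum.inr (l, i, k)))) * (θ (ω.1 0) i / _)) = _
  ring

theorem fr_psi (v β' : ℕ → ℝ) (G : Um n Kf D J (Fin N) (A0 N cc) (Fin K1) → ℝ) :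
    Fr n (Ps n Kf N cc K K1 ν) (rs n Kf N cc K K1 J ν) (fun ω => G (pB ω) +
      ∑ i, hh v β' (fun l => ω.2 (eP l)) i * θ (ω.1 0) i) =
      Fr n (Ps n Kf N cc K K1 ν) (rs n Kf N cc K K1 J ν) (fun ω => G (pB ω)) +
        psi2 n ν θ K1 Kf v β' := by
  rw [(emb_pB ν).Fr]
  have := FU_add (n := n) (μ := PW.pi fun _ : Fin (N + 1) => ν) (g1 := Fin.tail) (g2 := fun σ => σ 0)
    (μ1 := PW.pi fun _ : Fin N => ν) (μ2 := ν) (lv := (lvs : Ls n Kf N cc K K1 J → ℕ))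
    (fun F1 F2 => by simp [E_pi_cons, E_mul_const, E_const_mul, mul_comm]) eB_inj eP_inj eB_ne_eP
    lvs_eB lvs_eP G fun ω => ∑ i, hh v β' ω.2 i * θ ω.1 i
  unfold Ps rs Pm rm psi2 pB
  unfold FU at this ⊢
  exact this

end Vale.Agent.P157
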