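import Vale.Agent.P157.LBS
import Vale.Agent.P157.Cav

/-!
# P157: the three estimates of one cavity step
-/

namespace Vale.Agent.P157

open Vale.Agent.P168 Vale.Agent.P168.PW Finset MeasureTheory Filter Topology
open scoped BigOperators

set_option synthInstance.maxSize 8192

/-- Exponential moments of a tilt. -/
def Mom {Ω : Type} [Fintype Ω] (M : ℝ) (n : ℕ) (P : Ch Ω) (ρ : PW Ω) (G : Ω → ℝ) : Prop :=
  ∀ r : ℝ, r = 16 ∨ r = -16 → Eh n P ρ 0 (fun ω => Real.exp (r * G ω)) ≤ M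

theorem Mom.of_bd {Ω : Type} [Fintype Ω] {M b : ℝ} {n : ℕ} {P : Ch Ω} {ρ : PW Ω} {G : Ω → ℝ}
    (h : ∀ ω, |G ω| ≤ b) (hM : Real.exp (16 * b) ≤ M) : Mom M n P ρ G := fun r hr =>
  Eh_le_const fun ω => le_trans (Real.exp_le_exp.mpr (by
    have := abs_le.mp (h ω)
    rcases hr with rfl | rfl <;> linarith)) hM

theorem tr3 (M c θ : ℝ) (hθ : 0 < θ) : ∃ C : ℝ, 0 ≤ C ∧
    ∀ (n : ℕ) (Ω : Type) [Fintype Ω] (P : Ch Ω) (ρ : PW Ω) (G1 G2 G3 : Ω → ℝ)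
      (F : ℕ → Ω → Ω → ℝ), Mom M n P ρ G1 → Mom M n (Tn n P G1) ρ G2 →
      Mom M n (Tn n P fun ω => G1 ω + G2 ω) ρ G3 →
      (∀ j, 1 ≤ j → j ≤ n + 1 → ∀ x y, |F j x y| ≤ c) →
      dev n (Tn n P fun ω => G1 ω + G2 ω + G3 ω) ρ F ≤ θ + C * dev n P ρ F := by
  obtain ⟨C3, h3, t3⟩ := tr M c (θ / 3) (by positivity)
  obtain ⟨C2, h2, t2⟩ := tr M c (θ / 3 / (C3 + 1)) (by positivity)
  obtain ⟨C1, h1, t1⟩ := tr M c (θ / 3 / (C3 * C2 + 1)) (by positivity)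
  refine ⟨C3 * C2 * C1, by positivity, fun n Ω _ P ρ G1 G2 G3 F m1 m2 m3 hF => ?_⟩
  have a1 := t1 n Ω P ρ G1 F (m1 _ (Or.inl rfl)) (m1 _ (Or.inr rfl)) hF
  have a2 := t2 n Ω _ ρ G2 F (m2 _ (Or.inl rfl)) (m2 _ (Or.inr rfl)) hF
  have a3 := t3 n Ω _ ρ G3 F (m3 _ (Or.inl rfl)) (m3 _ (Or.inr rfl)) hF
  rw [Tn_Tn] at a2 a3
  have b2 : C3 * (θ / 3 / (C3 + 1)) ≤ θ / 3 := by
    rw [mul_div_assoc', div_le_iff₀ (by positivity)]; nlinarith
  have b1 : C3 * C2 * (θ / 3 / (C3 * C2 + 1)) ≤ θ / 3 := by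
    rw [mul_div_assoc', div_le_iff₀ (by positivity)]; nlinarith
  nlinarith [mul_le_mul_of_nonneg_left a2 h3, mul_le_mul_of_nonneg_left a1 (mul_nonneg h3 h2)]

variable {n Kf N cc K K1 : ℕ} {D J : Type} [Fintype D] [Fintype J] [DecidableEq J] {ν : PW D}
  {θ : D → J → ℝ} {F : ℕ → ℝ → ℝ} {c d e α : ℝ} {β γ : Fin (n + 1) → ℝ}

omit [Fintype D] [Fintype J] [DecidableEq J] in
theorem sm_phi0 {ι 𝒜 κ : Type} (hF : Sm c 4 F) (hγ : ∑ l, |γ l| ≤ 1) (a : 𝒜)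
    (ω : Um n Kf D J ι 𝒜 κ) : Sm (2 * c) 3 (phi0 F γ a ω) :=
  hF.phy ((abs_sign_sum_le _ _).trans hγ)

theorem abs_cavV_leT {Ω 𝒜 : Type} [Fintype 𝒜] {φ : 𝒜 → Ω → ℕ → ℝ → ℝ} {S : 𝒜 → Ω → ℝ}
    (h : ∀ a ω, Sm c 3 (φ a ω)) (hc : 0 ≤ c) (hd : 0 ≤ d) (hα : e ^ 2 * Fintype.card 𝒜 ≤ α)
    (ω : Ω) : |cavV φ S d e ω| ≤ d * α * (c + c ^ 2) := by
  have : |∑ a, (φ a ω 2 (S a ω) + φ a ω 1 (S a ω) ^ 2)| ≤ Fintype.card 𝒜 * (c + c ^ 2) := by
    refine (abs_sum_le_sum_abs _ _).trans ?_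
    rw [← nsmul_eq_mul, ← card_univ, ← sum_const]
    refine sum_le_sum fun a _ => (abs_add_le _ _).trans (add_le_add ((h a ω).2 2 (by norm_num)
      (by norm_num) _) ?_)
    rw [abs_pow]
    exact pow_le_pow_left₀ (abs_nonneg _) ((h a ω).2 1 le_rfl (by norm_num) _) 2
  rw [cavV, abs_mul, abs_of_nonneg (by positivity)]
  calc _ ≤ d * e ^ 2 / 2 * (Fintype.card 𝒜 * (c + c ^ 2)) := by gcongr
    _ = d * (e ^ 2 * Fintype.card 𝒜) * (c + c ^ 2) / 2 := by ring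
    _ ≤ d * α * (c + c ^ 2) / 2 := by gcongr
    _ ≤ _ := by
      have : 0 ≤ α := le_trans (by positivity) hα
      have : 0 ≤ d * α * (c + c ^ 2) := by positivity
      linarith

omit [Fintype D] in
theorem inv_own {Λ : Type} {e : Λ → Ls n Kf N cc K K1 J} (h : ∀ l x, eP (Sum.inr l) ≠ e x)
    (β' : Fin (n + 1) → ℝ) : ((fs n Kf N cc K K1 D J).comap e).Inv (tot (ownl θ) β') := fun x ω => by
  simp only [tot, ownl, fxb]
  refine sum_congr rfl fun l _ => congrArg _ (sum_congr rfl fun i _ => sum_congr rfl fun k _ => ?_)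
  change sp (Function.update ω.2 (e x) _ (eP (Sum.inr (l, i, k)))) * _ = _
  rw [Function.update_of_ne (h _ _)]
  rfl

omit [Fintype J] [DecidableEq J] in
theorem eP_ne_eA (l x) : (eP (Sum.inr l) : Ls n Kf N cc K K1 J) ≠ eA x := by
  rcases l with ⟨a', i', k'⟩; rcases x with ⟨k', ⟨a', i'⟩ | l'⟩ <;> simp [eP, eA]

theorem okA (β' : Fin (n + 1) → ℝ) : ((fs n Kf N cc K K1 D J).comap eA).Ok
    (Tn n (Ps n Kf N cc K K1 ν) fun ω => HV θ F d e β γ (pB ω) + tot (ownl θ) β' ω)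
    (rs n Kf N cc K K1 J ν) :=
  ((ok_fs ν).comap eA_inj).Tn fun x ω =>
    congrArg₂ (· + ·) (inv_pB eB_ne_eA (HV θ F d e β γ) x ω) (inv_own eP_ne_eA β' x ω)

theorem momO (hK : 0 < Kf) (hF : Sm c 4 F) (hγ : ∑ l, |γ l| ≤ 1) (hθ : ∀ a, ∑ i, θ a i ^ 2 = d)
    (hd : 0 ≤ d) (hα : e ^ 2 * Fintype.card (A0 N cc) ≤ α) {β' : Fin (n + 1) → ℝ}
    (hβ' : ∑ l, β' l ^ 2 ≤ 1) :
    Mom (Real.exp (16 * (d * α * (2 * c + (2 * c) ^ 2)) + 128 * d)) n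
      (Tn n (Ps n Kf N cc K K1 ν) fun ω => Em θ F e β γ (pB ω)) (rs n Kf N cc K K1 J ν)
      fun ω => cavV (phi0 F γ) (Sa θ e) d e (pB ω) + tot (ownl θ) β' ω := fun r hr => by
  have hK' : (0 : ℝ) < Kf := by exact_mod_cast hK
  have hr2 : r ^ 2 = 256 := by rcases hr with rfl | rfl <;> norm_num
  have ok : ((fs n Kf N cc K K1 D J).comap fun l => eP (Sum.inr l)).Ok
      (Tn n (Ps n Kf N cc K K1 ν) fun ω => Em θ F e β γ (pB ω)) (rs n Kf N cc K K1 J ν) :=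
    ((ok_fs ν).comap (eP_inj.comp Sum.inr_injective)).Tn
      (inv_pB (fun l x => eB_ne_eP l _) (Em θ F e β γ))
  have h := linmom (n := n) ok (u := fun l ω => r * β' l.1 * (θ (ω.1 0) l.2.1 / Real.sqrt Kf))
    (fun _ _ _ => rfl) (W := 256 * d) fun ω => by
      simp only [Fintype.sum_prod_type, mul_pow, div_pow, Real.sq_sqrt hK'.le, sum_const,
        card_univ, Fintype.card_fin, nsmul_eq_mul, ← mul_sum, mul_div_cancel₀ _ hK'.ne', hθ,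
        ← sum_mul, hr2]
      nlinarith
  rw [Real.exp_add, show 128 * d = 256 * d / 2 by ring]
  refine le_trans ?_ (mul_le_mul_of_nonneg_left h (Real.exp_pos _).le)
  rw [← Eh_const_mul]
  refine Eh_mono fun ω => ?_
  rw [← Real.exp_add, Real.exp_le_exp, mul_add]
  refine add_le_add ?_ (le_of_eq ?_)
  · have := abs_le.mp (abs_cavV_leT (S := Sa θ e) (sm_phi0 (Kf := Kf) (D := D) (J := J) (ι := Fin N)
      (κ := Fin K1) hF hγ) (by linarith [hF.nonneg]) hd hα (pB ω))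
    rcases hr with rfl | rfl <;> linarith
  · simp only [tot, ownl, fxb, mul_sum, Fintype.sum_prod_type]
    refine sum_congr rfl fun l _ => sum_congr rfl fun i _ => sum_congr rfl fun k _ => ?_
    change r * (β' l * (sp (ω.2 (eP (Sum.inr (l, i, k)))) * (θ (ω.1 0) i / _))) =
      sp (ω.2 (eP (Sum.inr (l, i, k)))) * _
    ring

theorem stepA_eq (β' q : ℕ → ℝ) {x : ℝ}
    (h : |Fr n (Tn n (Ps n Kf N cc K K1 ν) fun ω => HV θ F d e β γ (pB ω) +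
        tot (ownl θ) (fun l => β' l) ω) (rs n Kf N cc K K1 J ν) (GA θ F d e γ) -
      Fr n (Tn n (Ps n Kf N cc K K1 ν) fun ω => HV θ F d e β γ (pB ω) +
        tot (ownl θ) (fun l => β' l) ω) (rs n Kf N cc K K1 J ν)
        (fun ω => ∑ i, (∑ l : Fin (n + 2), Real.sqrt (vr n q l) *
          Wk fun k => ω.2 (eA (k, Sum.inr (l, i)))) * θ (ω.1 0) i - d * q 0 / 2)| ≤ x) :
    |Fr n (Ps n Kf N cc K K1 ν) (rs n Kf N cc K K1 J ν) (fun ω => HV θ F d e β γ (pB ω) +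
        tot (ownl θ) (fun l => β' l) ω + GA θ F d e γ ω) -
      (Fr n (Ps n Kf N cc K K1 ν) (rs n Kf N cc K K1 J ν) (fun ω => HV θ F d e β γ (pB ω)) -
        d * q 0 / 2 + psi2 n ν θ K1 Kf (vr n q) β')| ≤ x := by
  have h1 := Fr_add (n := n) (P := Ps n Kf N cc K K1 ν) (ρ := rs n Kf N cc K K1 J ν)
    (fun ω => HV θ F d e β γ (pB ω) + tot (ownl θ) (fun l => β' l) ω)
    (fun ω => ∑ i, (∑ l : Fin (n + 2), Real.sqrt (vr n q l) *
      Wk fun k => ω.2 (eA (k, Sum.inr (l, i)))) * θ (ω.1 0) i - d * q 0 / 2)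
  have h2 : (fun ω : Us n Kf N cc K K1 D J => HV θ F d e β γ (pB ω) +
      tot (ownl θ) (fun l => β' l) ω + (∑ i, (∑ l : Fin (n + 2), Real.sqrt (vr n q l) *
      Wk fun k => ω.2 (eA (k, Sum.inr (l, i)))) * θ (ω.1 0) i - d * q 0 / 2)) =
      fun ω => (HV θ F d e β γ (pB ω) + ∑ i, hh (vr n q) β' (fun l => ω.2 (eP l)) i * θ (ω.1 0) i) +
        -(d * q 0 / 2) := funext fun ω => by rw [← id4]; ring
  rw [h2, Fr_add_const, fr_psi] at h1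
  rw [Fr_add]
  exact le_trans (le_of_eq (congrArg _ (by linarith))) h

omit [Fintype D] [DecidableEq J] in
theorem abs_ovy_sub_le {ι κ : Type} [Fintype ι] [Fintype κ] (hF : Sm c 4 F) (hγ : ∑ l, |γ l| ≤ 1)
    (he : 0 < e) (hα : e ^ 2 * Fintype.card (A0 N cc) ≤ α) (x y : Um n Kf D J ι (A0 N cc) κ) :
    |ovy (phi0 F γ) (Sa θ e) e x y - ov (uy θ F e) (1 / e ^ 2) x y| ≤
      3 * α * c ^ 2 * ∑ l, |γ l| := by
  have hc := hF.nonneg
  set Γ := ∑ l, |γ l| with hΓ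
  have hΓ0 : 0 ≤ Γ := sum_nonneg fun _ _ => abs_nonneg _
  rw [ovy, ov, div_div_eq_mul_div, div_one, mul_comm _ (e ^ 2), ← mul_sub, ← sum_sub_distrib,
    abs_mul, abs_of_pos (by positivity)]
  have : ∀ a, |phi0 F γ a x 1 (Sa θ e a x) * phi0 F γ a y 1 (Sa θ e a y) -
      uy θ F e a x * uy θ F e a y| ≤ 3 * c ^ 2 * Γ := fun a => by
    have b : ∀ z : Um n Kf D J ι (A0 N cc) κ,
        |phi0 F γ a z 1 (Sa θ e a z) - uy θ F e a z| ≤ Γ * c := fun z => by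
      simp only [phi0, phy, uy, add_sub_cancel_left]
      exact abs_mul_le' (abs_sign_sum_le _ _) (hF.2 _ (by norm_num) (by norm_num) _)
    refine (abs_mul_sub_mul_le ((sm_phi0 hF hγ a y).2 1 le_rfl (by norm_num) _)
      (hF.2 1 le_rfl (by norm_num) _) (b x) (b y)).trans (le_of_eq (by ring))
  refine (mul_le_mul_of_nonneg_left ((abs_sum_le_sum_abs _ _).trans
    (sum_le_sum fun a _ => this a)) (by positivity)).trans ?_
  rw [sum_const, card_univ, nsmul_eq_mul, ← mul_assoc]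
  exact (mul_le_mul_of_nonneg_right hα (by positivity)).trans (le_of_eq (by ring))

omit [Fintype D] [DecidableEq J] in
theorem abs_Rx_le (hθ : ∀ a, ∑ i, θ a i ^ 2 = d) (hN : 0 < N) (hd : 0 < d) (σ σ' : Fin N → D) :
    |Rx θ (N * d) σ σ'| ≤ 1 := by
  have := abs_ov_le (u := fun (i : Fin N × J) (σ : Fin N → D) => θ (σ i.1) i.2) (N := N * d) (c := 1)
    (by positivity) (fun ω => by simp [Fintype.sum_prod_type, hθ]) σ σ'
  simpa only [ov, Rx, Fintype.sum_prod_type] using this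

omit [Fintype D] [DecidableEq J] in
theorem abs_Rx_sub_le (hθ : ∀ a, ∑ i, θ a i ^ 2 = d) (hN : 0 < N) (hd : 0 < d)
    (σ σ' : Fin (N + 1) → D) :
    |Rx θ ((N + 1 : ℕ) * d) σ σ' - Rx θ (N * d) (Fin.tail σ) (Fin.tail σ')| ≤ 2 / (N + 1) := by
  have hN' : (0 : ℝ) < N := by exact_mod_cast hN
  have h1 := abs_le.mp (abs_Rx_le hθ hN hd (Fin.tail σ) (Fin.tail σ'))
  have h2 := abs_le.mp (abs_ov_le (u := fun (i : J) (a : D) => θ a i) (N := d) (c := 1) hd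
    (fun a => by simp [hθ]) (σ 0) (σ' 0))
  have e : Rx θ ((N + 1 : ℕ) * d) σ σ' - Rx θ (N * d) (Fin.tail σ) (Fin.tail σ') =
      (ov (fun (i : J) (a : D) => θ a i) d (σ 0) (σ' 0) -
        Rx θ (N * d) (Fin.tail σ) (Fin.tail σ')) / (N + 1) := by
    simp only [Rx, ov, Fin.sum_univ_succ, Fin.tail]
    push_cast
    field_simp
    ring
  rw [e, abs_div, abs_of_pos (by positivity : (0 : ℝ) < N + 1)]
  gcongr
  rw [abs_le]; constructor <;> linarith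

end Vale.Agent.P157
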