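import Vale.Agent.P157.LBT

/-!
# P157: the three estimates of one cavity step, assembled
-/

namespace Vale.Agent.P157

open Vale.Agent.P168 Vale.Agent.P168.PW Finset MeasureTheory Filter Topology
open scoped BigOperators

set_option synthInstance.maxSize 8192

variable {n Kf N cc K K1 : ℕ} {D J : Type} [Fintype D] [Fintype J] [DecidableEq J]

section defs
variable (n Kf N cc K1) (ν : PW D) (θ : D → J → ℝ) (F : ℕ → ℝ → ℝ) (d e : ℝ)
  (β γ : Fin (n + 1) → ℝ)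

noncomputable def px : ℕ → ℝ :=
  prof n (Tn n (Pm n Kf (Fin N) (A0 N cc) (Fin K1) ν) (Em θ F e β γ))
    (rm n Kf J (Fin N) (A0 N cc) (Fin K1) ν) (ov (ux θ) (Fintype.card (Fin N) * d))

noncomputable def qy : ℕ → ℝ :=
  prof n (Tn n (Pm n Kf (Fin N) (A0 N cc) (Fin K1) ν) (Em θ F e β γ))
    (rm n Kf J (Fin N) (A0 N cc) (Fin K1) ν) (ov (uy θ F e) (1 / e ^ 2))

variable {n Kf N cc K1}

noncomputable def Es (s : Finset (Fin cc)) (ω : Us n Kf N cc K K1 D J) : ℝ :=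
  Em θ F e β γ (p1 ω) + ∑ m ∈ s, newp θ F e γ m ω

noncomputable def xf (i : Fin (N + 1) × J) (ω : Us n Kf N cc K K1 D J) : ℝ := θ (ω.1 i.1) i.2 * e

noncomputable def Fx (j : ℕ) (x y : Us n Kf N cc K K1 D J) : ℝ :=
  Rx θ (N * d) (Fin.tail x.1) (Fin.tail y.1) - px n Kf N cc K1 ν θ F d e β γ j

noncomputable def Fy (j : ℕ) (x y : Us n Kf N cc K K1 D J) : ℝ :=
  ovy (fun a ω => phi0 F γ a (pB ω)) (fun a ω => Sa θ e a (pB ω)) e x y -
    qy n Kf N cc K1 ν θ F e β γ j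

end defs

variable {ν : PW D} {θ : D → J → ℝ} {F : ℕ → ℝ → ℝ} {c d e α : ℝ} {β γ : Fin (n + 1) → ℝ}

theorem px_mem (hK : 0 < Kf) (hθ : ∀ a, ∑ i, θ a i ^ 2 = d) (hN : 0 < N) (hd : 0 < d) (j : ℕ) :
    0 ≤ px n Kf N cc K1 ν θ F d e β γ j ∧ px n Kf N cc K1 ν θ F d e β γ j ≤ 1 :=
  ⟨prof_nonneg (by positivity) j, prof_le (by simp only [Fintype.card_fin]; positivity)
    (fun ω => (sum_ux_sq hK hθ ω).le.trans (one_mul _).ge) j⟩

theorem qy_mem (hF : Sm c 4 F) (he : 0 < e) (hα : e ^ 2 * Fintype.card (A0 N cc) ≤ α) (j : ℕ) :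
    0 ≤ qy n Kf N cc K1 ν θ F e β γ j ∧ qy n Kf N cc K1 ν θ F e β γ j ≤ α * c ^ 2 :=
  ⟨prof_nonneg (by positivity) j, prof_le (by positivity) (sum_uy_sq hF he hα) j⟩

theorem qy_mono : Mono n (qy n Kf N cc K1 ν θ F e β γ) := prof_mono (by positivity)

theorem abs_Fx_le (hK : 0 < Kf) (hθ : ∀ a, ∑ i, θ a i ^ 2 = d) (hN : 0 < N) (hd : 0 < d) (j : ℕ)
    (x y : Us n Kf N cc K K1 D J) : |Fx ν θ F d e β γ j x y| ≤ 2 := by
  have h1 := abs_le.mp (abs_Rx_le hθ hN hd (Fin.tail x.1) (Fin.tail y.1))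
  have h2 := px_mem (cc := cc) (K1 := K1) (ν := ν) (F := F) (e := e) (β := β) (γ := γ) hK hθ hN hd j
  rw [Fx, abs_le]; constructor <;> linarith

theorem abs_Fy_le (hF : Sm c 4 F) (hγ : ∑ l, |γ l| ≤ 1) (he : 0 < e)
    (hα : e ^ 2 * Fintype.card (A0 N cc) ≤ α) (j : ℕ) (x y : Us n Kf N cc K K1 D J) :
    |Fy ν θ F e β γ j x y| ≤ 5 * α * c ^ 2 := by
  have h1 := abs_le.mp (abs_ovy_sub_le (θ := θ) hF hγ he hα (pB x) (pB y))
  have h2 := abs_le.mp (abs_ov_le (by positivity) (sum_uy_sq (θ := θ) hF he hα) (pB x) (pB y))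
  have h3 := qy_mem (Kf := Kf) (K1 := K1) (ν := ν) (θ := θ) (β := β) (γ := γ) hF he hα j
  have h4 : 3 * α * c ^ 2 * ∑ l, |γ l| ≤ 3 * α * c ^ 2 :=
    mul_le_of_le_one_right (by nlinarith [h3.1, h3.2]) hγ
  have : ovy (fun a ω => phi0 F γ a (pB ω)) (fun a ω => Sa θ e a (pB ω)) e x y =
    ovy (phi0 F γ) (Sa θ e) e (pB x) (pB y) := rfl
  rw [Fy, this, abs_le]; constructor <;> linarith

theorem devs_le (hK : 0 < Kf) (hF : Sm c 4 F) (hγ : ∑ l, |γ l| ≤ 1) (he : 0 < e)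
    (hα : e ^ 2 * Fintype.card (A0 N cc) ≤ α) :
    dev n (Tn n (Ps n Kf N cc K K1 ν) fun ω => Em θ F e β γ (pB ω)) (rs n Kf N cc K K1 J ν)
        (Fx ν θ F d e β γ) +
      dev n (Tn n (Ps n Kf N cc K K1 ν) fun ω => Em θ F e β γ (pB ω)) (rs n Kf N cc K K1 J ν)
        (Fy ν θ F e β γ) ≤
      dxy n Kf (Fin N) (A0 N cc) (Fin K1) ν θ F d e β γ + 3 * α * c ^ 2 * ∑ l, |γ l| := by
  have em := (emb_pB (n := n) (Kf := Kf) (N := N) (cc := cc) (K := K) (K1 := K1) (J := J) ν).Tn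
    (n := n) (Em θ F e β γ)
  rw [dxy, ← em.dev, ← em.dev, add_assoc]
  refine add_le_add (le_of_eq ?_) ?_
  · congr 1
    funext j x y
    rw [ov_ux θ hK, Fintype.card_fin]
    simp only [Fx, px, Fintype.card_fin]
    rfl
  · have h0 : 0 ≤ 3 * α * c ^ 2 * ∑ l, |γ l| := by
      have : 0 ≤ α := le_trans (by positivity) hα
      have : 0 ≤ ∑ l, |γ l| := sum_nonneg fun _ _ => abs_nonneg _
      positivity
    rw [← abs_of_nonneg h0, ← dev_const (n := n) (P := Tn n (Ps n Kf N cc K K1 ν)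
      fun ω => Em θ F e β γ (pB ω)) (ρ := rs n Kf N cc K K1 J ν)]
    refine dev_le_add fun j _ _ x y => ?_
    rw [abs_of_nonneg h0]
    have h1 := abs_ovy_sub_le (θ := θ) hF hγ he hα (pB x) (pB y)
    have : Fy ν θ F e β γ j x y = (ov (uy θ F e) (1 / e ^ 2) (pB x) (pB y) -
        qy n Kf N cc K1 ν θ F e β γ j) + (ovy (phi0 F γ) (Sa θ e) e (pB x) (pB y) -
        ov (uy θ F e) (1 / e ^ 2) (pB x) (pB y)) := by
      change ovy (phi0 F γ) (Sa θ e) e (pB x) (pB y) - _ = _; ring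
    rw [this]
    exact (abs_add_le _ _).trans (add_le_add le_rfl h1)

omit [Fintype D] [DecidableEq J] in
theorem abs_newp_le (hF : Sm c 4 F) (hc : ∀ x, |F 0 x| ≤ c) (hγ : ∑ l, |γ l| ≤ 1)
    (s : Finset (Fin cc)) (ω : Us n Kf N cc K K1 D J) :
    |∑ m ∈ s, newp θ F e γ m ω| ≤ cc * (2 * c) := by
  have h : ∀ m, |newp θ F e γ m ω| ≤ 2 * c := fun m => (abs_add_le _ _).trans (by
    have h1 : |eta γ (0, m) (pI ω)| ≤ 1 := (abs_sign_sum_le _ _).trans hγ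
    linarith [hc (Sa θ e (0, m) (pI ω)), abs_mul_le' h1
      (hF.2 (0 + 1) le_rfl (by norm_num) (Sa θ e (0, m) (pI ω)))])
  refine (abs_sum_le_sum_abs _ _).trans ((sum_le_sum fun m _ => h m).trans ?_)
  rw [sum_const, nsmul_eq_mul]
  have := hF.nonneg
  gcongr
  exact_mod_cast (card_le_univ s).trans (Fintype.card_fin cc).le

omit [Fintype D] [DecidableEq J] in
theorem ov_xf (hd : 0 < d) (x y : Us n Kf N cc K K1 D J) :
    ov (xf θ (1 / Real.sqrt ((N + 1 : ℕ) * d))) 1 x y = Rx θ ((N + 1 : ℕ) * d) x.1 y.1 := by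
  simp only [ov, xf, Rx, Fintype.sum_prod_type, div_one, sum_div]
  refine sum_congr rfl fun b _ => sum_congr rfl fun i _ => ?_
  rw [mul_mul_mul_comm, div_mul_div_comm, Real.mul_self_sqrt (by positivity), one_mul, mul_one_div]

omit [Fintype D] [DecidableEq J] in
theorem ov_tB (hN : 0 < N) (x y : Us n Kf N cc K K1 D J) :
    ov (tB θ) d x y = Rx θ (N * d) (Fin.tail x.1) (Fin.tail y.1) := by
  have hN' : (0 : ℝ) < N := by exact_mod_cast hN
  simp only [ov, tB, Rx, Fintype.sum_prod_type, div_mul_div_comm, Real.mul_self_sqrt hN'.le,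
    ← sum_div, div_div, Fin.tail]

theorem e_facts {cc N : ℕ} {α d : ℝ} (hd : 1 ≤ d) (hcc : cc ≤ α * d) :
    0 < 1 / Real.sqrt ((N + 1 : ℕ) * d) ∧
      (1 / Real.sqrt ((N + 1 : ℕ) * d)) ^ 2 * Fintype.card (A0 N cc) ≤ α ∧
      2 / ((N : ℝ) + 1) ≤ 2 * d * (1 / Real.sqrt ((N + 1 : ℕ) * d)) := by
  have h0 : (1 : ℝ) ≤ (N + 1 : ℕ) * d := by push_cast; nlinarith [Nat.cast_nonneg (α := ℝ) N]
  have h1 : (0 : ℝ) < (N + 1 : ℕ) * d := by linarith
  refine ⟨by positivity, ?_, ?_⟩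
  · rw [div_pow, Real.sq_sqrt h1.le, one_pow, div_mul_eq_mul_div, div_le_iff₀ h1]
    simp only [Fintype.card_prod, Fintype.card_fin]
    push_cast
    have : 0 ≤ α * d := le_trans (Nat.cast_nonneg _) hcc
    nlinarith [Nat.cast_nonneg (α := ℝ) N]
  · have h2 : Real.sqrt ((N + 1 : ℕ) * d) ≤ (N + 1 : ℕ) * d := Real.sqrt_le_iff.mpr ⟨h1.le, by nlinarith⟩
    rw [mul_one_div, div_le_div_iff₀ (by positivity) (by positivity)]
    push_cast at h2 ⊢
    linarith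

set_option maxHeartbeats 1600000 in
theorem step1 (c α d θ0 : ℝ) (hd : 1 ≤ d) (hθ0 : 0 < θ0) : ∃ C : ℝ, 0 ≤ C ∧
    ∀ (n Kf cc N : ℕ) (D J : Type) [Fintype D] [Fintype J] [DecidableEq J] (ν : PW D)
      (θ : D → J → ℝ) (F : ℕ → ℝ → ℝ), Sm c 4 F → (∀ x, |F 0 x| ≤ c) → (∀ a, ∑ i, θ a i ^ 2 = d) →
      cc ≤ α * d → 0 < Kf → 0 < N → ∃ K0 : ℕ, ∀ K, K0 ≤ K → ∀ (β : ℕ → ℝ) (γ : Fin (n + 1) → ℝ)
      (e Δ : ℝ), e = 1 / Real.sqrt ((N + 1 : ℕ) * d) → ∑ l : Fin (n + 1), β l ^ 2 ≤ 1 →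
      ∑ l, |γ l| ≤ 1 → dxy n Kf (Fin N) (A0 N cc) (Fin (K * N)) ν θ F d e (fun l => β l) γ + e +
        ∑ l, |γ l| ≤ Δ →
      (∀ β' : ℕ → ℝ, ∑ l : Fin (n + 1), β' l ^ 2 ≤ 1 →
        |Fr n (Ps n Kf N cc K (K * N) ν) (rs n Kf N cc K (K * N) J ν)
          (fun ω => HV θ F d e (fun l => β l) γ (pB ω) + tot (ownl θ) (fun l => β' l) ω +
            GA θ F d e γ ω) -
        (Fr n (Ps n Kf N cc K (K * N) ν) (rs n Kf N cc K (K * N) J ν)
          (fun ω => HV θ F d e (fun l => β l) γ (pB ω)) -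
          d * qy n Kf N cc (K * N) ν θ F e (fun l => β l) γ 0 / 2 +
          psi2 n ν θ (K * N) Kf (vr n (qy n Kf N cc (K * N) ν θ F e (fun l => β l) γ)) β')| ≤
          θ0 + C * Δ) ∧
      FK n Kf (Fin N) (A0 N cc) (Fin (K * N) ⊕ Fin K) ν θ F (1 / Real.sqrt (N * d))
          (fun l => β l) γ ≤
        Fr n (Ps n Kf N cc K (K * N) ν) (rs n Kf N cc K (K * N) J ν)
          (fun ω => HV θ F d e (fun l => β l) γ (pB ω)) -
        d / 2 * (wt n * ∑ j ∈ Icc 1 (n + 1), px n Kf N cc (K * N) ν θ F d e (fun l => β l) γ j *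
          qy n Kf N cc (K * N) ν θ F e (fun l => β l) γ j) + (θ0 + C * Δ) ∧
      ∀ s, dev n (Tn n (Ps n Kf N cc K (K * N) ν) (Es θ F e (fun l => β l) γ s))
        (rs n Kf N cc K (K * N) J ν)
        (fun j x y => ov (xf θ e) 1 x y - px n Kf N cc (K * N) ν θ F d e (fun l => β l) γ j) ≤
        θ0 + C * Δ := by
  have hd0 : 0 < d := by linarith
  obtain ⟨CA, hCA, hA⟩ := cavA (2 * c) α (α * c ^ 2) d (θ0 / 2) (by positivity)
  obtain ⟨CB, hCB, hB⟩ := cavB (2 * c) α (α * c ^ 2) d (θ0 / 2) hd0 (by positivity)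
  obtain ⟨M1, hM1⟩ := cavM (2 * c) α d 16
  obtain ⟨M2, hM2⟩ := cavM (2 * c) α d (-16)
  set M := max (max M1 M2) (max (Real.exp (16 * (d * α * (2 * c + (2 * c) ^ 2)) + 128 * d))
    (max (Real.exp (16 * (α * d * (2 * c)))) (Real.exp (16 * 0)))) with hM
  obtain ⟨Ct, hCt, ht⟩ := tr3 M (2 + 5 * |α| * c ^ 2) (θ0 / 4 / (CA + CB + 1)) (by positivity)
  refine ⟨(CA + CB + 1) * (Ct * (1 + 3 * |α| * c ^ 2) + 2 * d), by positivity,
    fun n Kf cc N D J _ _ _ ν θ F hF hc hθ hcc hK hN => ?_⟩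
  obtain ⟨K1, hA⟩ := hA n ((N + 1) * (cc + Fintype.card J))
  obtain ⟨K2, hB⟩ := hB n ((N + 1) * (cc + Fintype.card J))
  obtain ⟨K3, hM1⟩ := hM1 n ((N + 1) * (cc + Fintype.card J))
  obtain ⟨K4, hM2⟩ := hM2 n ((N + 1) * (cc + Fintype.card J))
  refine ⟨K1 + K2 + K3 + K4 + 1, fun K hKK β γ e Δ he hβ hγ hΔ => ?_⟩
  have hKN : K ≤ K * N := Nat.le_mul_of_pos_right K hN
  obtain ⟨he0, hα, he2⟩ := e_facts (N := N) hd hcc
  rw [← he] at he0 hα he2
  have hα0 : 0 ≤ α := le_trans (by positivity) hα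
  rw [abs_of_nonneg hα0] at ht ⊢
  have c1 : Fintype.card (A0 N cc) ≤ (N + 1) * (cc + Fintype.card J) := by
    simp only [Fintype.card_prod, Fintype.card_fin]; nlinarith [Nat.zero_le (N * Fintype.card J)]
  have c2 : Fintype.card J ≤ (N + 1) * (cc + Fintype.card J) := by nlinarith [Nat.zero_le (N * cc)]
  have c3 : Fintype.card (Fin N × J) ≤ (N + 1) * (cc + Fintype.card J) := by
    simp only [Fintype.card_prod, Fintype.card_fin]; nlinarith [Nat.zero_le (N * cc)]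
  have hc0 := hF.nonneg
  set P := Ps n Kf N cc K (K * N) ν (J := J) with hP
  set ρ := rs n Kf N cc K (K * N) J ν with hρ
  set Pb := Tn n P fun ω => Em θ F e (fun l => β l) γ (pB ω) with hPb
  have hΓ0 : 0 ≤ ∑ l, |γ l| := sum_nonneg fun _ _ => abs_nonneg _
  have dv := devs_le (K := K) (K1 := K * N) (ν := ν) (θ := θ) (d := d) (β := fun l => β l)
    hK hF hγ he0 hα
  have dx0 := dev_nonneg (n := n) (P := Pb) (ρ := ρ) (Fx ν θ F d e (fun l => β l) γ)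
  have dy0 := dev_nonneg (n := n) (P := Pb) (ρ := ρ) (Fy ν θ F e (fun l => β l) γ)
  have dv' : dev n Pb ρ (Fx ν θ F d e (fun l => β l) γ) + dev n Pb ρ (Fy ν θ F e (fun l => β l) γ) ≤
      (1 + 3 * α * c ^ 2) * Δ - e := by
    have : 0 ≤ dxy n Kf (Fin N) (A0 N cc) (Fin (K * N)) ν θ F d e (fun l => β l) γ :=
      add_nonneg (dev_nonneg _) (dev_nonneg _)
    linarith [mul_le_mul_of_nonneg_left (show ∑ l, |γ l| ≤ Δ by linarith)
      (show 0 ≤ 3 * α * c ^ 2 by positivity)]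
  have heΔ : e ≤ Δ := by
    have : 0 ≤ dxy n Kf (Fin N) (A0 N cc) (Fin (K * N)) ν θ F d e (fun l => β l) γ :=
      add_nonneg (dev_nonneg _) (dev_nonneg _)
    linarith
  have bx := fun j (_ : 1 ≤ j) (_ : j ≤ n + 1) (x y : Us n Kf N cc K (K * N) D J) =>
    (abs_Fx_le (ν := ν) (F := F) (e := e) (β := fun l => β l) (γ := γ) hK hθ hN hd0 j x y).trans
      (le_add_of_nonneg_right (by positivity : 0 ≤ 5 * α * c ^ 2))
  have by' := fun j (_ : 1 ≤ j) (_ : j ≤ n + 1) (x y : Us n Kf N cc K (K * N) D J) =>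
    (abs_Fy_le (ν := ν) (θ := θ) (β := fun l => β l) hF hγ he0 hα j x y).trans
      (le_add_of_nonneg_left (by norm_num : (0 : ℝ) ≤ 2))
  have m0 : ∀ P' : Ch (Us n Kf N cc K (K * N) D J), Mom M n P' ρ fun _ => 0 := fun P' =>
    Mom.of_bd (b := 0) (fun _ => by simp) (by simp [hM])
  have mO : ∀ β' : ℕ → ℝ, ∑ l : Fin (n + 1), β' l ^ 2 ≤ 1 → Mom M n Pb ρ fun ω =>
      cavV (phi0 F γ) (Sa θ e) d e (pB ω) + tot (ownl θ) (fun l => β' l) ω := fun β' h r hr =>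
    (momO hK hF hγ hθ hd0.le hα h r hr).trans (by simp [hM])
  have TO : ∀ β' : ℕ → ℝ, Tn n Pb (fun ω => cavV (phi0 F γ) (Sa θ e) d e (pB ω) +
      tot (ownl θ) (fun l => β' l) ω) = Tn n P fun ω => HV θ F d e (fun l => β l) γ (pB ω) +
        tot (ownl θ) (fun l => β' l) ω := fun β' => by
    rw [hPb, Tn_Tn]; congr 1; funext ω; rw [HV, add_assoc]
  have dO : ∀ β' : ℕ → ℝ, ∑ l : Fin (n + 1), β' l ^ 2 ≤ 1 → ∀ G : ℕ → _ → _ → ℝ,
      (∀ j, 1 ≤ j → j ≤ n + 1 → ∀ x y, |G j x y| ≤ 2 + 5 * α * c ^ 2) →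
      dev n (Tn n P fun ω => HV θ F d e (fun l => β l) γ (pB ω) + tot (ownl θ) (fun l => β' l) ω)
        ρ G ≤ θ0 / 4 / (CA + CB + 1) + Ct * dev n Pb ρ G := fun β' h G hG => by
    have := ht n _ Pb ρ _ _ _ G (mO β' h) (m0 _) (m0 _) hG
    simpa only [add_zero, TO] using this
  have nA : CA * (θ0 / 4 / (CA + CB + 1)) ≤ θ0 / 4 := by
    rw [mul_div_assoc', div_le_iff₀ (by positivity)]; linarith [mul_nonneg hθ0.le hCB]
  have nB : CB * (θ0 / 4 / (CA + CB + 1)) ≤ θ0 / 4 := by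
    rw [mul_div_assoc', div_le_iff₀ (by positivity)]; linarith [mul_nonneg hθ0.le hCA]
  have n1 : θ0 / 4 / (CA + CB + 1) ≤ θ0 / 4 := div_le_self (by positivity) (by linarith)
  have hΔ0 : 0 ≤ Δ := he0.le.trans heΔ
  set X := (Ct * (1 + 3 * α * c ^ 2) + 2 * d) * Δ with hX
  have hX0 : 0 ≤ X := by positivity
  have fin : ∀ a b : ℝ, a ≤ 2 * d * e → b ≤ (1 + 3 * α * c ^ 2) * Δ → a + Ct * b ≤ X := fun a b h1 h2 => by
    rw [hX]; linarith [mul_le_mul_of_nonneg_left h2 hCt, mul_le_mul_of_nonneg_left heΔ hd0.le]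
  have e2d : e ≤ 2 * d * e := le_mul_of_one_le_left he0.le (by linarith)
  rw [mul_assoc, ← hX]
  refine ⟨fun β' hβ' => stepA_eq β' _ ?_, ?_, fun s => ?_⟩
  · refine (hA (K * N) (by omega) _ _ _ _ ρ _ (fun i ω => θ (ω.1 0) i) (fun a ω => Sa θ e a (pB ω))
      (fun a ω => phi0 F γ a (pB ω)) e _ c1 c2 (okA fun l => β' l) (fun _ _ => rfl)
      (fun _ _ _ => rfl) (fun _ _ _ => rfl) (fun a => inv_pB eB_ne_eA (Sa θ e a))
      (fun a => inv_pB eB_ne_eA (phi0 F γ a)) (fun a ω => sm_phi0 hF hγ a _) (fun ω => hθ _)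
      he0.le hα qy_mono (qy_mem hF he0 hα 0).2).trans ?_
    have h1 := dO β' hβ' _ by'
    have h2 := fin e _ e2d (show dev n Pb ρ (Fy ν θ F e (fun l => β l) γ) ≤ _ by linarith)
    change θ0 / 2 + CA * (e + dev n _ ρ (Fy ν θ F e (fun l => β l) γ)) ≤ _
    linarith [mul_le_mul_of_nonneg_left h1 hCA, mul_le_mul_of_nonneg_left h2 hCA,
      mul_nonneg hCB hX0]
  · have h0 : FK n Kf (Fin N) (A0 N cc) (Fin (K * N) ⊕ Fin K) ν θ F (1 / Real.sqrt (N * d))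
        (fun l => β l) γ = Fr n P ρ fun ω => HV θ F d e (fun l => β l) γ (pB ω) + GB θ F d e γ ω := by
      rw [FK, ← (emb_pN ν).Fr, he]
      simp only [id2 θ F d _ γ hN (by omega : 0 < K) rfl hd0]
      rfl
    have ok : ((fs n Kf N cc K (K * N) D J).comap fun l => Sum.inr (Sum.inl l)).Ok
        (Tn n P fun ω => HV θ F d e (fun l => β l) γ (pB ω)) ρ :=
      ((ok_fs ν).comap (Sum.inr_injective.comp Sum.inl_injective)).Tn
        (inv_pB (fun _ _ => Sum.inl_ne_inr) _)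
    have hN' : (0 : ℝ) < N := by exact_mod_cast hN
    have h3 := hB K (by omega) _ _ _ _ ρ _ (tB θ) (fun a ω => Sa θ e a (pB ω))
      (fun a ω => phi0 F γ a (pB ω)) e (px n Kf N cc (K * N) ν θ F d e (fun l => β l) γ)
      (qy n Kf N cc (K * N) ν θ F e (fun l => β l) γ) c1 c3 ok (fun _ _ => rfl) (fun _ _ _ => rfl)
      (fun a => inv_pB (fun _ _ => Sum.inl_ne_inr) (Sa θ e a))
      (fun a => inv_pB (fun _ _ => Sum.inl_ne_inr) (phi0 F γ a)) (fun a ω => sm_phi0 hF hγ a _)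
      (fun ω => by
        simp only [tB, div_pow, Real.sq_sqrt hN'.le, ← sum_div, Fintype.sum_prod_type, hθ]
        simp [hN'.ne']) he0.le hα
      (fun j _ _ => by
        rw [abs_of_nonneg (px_mem hK hθ hN hd0 j).1]; exact (px_mem hK hθ hN hd0 j).2)
      (fun j _ _ => by rw [abs_of_nonneg (qy_mem hF he0 hα j).1]; exact (qy_mem hF he0 hα j).2)
    have z : ∀ ω : Us n Kf N cc K (K * N) D J, tot (ownl θ) (fun l => (fun _ => 0 : ℕ → ℝ) l) ω = 0 :=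
      fun ω => by simp [tot]
    have h1 := dO (fun _ => 0) (by simp) _ bx
    have h2 := dO (fun _ => 0) (by simp) _ by'
    simp only [z, add_zero] at h1 h2
    simp only [ov_tB hN] at h3
    have h4 := fin e _ e2d (show dev n Pb ρ (Fx ν θ F d e (fun l => β l) γ) +
      dev n Pb ρ (Fy ν θ F e (fun l => β l) γ) ≤ _ by linarith)
    rw [h0, Fr_add]
    change Fr n _ ρ (GB θ F d e γ) ≤ _ + (θ0 / 2 + CB * (e + dev n _ ρ (Fx ν θ F d e (fun l => β l) γ) +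
      dev n _ ρ (Fy ν θ F e (fun l => β l) γ))) at h3
    linarith [mul_le_mul_of_nonneg_left h1 hCB, mul_le_mul_of_nonneg_left h2 hCB,
      mul_le_mul_of_nonneg_left h4 hCB, mul_nonneg hCA hX0]
  · have okM := (okA (K := K) (Kf := Kf) (ν := ν) (θ := θ) (F := F) (d := d) (e := e) (β := fun l => β l)
      (γ := γ) fun l => β l).comap (e := fun l : Fin (K * N) × (A0 N cc × J) => (l.1, Sum.inl l.2))
      (by rintro ⟨a, b⟩ ⟨a', b'⟩ h; simpa using h)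
    have m2 : Mom M n (Tn n Pb fun ω => cavV (phi0 F γ) (Sa θ e) d e (pB ω) +
        tot (ownl θ) (fun l => β l) ω) ρ (GA θ F d e γ) := fun r hr => by
      rw [TO]
      rcases hr with rfl | rfl
      · exact (hM1 (K * N) (by omega) _ _ _ _ ρ _ (fun i ω => θ (ω.1 0) i)
          (fun a ω => Sa θ e a (pB ω)) (fun a ω => phi0 F γ a (pB ω)) e c1 c2 okM (fun _ _ => rfl)
          (fun _ _ _ => rfl) (fun a => inv_pB (fun _ _ => eB_ne_eA _ _) (Sa θ e a))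
          (fun a => inv_pB (fun _ _ => eB_ne_eA _ _) (phi0 F γ a)) (fun a ω => sm_phi0 hF hγ a _)
          (fun ω => hθ _) hα).trans (by simp [hM])
      · exact (hM2 (K * N) (by omega) _ _ _ _ ρ _ (fun i ω => θ (ω.1 0) i)
          (fun a ω => Sa θ e a (pB ω)) (fun a ω => phi0 F γ a (pB ω)) e c1 c2 okM (fun _ _ => rfl)
          (fun _ _ _ => rfl) (fun a => inv_pB (fun _ _ => eB_ne_eA _ _) (Sa θ e a))
          (fun a => inv_pB (fun _ _ => eB_ne_eA _ _) (phi0 F γ a)) (fun a ω => sm_phi0 hF hγ a _)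
          (fun ω => hθ _) hα).trans (by simp [hM])
    have h1 := ht n _ Pb ρ _ _ (fun ω => ∑ m ∈ s, newp θ F e γ m ω) _ (mO β hβ) m2
      (Mom.of_bd (fun ω => (abs_newp_le hF hc hγ s ω).trans
        (mul_le_mul_of_nonneg_right hcc (by positivity))) (by simp [hM])) bx
    have T3 : Tn n Pb (fun ω => cavV (phi0 F γ) (Sa θ e) d e (pB ω) +
        tot (ownl θ) (fun l => β l) ω + GA θ F d e γ ω + ∑ m ∈ s, newp θ F e γ m ω) =
        Tn n P (Es θ F e (fun l => β l) γ s) := by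
      rw [hPb, Tn_Tn]; congr 1; funext ω; rw [Es, ← id1 θ F d, HV]; ring
    rw [T3] at h1
    have h2 : dev n (Tn n P (Es θ F e (fun l => β l) γ s)) ρ (fun j x y => ov (xf θ e) 1 x y -
        px n Kf N cc (K * N) ν θ F d e (fun l => β l) γ j) ≤
        dev n (Tn n P (Es θ F e (fun l => β l) γ s)) ρ (Fx ν θ F d e (fun l => β l) γ) +
        dev n (Tn n P (Es θ F e (fun l => β l) γ s)) ρ fun _ _ _ => 2 / ((N : ℝ) + 1) :=
      dev_le_add fun j _ _ x y => by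
        rw [abs_of_pos (by positivity : 0 < 2 / ((N : ℝ) + 1)), he, ov_xf hd0, Fx]
        refine le_trans (le_of_eq (congrArg _ (by ring))) ((abs_add_le _ _).trans
          (add_le_add le_rfl (abs_Rx_sub_le hθ hN hd0 x.1 y.1)))
    rw [dev_const, abs_of_pos (by positivity : 0 < 2 / ((N : ℝ) + 1))] at h2
    have h4 := fin _ _ he2 (show dev n Pb ρ (Fx ν θ F d e (fun l => β l) γ) ≤ _ by linarith)
    linarith [mul_nonneg hCA hX0, mul_nonneg hCB hX0]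

end Vale.Agent.P157
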