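import Vale.Agent.P157.LBU
import Vale.Agent.P157.Cmp

/-!
# P157: consistency of the profile and the new patterns
-/

namespace Vale.Agent.P157

open Vale.Agent.P168 Vale.Agent.P168.PW Finset MeasureTheory Filter Topology
open scoped BigOperators

set_option synthInstance.maxSize 8192

theorem sum_upd {n l0 : ℕ} (h : l0 ≤ n) (g : ℕ → ℝ → ℝ) (β : ℕ → ℝ) (x : ℝ) :
    ∑ l : Fin (n + 1), g l (Function.update β l0 x l) =
      ∑ l : Fin (n + 1), g l (β l) + (g l0 x - g l0 (β l0)) := by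
  rw [Fin.sum_univ_eq_sum_range (fun l => g l (Function.update β l0 x l)),
    Fin.sum_univ_eq_sum_range (fun l => g l (β l)),
    ← add_sum_erase _ _ (mem_range.mpr (Nat.lt_succ_of_le h)),
    ← add_sum_erase _ (fun l => g l (β l)) (mem_range.mpr (Nat.lt_succ_of_le h)),
    Function.update_self, sum_congr rfl fun l hl => by
      rw [Function.update_of_ne (ne_of_mem_erase hl)]]
  ring

theorem sum_tv_mul (n : ℕ) (v β w : ℕ → ℝ) : ∑ l ∈ range (n + 2), tv n v β l * w l =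
    ∑ l ∈ range (n + 2), v l * w l + ∑ l : Fin (n + 1), β l ^ 2 * w l := by
  rw [Fin.sum_univ_eq_sum_range (fun l => β l ^ 2 * w l)]
  simp only [tv, add_mul, sum_add_distrib]
  congr 1
  rw [sum_range_succ, if_neg (by omega), zero_mul, add_zero]
  exact sum_congr rfl fun l hl => by rw [if_pos (Nat.lt_succ_iff.mp (mem_range.mp hl))]

theorem cum_step {n : ℕ} {p : ℕ → ℝ} (hp : ∀ j, 1 ≤ j → j ≤ n + 1 → 0 ≤ p j ∧ p j ≤ 1) {l0 l : ℕ}
    (h : l0 ≤ l) (hl : l ≤ n + 1) :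
    cum n p l0 ≤ cum n p l ∧ cum n p l ≤ cum n p l0 + ((l : ℝ) - l0) * wt n := by
  induction l, h using Nat.le_induction with
  | base => simp
  | succ l h ih =>
    have := hp (l + 1) (by omega) hl
    have ih := ih (by omega)
    have w := wt_pos n
    rw [cum_succ]
    push_cast
    constructor <;> nlinarith

theorem cum_mem {n : ℕ} {p : ℕ → ℝ} (hp : ∀ j, 1 ≤ j → j ≤ n + 1 → 0 ≤ p j ∧ p j ≤ 1) {l : ℕ}
    (hl : l ≤ n + 1) : 0 ≤ cum n p l ∧ cum n p l ≤ 1 := by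
  have h := cum_step hp (Nat.zero_le l) hl
  have h2 : (l : ℝ) ≤ n + 1 := by exact_mod_cast hl
  rw [cum_zero] at h
  refine ⟨h.1, h.2.trans ?_⟩
  nlinarith [wt_mul n, wt_pos n]

theorem Adm.mem {n : ℕ} {p : ℕ → ℝ} (hp : Adm n p) (j : ℕ) (_ : 1 ≤ j) (hj : j ≤ n + 1) :
    0 ≤ p j ∧ p j ≤ 1 := ⟨hp.2.nonneg hj, hp.le_one hj⟩

theorem cons_num {A B b d r y x : ℝ} (hd : 0 < d) (hβ : |b| ≤ 1)
    (h1 : |A - b * d * (1 - B)| ≤ 100 * d * y) (h2 : |B - r| ≤ x) (t : ℝ) :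
    t * (b * d * (1 - r)) - |t| * d * (100 * y + x) ≤ t * A := by
  have h3 : |A - b * d * (1 - r)| ≤ d * (100 * y + x) := by
    have h4 : |b * d * (B - r)| ≤ 1 * d * x :=
      abs_mul_le' (abs_mul_le' hβ (abs_of_pos hd).le) h2
    rw [abs_le] at h1 h4 ⊢
    constructor <;> linarith
  have h5 := abs_mul_le' (le_refl |t|) h3
  rw [abs_le] at h5
  linarith

variable {n Kf N cc K K1 : ℕ} {D J : Type} [Fintype D] [Fintype J] [DecidableEq J] {ν : PW D}
  {θ : D → J → ℝ} {F : ℕ → ℝ → ℝ} {c d e α : ℝ} {γ : Fin (n + 1) → ℝ}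

omit [Fintype D] [DecidableEq J] in
theorem Es_empty (β : Fin (n + 1) → ℝ) : (Es θ F e β γ ∅ : Us n Kf N cc K K1 D J → ℝ) =
    fun ω => Em θ F e β γ (p1 ω) := funext fun ω => by simp [Es]

theorem cons1 (hK : 0 < Kf) (hd : 0 < d) (hθ : ∀ a, ∑ i, θ a i ^ 2 = d)
    (hcu : Real.sqrt d / Real.sqrt Kf ≤ 1 / 2) (he : e = 1 / Real.sqrt ((N + 1 : ℕ) * d))
    (β : ℕ → ℝ) {l0 : ℕ} (hl : l0 ≤ n) (hβ : |β l0| ≤ 1) (r : ℕ → ℝ) {x : ℝ}
    (hx : dev n (Tn n (Ps n Kf N cc K K1 ν) (Es θ F e (fun l => β l) γ ∅)) (rs n Kf N cc K K1 J ν)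
      (fun j x y => ov (xf θ e) 1 x y - r j) ≤ x) (t : ℝ) :
    t * (β l0 * d * (1 - cum n r l0)) -
      |t| * d * (100 * (Fintype.card J * (Real.sqrt d / Real.sqrt Kf)) + x) ≤
    Fr n (Ps n Kf N cc K K1 ν) (rs n Kf N cc K K1 J ν) (fun ω => HV θ F d e (fun l => β l) γ (pB ω) +
      tot (ownl θ) (fun l => Function.update β l0 (β l0 + t) l) ω + GA θ F d e γ ω) -
    Fr n (Ps n Kf N cc K K1 ν) (rs n Kf N cc K K1 J ν) (fun ω => HV θ F d e (fun l => β l) γ (pB ω) +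
      tot (ownl θ) (fun l => β l) ω + GA θ F d e γ ω) := by
  set l1 : Fin (n + 1) := ⟨l0, Nat.lt_succ_of_le hl⟩ with hl1
  have e1 : (fun ω : Us n Kf N cc K K1 D J => HV θ F d e (fun l => β l) γ (pB ω) +
      tot (ownl θ) (fun l => Function.update β l0 (β l0 + t) l) ω + GA θ F d e γ ω) =
      fun ω => Em θ F e (fun l => β l) γ (p1 ω) + t * fxb θ 0 l1 (p1 ω) := funext fun ω => by
    rw [← id1 θ F d]
    have := sum_upd hl (fun l y => if h : l < n + 1 then y * ownl θ ⟨l, h⟩ ω else 0) β (β l0 + t)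
    simp only [Fin.is_lt, dif_pos, Fin.eta, Nat.lt_succ_of_le hl] at this
    simp only [tot, this]
    change _ = _ + t * ownl θ l1 ω
    ring
  have em := (emb_p1 (n := n) (Kf := Kf) (N := N) (cc := cc) (K := K) (K1 := K1) (J := J) ν).Tn
    (n := n) (Em θ F e (fun l => β l) γ)
  simp only [id1 θ F d]
  rw [e1, Fr_add, add_sub_cancel_left]
  refine le_trans ?_ (Eh_le_Fr _)
  rw [Eh_const_mul, em.Eh]
  have h1 := ibp_block (𝒜 := A0 N cc) (κ := Fin K1) (ν := ν) (F := F) hK hd hθ e (fun l => β l) γ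
    (0 : Fin (N + 1)) l1 hβ hcu
  have h2 := (abs_cum_prof_sub_le _ r (show l0 ≤ n + 1 by omega)).trans hx
  have e2 : prof n (Tn n (Ps n Kf N cc K K1 ν) (Es θ F e (fun l => β l) γ ∅)) (rs n Kf N cc K K1 J ν)
      (ov (xf θ e) 1) = prof n (Tn n (Pm n Kf (Fin (N + 1)) (A0 N cc) (Fin K1) ν)
        (Em θ F e (fun l => β l) γ)) (rm n Kf J (Fin (N + 1)) (A0 N cc) (Fin K1) ν)
        fun x y => Rx θ (Fintype.card (Fin (N + 1)) * d) x.1 y.1 := funext fun j => by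
    rw [prof, prof, ← em.E2, Es_empty]
    refine E2_congr fun x y => ?_
    rw [he, ov_xf hd, Fintype.card_fin]
    rfl
  rw [e2] at h2
  exact cons_num hd hβ h1 h2 t

theorem newpat (C θc x : ℝ) (hF : Sm c 4 F) (hθ : ∀ a, ∑ i, θ a i ^ 2 = d) (hd : 0 < d)
    (he : e = 1 / Real.sqrt ((N + 1 : ℕ) * d)) (β : Fin (n + 1) → ℝ) (p r : ℕ → ℝ)
    (hcmp : ∀ (P : Ch (Us n Kf N cc K K1 D J))
      (s : Fam (Fin K1 × ((Fin (N + 1) × J) ⊕ Fin (n + 2))) (Us n Kf N cc K K1 D J)),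
      s.Ok P (rs n Kf N cc K K1 J ν) → (∀ k i, s.lv (k, Sum.inl i) = n + 1) →
      (∀ k l, s.lv (k, Sum.inr l) = l) → (∀ i, s.Inv (xf θ e i)) →
      (∀ ω : Us n Kf N cc K K1 D J, ∑ i, xf θ e i ω ^ 2 = 1) →
      Fr n P (rs n Kf N cc K K1 J ν) (fun ω => F 0 (∑ l : Fin (n + 2),
          Real.sqrt (vr n p l) * Wk fun k => s.τ (k, Sum.inr l) ω)) ≤
        Fr n P (rs n Kf N cc K K1 J ν)
          (fun ω => F 0 (∑ i, Wk (fun k => s.τ (k, Sum.inl i) ω) * xf θ e i ω)) +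
        (θc + C * dev n P (rs n Kf N cc K K1 J ν) fun j a b => ov (xf θ e) 1 a b - r j))
    (hC : 0 ≤ C)
    (hx : ∀ s, dev n (Tn n (Ps n Kf N cc K K1 ν) (Es θ F e β γ s)) (rs n Kf N cc K K1 J ν)
      (fun j x y => ov (xf θ e) 1 x y - r j) ≤ x) (s : Finset (Fin cc)) :
    Fr n (Ps n Kf N cc K K1 ν) (rs n Kf N cc K K1 J ν) (Es θ F e β γ ∅) +
      s.card * (phiK n K1 (vr n p) (F 0) - c * ∑ l, |γ l| - (θc + C * x)) ≤
      Fr n (Ps n Kf N cc K K1 ν) (rs n Kf N cc K K1 J ν) (Es θ F e β γ s) := by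
  induction s using Finset.induction_on with
  | empty => simp
  | insert m s hm ih =>
    have inv : ((fs n Kf N cc K K1 D J).comap (eC m)).Inv (Es θ F e β γ s) := fun l ω => by
      refine congrArg₂ (· + ·) (congrArg (Em θ F e β γ) (pull_flip lvs id (e1_ne_eC m · l) ω))
        (sum_congr rfl fun m' hm' => ?_)
      have hne : m' ≠ m := fun h => hm (h ▸ hm')
      simp only [newp, eta, Sa, pI, pull, fs, Fam.comap, famU, id]
      rcases l with ⟨k, i | l⟩ <;> simp [eC, hne]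
    have h1 := hcmp _ _ (((ok_fs ν).comap (eC_inj m)).Tn (n := n) inv) (fun _ _ => rfl) (fun _ _ => rfl)
      (fun _ _ _ => rfl) fun ω => by
        have := ov_xf (n := n) (θ := θ) hd ω ω
        rw [← he] at this
        simp only [ov, div_one, ← sq, Rx, hθ, sum_const, card_univ, Fintype.card_fin,
          nsmul_eq_mul] at this
        rw [this, div_self (by positivity)]
    have h2 := FU_add_ind (n := n) (μ := PW.pi fun _ : Fin (N + 1) => ν)
      (lv := (lvs : Ls n Kf N cc K K1 J → ℕ)) (lv' := fun l : Fin K1 × Fin (n + 2) => (l.2 : ℕ))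
      (e := fun l => eC m (l.1, Sum.inr l.2)) ((eC_inj m).comp
        (Function.injective_id.prodMap Sum.inr_injective)) (fun _ => rfl) (H := Es θ F e β γ s)
      (fun l ω => inv (l.1, Sum.inr l.2) ω)
      fun ω => F 0 (∑ l : Fin (n + 2), Real.sqrt (vr n p l) * Wk fun k => ω.2 (k, l))
    have h3 : Fr n (Ps n Kf N cc K K1 ν) (rs n Kf N cc K K1 J ν) (fun ω => Es θ F e β γ s ω +
        F 0 (∑ l : Fin (n + 2), Real.sqrt (vr n p l) *
          Wk fun k => ((fs n Kf N cc K K1 D J).comap (eC m)).τ (k, Sum.inr l) ω)) =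
        Fr n (Ps n Kf N cc K K1 ν) (rs n Kf N cc K K1 J ν) (Es θ F e β γ s) +
          phiK n K1 (vr n p) (F 0) := h2
    rw [Fr_add, add_right_inj] at h3
    have h4 : Fr n (Ps n Kf N cc K K1 ν) (rs n Kf N cc K K1 J ν) (fun ω => (Es θ F e β γ s ω +
        F 0 (∑ i, Wk (fun k => ((fs n Kf N cc K K1 D J).comap (eC m)).τ (k, Sum.inl i) ω) *
          xf θ e i ω)) + -(c * ∑ l, |γ l|)) ≤
        Fr n (Ps n Kf N cc K K1 ν) (rs n Kf N cc K K1 J ν) (Es θ F e β γ (insert m s)) :=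
      Fr_mono fun ω => by
        have := abs_le.mp (abs_mul_le' (abs_sign_sum_le γ fun l => (pI ω).2
          (Sum.inr (Sum.inr (l, (0, m))))) (hF.2 (0 + 1) le_rfl (by norm_num) (Sa θ e (0, m) (pI ω))))
        simp only [Es, sum_insert hm]
        change _ + F 0 (Sa θ e (0, m) (pI ω)) + _ ≤ _ + (F 0 (Sa θ e (0, m) (pI ω)) +
          eta γ (0, m) (pI ω) * F (0 + 1) (Sa θ e (0, m) (pI ω)) + _)
        unfold eta
        linarith
    rw [Fr_add_const, Fr_add] at h4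
    rw [card_insert_of_notMem hm]
    push_cast
    nlinarith [mul_le_mul_of_nonneg_left (hx s) hC]

end Vale.Agent.P157
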