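import Vale.Agent.P157.LBV

/-!
# P157: one cavity step
-/

namespace Vale.Agent.P157

open Vale.Agent.P168 Vale.Agent.P168.PW Finset MeasureTheory Filter Topology
open scoped BigOperators

set_option synthInstance.maxSize 8192

theorem st2_num1 {d h η b u w y x ε0 : ℝ} (hd : 1 ≤ d) (hh : 0 < h) (hη : 0 < η) (hb : η ≤ b)
    (hx : 0 ≤ x) (hw : 0 ≤ w ∧ w ≤ 1)
    (H : ∀ t, |t| = h → t * (b * d * (1 - u)) - |t| * d * (y + x) ≤
      d * (((b + t) ^ 2 - b ^ 2) * (1 - w) / 2) + 2 * d * ε0 + 2 * x) :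
    |w - u| ≤ (h * (y + x) + h ^ 2 / 2 + 2 * ε0 + 2 * x) / (h * η) := by
  have h1 := H h (abs_of_pos hh)
  have h2 := H (-h) (by rw [abs_neg, abs_of_pos hh])
  rw [abs_of_pos hh] at h1
  rw [abs_neg, abs_of_pos hh] at h2
  have h3 : d * (h ^ 2 * (1 - w)) ≤ d * h ^ 2 := by
    gcongr; nlinarith [sq_nonneg h]
  have h4 : h * b * |w - u| ≤ h * (y + x) + h ^ 2 / 2 + 2 * ε0 + 2 * x := by
    refine le_of_mul_le_mul_left ?_ (show 0 < d by linarith)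
    rcases abs_cases (w - u) with h | h <;> rw [h.1] <;> nlinarith
  rw [le_div_iff₀ (by positivity)]
  nlinarith [mul_le_mul_of_nonneg_right (mul_le_mul_of_nonneg_left hb hh.le) (abs_nonneg (w - u))]

theorem st2_cum {n : ℕ} {p r β : ℕ → ℝ} {η ω s : ℝ}
    (hp : ∀ j, 1 ≤ j → j ≤ n + 1 → 0 ≤ p j ∧ p j ≤ 1)
    (hr : ∀ j, 1 ≤ j → j ≤ n + 1 → 0 ≤ r j ∧ r j ≤ 1)
    (hβ : ∀ l, l ≤ n + 1 → ∃ l0, l0 ≤ l ∧ l0 ≤ n ∧ η ≤ β l0 ∧ ((l : ℝ) - l0) * wt n ≤ ω)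
    (h : ∀ l0, l0 ≤ n → η ≤ β l0 → |cum n p l0 - cum n r l0| ≤ s) (l : ℕ) (hl : l ≤ n + 1) :
    |cum n p l - cum n r l| ≤ s + ω := by
  obtain ⟨l0, h1, h2, h3, h4⟩ := hβ l hl
  have a := cum_step hp h1 hl
  have b := cum_step hr h1 hl
  have := abs_le.mp (h l0 h2 h3)
  rw [abs_le]; constructor <;> linarith

theorem st2_pen {n : ℕ} {p r q β : ℕ → ℝ} {s V : ℝ} (hp : Adm n p) (hq : Mono n q) (hV : q 0 ≤ V)
    (hs : 0 ≤ s) (h : ∀ l, l ≤ n + 1 → |cum n p l - cum n r l| ≤ s) :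
    q 0 / 2 - wt n * (∑ j ∈ Icc 1 (n + 1), r j * q j) / 2 - V * s / 2 ≤ pen n p (tv n (vr n q) β) := by
  rw [pen, sum_tv_mul, ← sum_vr_cum]
  have h1 : 0 ≤ ∑ l : Fin (n + 1), β l ^ 2 * (1 - cum n p l) := sum_nonneg fun l _ =>
    mul_nonneg (sq_nonneg _) (sub_nonneg.mpr (cum_mem hp.mem (by omega)).2)
  have h2 : ∑ l ∈ range (n + 2), vr n q l * (1 - cum n r l - s) ≤
      ∑ l ∈ range (n + 2), vr n q l * (1 - cum n p l) := sum_le_sum fun l hl => by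
    have hl := Nat.lt_succ_iff.mp (mem_range.mp hl)
    exact mul_le_mul_of_nonneg_left (by linarith [(abs_le.mp (h l hl)).2]) (vr_nonneg hq hl)
  simp only [mul_sub, sum_sub_distrib, mul_one, ← sum_mul, sum_vr] at h1 h2 ⊢
  nlinarith [mul_le_mul_of_nonneg_right hV hs]

theorem st2_num2 {b t h S : ℝ} (hS : S ≤ 1 / 4) (b1 : b ^ 2 ≤ 1 / 4) (ht : |t| = h) (hh : h ≤ 1 / 2) :
    S + ((b + t) ^ 2 - b ^ 2) ≤ 1 := by
  have := abs_le.mp (ht.le.trans hh)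
  have : t ^ 2 ≤ 1 / 4 := by nlinarith
  nlinarith [sq_nonneg (b - t)]

theorem st2_num3 {B h η ε ε0 y x : ℝ} (hB : 0 < B) (hh : 0 < h) (hη : 0 < η)
    (a3 : h ≤ ε * η / (4 * B)) (a5 : ε0 ≤ ε * (h * η) / (16 * B)) (a7 : y ≤ ε * η / (8 * B)) :
    B * ((h * (y + x) + h ^ 2 / 2 + 2 * ε0 + 2 * x) / (h * η) + ε / 8 / B) ≤
      ε / 2 + B * ((h + 2) / (h * η)) * x := by
  rw [le_div_iff₀ (by positivity)] at a3 a5 a7
  rw [mul_add, mul_div_cancel₀ _ hB.ne', mul_div_assoc', ← le_sub_iff_add_le,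
    div_le_iff₀ (by positivity)]
  have : (ε / 2 + B * ((h + 2) / (h * η)) * x - ε / 8) * (h * η) =
    3 * ε / 8 * (h * η) + B * (h + 2) * x := by field_simp; ring
  rw [this]
  nlinarith [mul_le_mul_of_nonneg_left a3 hh.le, mul_le_mul_of_nonneg_left a7 hh.le]

theorem st2_num4 {α c d ε ε0 θc CC C1 Δ Γ x s sC L cc Ca ph pe ps q0 w a b f1 f0 H : ℝ} (hd : 1 ≤ d)
    (hε : 0 < ε) (hc : 0 ≤ c) (hθc : 0 < θc) (hCC : 0 ≤ CC) (hx : 0 ≤ x) (hsC : 0 ≤ sC)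
    (hcc0 : 0 ≤ cc) (hcc : cc ≤ α * d) (hΓ0 : 0 ≤ Γ) (hΓ : Γ ≤ Δ) (a1 : α * θc ≤ ε / 16)
    (a4 : ε0 ≤ ε / 8) (n1 : (α * c ^ 2 / 2 + α * CC + 1) * sC ≤
      ε / 2 + (α * c ^ 2 / 2 + α * CC + 1) * H * x)
    (n2 : (2 + α * d * CC + d * (α * c ^ 2 / 2 + α * CC + 1) * H) * x = ε / 4 + C1 * Δ)
    (hL : L ≤ cc / d * Ca + s) (lo : d * (s + pe - ε0) ≤ ps)
    (b7 : -x ≤ a - (b - d * q0 / 2 + ps)) (sb : f0 ≤ b - d / 2 * w + x)
    (b8 : q0 / 2 - w / 2 - α * c ^ 2 * sC / 2 ≤ pe) (b9 : -θc ≤ ph - Ca)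
    (hnew : a + cc * (ph - c * Γ - (θc + CC * sC + CC * x)) ≤ f1) :
    d * (L - ε) - (C1 + α * d * c) * Δ ≤ f1 - f0 := by
  have hd0 : 0 < d := by linarith
  have n3 : d * L ≤ cc * Ca + d * s := by
    have := mul_le_mul_of_nonneg_left hL hd0.le
    rwa [mul_add, ← mul_assoc, mul_div_cancel₀ _ hd0.ne'] at this
  have h0 : 0 ≤ α * d := hcc0.trans hcc
  have n4 : cc * (θc + c * Γ + (θc + CC * sC + CC * x)) ≤
      α * d * (θc + c * Δ + (θc + CC * sC + CC * x)) := by gcongr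
  have n5 : cc * (Ca - θc) ≤ cc * ph := mul_le_mul_of_nonneg_left (by linarith) hcc0
  have n6 := mul_le_mul_of_nonneg_left n1 hd0.le
  have n7 := mul_le_mul_of_nonneg_left b8 hd0.le
  linarith [mul_le_mul_of_nonneg_left a1 hd0.le, mul_le_mul_of_nonneg_left a4 hd0.le,
    mul_nonneg hd0.le hsC, mul_le_mul_of_nonneg_right hd hε.le]

theorem step2 (c α ε : ℝ) (hε : 0 < ε) : ∃ ω : ℝ, 0 < ω ∧ ∀ η : ℝ, 0 < η → ∃ ε0 : ℝ, 0 < ε0 ∧
    ∀ d : ℝ, 1 ≤ d → ∃ C : ℝ, 0 ≤ C ∧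
    ∀ (n cc : ℕ) (D J : Type) [Fintype D] [Fintype J] [DecidableEq J] (ν : PW D)
      (θ : D → J → ℝ) (F : ℕ → ℝ → ℝ) (L : ℝ), Sm c 4 F → (∀ x, |F 0 x| ≤ c) →
      (∀ a, ∑ i, θ a i ^ 2 = d) → cc ≤ α * d → HL n (cc / d) (F 0) ν θ d L ε0 (α * c ^ 2 + 1) →
      ∃ Kf0 : ℕ, ∀ Kf, Kf0 ≤ Kf → ∀ N, 0 < N → ∃ K0 : ℕ, ∀ K, K0 ≤ K → ∀ (β : ℕ → ℝ)
      (γ : Fin (n + 1) → ℝ) (e Δ : ℝ), e = 1 / Real.sqrt ((N + 1 : ℕ) * d) →
      ∑ l : Fin (n + 1), β l ^ 2 ≤ 1 / 4 →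
      (∀ l, l ≤ n + 1 → ∃ l0, l0 ≤ l ∧ l0 ≤ n ∧ η ≤ β l0 ∧ ((l : ℝ) - l0) * wt n ≤ ω) →
      ∑ l, |γ l| ≤ 1 → dxy n Kf (Fin N) (A0 N cc) (Fin (K * N)) ν θ F d e (fun l => β l) γ + e +
        ∑ l, |γ l| ≤ Δ →
      d * (L - ε) - C * Δ ≤
        FK n Kf (Fin (N + 1)) (A0 (N + 1) cc) (Fin (K * N)) ν θ F e (fun l => β l) γ -
        FK n Kf (Fin N) (A0 N cc) (Fin (K * N) ⊕ Fin K) ν θ F (1 / Real.sqrt (N * d))
          (fun l => β l) γ := by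
  obtain ⟨θc, hθc, a1⟩ : ∃ θc : ℝ, 0 < θc ∧ |α| * θc ≤ ε / 16 :=
    ⟨ε / 16 / (|α| + 1), by positivity, by
      rw [mul_div_assoc', div_le_iff₀ (by positivity)]; nlinarith⟩
  obtain ⟨CC, hCC, hcmp⟩ := cmp c θc hθc
  obtain ⟨B, hB⟩ : ∃ B, B = |α| * c ^ 2 / 2 + |α| * CC + 1 := ⟨_, rfl⟩
  have hB0 : 0 < B := by rw [hB]; positivity
  refine ⟨ε / 8 / B, by positivity, fun η hη => ?_⟩
  obtain ⟨h, hh, a2, a3⟩ : ∃ h : ℝ, 0 < h ∧ h ≤ 1 / 2 ∧ h ≤ ε * η / (4 * B) :=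
    ⟨min _ _, by positivity, min_le_left _ _, min_le_right _ _⟩
  obtain ⟨ε0, hε0, a4, a5⟩ : ∃ ε0 : ℝ, 0 < ε0 ∧ ε0 ≤ ε / 8 ∧ ε0 ≤ ε * (h * η) / (16 * B) :=
    ⟨min _ _, by positivity, min_le_left _ _, min_le_right _ _⟩
  refine ⟨ε0, hε0, fun d hd => ?_⟩
  have hd0 : 0 < d := by linarith
  obtain ⟨G, hG⟩ : ∃ G, G = 2 + |α| * d * CC + d * B * ((h + 2) / (h * η)) := ⟨_, rfl⟩
  have hG0 : 0 < G := by rw [hG]; positivity
  obtain ⟨C1, hC1, hs1⟩ := step1 c α d (ε / 4 / G) hd (by positivity)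
  refine ⟨G * C1 + |α| * d * |c|, by positivity,
    fun n cc D J _ _ _ ν θ F L hF hc hθ hcc ⟨KH, hH⟩ => ?_⟩
  have lim : Tendsto (fun Kf : ℕ => Real.sqrt d / Real.sqrt Kf) atTop (𝓝 0) :=
    tendsto_const_nhds.div_atTop (Real.tendsto_sqrt_atTop.comp tendsto_natCast_atTop_atTop)
  obtain ⟨Kf0, hKf⟩ := eventually_atTop.mp ((lim.eventually_le_const (by norm_num : (0 : ℝ) < 1 / 2)).and
    (((lim.const_mul (Fintype.card J : ℝ)).const_mul 100).eventually_le_const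
      (u := ε * η / (8 * B)) (by simp only [mul_zero]; positivity)))
  refine ⟨Kf0 + KH + 1, fun Kf hK N hN => ?_⟩
  obtain ⟨a6, a7⟩ := hKf Kf (by omega)
  obtain ⟨K1, hs1⟩ := hs1 n Kf cc N D J ν θ F hF hc hθ hcc (by omega) hN
  obtain ⟨K2, hcmp⟩ := hcmp n (Fintype.card (Fin (N + 1) × J))
  obtain ⟨K3, hphi⟩ := phiK_lim n c θc hθc
  refine ⟨K1 + K2 + K3 + KH, fun K hKK β γ e Δ he hβ hco hγ hΔ => ?_⟩
  have hKN : K ≤ K * N := Nat.le_mul_of_pos_right K hN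
  obtain ⟨sa, sb, sc⟩ := hs1 K (by omega) β γ e Δ he (by linarith) hγ hΔ
  obtain ⟨he0, hα, -⟩ := e_facts (N := N) hd hcc
  rw [← he] at he0 hα
  have hα0 : 0 ≤ α := le_trans (by positivity) hα
  have hc0 := hF.nonneg
  have hΓ : ∑ l, |γ l| ≤ Δ := by
    have : 0 ≤ dxy n Kf (Fin N) (A0 N cc) (Fin (K * N)) ν θ F d e (fun l => β l) γ :=
      add_nonneg (dev_nonneg _) (dev_nonneg _)
    linarith
  have hΓ0 : 0 ≤ ∑ l, |γ l| := sum_nonneg fun _ _ => abs_nonneg _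
  have hq0 := (qy_mem (Kf := Kf) (K1 := K * N) (ν := ν) (θ := θ) (β := fun l => β l) (γ := γ)
    hF he0 hα 0).2
  have hqm := qy_mono (n := n) (Kf := Kf) (N := N) (cc := cc) (K1 := K * N) (ν := ν) (θ := θ)
    (F := F) (e := e) (β := fun l => β l) (γ := γ)
  have hpm := px_mem (cc := cc) (K1 := K * N) (ν := ν) (F := F) (e := e) (β := fun l => β l)
    (γ := γ) (show 0 < Kf by omega) hθ hN hd0
  have hco1 := fun l0 hl0 hb t => cons1 (show 0 < Kf by omega) hd0 hθ a6 he β (l0 := l0) hl0 hb _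
    (sc ∅) t
  have n2 : G * (ε / 4 / G + C1 * Δ) = ε / 4 + G * C1 * Δ := by field_simp
  generalize ε / 4 / G + C1 * Δ = x at sa sb sc hco1 n2
  have hx0 : 0 ≤ x := (dev_nonneg _).trans (sc ∅)
  generalize qy n Kf N cc (K * N) ν θ F e (fun l => β l) γ = q at sa sb hq0 hqm
  generalize px n Kf N cc (K * N) ν θ F d e (fun l => β l) γ = r at sb sc hpm hco1
  have hV : ∀ β' : ℕ → ℝ, ∑ l : Fin (n + 1), β' l ^ 2 ≤ 1 →
      ∑ l ∈ range (n + 2), tv n (vr n q) β' l ≤ α * c ^ 2 + 1 := fun β' h => by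
    have := sum_tv_mul n (vr n q) β' fun _ => 1
    simp only [mul_one, sum_vr] at this
    linarith
  obtain ⟨p, s, hp, hL, lo, up⟩ := hH (K * N) (by omega) Kf (by omega) (vr n q) β
    (fun l hl => vr_nonneg hqm hl) (hV β (by linarith))
  have n1 := st2_num3 (x := x) hB0 hh hη a3 a5 a7
  generalize hs0 : (h * (100 * (Fintype.card J * (Real.sqrt d / Real.sqrt Kf)) + x) + h ^ 2 / 2 +
    2 * ε0 + 2 * x) / (h * η) = s0 at n1
  have hcum := st2_cum (s := s0) hp.mem (fun j _ _ => hpm j) hco fun l0 hl0 hb => by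
    have b1 : β l0 ^ 2 ≤ 1 / 4 := (single_le_sum (f := fun l : Fin (n + 1) => β l ^ 2)
      (fun _ _ => sq_nonneg _) (mem_univ ⟨l0, by omega⟩)).trans hβ
    have b2 : |β l0| ≤ 1 := abs_le_of_sq_le_sq' (by linarith) zero_le_one |> abs_le.mpr
    rw [← hs0]
    refine st2_num1 hd hh hη hb hx0 (cum_mem hp.mem (by omega)) fun t ht => ?_
    have b3 : ∑ l : Fin (n + 1), Function.update β l0 (β l0 + t) l ^ 2 ≤ 1 := by
      rw [sum_upd hl0 (fun _ y => y ^ 2)]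
      exact st2_num2 hβ b1 ht a2
    have b4 := up _ (hV _ b3)
    have b5 : pen n p (tv n (vr n q) (Function.update β l0 (β l0 + t))) = pen n p (tv n (vr n q) β) +
        ((β l0 + t) ^ 2 - β l0 ^ 2) * (1 - cum n p l0) / 2 := by
      rw [pen, pen, sum_tv_mul, sum_tv_mul, sum_upd hl0 (fun l y => y ^ 2 * (1 - cum n p l))]
      ring
    refine (hco1 l0 hl0 b2 t).trans ?_
    have b6 := (abs_le.mp (sa _ b3)).2
    have b7 := (abs_le.mp (sa β (by linarith))).1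
    rw [b5] at b4
    linarith
  have hsC : 0 ≤ s0 + ε / 8 / B := (abs_nonneg _).trans (hcum 0 (by omega))
  have hnew := newpat (K := K) (ν := ν) (γ := γ) CC (θc + CC * (s0 + ε / 8 / B)) x hF hθ hd0 he
    (fun l => β l) p r (fun P s h1 h2 h3 h4 h5 => ((hcmp (K * N) (by omega) _ _ P _ s _ F p r _
      le_rfl h1 h2 h3 h4 h5 (hF.mono (by norm_num)) hp (fun j _ _ => by
        rw [abs_of_nonneg (hpm j).1]; exact (hpm j).2) hsC).2 fun l _ hl => by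
        linarith [(abs_le.mp (hcum l hl)).1]).trans (le_of_eq (by ring))) hCC sc univ
  have e1 : Fr n (Ps n Kf N cc K (K * N) ν) (rs n Kf N cc K (K * N) J ν)
      (Es θ F e (fun l => β l) γ univ) =
      FK n Kf (Fin (N + 1)) (A0 (N + 1) cc) (Fin (K * N)) ν θ F e (fun l => β l) γ := by
    rw [FK, ← (emb_pI (K := K) ν).Fr]
    simp only [← id3]
    rfl
  have b7 := (abs_le.mp (sa β (by linarith))).1
  simp only [id1 θ F d] at b7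
  rw [e1, Es_empty, card_univ, Fintype.card_fin] at hnew
  have b8 := st2_pen (β := β) hp hqm hq0 hsC hcum
  have b9 := (abs_le.mp (hphi (K * N) (by omega) p (F 0) hp (hF.lip (by norm_num)))).1
  rw [abs_of_nonneg hα0] at a1 hB hG ⊢
  rw [abs_of_nonneg hc0]
  subst hB
  exact st2_num4 hd hε hc0 hθc hCC hx0 hsC (Nat.cast_nonneg _) hcc hΓ0 hΓ a1 a4 n1 (hG ▸ n2) hL lo
    b7 sb b8 b9 hnew

end Vale.Agent.P157
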