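import Vale.Agent.P157.Wrap
import Vale.Agent.P157.Ising

/-!
# P157: the Ising theorem
-/

namespace Vale.Agent.P157

open Vale.Agent.P168 Vale.Agent.P168.PW Finset MeasureTheory Filter Topology
open scoped BigOperators

theorem spinI_eq (n : ℕ) (p q : ℕ → ℝ) :
    spinI n p q = Cas n (vr n q) lc - pen n p (vr n q) := by
  have h : ∀ x : ℝ, x / (2 * ((n : ℝ) + 1)) = wt n * x / 2 := fun x => by rw [wt]; field_simp
  simp only [spinI, pen, mul_sub, mul_one, sum_sub_distrib, sum_vr, sum_vr_cum, h]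
  unfold lc
  ring

theorem mainI {α : ℝ} (hα : 0 < α) {f : ℝ → ℝ} {B : ℝ} (hf : Measurable f) (hB : ∀ x, |f x| ≤ B) :
    ∃ (V : ℕ → ℝ) (L : ℝ), (∀ n, IsGLB (trialI α f n) (V n)) ∧ Tendsto V atTop (𝓝 L) ∧
      Tendsto (pressI α f) atTop (𝓝 L) := by
  refine wrap_borel hα hf hB (pressI α) (fun n p s => ∀ q, Mono n q → spinI n p q ≤ s) (trialI α)
    (fun g n t => Iff.rfl) (fun n => ?_) (fun n => ?_) (fun ε g c hε _ _ h => ?_)
    (fun c F h1 h2 ε hε => upI hα h1 h2 hε) fun c F h1 h2 ε hε => loI hα h1 h2 hε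
  · obtain ⟨p, hp, h⟩ := conc n (fun _ => 0) fun _ _ => le_rfl
    exact ⟨p, _, hp, fun q hq => by rw [spinI_eq]; exact h _ fun l hl => vr_nonneg hq hl⟩
  · refine ⟨Cas n (vr n fun _ => 0) lc, fun p s _ h => ?_⟩
    have := h (fun _ => 0) ⟨fun _ _ => le_rfl, le_rfl⟩
    rw [spinI] at this
    simp only [mul_zero, sum_const_zero, zero_div, sub_zero, add_zero] at this
    exact this
  · filter_upwards [eventually_gt_atTop 0] with N hN
    rw [pressI_eq, pressI_eq]
    refine press_close hα hε hN (h _ _ _ _ _ (measurable_of_finite _) (ae_of_all _ fun σ => ?_))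
    have hN' : (0 : ℝ) < N := by exact_mod_cast hN
    have : ∀ i, (sp (σ i) / Real.sqrt N) ^ 2 = 1 / N := fun i => by
      rw [div_pow, Real.sq_sqrt hN'.le, sq, sp_sq]
    simp [this, hN'.ne']

end Vale.Agent.P157
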