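import Vale.Agent.P157.SphU

/-!
# P157: lower bound for the spherical block functional
-/

namespace Vale.Agent.P157

open Vale.Agent.P168 Vale.Agent.P168.PW Finset MeasureTheory Filter Topology
open scoped BigOperators

lemma dir_close {I : Type} [Fintype I] {d : ℝ} (hd : 0 < d) (y : I → ℝ) :
    sqn (fun i => √d * dir y i - y i) ≤ (sqn y - d) ^ 2 / d := by
  by_cases h : sqn y = 0
  · have e : (fun i => √d * dir y i - y i) = fun i => -1 * y i := by
      funext i; simp [dir_eq, h]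
    rw [e, sqn_mul, h, mul_zero]
    positivity
  have e : (fun i => √d * dir y i - y i) = fun i => (√d / √(sqn y) - 1) * y i := by
    funext i; rw [dir_eq]; ring
  have h1 := Real.sq_sqrt (sqn_nonneg y)
  have h2 := Real.sq_sqrt hd.le
  have h3 := Real.sqrt_pos.2 ((sqn_nonneg y).lt_of_ne' h)
  have h4 := Real.sqrt_pos.2 hd
  rw [e, sqn_mul, le_div_iff₀ hd]
  generalize √(sqn y) = r at *
  generalize √d = s at *
  rw [← h1, ← h2, show (s / r - 1) ^ 2 * r ^ 2 * s ^ 2 = (r - s) ^ 2 * s ^ 2 by field_simp; ring,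
    show (r ^ 2 - s ^ 2) ^ 2 = (r - s) ^ 2 * (r + s) ^ 2 by ring]
  exact mul_le_mul_of_nonneg_left (by nlinarith) (sq_nonneg _)

lemma lz_lo {d : ℕ} (hd : 0 < d) {b δ : ℝ} (hb : 1 ≤ b) (hδ : 0 < δ) (h : Fin d → ℝ) :
    sqn h / (2 * b) - d / 2 * Real.log b + (b - 1) * d / 2 - δ * sqn h - δ * b * d -
      PP 0 ((4 + b) / (16 * δ * d)) d (sqn h / b ^ 2) (1 / b) ≤ lz d h := by
  have hd' : (0 : ℝ) < d := by exact_mod_cast hd
  have hb0 : 0 < b := by linarith
  have h1 := tiltG hb0 h fun y => Real.exp (∑ i, h i * (√d * dir y i - y i) + (b - 1) * sqn y / 2)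
  have e : ∀ y : Fin d → ℝ, ∑ i, h i * y i + (1 - b) * sqn y / 2 + (∑ i, h i * (√d * dir y i - y i)
      + (b - 1) * sqn y / 2) = ∑ i, h i * (√d * dir y i) := fun y => by
    simp only [mul_sub, sum_sub_distrib]; ring
  simp only [← Real.exp_add, e, Fintype.card_fin] at h1
  have h2 := integral_exp_pos (integrable_lz h)
  have h3 := Integrable.of_integral_ne_zero (right_ne_zero_of_mul (h1.symm.trans_ne h2.ne'))
  obtain ⟨-, -, h4, h5⟩ := mom_sqn (fun i => h i / b) (√b)⁻¹ d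
  have h6 := exp_le_integral ((integrable_const ((b - 1) * d / 2 - δ * sqn h - δ * b * d)).sub
    (h4.const_mul ((4 + b) / (16 * δ * d)))) h3 (ae_of_all _ fun z => Real.exp_le_exp.2 ?_)
  · rw [lz, Real.le_log_iff_exp_le h2, h1]
    refine le_trans ?_ (mul_le_mul_of_nonneg_left h6 (Real.exp_pos _).le)
    simp only [Pi.sub_apply]
    rw [← Real.exp_add, Real.exp_le_exp, integral_sub (integrable_const _) (h4.const_mul _),
      integral_const_mul]
    rw [show (√b)⁻¹ ^ 4 = ((√b)⁻¹ ^ 2) ^ 2 by ring, inv_pow, Real.sq_sqrt hb0.le, Fintype.card_fin,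
      show sqn (fun i => h i / b) = sqn h / b ^ 2 by simp only [sqn, div_pow, sum_div]] at h5
    have := mul_le_mul_of_nonneg_left h5 (show 0 ≤ (4 + b) / (16 * δ * d) by positivity)
    simp only [integral_const, probReal_univ, one_smul, PP, one_div]
    linarith
  · suffices H : ∀ y : Fin d → ℝ, (b - 1) * d / 2 - δ * sqn h - δ * b * d - (4 + b) / (16 * δ * d) *
        (sqn y - d) ^ 2 ≤ ∑ i, h i * (√d * dir y i - y i) + (b - 1) * sqn y / 2 from H _
    intro y
    have q1 : -(δ * sqn h) - sqn (fun i => √d * dir y i - y i) / (4 * δ) ≤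
        ∑ i, h i * (√d * dir y i - y i) := by
      simp only [sqn, mul_sum, sum_div, ← sum_neg_distrib, ← sum_sub_distrib]
      refine sum_le_sum fun i _ => ?_
      generalize √d * dir y i - y i = w
      have : 0 ≤ (2 * δ * h i + w) ^ 2 / (4 * δ) := by positivity
      rw [show (2 * δ * h i + w) ^ 2 / (4 * δ) = δ * h i ^ 2 + h i * w + w ^ 2 / (4 * δ) by
        field_simp; ring] at this
      linarith
    have q2 := div_le_div_of_nonneg_right (dir_close hd' y) (show 0 ≤ 4 * δ by positivity)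
    have q3 : 0 ≤ (b - 1) * ((4 * δ * d + (sqn y - d)) ^ 2 / (16 * δ * d)) :=
      mul_nonneg (sub_nonneg.2 hb) (by positivity)
    have q4 : 0 ≤ δ * d + (sqn y - d) ^ 2 / (16 * δ * d) := by positivity
    rw [show (4 * δ * d + (sqn y - d)) ^ 2 / (16 * δ * d) = δ * d + (sqn y - d) / 2 +
      (sqn y - d) ^ 2 / (16 * δ * d) by field_simp; ring] at q3
    rw [show (sqn y - d) ^ 2 / d / (4 * δ) = 4 * ((sqn y - d) ^ 2 / (16 * δ * d)) by
      field_simp; ring] at q2
    rw [div_mul_eq_mul_div, mul_div_assoc (4 + b)]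
    linarith

lemma exists_topL {n : ℕ} {v : ℕ → ℝ} {V : ℝ} (hv : ∀ l, l ≤ n + 1 → 0 ≤ v l)
    (hV : ∑ l ∈ range (n + 2), v l ≤ V) : ∃ y ∈ Set.Icc 1 (V + 2),
      ta v (bb n v y) (n + 1) + v (n + 1) / bb n v y (n + 1) ^ 2 = 1 := by
  have hV0 : 0 ≤ V := (sum_nonneg fun l hl => hv l (by have := mem_range.1 hl; omega)).trans hV
  have hb : ∀ y ∈ Set.Icc 1 (V + 2), ∀ l, bb n v y l ≠ 0 := fun y hy l =>
    (one_pos.trans_le (hy.1.trans (le_bb hv y l))).ne'
  have hc : ∀ l, Continuous fun y => bb n v y l := fun l => by unfold bb; fun_prop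
  refine intermediate_value_Icc' (f := fun y => ta v (bb n v y) (n + 1) + v (n + 1) /
    bb n v y (n + 1) ^ 2) (by linarith) ?_ ⟨?_, ?_⟩
  · refine ((continuousOn_const.div (hc 0).continuousOn fun y hy => hb y hy 0).add
      (continuousOn_finsetSum _ fun k _ => continuousOn_const.div ((hc _).mul (hc _)).continuousOn
        fun y hy => mul_ne_zero (hb y hy _) (hb y hy _))).add
      (continuousOn_const.div ((hc _).pow 2).continuousOn fun y hy => pow_ne_zero _ (hb y hy _))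
  · have h1 : 0 < V + 2 := by linarith
    have h2 : ta v (bb n v (V + 2)) (n + 1) + v (n + 1) / bb n v (V + 2) (n + 1) ^ 2 ≤
        1 / (V + 2) + (∑ l ∈ range (n + 2), v l) / (V + 2) ^ 2 := by
      rw [ta, sum_range_succ v, add_div, bb_top, add_assoc, sum_div]
      refine add_le_add (one_div_le_one_div_of_le h1 (le_bb hv _ _)) (add_le_add
        (sum_le_sum fun k hk => div_le_div_of_nonneg_left (hv k (by have := mem_range.1 hk; omega))
          (by positivity) ?_) le_rfl)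
      rw [sq]
      exact mul_le_mul (le_bb hv _ _) (le_bb hv _ _) h1.le (h1.le.trans (le_bb hv _ _))
    refine h2.trans ?_
    rw [div_add_div _ _ h1.ne' (by positivity), div_le_one (by positivity)]
    nlinarith
  · have h1 : ∀ l ≤ n + 1, 1 / bb n v 1 l ≤ ta v (bb n v 1) l := fun l hl => by
      induction l with
      | zero => simp [ta]
      | succ l ih =>
        have b1 := one_pos.trans_le (le_bb hv 1 l)
        have b2 := one_pos.trans_le (le_bb hv 1 (l + 1))
        rw [ta_succ]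
        refine le_trans ?_ (add_le_add (ih (by omega)) (div_le_div_of_nonneg_right
          (mul_le_of_le_one_left (hv l (by omega)) (ze_leQ n l)) (by positivity)))
        rw [show ze n l * v l = bb n v 1 l - bb n v 1 (l + 1) by
          rw [bb_succ 1 l (by omega)]; ring]
        exact le_of_eq (by field_simp; ring)
    have h2 := h1 _ le_rfl
    rw [bb_top, div_one] at h2
    exact h2.trans (le_add_of_nonneg_right (div_nonneg (hv _ le_rfl) (sq_nonneg _)))

theorem sphL (V ε : ℝ) (hε : 0 < ε) : ∃ δ : ℝ, 0 < δ ∧ ∃ d0 : ℕ, ∀ d, d0 ≤ d →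
    ∀ (n : ℕ) (v : ℕ → ℝ), (∀ l, l ≤ n + 1 → 0 ≤ v l) → ∑ l ∈ range (n + 2), v l ≤ V →
      ∃ p : ℕ → ℝ, Adm n p ∧ p 1 < 1 ∧ 1 / chi n p (n + 1) ≤ V + 2 ∧
        ∀ (G : (Fin d → ℝ) → ℝ) (L : ℝ), (∀ x y, |G x - G y| ≤ L * ∑ i, |x i - y i|) →
          (∀ h, lz d h - δ * (∑ i, h i ^ 2 + d) ≤ G h) →
          d * (cs n p + pen n p v - ε) ≤ CasI n v G := by
  obtain ⟨W, hW0, hW⟩ : ∃ W : ℝ, 0 < W ∧ 2 * V + 2 ≤ W :=
    ⟨2 * |V| + 2, by positivity, by linarith [le_abs_self V]⟩
  obtain ⟨δ, δ0, δ1⟩ : ∃ δ : ℝ, 0 < δ ∧ δ * (2 * W ^ 2 + W + 1) ≤ ε / 2 :=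
    ⟨ε / 2 / (2 * W ^ 2 + W + 1), by positivity, (div_mul_cancel₀ _ (by positivity)).le⟩
  refine ⟨δ, δ0, ⌈(4 + W) / (16 * δ) * K4 / (ε / 2)⌉₊ + 1, fun d hd n v hv hV => ?_⟩
  have hd0 : 0 < d := by omega
  have hd' : (0 : ℝ) < d := by exact_mod_cast hd0
  have hK := (div_le_iff₀ (half_pos hε)).1 (Nat.ceil_le.1 ((Nat.le_succ _).trans hd))
  obtain ⟨y, ⟨hy1, hy2⟩, hy⟩ := exists_topL hv hV
  have hb1 : ∀ l, 1 ≤ bb n v y l := fun l => hy1.trans (le_bb hv y l)
  have hb : ∀ l ≤ n + 1, 0 < bb n v y l := fun l _ => one_pos.trans_le (hb1 l)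
  have hb2 : bb n v y 0 ≤ W := by linarith [bb_le hv y 0]
  have hs := bb_succ (n := n) (v := v) y
  have ht := bb_top (n := n) (v := v) y
  replace hb1 := hb1 0
  generalize bb n v y = b at *
  let p : ℕ → ℝ := fun l => if l = 0 then 1 else 1 - ta v b l
  have hp : ∀ l, p (l + 1) = 1 - ta v b (l + 1) := fun l => rfl
  have hχ : ∀ l, 1 ≤ l → l ≤ n + 1 → chi n p l = 1 / b l := fun l h hl => by
    induction l, h using Nat.le_induction with
    | base =>
      have b0 := hb 0 (by omega)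
      have b1 := hb 1 (by omega)
      have e : v 0 = b 0 - b 1 := by rw [hs 0 (by omega), ze_zeroQ]; ring
      simp only [chi, range_one, sum_singleton, ze_zeroQ, ta, zero_add, e, p, if_true, one_ne_zero,
        if_false]
      field_simp
      ring
    | succ l h ih =>
      obtain ⟨k, rfl⟩ := Nat.exists_eq_add_of_le' h
      have b0 := hb (k + 1) (by omega)
      have b1 := hb (k + 1 + 1) hl
      rw [chi_succQ, ih (by omega), hp, hp, ta_succ (k + 1), sub_sub_sub_cancel_left,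
        add_sub_cancel_left, ← mul_div_assoc, show ze n (k + 1) * v (k + 1) =
          b (k + 1) - b (k + 1 + 1) by rw [hs (k + 1) (by omega)]; ring]
      field_simp
      ring
  have hχ0 : ∀ l, 1 ≤ l → l ≤ n + 1 → 0 < chi n p l := fun l h hl => by
    rw [hχ l h hl]; exact one_div_pos.2 (hb l hl)
  have hp1 : p 1 < 1 := by simpa [chi, ze_zeroQ, p] using hχ0 1 le_rfl (by omega)
  refine ⟨p, ⟨rfl, fun j hj => ?_, ?_⟩, hp1,
    by rw [hχ _ (by omega) le_rfl, one_div_one_div, ht]; exact hy2, fun G L hG h0 => ?_⟩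
  · cases j with
    | zero => exact hp1.le
    | succ j =>
      rw [hp, hp, ta_succ (j + 1)]
      exact sub_le_sub_left (le_add_of_nonneg_right (div_nonneg (hv _ (by omega))
        (mul_pos (hb _ (by omega)) (hb _ (by omega))).le)) _
  · rw [hp, ← hy, add_sub_cancel_left]
    exact div_nonneg (hv _ le_rfl) (sq_nonneg _)
  have hq := qv_eq (v := v) (p := p) rfl hχ0 hb hs (by
    rw [hχ _ (by omega) le_rfl, mul_one_div_cancel (hb _ le_rfl).ne'])
  rw [sum_eq_zero fun l hl => by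
    have := mem_Icc.1 hl
    rw [hχ l this.1 (by omega), mul_one_div_cancel (hb l (by omega)).ne']
    simp] at hq
  have b0 := hb 0 (by omega)
  have hc := cas_lo (c := d / 2 * (-Real.log (b 0) + b 0 - 1) - δ * (b 0 + 1) * d)
    (A := 2 * δ * b 0 ^ 2) (B := (4 + b 0) / (16 * δ * d)) hG hv hb hs (by positivity) fun h => ?_
  · rw [hy, Fintype.card_fin] at hc
    refine le_trans ?_ hc
    have e : PP (2 * δ * b 0 ^ 2) ((4 + b 0) / (16 * δ * d)) d 0 1 =
        2 * δ * b 0 ^ 2 * d + (4 + b 0) / (16 * δ) * K4 := by unfold PP; field_simp; ring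
    have h1 : (4 + b 0) / (16 * δ) * K4 ≤ (4 + W) / (16 * δ) * K4 := by
      have := four_le_K4; gcongr
    have h2 : δ * (2 * b 0 ^ 2 + b 0 + 1) * d ≤ ε / 2 * d :=
      mul_le_mul_of_nonneg_right (le_trans (by gcongr) δ1) hd'.le
    have h3 := congrArg ((d : ℝ) / 2 * ·) hq
    rw [e]
    linarith
  · have h1 := lz_lo hd0 hb1 δ0 h
    have h2 := h0 h
    have e : PP (2 * δ * b 0 ^ 2) ((4 + b 0) / (16 * δ * d)) d (sqn h / b 0 ^ 2) (1 / b 0) =
        2 * δ * sqn h + 2 * δ * b 0 * d +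
          PP 0 ((4 + b 0) / (16 * δ * d)) d (sqn h / b 0 ^ 2) (1 / b 0) := by
      unfold PP; field_simp; ring
    have h3 : 0 ≤ δ * b 0 * d := by positivity
    rw [← sqn] at h2
    rw [Fintype.card_fin, e]
    linarith

end Vale.Agent.P157
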