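import Vale.Agent.P157.SphQ

/-!
# P157: upper bound for the spherical block functional
-/

namespace Vale.Agent.P157

open Vale.Agent.P168 Vale.Agent.P168.PW Finset MeasureTheory Filter Topology
open scoped BigOperators

lemma integral_mpU {α β : Type*} [MeasurableSpace α] [MeasurableSpace β] {μ : Measure α}
    {ν : Measure β} {g : α → β} (h : MeasurePreserving g μ ν) {F : β → ℝ} (hF : Measurable F) :
    ∫ y, F y ∂ν = ∫ x, F (g x) ∂μ := by
  rw [← h.map_eq, integral_map h.aemeasurable hF.aestronglyMeasurable]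

lemma integrable_lz {d : ℕ} (h : Fin d → ℝ) :
    Integrable (fun y => Real.exp (∑ i, h i * (√d * dir y i))) (gI (Fin d)) :=
  .of_bound (Measurable.aestronglyMeasurable (by fun_prop)) (Real.exp (∑ i, |h i| * √d))
    (ae_of_all _ fun y => by
      rw [Real.norm_of_nonneg (Real.exp_pos _).le, Real.exp_le_exp]
      refine sum_le_sum fun i _ => (le_abs_self _).trans ?_
      rw [abs_mul, abs_mul, abs_of_nonneg (Real.sqrt_nonneg _)]
      exact mul_le_mul_of_nonneg_left (mul_le_of_le_one_right (Real.sqrt_nonneg _)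
        (abs_dir_le y i)) (abs_nonneg _))

lemma integrable_sqrt_sqn {I : Type} [Fintype I] : Integrable (fun y => √(sqn y)) (gI I) :=
  (mom_sqn0.1.add (integrable_const 1)).mono' (Measurable.aestronglyMeasurable (by fun_prop))
    (ae_of_all _ fun y => by
      rw [Real.norm_of_nonneg (Real.sqrt_nonneg _), Pi.add_apply]
      nlinarith [Real.sq_sqrt (sqn_nonneg y), Real.sqrt_nonneg (sqn y)])

lemma lz_up {d : ℕ} (hd : 0 < d) {b : ℝ} (hb : 0 < b) (h : Fin d → ℝ) :
    lz d (fun i => (∫ y, √(sqn y) ∂gI (Fin d)) / √d * h i) ≤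
      sqn h / (2 * b) - d / 2 * Real.log b + (b - 1) * d / 2 := by
  have : Nonempty (Fin d) := ⟨⟨0, hd⟩⟩
  have h1 := tiltG hb h fun _ => 1
  simp only [mul_one, integral_const, probReal_univ, one_smul, Fintype.card_fin] at h1
  have h2 := polar_mix.integrable_comp_of_integrable
    (Integrable.of_integral_ne_zero (h1.trans_ne (Real.exp_pos _).ne'))
  rw [integral_mpU polar_mix (by fun_prop), integral_prod _ (by exact h2)] at h1
  obtain ⟨q1, q2, -⟩ := mom_sqn0 (I := Fin d)
  rw [lz, ← sub_le_iff_le_add, sub_eq_neg_add, ← Real.log_exp (-_), ← Real.log_mul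
    (Real.exp_pos _).ne' (integral_exp_pos (integrable_lz _)).ne', Real.log_le_iff_le_exp
    (mul_pos (Real.exp_pos _) (integral_exp_pos (integrable_lz _))), ← h1, ← integral_const_mul]
  refine integral_mono_ae ((integrable_lz _).const_mul _) h2.integral_prod_left ?_
  filter_upwards [ae_sqn_dir, h2.prod_right_ae] with y hy hi
  have h3 := (integrable_sqrt_sqn (I := Fin d)).mul_const (∑ i, h i * dir y i)
  have h4 := (q1.const_mul (1 - b)).div_const 2
  refine le_trans (le_of_eq ?_) (exp_le_integral (h3.add h4) hi (ae_of_all _ fun z => le_of_eq ?_))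
  · simp only [Pi.add_apply]
    rw [integral_add h3 h4, integral_mul_const, integral_div, integral_const_mul, q2,
      ← Real.exp_add, mul_sum, Fintype.card_fin, add_comm]
    congr 2
    · refine sum_congr rfl fun i _ => ?_
      have : √(d : ℝ) ≠ 0 := by positivity
      field_simp
    · ring
  · simp only [Pi.add_apply, sqn_mul, hy, Real.sq_sqrt (sqn_nonneg _), mul_one,
      mul_sum, mul_left_comm]

lemma rad_ge {d : ℕ} (hd : 0 < d) : 1 - K4 / (2 * d) ≤ (∫ y, √(sqn y) ∂gI (Fin d)) / √d := by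
  obtain ⟨q1, q2, q3, q4⟩ := mom_sqn0 (I := Fin d)
  rw [Fintype.card_fin] at q2 q3 q4
  have hd' : (0 : ℝ) < d := by exact_mod_cast hd
  have h1 := (q1.div_const (2 * d)).add (integrable_const (1 / 2))
  have h2 := q3.div_const (2 * d ^ 2)
  rw [← integral_div]
  refine le_trans ?_ (integral_mono (h1.sub h2) (integrable_sqrt_sqn.div_const _) fun y => ?_)
  · simp only [Pi.add_apply, Pi.sub_apply]
    rw [integral_sub (by exact h1) h2, integral_add (q1.div_const _) (integrable_const _),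
      integral_div, integral_div _ fun y => (sqn y - d) ^ 2, q2]
    simp only [integral_const, probReal_univ, one_smul]
    refine sub_le_sub (le_of_eq (by field_simp; norm_num)) ((div_le_div_of_nonneg_right q4
      (by positivity)).trans_eq (by field_simp))
  · simp only [Pi.add_apply, Pi.sub_apply]
    have e : sqn y = (√(sqn y) / √d) ^ 2 * d := by
      rw [div_pow, Real.sq_sqrt (sqn_nonneg y), Real.sq_sqrt hd'.le, div_mul_cancel₀ _ hd'.ne']
    have ht : 0 ≤ √(sqn y) / √d := by positivity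
    generalize √(sqn y) / √d = t at e ht
    rw [e, show t ^ 2 * d / (2 * d) + 1 / 2 - (t ^ 2 * d - d) ^ 2 / (2 * d ^ 2) =
      t - (t - 1) ^ 2 * (t ^ 2 + 2 * t) / 2 by field_simp; ring]
    exact sub_le_self _ (by positivity)

lemma chi_posU {n p} (hp : Adm n p) (h1 : p 1 < 1) (l) (h : 1 ≤ l) (hl : l ≤ n + 1) :
    0 < chi n p l := by
  induction l, h using Nat.le_induction with
  | base => simpa [chi, ze_zeroQ, hp.1] using h1
  | succ l _ ih =>
    rw [chi_succQ]
    exact add_pos_of_pos_of_nonneg (ih (by omega))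
      (mul_nonneg (ze_posQ (by omega)).le (sub_nonneg.2 (hp.2.1 l (by omega))))

lemma scalU {η b r δ : ℝ} (η0 : 0 < η) (η1 : η ≤ 1) (b0 : 0 < b) (hr : 1 - η / 8 ≤ r)
    (hδ : δ * (2 * b) ≤ η / 3) : r⁻¹ ^ 2 / (2 * (b * (1 + η))) + δ ≤ 1 / (2 * b) := by
  have r0 : 0 < r := by linarith
  have r1 : 1 - η / 4 ≤ r ^ 2 := by nlinarith
  have r2 : 1 ≤ (1 - η / 3) * ((1 + η) * r ^ 2) := by
    have : 1 + η / 2 ≤ (1 + η) * r ^ 2 := by nlinarith
    nlinarith
  have r3 : r⁻¹ ^ 2 / (2 * (b * (1 + η))) ≤ (1 - η / 3) / (2 * b) := by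
    rw [div_le_div_iff₀ (by positivity) (by positivity), inv_pow, inv_mul_le_iff₀ (by positivity)]
    nlinarith
  have r4 : δ ≤ η / 3 / (2 * b) := (le_div_iff₀ (by positivity)).2 hδ
  rw [sub_div] at r3
  linarith

theorem sphU (V ε : ℝ) (hε : 0 < ε) : ∃ δ : ℝ, 0 < δ ∧ ∃ d0 : ℕ, ∀ d, d0 ≤ d →
    ∀ (n : ℕ) (p v : ℕ → ℝ) (G : (Fin d → ℝ) → ℝ) (L : ℝ), Adm n p → p 1 < 1 →
      1 / chi n p (n + 1) ≤ V → (∀ l, l ≤ n + 1 → 0 ≤ v l) → ∑ l ∈ range (n + 2), v l ≤ V →
      (∀ x y, |G x - G y| ≤ L * ∑ i, |x i - y i|) →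
      (∀ h, G h ≤ lz d h + δ * (∑ i, h i ^ 2 + d)) →
      CasI n v G ≤ d * (cs n p + pen n p v + ε) := by
  set W := |V| + 1 with hW
  have hW0 : 0 < W := by positivity
  set η := min 1 (ε / (2 * W)) with hη
  have η0 : 0 < η := by positivity
  have η1 : η ≤ 1 := min_le_left _ _
  have η2 : η * (2 * W) ≤ ε := (le_div_iff₀ (by positivity)).1 (min_le_right _ _)
  set δ := min (ε / 2) (η / (12 * W)) with hδ
  have δ1 : δ ≤ ε / 2 := min_le_left _ _
  have δ2 : δ * (12 * W) ≤ η := (le_div_iff₀ (by positivity)).1 (min_le_right _ _)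
  have δ0 : 0 < δ := by positivity
  clear_value δ η
  refine ⟨δ, δ0, ⌈4 * K4 / η⌉₊ + 1, fun d hd n p v G L hp h1 h2 hv h3 hG h4 => ?_⟩
  have hd0 : 0 < d := by omega
  have hd' : (0 : ℝ) < d := by exact_mod_cast hd0
  have hr := rad_ge hd0
  have hK : K4 / (2 * d) ≤ η / 8 := by
    have := (div_le_iff₀ η0).1 (Nat.ceil_le.1 (show ⌈4 * K4 / η⌉₊ ≤ d by omega))
    rw [div_le_iff₀ (by positivity)]; linarith
  have hχ := chi_posU hp h1
  have hy := one_div_pos.2 (hχ _ (by omega) le_rfl)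
  have hb : ∀ l ≤ n + 1, 0 < bb n v (1 / chi n p (n + 1)) l := fun l _ => hy.trans_le (le_bb hv _ l)
  have hq := qv_eq (v := v) hp.1 hχ hb (bb_succ _) (by
    rw [bb_top, one_div_mul_cancel (hχ _ (by omega) le_rfl).ne'])
  have hb1 := bb_le hv (1 / chi n p (n + 1)) 0
  have hc := cas_up (c := d / 2 * (-Real.log (bb n v (1 / chi n p (n + 1)) 0) +
    bb n v (1 / chi n p (n + 1)) 0 - 1) + d * ε) hG hv hb (bb_succ _) fun h => ?_
  · have : ∑ l ∈ Icc 1 n, (Real.log (bb n v (1 / chi n p (n + 1)) l * chi n p l) -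
        bb n v (1 / chi n p (n + 1)) l * chi n p l + 1) * (1 / ze n l - 1 / ze n (l - 1)) ≤ 0 := by
      refine sum_nonpos fun l hl => mul_nonpos_of_nonpos_of_nonneg ?_ (sub_nonneg.2 ?_)
      · have := mem_Icc.1 hl
        linarith [Real.log_le_sub_one_of_pos (mul_pos (hb l (by omega)) (hχ l this.1 (by omega)))]
      · obtain ⟨h5, h6⟩ := mem_Icc.1 hl
        obtain ⟨k, rfl⟩ := Nat.exists_eq_add_of_le' h5
        refine one_div_le_one_div_of_le (ze_posQ h6) ?_
        rw [ze_succQ, Nat.add_sub_cancel]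
        exact sub_le_self _ (by unfold wt; positivity)
    rw [Fintype.card_fin] at hc
    nlinarith
  · have b0 := hb 0 (by omega)
    have b1 : bb n v (1 / chi n p (n + 1)) 0 ≤ 2 * W := by linarith [le_abs_self V]
    generalize bb n v (1 / chi n p (n + 1)) 0 = b at b0 b1 ⊢
    have h5 := lz_up hd0 (b := b * (1 + η)) (by positivity)
    generalize (∫ y, √(sqn y) ∂gI (Fin d)) / √d = r at hr h5
    have r0 : 0 < r := by linarith
    have h6 := h5 fun i => r⁻¹ * h i
    simp only [mul_inv_cancel_left₀ r0.ne', sqn_mul] at h6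
    have h7 : Real.log b ≤ Real.log (b * (1 + η)) :=
      Real.log_le_log b0 (le_mul_of_one_le_right b0.le (by linarith))
    have h8 := scalU (r := r) η0 η1 b0 (by linarith) (δ := δ) (by nlinarith)
    have h9 := mul_le_mul_of_nonneg_left h8 (sqn_nonneg h)
    have h10 := h4 h
    rw [← sqn] at h10
    have h11 : η * b * d ≤ ε * d := mul_le_mul_of_nonneg_right (by nlinarith) hd'.le
    have h12 := mul_le_mul_of_nonneg_left h7 hd'.le
    have h13 := mul_le_mul_of_nonneg_left δ1 hd'.le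
    rw [mul_add, ← mul_div_assoc, mul_comm, mul_one_div] at h9
    linarith

end Vale.Agent.P157
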