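import Vale.Agent.P157.Red
import Vale.Agent.P157.SphU

/-!
# P157: reductions for the sphere
-/

namespace Vale.Agent.P157

open Vale.Agent.P168 Vale.Agent.P168.PW Finset MeasureTheory Filter Topology
open scoped BigOperators

theorem measurable_dir {I : Type} [Fintype I] : Measurable (dir : (I → ℝ) → I → ℝ) :=
  measurable_dir'

theorem ae_dir {I : Type} [Fintype I] [Nonempty I] : ∀ᵐ y ∂(gI I), ∑ i, dir y i ^ 2 = 1 :=
  ae_sqn_dir

theorem pressS_eq (α : ℝ) {f : ℝ → ℝ} {c : ℝ} (hf : Measurable f) (hc : ∀ x, |f x| ≤ c) {N : ℕ}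
    (hN : 0 < N) : pressS α f N = (1 / (N : ℝ)) * gZ (gI (Fin N)) dir f (Fin ⌊α * N⌋₊) := by
  have : Nonempty (Fin N) := ⟨⟨0, hN⟩⟩
  have _ := hc
  rw [pressS, integral_const_mul, gZ]
  refine congrArg _ (integral_congr_ae (ae_of_all _ fun g => congrArg Real.log ?_))
  have hF : Measurable fun u : Fin N → ℝ => Real.exp (∑ a, f (∑ i, g a i * u i)) := by fun_prop
  refine Eq.trans ?_ ((integral_mpU polar_dir hF).symm.trans
    (integral_mpU ⟨measurable_dir, rfl⟩ hF))
  refine integral_congr_ae (ae_of_all _ fun u => ?_)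
  have : √(N : ℝ) ≠ 0 := by positivity
  simp only [wgt, mul_left_comm _ √(N : ℝ), ← mul_sum, mul_div_cancel_left₀ _ this]

lemma log_int_leR {α : Type*} [MeasurableSpace α] {μ : Measure α} [IsProbabilityMeasure μ]
    {X Y : α → ℝ} {c : ℝ} (hX : Integrable (fun a => Real.exp (X a)) μ)
    (hY : Integrable (fun a => Real.exp (Y a)) μ) (h : ∀ᵐ a ∂μ, X a - Y a ≤ c) :
    Real.log (∫ a, Real.exp (X a) ∂μ) - Real.log (∫ a, Real.exp (Y a) ∂μ) ≤ c := by
  rw [← Real.log_div (integral_exp_pos hX).ne' (integral_exp_pos hY).ne', Real.log_le_iff_le_exp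
    (div_pos (integral_exp_pos hX) (integral_exp_pos hY)), div_le_iff₀ (integral_exp_pos hY),
    ← integral_const_mul]
  exact integral_mono_ae hX (hY.const_mul _) (h.mono fun a ha => by
    simp only [← Real.exp_add, Real.exp_le_exp]; linarith)

theorem net {d : ℕ} (hd : 0 < d) {δ : ℝ} (hδ : 0 < δ) :
    ∃ (m : ℕ) (ν : PW (Fin m)) (θ : Fin m → Fin d → ℝ) (g : (Fin d → ℝ) → Fin m),
      MeasurePreserving g (gI (Fin d)) (toM ν) ∧ (∀ a, ∑ i, θ a i ^ 2 = d) ∧
      (∀ᵐ y ∂(gI (Fin d)), ∑ i, (θ (g y) i / Real.sqrt d - dir y i) ^ 2 ≤ δ ^ 2) ∧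
      ∀ h, |Real.log (ν.E fun a => Real.exp (∑ i, h i * θ a i)) - lz d h| ≤
        δ * (∑ i, h i ^ 2 + d) := by
  classical
  have : Nonempty (Fin d) := ⟨⟨0, hd⟩⟩
  have hd' : (0 : ℝ) < d := by exact_mod_cast hd
  have hK : IsCompact {u : Fin d → ℝ | sqn u = 1} :=
    (isCompact_univ_pi fun _ => isCompact_Icc (a := -1) (b := 1)).of_isClosed_subset
      (isClosed_eq continuous_sqn continuous_const) fun u hu i _ => abs_le.1
        ((sq_le_one_iff_abs_le_one _).1 ((single_le_sum (f := fun i => u i ^ 2)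
          (fun _ _ => sq_nonneg _) (mem_univ i)).trans_eq hu))
  obtain ⟨t, ht1, ht2⟩ := hK.elim_nhds_subcover (fun c => {u | ∑ i, (c i - u i) ^ 2 < δ ^ 2})
    fun c _ => (isOpen_lt (by fun_prop) continuous_const).mem_nhds (by simp [hδ])
  have hc : ∀ᵐ y ∂(gI (Fin d)), ∃ a : Fin t.card,
      ∑ i, ((t.equivFin.symm a).1 i - dir y i) ^ 2 < δ ^ 2 := ae_sqn_dir.mono fun y hy => by
    obtain ⟨c, hc, h⟩ := Set.mem_iUnion₂.1 (ht2 hy)
    exact ⟨t.equivFin ⟨c, hc⟩, by simpa using h⟩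
  obtain ⟨-, a0, -⟩ := hc.exists
  let g : (Fin d → ℝ) → Fin t.card := (fun s : Fin t.card → Prop =>
    if h : ∃ a, s a then h.choose else a0) ∘
      fun y a => ∑ i, ((t.equivFin.symm a).1 i - dir y i) ^ 2 < δ ^ 2
  have hg : Measurable g := Measurable.of_discrete.comp (measurable_pi_lambda _ fun a =>
    measurableSet_setOfPred.1 (measurableSet_lt (by fun_prop) measurable_const))
  have hg2 : ∀ᵐ y ∂(gI (Fin d)), ∑ i, ((t.equivFin.symm (g y)).1 i - dir y i) ^ 2 < δ ^ 2 :=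
    hc.mono fun y hy => by
      simp only [g, Function.comp, dif_pos hy]
      exact hy.choose_spec
  have := Measure.isProbabilityMeasure_map (μ := gI (Fin d)) hg.aemeasurable
  let ν : PW (Fin t.card) := ⟨fun a => ((gI (Fin d)).map g).real {a}, fun _ => measureReal_nonneg,
    by simp⟩
  have hm : MeasurePreserving g (gI (Fin d)) (toM ν) := ⟨hg, by
    simp only [toM, ν, ofReal_measureReal (measure_ne_top _ _), Measure.sum_smul_dirac]⟩
  have hs : √(d : ℝ) ≠ 0 := by positivity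
  refine ⟨_, ν, fun a i => √d * (t.equivFin.symm a).1 i, g, hm, fun a => ?_,
    hg2.mono fun y hy => by simpa only [mul_div_cancel_left₀ _ hs] using hy.le, fun h => ?_⟩
  · rw [← sqn, sqn_mul, ht1 _ (t.equivFin.symm a).2, Real.sq_sqrt hd'.le, mul_one]
  have h1 := hm.integrable_comp_of_integrable (Integrable.of_finite
    (f := fun a => Real.exp (∑ i, h i * (√d * (t.equivFin.symm a).1 i))))
  have h2 : ∀ᵐ y ∂(gI (Fin d)), |∑ i, h i * (√d * (t.equivFin.symm (g y)).1 i) -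
      ∑ i, h i * (√d * dir y i)| ≤ δ * (∑ i, h i ^ 2 + d) := hg2.mono fun y hy => by
    rw [← sum_sub_distrib]
    refine (abs_sum_le_sum_abs _ _).trans ((sum_le_sum (g := fun i => δ * h i ^ 2 +
      d / δ * ((t.equivFin.symm (g y)).1 i - dir y i) ^ 2) fun i _ => ?_).trans ?_)
    · rw [← mul_sub, ← mul_sub, abs_mul, ← sq_abs (h i), ← Real.sq_sqrt hd'.le, div_mul_eq_mul_div,
        ← mul_pow, ← sq_abs (_ * _), Real.sq_sqrt hd'.le]
      have := abs_nonneg (h i)
      have := abs_nonneg (√d * ((t.equivFin.symm (g y)).1 i - dir y i))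
      generalize |√d * _| = w at *
      rw [← sub_nonneg, show δ * |h i| ^ 2 + w ^ 2 / δ - |h i| * w =
        (δ * |h i| - w) ^ 2 / δ + |h i| * w by field_simp; ring]
      positivity
    · rw [sum_add_distrib, ← mul_sum, ← mul_sum, mul_add]
      exact add_le_add le_rfl ((mul_le_mul_of_nonneg_left hy.le (by positivity)).trans_eq
        (by field_simp))
  rw [← integral_toM, integral_mpU hm Measurable.of_discrete, lz, abs_sub_le_iff]
  exact ⟨log_int_leR h1 (integrable_lz h) (h2.mono fun y hy => (abs_sub_le_iff.1 hy).1),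
    log_int_leR (integrable_lz h) h1 (h2.mono fun y hy => (abs_sub_le_iff.1 hy).2)⟩

lemma dir_near {I : Type} [Fintype I] (x : I → ℝ) {u : I → ℝ} (hu : sqn u = 1) {s : ℝ}
    (hs : 0 ≤ s) : ∑ i, (dir x i - u i) ^ 2 ≤ 4 * ∑ i, (s * x i - u i) ^ 2 := by
  let X : EuclideanSpace ℝ I := WithLp.toLp 2 x
  let U : EuclideanSpace ℝ I := WithLp.toLp 2 u
  have hX : √(sqn x) = ‖X‖ := by
    rw [← Real.sqrt_sq (norm_nonneg X), EuclideanSpace.real_norm_sq_eq]; rfl
  have hU : ‖U‖ = 1 := by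
    rw [← sq_eq_sq₀ (norm_nonneg _) zero_le_one, EuclideanSpace.real_norm_sq_eq, one_pow]; exact hu
  have h1 : ‖‖X‖⁻¹ • X - s • X‖ ≤ ‖s • X - U‖ := by
    by_cases h : X = 0
    · simp [h]
    rw [← sub_smul, norm_smul, ← norm_norm X, ← norm_mul, norm_norm, sub_mul,
      inv_mul_cancel₀ (norm_ne_zero_iff.2 h), norm_sub_rev (s • X), ← hU]
    refine le_trans (le_of_eq ?_) (abs_norm_sub_norm_le U (s • X))
    rw [norm_smul, Real.norm_of_nonneg hs, Real.norm_eq_abs]
  have h2 := pow_le_pow_left₀ (norm_nonneg _) ((norm_sub_le_norm_sub_add_norm_sub _ _ U).trans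
    (add_le_add h1 le_rfl)) 2
  rw [← two_mul, mul_pow, EuclideanSpace.real_norm_sq_eq, EuclideanSpace.real_norm_sq_eq] at h2
  simp only [dir_eq, hX]
  exact h2.trans_eq (by norm_num [X, U])

lemma gZ_dir_equiv {I J : Type} [Fintype I] [Fintype J] (e : J ≃ I) {f : ℝ → ℝ} {c : ℝ}
    (hf : Measurable f) (hc : ∀ x, |f x| ≤ c) (𝒜 : Type) [Fintype 𝒜] :
    gZ (gI I) dir f 𝒜 = gZ (gI J) dir f 𝒜 := by
  rw [← gZ_map hf hc (μ := gI I) (μ' := gI J) (measurePreserving_piCongrLeft (fun _ => gam) e)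
    measurable_dir]
  refine gZ_index hf hc _ measurable_dir e.injective (fun σ j => ?_)
    (fun σ i h => (h (e.symm i) (e.apply_symm_apply i)).elim) 𝒜
  simp only [dir, ← e.sum_comp, MeasurableEquiv.piCongrLeft_apply_apply]

/-- Mixing lengths and directions blockwise. -/
noncomputable def mixR {B I R : Type} [Fintype I] (p : (B → I → ℝ) × (B → I → ℝ) × (R → ℝ)) :
    (B × I) ⊕ R → ℝ := Sum.elim (fun j => √(sqn (p.2.1 j.1)) * dir (p.1 j.1) j.2) p.2.2

lemma mixR_mp (B I R : Type) [Fintype B] [Fintype I] [Fintype R] [Nonempty I] :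
    MeasurePreserving mixR ((Measure.pi fun _ : B => gI I).prod
      ((Measure.pi fun _ : B => gI I).prod (gI R))) (gI ((B × I) ⊕ R)) := by
  have h1 : MeasurePreserving (MeasurableEquiv.curry B I ℝ).symm (Measure.pi fun _ : B => gI I)
      (gI (B × I)) := ⟨(MeasurableEquiv.curry B I ℝ).symm.measurable, by
    simpa only [Measure.infinitePi_eq_pi, gI] using
      Measure.infinitePi_map_curry_symm fun (_ : B) (_ : I) => gam⟩
  exact (measurePreserving_sumPiEquivProdPi_symm fun _ : (B × I) ⊕ R => gam).comp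
    (((h1.comp ((measurePreserving_pi _ _ fun _ => polar_mix).comp
      (measurePreserving_arrowProdEquivProdArrow _ _ B (fun _ => gI I) fun _ => gI I).symm)).prod
        (MeasurePreserving.id (gI R))).comp (measurePreserving_prodAssoc _ _ _).symm)

lemma mixR_near {B I R : Type} [Fintype B] [Fintype I] [Fintype R] {b d : ℝ}
    (hb : b = Fintype.card B) (b0 : 0 < b) (d0 : 0 < d) {y : B → I → ℝ}
    (hy : ∀ k, sqn (dir (y k)) = 1) (r : (B → I → ℝ) × (R → ℝ)) :
    ∑ j, (dir (mixR (y, r)) j - Sum.elim (fun j : B × I => dir (y j.1) j.2 / √b) 0 j) ^ 2 ≤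
      4 * ((∑ k, (sqn (r.1 k) - d) ^ 2) / (b * d ^ 2) + sqn r.2 / (b * d)) := by
  have hy' : ∀ k, ∑ i, dir (y k) i ^ 2 = 1 := hy
  refine (dir_near _ ?_ (s := (√b * √d)⁻¹) (by positivity)).trans
    (mul_le_mul_of_nonneg_left ?_ four_pos.le)
  · simp [sqn, Fintype.sum_prod_type, div_pow, ← sum_div, hy', Real.sq_sqrt b0.le, ← hb, b0.ne']
  have h2 := Real.sq_sqrt d0.le
  rw [Fintype.sum_sum_type, Fintype.sum_prod_type, sum_div]
  refine add_le_add (sum_le_sum fun k _ => ?_) (le_of_eq ?_)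
  · have e : ∀ i, ((√b * √d)⁻¹ * (√(sqn (r.1 k)) * dir (y k) i) - dir (y k) i / √b) ^ 2 =
        (√(sqn (r.1 k)) - √d) ^ 2 / (b * d) * dir (y k) i ^ 2 := fun i => by
      conv_rhs => rw [← Real.sq_sqrt b0.le, ← h2, Real.sqrt_sq (Real.sqrt_nonneg d)]
      field_simp
    simp only [mixR, Sum.elim_inl, e, ← mul_sum, hy', mul_one]
    have h1 := Real.sq_sqrt (sqn_nonneg (r.1 k))
    have h3 := Real.sqrt_nonneg (sqn (r.1 k))
    have h4 := Real.sqrt_pos.2 d0
    generalize √(sqn (r.1 k)) = ρ at *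
    generalize √d = s at *
    rw [← h1, ← h2, show (ρ ^ 2 - s ^ 2) ^ 2 / (b * (s ^ 2) ^ 2) = (ρ - s) ^ 2 / (b * s ^ 2) *
      (1 + ρ / s) ^ 2 by field_simp; ring]
    exact le_mul_of_one_le_right (by positivity) (one_le_pow₀ (le_add_of_nonneg_right
      (by positivity)))
  · simp only [mixR, Sum.elim_inr, Pi.zero_apply, sub_zero]
    rw [← sqn, sqn_mul, inv_pow, mul_pow, h2, Real.sq_sqrt b0.le, inv_mul_eq_div]

theorem blocks (c ε : ℝ) (hε : 0 < ε) : ∃ d0 : ℕ, ∀ d, d0 ≤ d → ∀ᶠ N : ℕ in atTop,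
    ∀ (𝒜 : Type) [Fintype 𝒜] (f : ℝ → ℝ), (∀ y, |f y| ≤ c) →
      (∀ y y', |f y - f y'| ≤ c * |y - y'|) →
      gZ (Measure.pi fun _ : Fin (N / d) => gI (Fin d))
        (fun y (i : Fin (N / d) × Fin d) => dir (y i.1) i.2 / Real.sqrt (N / d : ℕ)) f 𝒜 -
        ε * Fintype.card 𝒜 ≤ gZ (gI (Fin N)) dir f 𝒜 := by
  obtain ⟨δ, δ0, hδ⟩ := gZ_feat c (ε / 2) (half_pos hε)
  obtain ⟨η, η0, hη⟩ : ∃ η : ℝ, 0 < η ∧ 16 * c / δ * η ≤ ε / 2 :=
    ⟨ε / 2 / (|16 * c / δ| + 1), by positivity, by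
      rw [← mul_div_assoc, div_le_iff₀ (by positivity), mul_comm]
      exact mul_le_mul_of_nonneg_left ((le_abs_self _).trans (by linarith)) (half_pos hε).le⟩
  refine ⟨⌈K4 / η⌉₊ + 1, fun d hd => (eventually_ge_atTop ((⌈1 / η⌉₊ + 1) * d)).mono
    fun N hN 𝒜 _ f hc hL => ?_⟩
  have hd0 : 0 < d := by omega
  have hd' : (0 : ℝ) < d := by exact_mod_cast hd0
  have hB := (Nat.le_div_iff_mul_le hd0).2 hN
  have hr := Nat.mod_lt N hd0
  have e : (Fin (N / d) × Fin d) ⊕ Fin (N % d) ≃ Fin N :=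
    Fintype.equivFinOfCardEq (by simp [Nat.div_add_mod'])
  generalize N / d = B at *
  generalize N % d = R at *
  have hB' : (0 : ℝ) < B := by exact_mod_cast (by omega : 0 < B)
  have hK := (div_le_iff₀ η0).1 (Nat.ceil_le.1 ((Nat.le_succ _).trans hd))
  have hK' := (div_le_iff₀ η0).1 (Nat.ceil_le.1 ((Nat.le_succ _).trans hB))
  have c0 : 0 ≤ c := (abs_nonneg _).trans (hc 0)
  have hf : Measurable f := (LipschitzWith.of_dist_le_mul (K := ⟨c, c0⟩) hL).continuous.measurable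
  have : Nonempty (Fin d) := ⟨⟨0, hd0⟩⟩
  have hm := mixR_mp (Fin B) (Fin d) (Fin R)
  obtain ⟨j1, j2⟩ := gZ_jensen hf hc (Measure.pi fun _ : Fin B => gI (Fin d))
    ((Measure.pi fun _ : Fin B => gI (Fin d)).prod (gI (Fin R)))
    (measurable_dir.comp hm.measurable) 𝒜
  rw [gZ_dir_equiv e hf hc, ← gZ_map hf hc hm measurable_dir]
  refine le_trans ?_ j2
  have hx : Measurable fun (y : Fin B → Fin d → ℝ) (i : Fin B × Fin d) => dir (y i.1) i.2 / √B := by
    fun_prop
  have hx' : Measurable fun (y : Fin B → Fin d → ℝ) =>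
      Sum.elim (fun i : Fin B × Fin d => dir (y i.1) i.2 / √B) (0 : Fin R → ℝ) :=
    measurable_pi_lambda _ fun j => by cases j <;> simp <;> fun_prop
  rw [← gZ_index hf hc _ hx (x' := fun y => Sum.elim (fun i => dir (y i.1) i.2 / √B) (0 : Fin R → ℝ))
    Sum.inl_injective (fun _ _ => rfl) (fun σ j h => by
      cases j with
      | inl j => exact (h j rfl).elim
      | inr j => rfl)]
  obtain ⟨-, -, q1, q2⟩ := mom_sqn0 (I := Fin d)
  obtain ⟨q3, q4, -⟩ := mom_sqn0 (I := Fin R)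
  rw [Fintype.card_fin] at q1 q2 q4
  have p1 := fun k : Fin B => (measurePreserving_eval (fun _ : Fin B => gI (Fin d)) k).comp
    (measurePreserving_fst (ν := gI (Fin R)))
  have p2 := measurePreserving_snd (μ := Measure.pi fun _ : Fin B => gI (Fin d)) (ν := gI (Fin R))
  have i1 := fun k => (p1 k).integrable_comp_of_integrable q1
  have i2 := (integrable_finsetSum univ fun k _ => i1 k).div_const (B * d ^ 2)
  have i3 := (p2.integrable_comp_of_integrable q3).div_const (B * d)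
  have i4 := ((i2.add i3).const_mul 4).const_mul (2 * c / δ * Fintype.card 𝒜)
  have k0 : (0 : ℝ) ≤ Fintype.card 𝒜 := Nat.cast_nonneg _
  refine le_trans ?_ (integral_mono ((integrable_const (gZ (Measure.pi fun _ : Fin B => gI (Fin d))
    (fun y => Sum.elim (fun i : Fin B × Fin d => dir (y i.1) i.2 / √B) (0 : Fin R → ℝ)) f 𝒜 -
      ε / 2 * Fintype.card 𝒜)).sub i4) j1 fun r => ?_)
  · simp only [Pi.sub_apply, Pi.add_apply]
    rw [integral_sub (integrable_const _) (by exact i4), integral_const_mul, integral_const_mul,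
      integral_add i2 i3, integral_div, integral_div, integral_finsetSum _ fun k _ => i1 k]
    simp only [integral_const, probReal_univ, one_smul]
    have e1 : ∀ k, ∫ r, ((fun z => (sqn z - d) ^ 2) ∘ Function.eval k ∘ Prod.fst) r
        ∂(Measure.pi fun _ : Fin B => gI (Fin d)).prod (gI (Fin R)) ≤ K4 * d := fun k =>
      (integral_mpU (p1 k) (F := fun z => (sqn z - d) ^ 2) (by fun_prop)).symm.trans_le q2
    have e2 := (integral_mpU p2 measurable_sqn).symm.trans q4
    have e3 := div_le_div_of_nonneg_right (sum_le_sum fun k (_ : k ∈ univ) => e1 k)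
      (show (0 : ℝ) ≤ B * d ^ 2 by positivity)
    have e4 : (∑ _k : Fin B, K4 * d) / (B * d ^ 2) ≤ η := by
      rw [sum_const, card_univ, Fintype.card_fin, nsmul_eq_mul, div_le_iff₀ (by positivity)]
      nlinarith [mul_le_mul_of_nonneg_left hK (show (0 : ℝ) ≤ B * d by positivity)]
    have e5 : (R : ℝ) / (B * d) ≤ η := by
      have : (R : ℝ) ≤ d := by exact_mod_cast hr.le
      rw [div_le_iff₀ (by positivity)]
      nlinarith [mul_le_mul_of_nonneg_left hK' hd'.le]
    simp only [Function.comp] at e3 ⊢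
    rw [e2]
    have e6 := mul_le_mul_of_nonneg_left (add_le_add (e3.trans e4) e5)
      (show 0 ≤ 2 * c / δ * Fintype.card 𝒜 * 4 by positivity)
    have e7 := mul_le_mul_of_nonneg_right hη k0
    have e8 : 2 * c / δ * Fintype.card 𝒜 * 4 * (η + η) = 16 * c / δ * η * Fintype.card 𝒜 := by ring
    linarith
  · simp only [Pi.sub_apply, Pi.add_apply, Function.comp, Function.eval]
    have hm' : Measurable fun σ => dir (mixR (σ, r)) :=
      measurable_dir.comp (hm.measurable.comp measurable_prodMk_right)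
    have h0 : 0 ≤ 4 * ((∑ k, (sqn (r.1 k) - d) ^ 2) / (B * d ^ 2) + sqn r.2 / (B * d)) := by
      have := sqn_nonneg r.2; positivity
    generalize hq : 4 * ((∑ k, (sqn (r.1 k) - d) ^ 2) / (B * d ^ 2) + sqn r.2 / (B * d)) = q at h0
    rcases le_total q δ with h | h
    · have := hδ _ _ 𝒜 (Measure.pi fun _ : Fin B => gI (Fin d)) _ _ f hm' hx' hc hL
        ((ae_all_iff.2 fun k => (measurePreserving_eval (fun _ : Fin B => gI (Fin d))
          k).quasiMeasurePreserving.ae ae_sqn_dir).mono fun y hy =>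
            (mixR_near (by simp) hB' hd' hy r).trans (hq.trans_le h))
      have h2 : 0 ≤ 2 * c / δ * Fintype.card 𝒜 * q := by positivity
      linarith [(abs_le.1 this).1]
    · have h1 := abs_le.1 (abs_gZ_le hf hc (Measure.pi fun _ : Fin B => gI (Fin d)) hm' 𝒜)
      have h2 := abs_le.1 (abs_gZ_le hf hc (Measure.pi fun _ : Fin B => gI (Fin d)) hx' 𝒜)
      have h3 := mul_le_mul_of_nonneg_left h (show 0 ≤ 2 * c / δ * Fintype.card 𝒜 by positivity)
      have h4 : 2 * c / δ * Fintype.card 𝒜 * δ = 2 * (c * Fintype.card 𝒜) := by field_simp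
      have h5 : 0 ≤ ε / 2 * Fintype.card 𝒜 := by positivity
      linarith

end Vale.Agent.P157
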