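import Vale.Agent.P157.UB
import Vale.Agent.P157.LB
import Vale.Agent.P157.SphU
import Vale.Agent.P157.SphL
import Vale.Agent.P157.SphR
import Vale.Agent.P157.Smooth

/-!
# P157: the spherical model
-/

namespace Vale.Agent.P157

open Vale.Agent.P168 Vale.Agent.P168.PW Finset MeasureTheory Filter Topology
open scoped BigOperators

/-- Log Laplace transform of a finite spin law. -/
noncomputable def lgSph {D J : Type} [Fintype D] [Fintype J] (ν : PW D) (θ : D → J → ℝ)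
    (h : J → ℝ) : ℝ := Real.log (ν.E fun a => Real.exp (∑ i, h i * θ a i))

theorem lgSph_lip {D J : Type} [Fintype D] [Fintype J] (ν : PW D) {θ : D → J → ℝ} {d : ℝ}
    (hθ : ∀ a, ∑ i, θ a i ^ 2 = d) (x y : J → ℝ) :
    |lgSph ν θ x - lgSph ν θ y| ≤ Real.sqrt d * ∑ i, |x i - y i| := by
  have h := abs_lam_sub_le one_pos ν (Y := fun a => ∑ i, x i * θ a i)
    (Y' := fun a => ∑ i, y i * θ a i) (c := Real.sqrt d * ∑ i, |x i - y i|) fun a => by
      rw [← sum_sub_distrib, mul_sum]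
      refine (abs_sum_le_sum_abs _ _).trans (sum_le_sum fun i _ => ?_)
      rw [← sub_mul, abs_mul, mul_comm]
      refine mul_le_mul_of_nonneg_right (Real.abs_le_sqrt ?_) (abs_nonneg _)
      rw [← hθ a]
      exact single_le_sum (f := fun i => θ a i ^ 2) (fun _ _ => sq_nonneg _) (mem_univ i)
  simpa [lam, lgSph] using h

theorem psi_casSph (n : ℕ) {D J : Type} [Fintype D] [Fintype J] [DecidableEq J] (ν : PW D)
    {θ : D → J → ℝ} {d : ℝ} (hθ : ∀ a, ∑ i, θ a i ^ 2 = d) (V : ℝ) {ε : ℝ} (hε : 0 < ε) :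
    ∃ K0 : ℕ, ∀ K1, K0 ≤ K1 → ∀ K2, K0 ≤ K2 → ∀ v β : ℕ → ℝ, (∀ l, l ≤ n + 1 → 0 ≤ v l) →
      ∑ l ∈ range (n + 2), tv n v β l ≤ V →
      |psi2 n ν θ K1 K2 v β - CasI n (tv n v β) (lgSph ν θ)| ≤ ε := by
  obtain ⟨K0, h⟩ := rwc n J (Real.sqrt d) V ε hε
  refine ⟨K0, fun K1 h1 K2 h2 v β hv hV => ?_⟩
  have := h K1 h1 K2 h2 v β (lgSph ν θ) hv hV (lgSph_lip ν hθ)
  rw [psi2, FU_spin]
  exact this

theorem tv_nonnegSph {n : ℕ} {v : ℕ → ℝ} (hv : ∀ l, l ≤ n + 1 → 0 ≤ v l) (β : ℕ → ℝ) (l : ℕ)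
    (hl : l ≤ n + 1) : 0 ≤ tv n v β l := by
  have := hv l hl
  unfold tv
  split_ifs <;> positivity

theorem Sm.three {c : ℝ} {F : ℕ → ℝ → ℝ} (hF : Sm c 4 F) : Sm c 3 F :=
  ⟨fun i hi => hF.1 i (by omega), fun i h1 h2 => hF.2 i h1 (by omega)⟩

theorem Sm.lipSph {c : ℝ} {F : ℕ → ℝ → ℝ} (hF : Sm c 4 F) (y y' : ℝ) :
    |F 0 y - F 0 y'| ≤ c * |y - y'| := by
  have := Convex.norm_image_sub_le_of_norm_hasDerivWithin_le (f := F 0) (f' := F 1) (C := c)
    (s := Set.univ) (fun x _ => (hF.1 0 (by norm_num) x).hasDerivWithinAt)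
    (fun x _ => hF.2 1 le_rfl (by norm_num) x) convex_univ (Set.mem_univ y') (Set.mem_univ y)
  simpa [Real.norm_eq_abs] using this

theorem Sm.measSph {c : ℝ} {F : ℕ → ℝ → ℝ} (hF : Sm c 4 F) : Measurable (F 0) :=
  (continuous_iff_continuousAt.mpr fun x => (hF.1 0 (by norm_num) x).continuousAt).measurable

theorem toM_singleSph {S : Type} [Fintype S] [MeasurableSpace S] [MeasurableSingletonClass S]
    (μ : PW S) (a : S) : toM μ {a} = ENNReal.ofReal (μ.w a) := by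
  classical
  simp [toM, Set.indicator_apply]

theorem toM_piSph {ι S : Type} [Fintype ι] [DecidableEq ι] [Fintype S] [MeasurableSpace S]
    [MeasurableSingletonClass S] (ν : PW S) :
    toM (PW.pi fun _ : ι => ν) = Measure.pi fun _ : ι => toM ν := by
  refine Measure.ext_of_singleton fun f => ?_
  rw [toM_singleSph, ← Set.univ_pi_singleton, Measure.pi_pi]
  simp only [toM_singleSph]
  exact ENNReal.ofReal_prod_of_nonneg fun i _ => ν.nonneg _

theorem upS {α : ℝ} (hα : 0 < α) {c : ℝ} {F : ℕ → ℝ → ℝ} (hF : Sm c 4 F) (hc : ∀ x, |F 0 x| ≤ c)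
    {ε : ℝ} (hε : 0 < ε) : ∃ n0 : ℕ, ∀ n, n0 ≤ n → ∀ t ∈ trialS α (F 0) n,
      ∀ᶠ N in atTop, pressS α (F 0) N ≤ t + ε := by
  have hc0 : 0 ≤ c := (abs_nonneg _).trans (hc 0)
  obtain ⟨e, he, hee⟩ : ∃ e : ℝ, 0 < e ∧ e * (4 + 4 * α) = ε :=
    ⟨ε / (4 + 4 * α), by positivity, by field_simp⟩
  obtain ⟨n0, hub⟩ := ub c α e he
  refine ⟨n0, fun n hn t ht => ?_⟩
  obtain ⟨p, hp, hp1, rfl⟩ := ht
  obtain ⟨V, N0, hub⟩ := hub n hn F hF.three hc p (cs n p) hp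
  obtain ⟨δ, hδ, d0, hU⟩ := sphU (max V (1 / chi n p (n + 1))) (e / 2) (by positivity)
  obtain ⟨δ1, hδ1, hfe⟩ := gZ_feat c e he
  filter_upwards [eventually_ge_atTop d0, eventually_gt_atTop 0,
    tendsto_natCast_atTop_atTop.eventually_ge_atTop N0,
    tendsto_natCast_atTop_atTop.eventually_ge_atTop (2 * c / ε)] with N hNd hN hN0 hNc
  have hN' : (1 : ℝ) ≤ N := by exact_mod_cast hN
  have : Nonempty (Fin N) := ⟨⟨0, hN⟩⟩
  obtain ⟨m, ν, θ, g, hg, hθ, hae, hlz⟩ := net hN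
    (show 0 < min δ (Real.sqrt δ1) from lt_min hδ (Real.sqrt_pos.mpr hδ1))
  have hM := Nat.floor_le (show 0 ≤ α * N by positivity)
  have hM' := Nat.lt_floor_add_one (α * N)
  have h1 := hub N hN0 (Fin m) (Fin N) ν θ ⌊α * N⌋₊ hθ hM (by
    obtain ⟨K0, hK⟩ := psi_casSph n ν hθ V (show 0 < e / 2 by positivity)
    refine ⟨K0, fun K hK0 β hβ => ?_⟩
    have a1 := (abs_le.mp (hK K hK0 K hK0 (fun _ => 0) β (fun _ _ => le_rfl) hβ)).2
    have a2 := hU N hNd n p (tv n (fun _ => 0) β) (lgSph ν θ) _ hp hp1 (le_max_right _ _)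
      (tv_nonnegSph (fun _ _ => le_rfl) β) (hβ.trans (le_max_left _ _)) (lgSph_lip ν hθ)
      fun h => by
        have b1 := (abs_le.mp (hlz h)).2
        have b2 : min δ (Real.sqrt δ1) * (∑ i, h i ^ 2 + N) ≤ δ * (∑ i, h i ^ 2 + N) :=
          mul_le_mul_of_nonneg_right (min_le_left _ _) (by positivity)
        unfold lgSph
        linarith
    nlinarith)
  rw [fZ_eq_gZ, ← gZ_map hF.measSph hc hg (measurable_of_finite _)] at h1
  have h2 := hfe _ _ (Fin ⌊α * N⌋₊) (gI (Fin N)) (fun σ i => θ (g σ) i / Real.sqrt N) dir (F 0)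
    ((measurable_of_finite fun a i => θ a i / Real.sqrt N).comp hg.measurable) measurable_dir hc
    hF.lipSph (hae.mono fun y hy => hy.trans (by
      calc min δ (Real.sqrt δ1) ^ 2 ≤ Real.sqrt δ1 ^ 2 :=
            pow_le_pow_left₀ (by positivity) (min_le_right _ _) 2
        _ = δ1 := Real.sq_sqrt hδ1.le))
  rw [Fintype.card_fin] at h2
  rw [pressS_eq α hF.measSph hc hN, one_div, inv_mul_le_iff₀ (by positivity)]
  have h3 := abs_le.mp (abs_Cas_le hF.measSph hc n (vr n p))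
  have h4 := (abs_le.mp h2).1
  have h5 : 2 * c ≤ ε * N := by rw [div_le_iff₀ hε] at hNc; linarith
  have h6 : (⌊α * N⌋₊ : ℝ) * Cas n (vr n p) (F 0) ≤ α * N * Cas n (vr n p) (F 0) + c := by
    nlinarith
  have h7 : e * (⌊α * N⌋₊ : ℝ) ≤ e * (α * N) := mul_le_mul_of_nonneg_left hM he.le
  rw [← hee] at h5 ⊢
  nlinarith

theorem arithSph {α e ε c d q N cc M L a1 a2 a3 a4 : ℝ} (hα : 0 < α) (he : 0 < e) (hc : 0 ≤ c)
    (hee : e * (4 + 8 * α) = ε) (hd : 1 ≤ d) (hq : 0 < q) (hq1 : q * d ≤ N) (hq2 : N ≤ q * d + d)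
    (hM : cc ≤ α * d) (hM' : α * d < cc + 1) (hP : M ≤ α * N) (hP' : α * N < M + 1)
    (hNc : 4 * (d * |L - c / d - e| + c * (α * d + 1)) ≤ N * ε) (hdc : 8 * c ≤ d * ε)
    (h1 : q * d * (L - c / d - e) ≤ a1) (h3 : a1 - a2 ≤ e * (q * cc)) (h4 : a2 - e * (q * cc) ≤ a3)
    (h5 : |a3 - a4| ≤ c * |q * cc - M|) : N * (L - ε) ≤ a4 := by
  have hN : 0 < N := by nlinarith
  have j1 : q * cc ≤ q * (α * d) := mul_le_mul_of_nonneg_left hM hq.le
  have j2 : α * (q * d) ≤ α * N := mul_le_mul_of_nonneg_left hq1 hα.le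
  have j3 : α * N ≤ α * (q * d + d) := mul_le_mul_of_nonneg_left hq2 hα.le
  have j4 : q * (α * d) ≤ q * (cc + 1) := mul_le_mul_of_nonneg_left hM'.le hq.le
  have j5 : 0 ≤ α * d := by positivity
  have k1 : q * cc ≤ α * N := by linarith
  have k2 : |q * cc - M| ≤ α * d + 1 + q := by
    rw [abs_le]; constructor <;> linarith
  have k3 : c * |q * cc - M| ≤ c * (α * d + 1 + q) := mul_le_mul_of_nonneg_left k2 hc
  have k4 : (N - q * d) * (L - c / d - e) ≤ d * |L - c / d - e| :=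
    (mul_le_mul_of_nonneg_left (le_abs_self _) (by linarith)).trans
      (mul_le_mul_of_nonneg_right (by linarith) (abs_nonneg _))
  have hε : 0 < ε := by rw [← hee]; positivity
  have k7 : 8 * (c / d) ≤ ε := by
    rw [← mul_div_assoc, div_le_iff₀ (by positivity)]; linarith
  have k8 : q * (8 * c) ≤ q * (d * ε) := mul_le_mul_of_nonneg_left hdc hq.le
  have k8' : q * d * ε ≤ N * ε := mul_le_mul_of_nonneg_right hq1 hε.le
  have k9 : e * (q * cc) ≤ e * (α * N) := mul_le_mul_of_nonneg_left k1 he.le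
  have k10 : 8 * (c / d) * N ≤ ε * N := mul_le_mul_of_nonneg_right k7 hN.le
  have l5 := (abs_le.mp h5).2
  have k11 : e * (4 + 8 * α) * N = ε * N := by rw [hee]
  have k12 : 0 ≤ ε * N := by positivity
  linarith

theorem loS {α : ℝ} (hα : 0 < α) {c : ℝ} {F : ℕ → ℝ → ℝ} (hF : Sm c 4 F) (hc : ∀ x, |F 0 x| ≤ c)
    {ε : ℝ} (hε : 0 < ε) : ∃ n0 : ℕ, ∀ n, n0 ≤ n → ∀ L ∈ lowerBounds (trialS α (F 0) n),
      ∀ᶠ N in atTop, L - ε ≤ pressS α (F 0) N := by
  have hc0 : 0 ≤ c := (abs_nonneg _).trans (hc 0)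
  obtain ⟨e, he, hee⟩ : ∃ e : ℝ, 0 < e ∧ e * (4 + 8 * α) = ε :=
    ⟨ε / (4 + 8 * α), by positivity, by field_simp⟩
  obtain ⟨ε0, V, hε0, hlb⟩ := lb c α e he
  obtain ⟨δL, hδL, dL, hL⟩ := sphL V (ε0 / 2) (by positivity)
  obtain ⟨δU, hδU, dU, hU⟩ := sphU (V + 2) (ε0 / 2) (by positivity)
  obtain ⟨dB, hB⟩ := blocks c e he
  obtain ⟨δ1, hδ1, hfe⟩ := gZ_feat c e he
  obtain ⟨d, hdL, hdU, hdB, hd, hdc⟩ : ∃ d : ℕ, dL ≤ d ∧ dU ≤ d ∧ dB ≤ d ∧ 0 < d ∧
      8 * c / ε ≤ (d : ℝ) :=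
    ((eventually_ge_atTop dL).and ((eventually_ge_atTop dU).and ((eventually_ge_atTop dB).and
      ((eventually_gt_atTop 0).and
        (tendsto_natCast_atTop_atTop.eventually_ge_atTop (8 * c / ε)))))).exists
  have hd' : (1 : ℝ) ≤ d := by exact_mod_cast hd
  have : Nonempty (Fin d) := ⟨⟨0, hd⟩⟩
  obtain ⟨δ, hδ, hδa, hδb, hδc⟩ : ∃ δ : ℝ, 0 < δ ∧ δ ≤ δL ∧ δ ≤ δU ∧ δ ^ 2 ≤ δ1 := by
    refine ⟨min (min δL δU) (Real.sqrt δ1), lt_min (lt_min hδL hδU) (Real.sqrt_pos.mpr hδ1),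
      (min_le_left _ _).trans (min_le_left _ _), (min_le_left _ _).trans (min_le_right _ _), ?_⟩
    calc min (min δL δU) (Real.sqrt δ1) ^ 2 ≤ Real.sqrt δ1 ^ 2 :=
          pow_le_pow_left₀ (by positivity) (min_le_right _ _) 2
      _ = δ1 := Real.sq_sqrt hδ1.le
  obtain ⟨m, ν, θ, g, hg, hθ, hae, hlz⟩ := net hd hδ
  have hM := Nat.floor_le (show 0 ≤ α * d by positivity)
  have hM' := Nat.lt_floor_add_one (α * d)
  set cc := ⌊α * d⌋₊ with hcc
  obtain ⟨n0, hlb⟩ := hlb (Fin m) (Fin d) ν θ d cc hd' hθ hM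
  refine ⟨n0, fun n hn L hLb => ?_⟩
  have hHL : HL n (cc / (d : ℝ)) (F 0) ν θ d (L - c / d) ε0 V := by
    obtain ⟨K0, hK⟩ := psi_casSph n ν hθ V (show 0 < ε0 / 2 by positivity)
    refine ⟨K0, fun K1 h1 K2 h2 v β hv hβ => ?_⟩
    obtain ⟨p, hp, hp1, hchi, hlow⟩ := hL d hdL n (tv n v β) (tv_nonnegSph hv β) hβ
    refine ⟨p, cs n p, hp, ?_, ?_, fun β' hβ' => ?_⟩
    · have a1 := hLb ⟨p, hp, hp1, rfl⟩
      have a2 := abs_le.mp (abs_Cas_le hF.measSph hc n (vr n p))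
      have a3 : α * Cas n (vr n p) (F 0) - c / d ≤ cc / (d : ℝ) * Cas n (vr n p) (F 0) := by
        rw [div_mul_eq_mul_div, le_div_iff₀ (by positivity), sub_mul, div_mul_cancel₀ _ (by positivity)]
        nlinarith
      linarith
    · have a1 := (abs_le.mp (hK K1 h1 K2 h2 v β hv hβ)).1
      have a2 := hlow (lgSph ν θ) _ (lgSph_lip ν hθ) fun h => by
        have b1 := (abs_le.mp (hlz h)).1
        have b2 : δ * (∑ i, h i ^ 2 + d) ≤ δL * (∑ i, h i ^ 2 + d) :=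
          mul_le_mul_of_nonneg_right hδa (by positivity)
        unfold lgSph
        linarith
      nlinarith
    · have a1 := (abs_le.mp (hK K1 h1 K2 h2 v β' hv hβ')).2
      have a2 := hU d hdU n p (tv n v β') (lgSph ν θ) _ hp hp1 hchi (tv_nonnegSph hv β')
        (by linarith) (lgSph_lip ν hθ) fun h => by
          have b1 := (abs_le.mp (hlz h)).2
          have b2 : δ * (∑ i, h i ^ 2 + d) ≤ δU * (∑ i, h i ^ 2 + d) :=
            mul_le_mul_of_nonneg_right hδb (by positivity)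
          unfold lgSph
          linarith
      nlinarith
  have hev := (Nat.tendsto_div_const_atTop hd.ne').eventually (hlb n hn F _ hF hc hHL)
  filter_upwards [hev, hB d hdB, eventually_ge_atTop d,
    tendsto_natCast_atTop_atTop.eventually_ge_atTop
      (4 * (d * |L - c / d - e| + c * (α * d + 1)) / ε)] with N h1 h2 hNd hNc
  have hN : 0 < N := hd.trans_le hNd
  have hN' : (0 : ℝ) < N := by exact_mod_cast hN
  have hq : 0 < N / d := Nat.div_pos hNd hd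
  set q := N / d with hqd
  have hq' : (0 : ℝ) < q := by exact_mod_cast hq
  have hq1 : (q : ℝ) * d ≤ N := by exact_mod_cast Nat.div_mul_le_self N d
  have hq2 : (N : ℝ) ≤ q * d + d := by
    have := Nat.lt_div_mul_add (a := N) hd
    exact_mod_cast this.le
  have hg' : MeasurePreserving (fun (y : Fin q → Fin d → ℝ) b => g (y b))
      (Measure.pi fun _ => gI (Fin d)) (toM (PW.pi fun _ : Fin q => ν)) := by
    rw [toM_piSph]
    exact measurePreserving_pi _ _ fun _ => hg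
  rw [fZ_eq_gZ, ← gZ_map hF.measSph hc hg' (measurable_of_finite _)] at h1
  have h3 := hfe _ _ (Fin q × Fin cc) (Measure.pi fun _ : Fin q => gI (Fin d))
    (fun y (i : Fin q × Fin d) => θ (g (y i.1)) i.2 / Real.sqrt (q * d))
    (fun y (i : Fin q × Fin d) => dir (y i.1) i.2 / Real.sqrt q) (F 0)
    ((measurable_of_finite fun (σ : Fin q → Fin m) (i : Fin q × Fin d) =>
      θ (σ i.1) i.2 / Real.sqrt (q * d)).comp hg'.measurable)
    (measurable_pi_lambda _ fun i => ((measurable_pi_apply i.2).comp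
      (measurable_dir.comp (measurable_pi_apply i.1))).div_const _) hc hF.lipSph (by
      have hall : ∀ᵐ y ∂(Measure.pi fun _ : Fin q => gI (Fin d)), ∀ b : Fin q,
          ∑ i, (θ (g (y b)) i / Real.sqrt d - dir (y b) i) ^ 2 ≤ δ ^ 2 :=
        ae_all_iff.mpr fun b =>
          (measurePreserving_eval (fun _ : Fin q => gI (Fin d)) b).quasiMeasurePreserving.ae hae
      refine hall.mono fun y hy => ?_
      have hs : ∀ i : Fin q × Fin d, (θ (g (y i.1)) i.2 / Real.sqrt (q * d) -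
          dir (y i.1) i.2 / Real.sqrt q) ^ 2 =
          (θ (g (y i.1)) i.2 / Real.sqrt d - dir (y i.1) i.2) ^ 2 / q := fun i => by
        rw [Real.sqrt_mul hq'.le, mul_comm, ← div_div, ← sub_div, div_pow, Real.sq_sqrt hq'.le]
      simp only [hs]
      rw [← sum_div, Fintype.sum_prod_type, div_le_iff₀ hq']
      refine (sum_le_sum fun b _ => (hy b).trans hδc).trans (le_of_eq ?_)
      simp [mul_comm])
  have h4 := h2 (Fin q × Fin cc) (F 0) hc hF.lipSph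
  have : Nonempty (Fin N) := ⟨⟨0, hN⟩⟩
  have h5 := gZ_card hF.measSph hc (gI (Fin N)) measurable_dir (Fin q × Fin cc) (Fin ⌊α * N⌋₊)
  simp only [Fintype.card_prod, Fintype.card_fin, Nat.cast_mul] at h3 h4 h5
  have hP := Nat.floor_le (show 0 ≤ α * N by positivity)
  have hP' := Nat.lt_floor_add_one (α * N)
  rw [pressS_eq α hF.measSph hc hN, one_div, le_inv_mul_iff₀ hN']
  rw [div_le_iff₀ hε] at hNc hdc
  exact arithSph hα he hc0 hee hd' hq' hq1 hq2 hM hM' hP hP' hNc hdc h1 (abs_le.mp h3).2 h4 h5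

end Vale.Agent.P157
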