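import Vale.Agent.P157.Wrap
import Vale.Agent.P157.Sph

/-!
# P157: the spherical theorem
-/

namespace Vale.Agent.P157

open Vale.Agent.P168 Vale.Agent.P168.PW Finset MeasureTheory Filter Topology
open scoped BigOperators

theorem ze_ge {n l : ℕ} (h : l ≤ n) : wt n ≤ ze n l := al_eq_ze h ▸ al_ge n l

theorem ze_le (n l : ℕ) : ze n l ≤ 1 := by
  unfold ze; have : 0 ≤ (l : ℝ) / ((n : ℝ) + 1) := by positivity
  linarith

theorem chi_facts {n : ℕ} {p : ℕ → ℝ} (hp : Adm n p) {j : ℕ} (hj : j ≤ n + 1) :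
    wt n * (1 - p j) ≤ chi n p j ∧ chi n p j ≤ 1 - p j := by
  induction j with
  | zero => simp [chi, hp.1]
  | succ j ih =>
    have h1 := ih (by omega)
    have h2 := hp.2.1 j (by omega)
    have h3 := ze_ge (show j ≤ n by omega)
    have h4 := ze_le n j
    simp only [chi, sum_range_succ] at h1 ⊢
    constructor <;> nlinarith

theorem cs_ge {n : ℕ} {p : ℕ → ℝ} (hp : Adm n p) (h1 : p 1 < 1) :
    Real.log (wt n / 2) / 2 ≤ cs n p := by
  have hw := wt_pos n
  have hw1 := wt_le_one n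
  have pos : ∀ j, 1 ≤ j → j ≤ n + 1 → 0 < chi n p j := fun j a b => by
    have := hp.2.anti a b
    exact lt_of_lt_of_le (mul_pos hw (by linarith)) (chi_facts hp b).1
  have step : ∀ m, m ≤ n → Real.log (chi n p (m + 1)) ≤ Real.log (chi n p 1) +
      ∑ l ∈ Icc 1 m, Real.log (chi n p (l + 1) / chi n p l) / ze n l := fun m hm => by
    induction m with
    | zero => simp
    | succ m ih =>
      have a := pos (m + 1) (by omega) (by omega)
      have b := pos (m + 1 + 1) (by omega) (by omega)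
      have hz : 0 < ze n (m + 1) := hw.trans_le (ze_ge hm)
      have hle : chi n p (m + 1) ≤ chi n p (m + 1 + 1) := by
        have := hp.2.1 (m + 1) hm
        simp only [chi, sum_range_succ _ (m + 1)]
        nlinarith
      have h0 : 0 ≤ Real.log (chi n p (m + 1 + 1) / chi n p (m + 1)) :=
        Real.log_nonneg ((one_le_div a).mpr hle)
      have h2 := le_div_self h0 hz (ze_le n (m + 1))
      rw [sum_Icc_succ_top (by omega)]
      rw [Real.log_div b.ne' a.ne'] at h2 ⊢
      linarith [ih (by omega)]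
  have hs := step n le_rfl
  have hc := pos (n + 1) (by omega) le_rfl
  have hf := chi_facts hp (le_refl (n + 1))
  have key : Real.log (wt n / 2) ≤ Real.log (chi n p (n + 1)) + p (n + 1) / chi n p (n + 1) := by
    have hp0 := hp.2.2
    by_cases h : p (n + 1) ≤ 1 / 2
    · have : wt n / 2 ≤ chi n p (n + 1) := by nlinarith [hf.1]
      have := Real.log_le_log (by positivity) this
      have : 0 ≤ p (n + 1) / chi n p (n + 1) := by positivity
      linarith
    · have a1 : 1 / (2 * chi n p (n + 1)) ≤ p (n + 1) / chi n p (n + 1) := by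
        rw [div_le_div_iff₀ (by positivity) hc]; nlinarith
      have a2 := Real.log_le_sub_one_of_pos (show 0 < 1 / (2 * chi n p (n + 1)) by positivity)
      rw [one_div, Real.log_inv, Real.log_mul (by norm_num) hc.ne'] at a2
      rw [one_div] at a1
      have a3 : Real.log (wt n / 2) ≤ -Real.log 2 := by
        rw [Real.log_div hw.ne' (by norm_num)]
        linarith [Real.log_nonpos hw.le hw1]
      linarith
  unfold cs
  linarith

theorem mainS {α : ℝ} (hα : 0 < α) {f : ℝ → ℝ} {B : ℝ} (hf : Measurable f) (hB : ∀ x, |f x| ≤ B) :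
    ∃ (V : ℕ → ℝ) (L : ℝ), (∀ n, IsGLB (trialS α f n) (V n)) ∧ Tendsto V atTop (𝓝 L) ∧
      Tendsto (pressS α f) atTop (𝓝 L) := by
  refine wrap_borel hα hf hB (pressS α) (fun n p s => p 1 < 1 ∧ s = cs n p) (trialS α)
    (fun g n t => ?_) (fun n => ?_) (fun n => ?_) (fun ε g c hε hg hc h => ?_)
    (fun c F h1 h2 ε hε => upS hα h1 h2 hε) fun c F h1 h2 ε hε => loS hα h1 h2 hε
  · exact ⟨fun ⟨p, a, b, c⟩ => ⟨p, _, a, ⟨b, rfl⟩, c⟩, fun ⟨p, _, a, ⟨b, rfl⟩, c⟩ => ⟨p, a, b, c⟩⟩
  · refine ⟨fun j => if j = 0 then 1 else 0, _, ⟨rfl, fun j _ => ?_, by simp⟩, by simp, rfl⟩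
    by_cases h : j = 0 <;> simp [h]
  · exact ⟨_, fun p s hp h => h.2 ▸ cs_ge hp h.1⟩
  · filter_upwards [eventually_gt_atTop 0] with N hN
    have : Nonempty (Fin N) := ⟨⟨0, hN⟩⟩
    rw [pressS_eq α hf hB hN, pressS_eq α hg hc hN]
    exact press_close hα hε hN (h _ _ _ _ _ measurable_dir ae_dir)

end Vale.Agent.P157
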