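import Vale.Agent.P157.OvlA

/-!
# P157: from variance bounds to overlap concentration
-/

namespace Vale.Agent.P157.Ovl

open Vale.Agent.P168 Vale.Agent.P168.PW Finset Filter Topology
open scoped BigOperators

variable {Ω : Type} [Fintype Ω] {n : ℕ} {P : Ch Ω} {ρ : PW Ω}

theorem E_var (μ : PW Ω) (F : Ω → ℝ) :
    μ.E (fun x => (F x - μ.E F) ^ 2) = μ.E (fun x => F x ^ 2) - μ.E F ^ 2 := by
  rw [E_congr _ (G := fun x => F x ^ 2 - 2 * μ.E F * F x + μ.E F ^ 2) fun x => by ring,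
    E_add_const, E_sub, E_const_mul]
  ring

theorem pw_dev (μ : PW Ω) {R : Ω → Ω → ℝ} (hR : ∀ x y, R x y = R y x) {t : ℝ} (ht : 0 < t)
    (q : ℝ) : μ.E (fun x => μ.E fun y => |R x y - q|) ≤
      2 * t + μ.E (fun y => μ.E (fun x => R x y ^ 2) - μ.E (fun x => R x y) ^ 2) / (2 * t) +
        |μ.E (fun x => μ.E fun y => R x y) - q| := by
  set f : Ω → ℝ := fun y => μ.E fun x => R x y with hf
  have hM : μ.E (fun x => μ.E fun y => R x y) = μ.E f := E_comm _ _ _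
  have h1 : ∀ y, μ.E (fun x => |R x y - f y|) ≤
      t + (μ.E (fun x => R x y ^ 2) - f y ^ 2) / (4 * t) := fun y => by
    rw [← E_var μ fun x => R x y, ← E_div_const, add_comm, ← E_add_const]
    refine E_mono _ fun x => ?_
    rw [← sq_abs, ← sub_le_iff_le_add, le_div_iff₀ (by positivity)]
    nlinarith [sq_nonneg (|R x y - f y| - 2 * t)]
  have h1' := E_mono μ h1
  rw [E_add, E_const, E_div_const] at h1'
  have h2 : μ.E (fun y => |f y - μ.E f|) ≤ μ.E fun y => μ.E fun x => |R x y - f y| := by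
    rw [E_comm μ μ fun y x => |R x y - f y|]
    refine E_mono _ fun y => ?_
    simp only [hR y]
    exact abs_E_sub_le μ (fun x => R x y) f
  have h3 : μ.E (fun x => μ.E fun y => |R x y - q|) ≤
      μ.E (fun y => μ.E fun x => |R x y - f y|) + μ.E (fun y => |f y - μ.E f|) + |μ.E f - q| := by
    rw [E_comm, ← E_add, ← E_add_const]
    refine E_mono _ fun y => ?_
    rw [add_assoc, ← E_add_const]
    exact E_mono _ fun x => (abs_sub_le _ (f y) _).trans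
      (add_le_add le_rfl (abs_sub_le _ _ _))
  rw [hM]
  have e : ∀ z : ℝ, z / (2 * t) = 2 * (z / (4 * t)) := fun z => by field_simp; ring
  rw [e]
  linarith

/-- Conditional mean of a two-replica function. -/
noncomputable def Mn (P : Ch Ω) (R : Ω → Ω → ℝ) (j : ℕ) (ω : Ω) : ℝ :=
  A P 0 j (fun x => A P 0 j (fun y => R x y) ω) ω

/-- Mean conditional variance of a two-replica function. -/
noncomputable def Dv (n : ℕ) (P : Ch Ω) (ρ : PW Ω) (R : Ω → Ω → ℝ) (j : ℕ) : ℝ :=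
  Eh n P ρ j fun ω => A P 0 j
    (fun y => A P 0 j (fun x => R x y ^ 2) ω - A P 0 j (fun x => R x y) ω ^ 2) ω

theorem prof_eq (R : Ω → Ω → ℝ) (j : ℕ) : prof n P ρ R j = Eh n P ρ j (Mn P R j) := rfl

theorem E2_dev {R : Ω → Ω → ℝ} (hR : ∀ x y, R x y = R y x) {t : ℝ} (ht : 0 < t) (j : ℕ) (q : ℝ) :
    E2 n P ρ j (fun x y => |R x y - q|) ≤
      2 * t + Dv n P ρ R j / (2 * t) + Eh n P ρ j fun ω => |Mn P R j ω - q| := by
  refine (Eh_mono fun ω => pw_dev (B P 0 j ω) hR ht q).trans (le_of_eq ?_)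
  rw [Eh_add, Eh_add, Eh_const, Dv, div_eq_inv_mul, ← Eh_const_mul]
  congr 2
  exact Eh_congr fun ω => div_eq_inv_mul _ _

theorem Mn_dev {R : Ω → Ω → ℝ} {j : ℕ} (hj : j ≤ n)
    (hM : ∀ ω, Mn P R (j + 1) ω ≤ A P j (j + 1) (Mn P R j) ω) :
    Eh n P ρ (j + 1) (fun ω => |Mn P R (j + 1) ω - prof n P ρ R (j + 1)|) ≤
      2 * (prof n P ρ R j - prof n P ρ R (j + 1)) +
        Eh n P ρ (j + 1) fun ω => |A P j (j + 1) (Mn P R j) ω - prof n P ρ R j| := by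
  have h1 : Eh n P ρ (j + 1) (A P j (j + 1) (Mn P R j)) = prof n P ρ R j :=
    Eh_A (Nat.le_succ j) (by omega) _
  have h2 : prof n P ρ R (j + 1) ≤ prof n P ρ R j := h1 ▸ Eh_mono hM
  refine (Eh_mono (G := fun ω => A P j (j + 1) (Mn P R j) ω - Mn P R (j + 1) ω +
    (prof n P ρ R j - prof n P ρ R (j + 1)) + |A P j (j + 1) (Mn P R j) ω - prof n P ρ R j|)
    fun ω => ?_).trans (le_of_eq ?_)
  · have := hM ω
    have h3 := le_abs_self (A P j (j + 1) (Mn P R j) ω - prof n P ρ R j)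
    have h4 := neg_abs_le (A P j (j + 1) (Mn P R j) ω - prof n P ρ R j)
    rw [abs_le]; constructor <;> linarith
  · rw [Eh_add, Eh_add, Eh_sub, Eh_const, h1, ← prof_eq]; ring

theorem fin (c0 θ : ℝ) (hθ : 0 < θ) : ∃ n0 : ℕ, ∀ n, n0 ≤ n → ∃ C : ℝ, 0 ≤ C ∧
    ∀ (Ω : Type) [Fintype Ω] (P : Ch Ω) (ρ : PW Ω) (R : Ω → Ω → ℝ) (ε : ℝ),
      (∀ x y, R x y = R y x) → (∀ x y, |R x y| ≤ c0) → 0 ≤ ε →
      (∀ j ω, Mn P R (j + 1) ω ≤ A P j (j + 1) (Mn P R j) ω) →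
      (∀ j, 1 ≤ j → j ≤ n → wt n * Eh n P ρ (j + 1)
        (fun ω => |A P j (j + 1) (Mn P R j) ω - prof n P ρ R j|) ≤ ε) →
      (∀ j, j + 1 ≤ n → al n j * Dv n P ρ R (j + 1) ≤ wt n * c0 ^ 2 + ε) →
      dev n P ρ (fun j x y => R x y - prof n P ρ R j) ≤ θ + C * ε := by
  obtain ⟨t, ht, rfl⟩ : ∃ t, 0 < t ∧ θ = 4 * t := ⟨θ / 4, by positivity, by ring⟩
  have h0 : Tendsto (fun m : ℕ => 1 / ((m : ℝ) + 1)) atTop (𝓝 0) :=
    tendsto_one_div_add_atTop_nhds_zero_nat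
  have h1 := (h0.const_mul (8 * c0)).add (h0.cesaro.const_mul (c0 ^ 2 / (2 * t)))
  simp only [mul_zero, add_zero] at h1
  obtain ⟨m0, hm0⟩ := eventually_atTop.mp (h1.eventually (gt_mem_nhds (show 0 < 2 * t by linarith)))
  refine ⟨m0 + 2, fun n hn => ⟨(1 / (2 * t) + 1) / wt n, by have := wt_pos n; positivity, ?_⟩⟩
  intro Ω _ P ρ R ε hR hc hε hM H1 H2
  obtain ⟨m, rfl⟩ : ∃ m, n = m + 1 := ⟨n - 1, by omega⟩
  have hm := hm0 m (by omega)
  have hmp : (0 : ℝ) < m := by exact_mod_cast (show 0 < m by omega)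
  obtain ⟨ω0⟩ := ρ.nonempty
  have hc0 : 0 ≤ c0 := (abs_nonneg _).trans (hc ω0 ω0)
  set w := wt (m + 1) with hw
  have wp : 0 < w := wt_pos _
  have w1 : w * ((m : ℝ) + 2) = 1 := by have := wt_mul (m + 1); push_cast at this; linarith
  set q := prof (m + 1) P ρ R with hq
  have bq : ∀ j, |q j| ≤ c0 := fun j => (abs_E2_le _).trans (E2_le_const hc)
  set e : ℕ → ℝ := fun j => E2 (m + 1) P ρ j fun x y => |R x y - q j| with he
  have b1 : ∀ j, e j ≤ 2 * c0 := fun j => E2_le_const fun x y =>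
    (abs_sub _ _).trans (by linarith [hc x y, bq j])
  have b2 : ∀ i ∈ range m, e (1 + (i + 1)) ≤ 2 * t + (1 / (2 * t) + 1) / w * ε +
      c0 ^ 2 / (2 * t) * (1 / (((m - 1 - i : ℕ) : ℝ) + 1)) + 2 * (q (i + 1) - q (i + 1 + 1)) := by
    intro i hi
    have hi := mem_range.mp hi
    rw [add_comm 1 (i + 1)]
    have k1 := E2_dev (n := m + 1) (P := P) (ρ := ρ) hR ht (i + 1 + 1) (q (i + 1 + 1))
    have k2 := Mn_dev (n := m + 1) (ρ := ρ) (j := i + 1) (by omega) (hM (i + 1))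
    have k3 := H1 (i + 1) (by omega) (by omega)
    have k4 := H2 (i + 1) (by omega)
    set r : ℝ := ((m - 1 - i : ℕ) : ℝ) + 1 with hr
    have r1 : 1 ≤ r := by rw [hr]; linarith [Nat.cast_nonneg (α := ℝ) (m - 1 - i)]
    have hal : al (m + 1) (i + 1) = w * (r + 1) := by
      rw [al_of_le (by omega), hr, Nat.cast_sub (by omega), Nat.cast_sub (by omega), hw, wt]
      push_cast
      field_simp
      ring
    rw [hal] at k4
    rw [← le_div_iff₀' wp] at k3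
    have k5 : Dv (m + 1) P ρ R (i + 1 + 1) ≤ c0 ^ 2 * (1 / r) + ε / w := by
      rw [← le_div_iff₀' (by positivity), add_div] at k4
      refine k4.trans (add_le_add ?_ ?_)
      · rw [mul_div_mul_left _ _ wp.ne', mul_one_div]; gcongr; linarith
      · gcongr; nlinarith
    have k6 := div_le_div_of_nonneg_right k5 (show 0 ≤ 2 * t by linarith)
    have e1 : (c0 ^ 2 * (1 / r) + ε / w) / (2 * t) + ε / w =
      (1 / (2 * t) + 1) / w * ε + c0 ^ 2 / (2 * t) * (1 / r) := by ring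
    simp only [he]
    linarith
  have b3 := sum_le_sum b2
  rw [sum_add_distrib, sum_add_distrib, ← mul_sum, ← mul_sum, sum_range_sub' fun i => q (i + 1),
    sum_range_reflect (fun i : ℕ => 1 / ((i : ℝ) + 1)), sum_const, card_range, nsmul_eq_mul] at b3
  change w * ∑ j ∈ Icc 1 (m + 1 + 1), e j ≤ _
  rw [← Ico_add_one_right_eq_Icc, sum_Ico_eq_sum_range, show m + 1 + 1 + 1 - 1 = m + 1 + 1 by omega,
    sum_range_succ, sum_range_succ']
  set S := ∑ i ∈ range m, 1 / ((i : ℝ) + 1) with hS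
  have S0 : 0 ≤ S := sum_nonneg fun i _ => by positivity
  set K := (1 / (2 * t) + 1) / w * ε with hK
  have K0 : 0 ≤ K := by positivity
  have w2 : w ≤ 1 / ((m : ℝ) + 1) := by rw [le_div_iff₀ (by positivity)]; nlinarith
  have w3 : w ≤ (m : ℝ)⁻¹ := by rw [inv_eq_one_div, le_div_iff₀ hmp]; nlinarith
  have w4 : w * m ≤ 1 := by nlinarith
  have b4 : ∑ i ∈ range m, e (1 + (i + 1)) + e (1 + 0) + e (1 + (m + 1)) ≤
      m * (2 * t + K) + c0 ^ 2 / (2 * t) * S + 8 * c0 := by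
    linarith [b1 (1 + 0), b1 (1 + (m + 1)), abs_le.mp (bq (0 + 1)), abs_le.mp (bq (m + 1))]
  refine (mul_le_mul_of_nonneg_left b4 wp.le).trans ?_
  have k1 : w * m * (2 * t + K) ≤ 1 * (2 * t + K) := by gcongr
  have k2 : c0 ^ 2 / (2 * t) * (w * S) ≤ c0 ^ 2 / (2 * t) * ((m : ℝ)⁻¹ * S) := by gcongr
  have k3 : 8 * c0 * w ≤ 8 * c0 * (1 / ((m : ℝ) + 1)) := by gcongr
  linarith

theorem Rs_ge_aux {a : ℕ → ℝ} (F : Ω → ℝ) {p : ℕ}
    (ih : ∀ ω, a p * (A P 0 p (fun x => F x ^ 2) ω - A P 0 p F ω ^ 2) ≤ Rs a P 0 F F p ω) (ω : Ω) :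
    a p * (A P 0 (p + 1) (fun x => F x ^ 2) ω - A P 0 (p + 1) F ω ^ 2) ≤
      Rs a P 0 F F (p + 1) ω := by
  have := E_mono (P p ω) ih
  rw [E_const_mul, E_sub, ← A_succ (Nat.zero_le p)] at this
  rw [Rs_succ (Nat.zero_le p)]
  simp only [← sq]
  linarith

theorem Rs_ge (F : Ω → ℝ) (p : ℕ) (ω : Ω) :
    al n p * (A P 0 (p + 1) (fun x => F x ^ 2) ω - A P 0 (p + 1) F ω ^ 2) ≤
      Rs (al n) P 0 F F (p + 1) ω := by
  refine Rs_ge_aux F ?_ ω
  induction p with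
  | zero => intro ω; simp [Rs_self, A_of_le]
  | succ p ih =>
    intro ω
    refine le_trans (mul_le_mul_of_nonneg_right (al_anti n (Nat.le_succ p)) ?_) (Rs_ge_aux F ih ω)
    exact sub_nonneg.mpr (E_sq_le _ _)

theorem Rs_sum {ι : Type} (s : Finset ι) {a : ℕ → ℝ} {j p : ℕ} (G : Ω → ℝ) (c : ι → ℝ)
    (O : ι → Ω → ℝ) (ω : Ω) :
    Rs a P j G (fun x => ∑ i ∈ s, c i * O i x) p ω = ∑ i ∈ s, c i * Rs a P j G (O i) p ω := by
  simp only [← Rs_const_mul_right]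
  simp only [Rs, mul_sum, A_sum, sum_sub_distrib]
  rw [sum_comm]

variable {I : Type} [Fintype I] {u : I → Ω → ℝ} {N : ℝ}

omit [Fintype Ω] in
theorem ov_eq (y : Ω) : (fun x => ov u N x y) = fun x => ∑ i, u i y / N * u i x := by
  funext x; rw [ov, sum_div]; exact sum_congr rfl fun i _ => by ring

omit [Fintype Ω] in
theorem ov_comm (x y : Ω) : ov u N x y = ov u N y x := by simp only [ov, mul_comm]

theorem Mn_ov (j : ℕ) (ω : Ω) : Mn P (ov u N) j ω = (∑ i, A P 0 j (u i) ω ^ 2) / N := by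
  simp only [Mn, ov, div_eq_mul_inv, A_mul_const, A_sum, A_const_mul, sq]

theorem Mn_le (hN : 0 < N) (j : ℕ) (ω : Ω) :
    Mn P (ov u N) (j + 1) ω ≤ A P j (j + 1) (Mn P (ov u N) j) ω := by
  rw [funext (Mn_ov j), Mn_ov]
  simp only [div_eq_mul_inv, A_mul_const, A_sum]
  gcongr with i
  rw [← A_A (Nat.zero_le j) _ _ (Nat.le_succ j)]
  exact E_sq_le _ _

theorem Xi_sum (hN : 0 < N) (j : ℕ) (α α' : ℝ) :
    ∑ i, ∑ k, Xi n P ρ j 1 α (u i) (u k) - ∑ i, ∑ k, Xi n P ρ j 0 α' (u i) (u k) =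
      N ^ 2 * Eh n P ρ j fun ω => A P 0 j (fun y =>
        Rs (al n) P 0 (fun x => ov u N x y) (fun x => ov u N x y) j ω +
          (α - α') * A P 0 j (fun x => ov u N x y) ω ^ 2) ω := by
  simp only [Xi, ← Eh_sum, ← Eh_sub, ← Eh_const_mul]
  refine Eh_congr fun ω => ?_
  have e : ∀ y, Rs (al n) P 0 (fun x => ov u N x y) (fun x => ov u N x y) j ω +
      (α - α') * A P 0 j (fun x => ov u N x y) ω ^ 2 = ∑ i, ∑ k, u i y * u k y *
        ((Rs (al n) P 0 (u k) (u i) j ω +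
          (α - α') * (A P 0 j (u k) ω * A P 0 j (u i) ω)) / N ^ 2) := fun y => by
    rw [ov_eq, Rs_sum, A_sum, sq, sum_mul_sum, mul_sum, ← sum_add_distrib]
    refine sum_congr rfl fun i _ => ?_
    rw [Rs_comm, Rs_sum, mul_sum, mul_sum, ← sum_add_distrib]
    refine sum_congr rfl fun k _ => ?_
    rw [Rs_comm, A_const_mul, A_const_mul]
    ring
  simp only [e, A_sum, A_mul_const, mul_sum, ← sum_sub_distrib]
  refine sum_congr rfl fun i _ => sum_congr rfl fun k _ => ?_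
  field_simp
  ring

theorem Xi_ge (hN : 0 < N) {c0 : ℝ} (hc : ∀ x y, |ov u N x y| ≤ c0) {j : ℕ} (hj : j + 1 ≤ n) :
    N ^ 2 * (al n j * Dv n P ρ (ov u N) (j + 1) - wt n * c0 ^ 2) ≤
      ∑ i, ∑ k, Xi n P ρ (j + 1) 1 (al n (j + 1)) (u i) (u k) -
        ∑ i, ∑ k, Xi n P ρ (j + 1) 0 (al n j) (u i) (u k) := by
  rw [Xi_sum hN, Dv, ← Eh_const_mul, ← Eh_const (n := n) (P := P) (ρ := ρ) (j := j + 1)
    (wt n * c0 ^ 2), ← Eh_sub]
  refine mul_le_mul_of_nonneg_left (Eh_mono fun ω => ?_) (sq_nonneg N)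
  rw [← A_const_mul, ← A_const' (P := P) (j := 0) (p := j + 1) (wt n * c0 ^ 2) ω, ← A_sub]
  refine A_mono (fun y => ?_) ω
  have h1 := Rs_ge (n := n) (P := P) (fun x => ov u N x y) j ω
  have h2 : A P 0 (j + 1) (fun x => ov u N x y) ω ^ 2 ≤ c0 ^ 2 :=
    sq_le_sq' (abs_le.mp (abs_A_le (fun x => hc x y) ω)).1 (abs_le.mp (abs_A_le (hc · y) ω)).2
  have h3 := al_sub (n := n) (l := j) hj
  have h4 := mul_le_mul_of_nonneg_left h2 (wt_pos n).le
  rw [show al n (j + 1) - al n j = -wt n by linarith]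
  linarith

end Vale.Agent.P157.Ovl
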