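import Vale.Agent.P157.Calc
import Vale.Agent.P157.OvlB

/-!
# P157: concentration of the overlap given the branching height
-/

namespace Vale.Agent.P157

open Vale.Agent.P168 Vale.Agent.P168.PW Finset MeasureTheory Filter Topology
open scoped BigOperators

namespace Ovl

variable {Ω I : Type} [Fintype Ω] [Fintype I] {n : ℕ} {P Q : Ch Ω} {ρ : PW Ω}
  {s : Fam (Fin (n + 1) × I) Ω} {u : I → Ω → ℝ} {cu N Bm ϖ : ℝ} {β : Fin (n + 1) → ℝ}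

theorem abs_div_sub_le {x y b e : ℝ} (hb : 0 < b) (h : |x - b * y| ≤ b * e) : |x / b - y| ≤ e := by
  rwa [div_sub' hb.ne', abs_div, abs_of_pos hb, div_le_iff₀' hb]

theorem lam2 (h : FS s u cu P ρ) (hQ : Q = Tn n P (tot (fld s u) β)) (hc : 0 ≤ cu) (hN : 0 < N)
    (l : Fin (n + 1)) (hβ : 0 < β l) (hB : β l ≤ Bm) (hb : Bm * cu ≤ 1 / 2)
    (hϖ : Fintype.card I * cu ^ 2 ≤ ϖ * N) {p : ℕ} (hp : (l : ℕ) < p) (hp' : p ≤ n + 1) (ω : Ω) :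
    |A Q 0 p (fun x => fld s u l x / (β l * N)) ω - (A Q 0 p (fun x => ∑ i, u i x ^ 2) ω / N -
      wt n * ∑ j ∈ Icc 1 (l : ℕ), A Q j p (Mn Q (ov u N) j) ω)| ≤
      100 * (Bm * cu * (1 + ϖ) ^ 2) := by
  have h0 : 0 ≤ ϖ := nonneg_of_mul_nonneg_left ((by positivity : (0 : ℝ) ≤ _).trans hϖ) hN
  have h1 := ibp_pt h β l (by rw [abs_of_pos hβ]; nlinarith) hp hp' ω
  rw [← hQ] at h1
  rw [A, E_div_const]
  refine abs_div_sub_le (by positivity) ((le_of_eq (congrArg _ ?_)).trans (h1.trans ?_))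
  · simp only [funext (Mn_ov (P := Q) (u := u) (N := N) _), div_eq_mul_inv, A_mul_const, ← sum_mul]
    field_simp
    rfl
  · calc _ = 100 * β l * (β l * cu) * (Fintype.card I * cu ^ 2) := by ring
      _ ≤ 100 * β l * (Bm * cu) * ((1 + ϖ) ^ 2 * N) := by
        have : 0 ≤ Bm := hβ.le.trans hB
        have := hϖ.trans (mul_le_mul_of_nonneg_right (by nlinarith : ϖ ≤ (1 + ϖ) ^ 2) hN.le)
        gcongr
      _ = _ := by ring

theorem lam3 (h : FS s u cu P ρ) (hQ : Q = Tn n P (tot (fld s u) β)) (hc : 0 ≤ cu) (hN : 0 < N)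
    (l : Fin (n + 1)) (hβ : 0 < β l) (hB : β l ≤ Bm) (hb : Bm * cu ≤ 1 / 2)
    (hϖ : Fintype.card I * cu ^ 2 ≤ ϖ * N) {j : ℕ} {ε : ℝ}
    (hj : j = l ∧ ε = 1 ∨ j = l + 1 ∧ ε = 0) :
    |E2 n Q ρ j (fun x y => fld s u l x / (β l * N) * ov u N x y) -
      (∑ i, ∑ k, Xi n Q ρ j ε (al n l) (u i) (u k)) / N ^ 2| ≤
      500 * (Bm * cu * (1 + ϖ) ^ 2) := by
  have h0 : 0 ≤ ϖ := nonneg_of_mul_nonneg_left ((by positivity : (0 : ℝ) ≤ _).trans hϖ) hN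
  have key := fun i k => ibp2 (n := n) (h.sy_cav β (l, i)) (Nat.lt_succ_iff.mp l.2) hj hβ.le
    (show β l * cu ≤ 1 / 2 by nlinarith) (h.inv i (l, i)) (h.inv k (l, i)) (h.bd i) (h.bd k)
    (hQ.trans (Tn_tot β (l, i)))
  have h1 := (abs_sum_le_sum_abs _ _).trans (sum_le_sum fun i (_ : i ∈ univ) =>
    (abs_sum_le_sum_abs _ _).trans (sum_le_sum fun k (_ : k ∈ univ) => key i k))
  simp only [sum_const, card_univ, nsmul_eq_mul, sum_sub_distrib, ← mul_sum, ← E2_mul,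
    ← E2_sum] at h1
  rw [E2_congr (G := fun x y => (β l * N ^ 2)⁻¹ *
    ∑ i, ∑ k, sp (s.τ (l, i) x) * (u i x * u k x) * u k y) fun x y => by
      rw [fld, ov, div_mul_div_comm, sum_mul_sum, div_eq_inv_mul]
      congr 1
      · ring
      · exact sum_congr rfl fun i _ => sum_congr rfl fun k _ => by ring,
    E2_const_mul, ← div_eq_inv_mul]
  refine abs_div_sub_le (by positivity) ((le_of_eq (congrArg _ ?_)).trans (h1.trans ?_))
  · field_simp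
  · calc _ = 500 * β l * (β l * cu) * (Fintype.card I * cu ^ 2) ^ 2 := by ring
      _ ≤ 500 * β l * (Bm * cu) * ((1 + ϖ) * N) ^ 2 := by
        have : 0 ≤ Bm := hβ.le.trans hB
        have := hϖ.trans (mul_le_mul_of_nonneg_right (by linarith : ϖ ≤ 1 + ϖ) hN.le)
        gcongr
      _ = _ := by ring

theorem Eh_dev_sub {F G : Ω → ℝ} {k : ℝ} (hF : Eh n Q ρ 0 (fun x => |F x - Eh n Q ρ 0 F|) ≤ k)
    (hG : Eh n Q ρ 0 (fun x => |G x - Eh n Q ρ 0 G|) ≤ k) :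
    Eh n Q ρ 0 (fun x => |F x - G x - Eh n Q ρ 0 fun x => F x - G x|) ≤ 2 * k := by
  rw [Eh_sub]
  refine (Eh_mono (G := fun x => |F x - Eh n Q ρ 0 F| + |G x - Eh n Q ρ 0 G|) fun x =>
    (le_of_eq (congrArg _ (by ring))).trans (abs_sub _ _)).trans ?_
  rw [Eh_add]
  linarith

theorem step {Δ V : Ω → ℝ} {k e w : ℝ} {p : ℕ} (hp : p ≤ n + 1) (hw : 0 ≤ w)
    (h1 : Eh n Q ρ 0 (fun x => |Δ x - Eh n Q ρ 0 Δ|) ≤ k) (h2 : ∀ ω, |A Q 0 p Δ ω - w * V ω| ≤ e) :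
    |Eh n Q ρ 0 Δ - w * Eh n Q ρ p V| ≤ e ∧
      w * Eh n Q ρ p (fun ω => |V ω - Eh n Q ρ p V|) ≤ k + 2 * e := by
  have h3 : |Eh n Q ρ 0 Δ - w * Eh n Q ρ p V| ≤ e := by
    rw [← Eh_A (Nat.zero_le p) hp, ← Eh_const_mul, ← Eh_sub]
    exact abs_Eh_le_const h2
  refine ⟨h3, ?_⟩
  rw [← Eh_A (Nat.zero_le p) hp] at h1
  rw [← Eh_const_mul]
  refine (Eh_mono (G := fun ω => A Q 0 p (fun x => |Δ x - Eh n Q ρ 0 Δ|) ω + 2 * e)
    fun ω => ?_).trans (by rw [Eh_add, Eh_const]; linarith)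
  have h4 := abs_A_sub_le_A (P := Q) (j := 0) (p := p) Δ (fun _ => Eh n Q ρ 0 Δ) ω
  rw [A_const'] at h4
  have h5 := h2 ω
  rw [← abs_of_nonneg hw, ← abs_mul, mul_sub]
  rw [abs_le] at h3 h4 h5 ⊢
  constructor <;> linarith [h3.1, h3.2, h4.1, h4.2, h5.1, h5.2]

theorem E2_ge {Δ : Ω → ℝ} {R : Ω → Ω → ℝ} {c : ℝ} (hc : ∀ x y, |R x y| ≤ c) {j : ℕ}
    (hj : j ≤ n + 1) : Eh n Q ρ 0 Δ * prof n Q ρ R j -
      c * Eh n Q ρ 0 (fun x => |Δ x - Eh n Q ρ 0 Δ|) ≤ E2 n Q ρ j fun x y => Δ x * R x y := by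
  rw [prof, ← E2_const_mul, ← E2_fst hj fun x => |Δ x - Eh n Q ρ 0 Δ|, ← E2_const_mul, ← E2_sub]
  refine E2_mono fun x y => ?_
  have := abs_le.mp (abs_mul_le' (hc x y) (le_refl |Δ x - Eh n Q ρ 0 Δ|))
  linarith [this.1]

end Ovl

open Ovl in
theorem oc (c0 θ : ℝ) (hθ : 0 < θ) : ∃ n0 : ℕ, ∀ n, n0 ≤ n → ∃ C : ℝ, 0 ≤ C ∧
    ∀ (Ω I : Type) [Fintype Ω] [Fintype I] (P : Ch Ω) (ρ : PW Ω) (s : Fam (Fin (n + 1) × I) Ω)
      (u : I → Ω → ℝ) (cu N η Bm ϖ κ : ℝ) (β : Fin (n + 1) → ℝ), FS s u cu P ρ → 0 ≤ cu →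
      0 < N → 0 < η →
      (∀ ω, ∑ i, u i ω ^ 2 ≤ c0 * N) → (∀ l, η ≤ β l ∧ β l ≤ Bm) → Bm * cu ≤ 1 / 2 →
      Fintype.card I * cu ^ 2 ≤ ϖ * N →
      ∑ l, Eh n (Tn n P (tot (fld s u) β)) ρ 0 (fun x =>
        |fld s u l x - Eh n (Tn n P (tot (fld s u) β)) ρ 0 (fld s u l)|) ≤ κ * N →
      dev n (Tn n P (tot (fld s u) β)) ρ
        (fun j x y => ov u N x y - prof n (Tn n P (tot (fld s u) β)) ρ (ov u N) j) ≤
        θ + C * (κ / η + Bm * cu * (1 + ϖ) ^ 2) := by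
  obtain ⟨n0, h0⟩ := fin c0 θ hθ
  refine ⟨n0, fun n hn => ?_⟩
  obtain ⟨C, hC, h1⟩ := h0 n hn
  refine ⟨C * (1000 + 200 * |c0|), by positivity, ?_⟩
  intro Ω I _ _ P ρ s u cu N η Bm ϖ κ β h hc hN hη hu hβ hb hϖ hκ
  obtain ⟨Q, hQ⟩ : ∃ Q, Q = Tn n P (tot (fld s u) β) := ⟨_, rfl⟩
  rw [← hQ] at hκ ⊢
  have hR := abs_ov_le hN hu
  obtain ⟨ω0⟩ := ρ.nonempty
  have hc0 : 0 ≤ c0 := (abs_nonneg _).trans (hR ω0 ω0)
  have bp : ∀ l, 0 < β l := fun l => hη.trans_le (hβ l).1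
  have hκ' : ∀ l, Eh n Q ρ 0 (fun x => |fld s u l x - Eh n Q ρ 0 (fld s u l)|) ≤ κ * N := fun l =>
    (single_le_sum (f := fun l => Eh n Q ρ 0 fun x => |fld s u l x - Eh n Q ρ 0 (fld s u l)|)
      (fun _ _ => Eh_nonneg fun _ => abs_nonneg _) (mem_univ l)).trans hκ
  have κ0 : 0 ≤ κ :=
    nonneg_of_mul_nonneg_left ((Eh_nonneg fun _ => abs_nonneg _).trans (hκ' 0)) hN
  have B0 : 0 ≤ Bm := (bp 0).le.trans (hβ 0).2
  set Λ : Fin (n + 1) → Ω → ℝ := fun l x => fld s u l x / (β l * N) with hΛ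
  have l1 : ∀ l, Eh n Q ρ 0 (fun x => |Λ l x - Eh n Q ρ 0 (Λ l)|) ≤ κ / η := fun l => by
    have hp : 0 < (β l * N)⁻¹ := by have := bp l; positivity
    simp only [hΛ, div_eq_inv_mul _ (β l * N), Eh_const_mul, ← mul_sub, abs_mul, abs_of_pos hp]
    rw [inv_mul_le_iff₀ (mul_pos (bp l) hN)]
    refine (hκ' l).trans ?_
    rw [show β l * N * (κ / η) = β l / η * (κ * N) by ring]
    exact le_mul_of_one_le_left (by positivity) ((one_le_div hη).mpr (hβ l).1)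
  set k := κ / η with hk
  set e := Bm * cu * (1 + ϖ) ^ 2 with he
  have k0 : 0 ≤ k := by positivity
  have e0 : 0 ≤ e := by positivity
  have main : ∀ j, j + 1 ≤ n → wt n * Eh n Q ρ (j + 1 + 1) (fun ω =>
      |A Q (j + 1) (j + 1 + 1) (Mn Q (ov u N) (j + 1)) ω - prof n Q ρ (ov u N) (j + 1)|) ≤
        (1000 + 200 * c0) * (k + e) ∧
      al n j * Dv n Q ρ (ov u N) (j + 1) ≤ wt n * c0 ^ 2 + (1000 + 200 * c0) * (k + e) := by
    intro j hj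
    let a : Fin (n + 1) := ⟨j, by omega⟩
    let b : Fin (n + 1) := ⟨j + 1, by omega⟩
    have d1 := Eh_dev_sub (l1 a) (l1 b)
    obtain ⟨d2, d3⟩ := step (n := n) (Q := Q) (ρ := ρ) (Δ := fun x => Λ a x - Λ b x)
      (V := A Q (j + 1) (j + 1 + 1) (Mn Q (ov u N) (j + 1))) (e := 200 * e) (p := j + 1 + 1)
      (by omega) (wt_pos n).le d1 fun ω => by
        have ha := lam2 h hQ hc hN a (bp a) (hβ a).2 hb hϖ (p := j + 1 + 1)
          (show j < _ by omega) (by omega) ω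
        have hb' := lam2 h hQ hc hN b (bp b) (hβ b).2 hb hϖ (p := j + 1 + 1)
          (show j + 1 < _ by omega) (by omega) ω
        rw [show (b : ℕ) = a + 1 from rfl, sum_Icc_succ_top (Nat.le_add_left 1 a), mul_add] at hb'
        rw [A_sub]
        rw [abs_le] at ha hb' ⊢
        constructor <;> linarith [ha.1, ha.2, hb'.1, hb'.2]
    rw [Eh_A (Nat.le_succ _) (by omega), ← prof_eq] at d2 d3
    refine ⟨d3.trans (by nlinarith), ?_⟩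
    have ha := lam3 h hQ hc hN a (bp a) (hβ a).2 hb hϖ (j := j + 1) (Or.inr ⟨rfl, rfl⟩)
    have hb' := lam3 h hQ hc hN b (bp b) (hβ b).2 hb hϖ (j := j + 1) (Or.inl ⟨rfl, rfl⟩)
    have g1 := Xi_ge (n := n) (P := Q) (ρ := ρ) hN hR hj
    rw [← le_div_iff₀' (by positivity), sub_div] at g1
    have g2 := E2_ge (n := n) (Q := Q) (ρ := ρ) (Δ := fun x => Λ a x - Λ b x) hR
      (j := j + 1) (by omega)
    simp only [sub_mul, E2_sub] at g2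
    have q0 := prof_nonneg (n := n) (P := Q) (ρ := ρ) (u := u) hN.le (j + 1)
    have q1 := prof_le (n := n) (P := Q) (ρ := ρ) hN hu (j + 1)
    have g3 := mul_le_mul_of_nonneg_left d1 hc0
    have g4 := mul_le_mul_of_nonneg_right (abs_le.mp d2).1 q0
    have g5 := mul_nonneg (wt_pos n).le (mul_nonneg q0 q0)
    have g6 := mul_le_mul_of_nonneg_left q1 e0
    have g7 := mul_nonneg hc0 k0
    rw [abs_le] at ha hb'
    linarith [ha.1, ha.2, hb'.1, hb'.2]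
  rw [abs_of_nonneg hc0, mul_assoc]
  refine h1 Ω Q ρ _ _ ov_comm hR (by positivity) (Mn_le hN) (fun j h1 h2 => ?_)
    fun j hj => (main j hj).2
  obtain ⟨j, rfl⟩ : ∃ i, j = i + 1 := ⟨j - 1, by omega⟩
  exact (main j h2).1

end Vale.Agent.P157
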