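import Vale.Agent.P157.Base

/-!
# P157: two-replica integration by parts
-/

namespace Vale.Agent.P157.Ovl

open Vale.Agent.P168 Vale.Agent.P168.PW Finset
open scoped BigOperators

variable {Ω : Type} [Fintype Ω] {n : ℕ} {P P' : Ch Ω} {ρ : PW Ω}

/-- Relative closeness of two bounded functions. -/
def Cl (c d : ℝ) (F' F : Ω → ℝ) : Prop := ∀ x, |F x| ≤ c ∧ |F' x| ≤ c ∧ |F' x - F x| ≤ d * c

section cl
variable {c c' d d' b : ℝ} {F F' G G' : Ω → ℝ}

omit [Fintype Ω] in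
theorem Cl.refl (h : ∀ x, |F x| ≤ c) : Cl c 0 F F := fun x => ⟨h x, h x, by simp⟩

omit [Fintype Ω] in
theorem Cl.mono (h : Cl c d F' F) (hd : d ≤ d') : Cl c d' F' F := fun x =>
  ⟨(h x).1, (h x).2.1, (h x).2.2.trans
    (mul_le_mul_of_nonneg_right hd ((abs_nonneg _).trans (h x).1))⟩

omit [Fintype Ω] in
theorem Cl.mul (h : Cl c d F' F) (h' : Cl c' d' G' G) :
    Cl (c * c') (d + d') (fun x => F' x * G' x) fun x => F x * G x := fun x =>
  ⟨abs_mul_le' (h x).1 (h' x).1, abs_mul_le' (h x).2.1 (h' x).2.1,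
    (abs_mul_sub_mul_le (h' x).2.1 (h x).1 (h x).2.2 (h' x).2.2).trans (le_of_eq (by ring))⟩

omit [Fintype Ω] in
theorem Cl.add (h : Cl c d F' F) (h' : Cl c' d G' G) :
    Cl (c + c') d (fun x => F' x + G' x) fun x => F x + G x := fun x => by
  obtain ⟨h1, h2, h3⟩ := h x
  obtain ⟨h4, h5, h6⟩ := h' x
  simp only [abs_le] at *
  refine ⟨⟨?_, ?_⟩, ⟨?_, ?_⟩, ?_, ?_⟩ <;> linarith [h1.1, h1.2, h2.1, h2.2, h3.1, h3.2, h4.1,
    h4.2, h5.1, h5.2, h6.1, h6.2]

omit [Fintype Ω] in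
theorem Cl.smul (h : Cl c d F' F) {r : ℝ} (hr : |r| ≤ 1) :
    Cl c d (fun x => r * F' x) fun x => r * F x := by
  simpa using (Cl.refl (F := fun _ : Ω => r) fun _ => hr).mul h

theorem Cl.A (hN : Near 0 b P' P) (h : Cl c d F' F) (i p : ℕ) :
    Cl c (b + d) (A P' i p F') (A P i p F) := fun x =>
  ⟨abs_A_le (fun y => (h y).1) x, abs_A_le (fun y => (h y).2.1) x,
    (hN.A (Nat.zero_le i) p (fun y => (h y).1) (fun y => (h y).2.2) x).trans (le_of_eq (by ring))⟩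

theorem Cl.Rs (hN : Near 0 b P' P) (hb : 0 ≤ b) (h : Cl c d F' F) (h' : Cl c' d' G' G) {i p : ℕ}
    (hp : i ≤ p) :
    Cl (2 * (c * c')) (3 * b + d + d') (Rs (al n) P' i F' G' p) (Rs (al n) P i F G p) := fun x =>
  ⟨abs_Rs_le (al_pos n) (al_anti n) (al_le_one n) hp (fun y => (h y).1) (fun y => (h' y).1) x,
    abs_Rs_le (al_pos n) (al_anti n) (al_le_one n) hp (fun y => (h y).2.1) (fun y => (h' y).2.1) x,
    ((hN.mono (Nat.zero_le i)).Rs (al_pos n) (al_anti n) (al_le_one n) hb hp (fun y => (h y).1)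
      (fun y => (h' y).1) (fun y => (h' y).2.1) (fun y => (h y).2.2) (fun y => (h' y).2.2) x).trans
      (le_of_eq (by ring))⟩

theorem Cl.E (h : Cl c d F' F) : |ρ.E F' - ρ.E F| ≤ d * c :=
  abs_E_sub_le_const _ fun x => (h x).2.2

end cl

/-- Derivative of a two-replica average along a tilt. -/
noncomputable def Psi (n : ℕ) (P : Ch Ω) (ρ : PW Ω) (j : ℕ) (F H O : Ω → ℝ) : ℝ :=
  ρ.E fun ω => A P j (n + 1) (fun x => Rs (al n) P 0 F O j x * A P 0 j H x +
      A P 0 j F x * Rs (al n) P 0 H O j x) ω +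
    Rs (al n) P j (fun x => A P 0 j F x * A P 0 j H x) (A P 0 j O) (n + 1) ω

theorem hasDerivAt_Psi {j : ℕ} (hj : j ≤ n + 1) (F H O : Ω → ℝ) (s : ℝ) :
    HasDerivAt (fun t => Eh n (Tn n P fun x => t * O x) ρ j fun ω =>
      A (Tn n P fun x => t * O x) 0 j F ω * A (Tn n P fun x => t * O x) 0 j H ω)
      (Psi n (Tn n P fun x => s * O x) ρ j F H O) s := by
  have hψ : ∀ x, HasDerivAt (fun t => t * O x) (O x) s := fun x => by
    simpa using (hasDerivAt_id s).mul_const (O x)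
  have h1 : ∀ (G : Ω → ℝ) x, HasDerivAt (fun t => A (Tn n P fun x => t * O x) 0 j G x)
      (Rs (al n) (Tn n P fun x => s * O x) 0 G O j x) s := fun G x => by
    have := hasDerivAt_A_T (P := P) (j := 0) (ψ := fun t x => t * O x) (G := fun _ => G)
      (G' := fun _ => 0) (al_pos n) hψ (fun x => hasDerivAt_const s (G x)) le_rfl j
      (Nat.zero_le j) x
    rwa [A_const', zero_add, A_of_le le_rfl] at this
  exact hasDerivAt_E ρ (hasDerivAt_A_T (P := P) (j := 0) (ψ := fun t x => t * O x) (al_pos n) hψ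
    (fun x => (h1 F x).mul (h1 H x)) (Nat.zero_le j) (n + 1) hj)

theorem Psi_near {b c1 c2 c3 : ℝ} (hN : Near 0 b P' P) (hb : 0 ≤ b) {j : ℕ} (hj : j ≤ n + 1)
    {F H O : Ω → ℝ} (hF : ∀ x, |F x| ≤ c1) (hH : ∀ x, |H x| ≤ c2) (hO : ∀ x, |O x| ≤ c3) :
    |Psi n P' ρ j F H O - Psi n P ρ j F H O| ≤ 36 * b * (c1 * c2 * c3) := by
  have f := Cl.refl hF
  have h := Cl.refl hH
  have o := Cl.refl hO
  have t1 := ((f.Rs (n := n) hN hb o (Nat.zero_le j)).mul (h.A hN 0 j)).mono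
    (d' := 4 * b) (by linarith)
  have t2 := ((f.A hN 0 j).mul (h.Rs (n := n) hN hb o (Nat.zero_le j))).mono
    (d' := 4 * b) (by linarith)
  have t3 := ((t1.add t2).A hN j (n + 1)).mono (d' := 6 * b) (by linarith)
  have t4 := ((((f.A hN 0 j).mul (h.A hN 0 j))).Rs (n := n) hN hb (o.A hN 0 j) hj).mono
    (d' := 6 * b) (by linarith)
  exact ((t3.add t4).E (ρ := ρ)).trans (le_of_eq (by ring))

/-- The value of the derivative on a symmetric chain. -/
noncomputable def Xi (n : ℕ) (P : Ch Ω) (ρ : PW Ω) (j : ℕ) (ε α : ℝ) (v H : Ω → ℝ) : ℝ :=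
  Eh n P ρ j fun x => Rs (al n) P 0 (fun y => v y * H y) v j x * A P 0 j H x +
    ε * (A P 0 j (fun y => v y * H y) x * Rs (al n) P 0 H v j x) +
    α * (A P 0 j (fun y => v y * H y) x * A P 0 j H x * A P 0 j v x)

theorem Xi_near {b c ε α : ℝ} (hN : Near 0 b P' P) (hb : 0 ≤ b) (j : ℕ) (hε : |ε| ≤ 1)
    (hα : |α| ≤ 1) {v H : Ω → ℝ} (hv : ∀ x, |v x| ≤ c) (hH : ∀ x, |H x| ≤ c) :
    |Xi n P' ρ j ε α v H - Xi n P ρ j ε α v H| ≤ 25 * b * c ^ 4 := by
  have h := Cl.refl hH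
  have o := Cl.refl hv
  have f := o.mul h
  have t1 := ((f.Rs (n := n) hN hb o (Nat.zero_le j)).mul (h.A hN 0 j)).mono
    (d' := 4 * b) (by linarith)
  have t2 := (((f.A hN 0 j).mul (h.Rs (n := n) hN hb o (Nat.zero_le j))).mono
    (d' := 4 * b) (by linarith)).smul hε
  have t3 := ((((f.A hN 0 j).mul (h.A hN 0 j)).mul (o.A hN 0 j)).mono
    (d' := 4 * b) (by linarith)).smul hα
  exact ((((t1.add t2).add t3).A hN j (n + 1)).E (ρ := ρ)).trans (le_of_eq (by ring))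

section sy
variable {l : ℕ} {τ : Ω → Bool} {π : Ω → Ω} (h : Sy l τ π P ρ) {a : ℕ → ℝ}
include h

omit h [Fintype Ω] in
theorem sp_mul (b : Bool) (x y : ℝ) : sp b * x * (sp b * y) = x * y := by
  rw [mul_mul_mul_comm, sp_sq, one_mul]

theorem Rs_both {j : ℕ} (hj : j ≤ l) (F O : Ω → ℝ) (ω : Ω) :
    Rs a P 0 (fun x => sp (τ x) * F x) (fun x => sp (τ x) * O x) j ω = Rs a P 0 F O j ω := by
  simp only [Rs, sp_mul, h.A_frozen hj]
  congr 2
  refine sum_congr rfl fun i hi => ?_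
  have : i + 1 ≤ l := by simp only [mem_Ico] at hi; omega
  simp only [h.A_frozen this, sp_mul]

theorem Rs_one {j : ℕ} (hj : j ≤ l) (F O : Ω → ℝ) (ω : Ω) :
    Rs a P 0 F (fun x => sp (τ x) * O x) j ω = sp (τ ω) * Rs a P 0 F O j ω := by
  simp only [Rs, mul_left_comm (F _), h.A_frozen hj, mul_sub, mul_sum]
  congr 1
  · congr 1
    · ring
    refine sum_congr rfl fun i hi => ?_
    have : i + 1 ≤ l := by simp only [mem_Ico] at hi; omega
    simp only [h.A_frozen this, mul_left_comm (A P 0 (i + 1) F _), h.A_frozen hj]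
    ring
  · ring

theorem Rs_both_succ {F O : Ω → ℝ} (hF : ∀ x, F (π x) = F x) (ω : Ω) :
    Rs a P 0 (fun x => sp (τ x) * F x) (fun x => sp (τ x) * O x) (l + 1) ω =
      Rs a P 0 F O (l + 1) ω + a l * (A P 0 (l + 1) F ω * A P 0 (l + 1) O ω) := by
  rw [Rs_succ (Nat.zero_le l), Rs_succ (Nat.zero_le l), h.A_kill (Nat.zero_le l) le_rfl hF,
    E_congr _ (Rs_both h le_rfl F O)]
  simp only [h.A_frozen le_rfl, sp_mul]
  ring

theorem Rs_kill {F O : Ω → ℝ} (hF : ∀ x, F (π x) = F x) {p : ℕ} (hp : l + 1 ≤ p) (ω : Ω) :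
    Rs a P l (fun x => sp (τ x) * F x) (fun x => sp (τ x) * O x) p ω =
      a l * A P l p (fun x => F x * O x) ω := by
  simp only [Rs, sp_mul]
  rw [h.A_kill le_rfl hp hF, sum_eq_zero]
  · ring
  · intro i hi
    have : l + 1 ≤ i + 1 := by simp only [mem_Ico] at hi; omega
    simp only [h.A_kill le_rfl this hF, zero_mul, A_const', mul_zero]

theorem Psi_eq {j : ℕ} {ε : ℝ} (hl : l ≤ n) (hj : j = l ∧ ε = 1 ∨ j = l + 1 ∧ ε = 0) (β : ℝ)
    {v H : Ω → ℝ} (hv : ∀ x, v (π x) = v x) (hH : ∀ x, H (π x) = H x) :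
    Psi n P ρ j (fun x => sp (τ x) * (v x * H x)) H (fun x => β * (sp (τ x) * v x)) =
      β * Xi n P ρ j ε (al n l) v H := by
  have hvH : ∀ x, v (π x) * H (π x) = v x * H x := fun x => by rw [hv, hH]
  rw [Xi, ← Eh_const_mul, Psi, Eh]
  refine E_congr _ fun ω => ?_
  have e : A P 0 j (fun x => β * (sp (τ x) * v x)) =
      fun y => β * A P 0 j (fun x => sp (τ x) * v x) y := funext fun y => A_const_mul _ _ _
  simp only [e, Rs_const_mul_right]
  rcases hj with ⟨rfl, rfl⟩ | ⟨rfl, rfl⟩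
  · have e' : A P 0 j (fun x => sp (τ x) * v x) = fun y => sp (τ y) * A P 0 j v y :=
      funext fun y => h.A_frozen le_rfl _ _
    simp only [e', Rs_both h le_rfl, Rs_one h le_rfl, h.A_frozen le_rfl, mul_assoc]
    rw [Rs_kill h (F := fun x => A P 0 j (fun y => v y * H y) x * A P 0 j H x) (p := n + 1)
      (fun x => by rw [h.A_inv (F := fun y => v y * H y) hvH, h.A_inv hH]) (by omega),
      ← A_const_mul, ← A_const_mul, ← A_add]
    refine A_fun_congr (fun x => ?_) ω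
    have := sp_sq (τ x)
    linear_combination β * A P 0 j (fun y => v y * H y) x * Rs (al n) P 0 H v j x * this
  · simp only [Rs_both_succ h (F := fun y => v y * H y) hvH,
      h.A_kill (F := fun y => v y * H y) (Nat.zero_le l) le_rfl hvH, zero_mul]
    rw [show Rs (al n) P (l + 1) (fun _ => (0 : ℝ))
      (fun y => A P 0 (l + 1) (fun x => sp (τ x) * v x) y) (n + 1) ω = 0 by simp [Rs, A_const'],
      mul_zero, add_zero]
    exact A_fun_congr (fun x => by ring) ω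

theorem ibp2 {j : ℕ} {ε : ℝ} (hl : l ≤ n) (hj : j = l ∧ ε = 1 ∨ j = l + 1 ∧ ε = 0) {β c : ℝ}
    (hβ : 0 ≤ β) (hb : β * c ≤ 1 / 2) {v H : Ω → ℝ} (hv : ∀ x, v (π x) = v x)
    (hH : ∀ x, H (π x) = H x) (bv : ∀ x, |v x| ≤ c) (bH : ∀ x, |H x| ≤ c)
    (hP : P' = Tn n P fun x => β * (sp (τ x) * v x)) :
    |(Eh n P' ρ j fun ω => A P' 0 j (fun x => sp (τ x) * (v x * H x)) ω * A P' 0 j H ω) -
      β * Xi n P' ρ j ε (al n l) v H| ≤ 500 * β ^ 2 * c ^ 5 := by
  have hj' : j ≤ n + 1 := by omega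
  obtain ⟨ω0⟩ := ρ.nonempty
  have hc : 0 ≤ c := (abs_nonneg _).trans (bv ω0)
  set O : Ω → ℝ := fun x => β * (sp (τ x) * v x) with hO
  set F : Ω → ℝ := fun x => sp (τ x) * (v x * H x) with hF
  have bO : ∀ x, |O x| ≤ β * c := fun x =>
    (abs_mul_le' (abs_of_nonneg hβ).le (abs_mul_le' (abs_sp (τ x)).le (bv x))).trans_eq (by ring)
  have bF : ∀ x, |F x| ≤ c * c := fun x =>
    (abs_mul_le' (abs_sp (τ x)).le (abs_mul_le' (bv x) (bH x))).trans_eq (by ring)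
  have hN : ∀ s : ℝ, |s| ≤ 1 → Near 0 (8 * (β * c)) (Tn n P fun x => s * O x) P := fun s hs =>
    near_T (al_pos n) (al_anti n) (al_le_one n)
      (fun x => (abs_mul_le' hs (bO x)).trans_eq (by ring)) hb
  obtain ⟨s, hs, e⟩ := exists_deriv_of_odd (hasDerivAt_Psi (P := P) (ρ := ρ) hj' F H O) (by
    have hE := h.emb.Tn (n := n) fun x => 1 * O x
    have e1 : (fun x => 1 * O (π x)) = fun x => -1 * O x := by
      funext x; simp only [hO, h.self, sp_not, hv]; ring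
    rw [e1] at hE
    rw [← hE.Eh, ← Eh_neg]
    refine Eh_congr fun ω => ?_
    rw [← hE.A, ← hE.A]
    have e2 : (fun x => F (π x)) = fun x => -F x := by
      funext x; simp only [hF, h.self, sp_not, hv, hH]; ring
    simp only [e2, hH, A_neg]
    ring)
  have hb0 : 0 ≤ 8 * (β * c) := by positivity
  have h1 := Psi_near (n := n) (ρ := ρ) (hN s hs) hb0 hj' bF bH bO
  rw [Psi_eq h hl hj β hv hH] at h1
  have h2 := Xi_near (n := n) (ρ := ρ) (ε := ε) (α := al n l) (hN 1 (by simp)) hb0 j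
    (by rcases hj with ⟨-, rfl⟩ | ⟨-, rfl⟩ <;> simp)
    (by rw [abs_of_pos (al_pos n l)]; exact (al_anti n (Nat.zero_le l)).trans (al_le_one n)) bv bH
  simp only [one_mul] at e h2
  rw [← hP] at e h2
  rw [e]
  have h3 := abs_mul_le' (abs_of_nonneg hβ).le h2
  have h4 : 0 ≤ β ^ 2 * c ^ 5 := by positivity
  rw [mul_sub] at h3
  rw [abs_le] at h1 h3 ⊢
  constructor <;> nlinarith [h1.1, h1.2, h3.1, h3.2]

end sy

end Vale.Agent.P157.Ovl
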