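import Vale.Agent.P157.AnL

/-!
# P157: reductions for the Gaussian model
-/

namespace Vale.Agent.P157

open Vale.Agent.P168 Vale.Agent.P168.PW Finset MeasureTheory Filter Topology
open Vale.Agent.P157.AnL
open scoped BigOperators

theorem integral_toM {S : Type} [Fintype S] [MeasurableSpace S] [MeasurableSingletonClass S]
    (μ : PW S) (F : S → ℝ) : ∫ σ, F σ ∂(toM μ) = μ.E F := by
  rw [toM, Measure.sum_fintype, integral_finsetSum_measure fun a _ =>
    (integrable_dirac enorm_lt_top).smul_measure ENNReal.ofReal_ne_top]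
  simp [PW.E, ENNReal.toReal_ofReal (μ.nonneg _)]

instance isProb_toM {S : Type} [Fintype S] [MeasurableSpace S] [MeasurableSingletonClass S]
    (μ : PW S) : IsProbabilityMeasure (toM μ) := ⟨by
  simp [toM, ← ENNReal.ofReal_sum_of_nonneg fun a _ => μ.nonneg a, μ.sum_one]⟩

theorem fZ_eq_gZ {S I : Type} [Fintype S] [MeasurableSpace S] [MeasurableSingletonClass S]
    [Fintype I] (μ : PW S) (x : S → I → ℝ) (f : ℝ → ℝ) (𝒜 : Type) [Fintype 𝒜] :
    fZ μ x f 𝒜 = gZ (toM μ) x f 𝒜 := by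
  simp only [fZ, gZ, integral_toM]

section
variable {S S' I I' : Type} [MeasurableSpace S] [MeasurableSpace S'] [Fintype I] [Fintype I']
  {f : ℝ → ℝ} {c : ℝ} (hf : Measurable f) (hc : ∀ x, |f x| ≤ c)

/-- the Hoelder trick -/
theorem trickRed {Z : Type*} [MeasurableSpace Z] {μ : Measure Z} [IsProbabilityMeasure μ]
    {u w : Z → ℝ} {b t : ℝ} (hu : Measurable u) (hw : Measurable w) (h1 : ∀ z, |u z| ≤ b)
    (h2 : ∀ z, |w z| ≤ b) (h0 : 0 < t) (ht : t ≤ 1) :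
    Real.log (∫ z, Real.exp (u z) ∂μ) ≤ Real.log (∫ z, Real.exp (w z) ∂μ) + 2 * t * b +
      t * Real.log (∫ z, Real.exp ((u z - w z) / t) ∂μ) := by
  have hD : ∀ z, |(u z - w z) / t| ≤ 2 * b / t := fun z => by
    rw [abs_div, abs_of_pos h0]
    gcongr
    linarith [abs_sub (u z) (w z), h1 z, h2 z]
  have hB : ∀ z, |w z + (u z - w z) / t| ≤ b + 2 * b / t := fun z =>
    (abs_add_le _ _).trans (add_le_add (h2 z) (hD z))
  have mD : Measurable fun z => (u z - w z) / t := by fun_prop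
  have mB : Measurable fun z => w z + (u z - w z) / t := hw.add mD
  have := holder_log (μ := μ) hw mB (fun z => (h2 z).trans (le_add_of_nonneg_right
    ((abs_nonneg _).trans (hD z)))) hB h0.le ht
  have e : ∀ z, (1 - t) * w z + t * (w z + (u z - w z) / t) = u z := fun z => by
    field_simp; ring
  simp only [e] at this
  have h3 := log_int_mono (μ := μ) (c := b) (int_exp_bd mB hB) (int_exp_bd mD hD)
    fun z => by linarith [(abs_le.1 (h2 z)).2]
  have h4 := (abs_le.1 (abs_log_int_le (μ := μ) hw h2)).1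
  nlinarith

theorem swapRed {G R : Type*} [MeasurableSpace G] [MeasurableSpace R] (ν : Measure G)
    (μ : Measure R) [IsProbabilityMeasure ν] [IsProbabilityMeasure μ] {L : R → G → ℝ} {b : ℝ}
    (hL : Measurable fun p : R × G => L p.1 p.2) (hb : ∀ r g, |L r g| ≤ b) :
    Integrable (fun r => ∫ g, L r g ∂ν) μ ∧ Integrable (fun g => ∫ r, L r g ∂μ) ν ∧
      ∫ r, ∫ g, L r g ∂ν ∂μ = ∫ g, ∫ r, L r g ∂μ ∂ν := by
  have hi : Integrable (Function.uncurry L) (μ.prod ν) := int_bd hL fun p => hb p.1 p.2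
  exact ⟨hi.integral_prod_left, hi.integral_prod_right, integral_integral_swap hi⟩

theorem H_measRed (hf : Measurable f) {x : S → I → ℝ} (hx : Measurable x) {𝒜 : Type} [Fintype 𝒜]
    (g : 𝒜 → I → ℝ) : Measurable fun σ => ∑ a, f (∑ i, g a i * x σ i) := by fun_prop

theorem abs_H_leRed (hc : ∀ x, |f x| ≤ c) {𝒜 : Type} [Fintype 𝒜] (u : 𝒜 → ℝ) :
    |∑ a, f (u a)| ≤ c * Fintype.card 𝒜 :=
  (abs_sum_le_sum_abs _ _).trans ((sum_le_sum fun a _ => hc (u a)).trans (by simp [mul_comm]))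

/-- the log partition function at fixed disorder -/
noncomputable def LZ (μ : Measure S) (x : S → I → ℝ) (f : ℝ → ℝ) {𝒜 : Type} [Fintype 𝒜]
    (g : 𝒜 → I → ℝ) : ℝ := Real.log (∫ σ, Real.exp (∑ a, f (∑ i, g a i * x σ i)) ∂μ)

theorem gZ_eq (μ : Measure S) (x : S → I → ℝ) (f : ℝ → ℝ) (𝒜 : Type) [Fintype 𝒜] :
    gZ μ x f 𝒜 = ∫ g, LZ μ x f g ∂(gM 𝒜 I) := rfl

theorem LZ_meas (hf : Measurable f) (μ : Measure S) [IsProbabilityMeasure μ] {x : S → I → ℝ}
    (hx : Measurable x) (𝒜 : Type) [Fintype 𝒜] : Measurable (LZ μ x f (𝒜 := 𝒜)) :=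
  meas_log_int (H := fun (g : 𝒜 → I → ℝ) σ => ∑ a, f (∑ i, g a i * x σ i)) (by fun_prop)

include hf hc

theorem H_intRed (μ : Measure S) [IsProbabilityMeasure μ] {x : S → I → ℝ} (hx : Measurable x)
    {𝒜 : Type} [Fintype 𝒜] (g : 𝒜 → I → ℝ) :
    Integrable (fun σ => Real.exp (∑ a, f (∑ i, g a i * x σ i))) μ :=
  int_exp_bd (H_measRed hf hx g) fun _ => abs_H_leRed hc _

theorem abs_LZ_le (μ : Measure S) [IsProbabilityMeasure μ] {x : S → I → ℝ} (hx : Measurable x)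
    {𝒜 : Type} [Fintype 𝒜] (g : 𝒜 → I → ℝ) : |LZ μ x f g| ≤ c * Fintype.card 𝒜 :=
  abs_log_int_le (H_measRed hf hx g) fun _ => abs_H_leRed hc _

theorem LZ_int (μ : Measure S) [IsProbabilityMeasure μ] {x : S → I → ℝ} (hx : Measurable x)
    (𝒜 : Type) [Fintype 𝒜] : Integrable (LZ μ x f) (gM 𝒜 I) :=
  int_bd (LZ_meas hf μ hx 𝒜) (abs_LZ_le hf hc μ hx)

theorem gZ_map {μ : Measure S} {μ' : Measure S'} [IsProbabilityMeasure μ] {g : S' → S}
    (hg : MeasurePreserving g μ' μ) {x : S → I → ℝ} (hx : Measurable x) (𝒜 : Type) [Fintype 𝒜] :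
    gZ μ' (fun σ => x (g σ)) f 𝒜 = gZ μ x f 𝒜 := by
  have _ := hc
  refine integral_congr_ae (Eventually.of_forall fun w => ?_)
  simp only
  rw [← hg.map_eq, integral_map hg.aemeasurable (Measurable.aestronglyMeasurable (by fun_prop))]

theorem gZ_jensen (μ : Measure S) (μ' : Measure S') [IsProbabilityMeasure μ]
    [IsProbabilityMeasure μ'] {x : S × S' → I → ℝ} (hx : Measurable x) (𝒜 : Type) [Fintype 𝒜] :
    Integrable (fun r => gZ μ (fun σ => x (σ, r)) f 𝒜) μ' ∧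
      ∫ r, gZ μ (fun σ => x (σ, r)) f 𝒜 ∂μ' ≤ gZ (μ.prod μ') x f 𝒜 := by
  have hm : Measurable fun p : S' × (𝒜 → I → ℝ) => LZ μ (fun σ => x (σ, p.1)) f p.2 :=
    meas_log_int (H := fun (p : S' × (𝒜 → I → ℝ)) σ => ∑ a, f (∑ i, p.2 a i * x (σ, p.1) i))
      (by fun_prop)
  have hb : ∀ (r : S') (g : 𝒜 → I → ℝ), |LZ μ (fun σ => x (σ, r)) f g| ≤ c * Fintype.card 𝒜 :=
    fun r g => abs_LZ_le hf hc μ (x := fun σ => x (σ, r)) (hx.comp measurable_prodMk_right) g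
  obtain ⟨i1, i2, e⟩ := swapRed (gM 𝒜 I) μ' (L := fun r g => LZ μ (fun σ => x (σ, r)) f g) hm hb
  simp only [gZ_eq]
  refine ⟨i1, ?_⟩
  rw [e]
  refine integral_mono i2 (LZ_int hf hc _ hx 𝒜) fun g => ?_
  have m1 : Measurable fun r => LZ μ (fun σ => x (σ, r)) f g :=
    meas_log_int (H := fun r σ => ∑ a, f (∑ i, g a i * x (σ, r) i)) (by fun_prop)
  refine (int_le_log (int_bd m1 fun r => hb r g) (int_exp_bd m1 fun r => hb r g)).trans
    (le_of_eq ?_)
  have e2 := integral_prod_symm _ (H_intRed hf hc (μ.prod μ') hx g)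
  refine congrArg Real.log (Eq.trans ?_ e2.symm)
  refine integral_congr_ae (Eventually.of_forall fun r => ?_)
  exact Real.exp_log (int_exp_pos (H_intRed hf hc μ (x := fun σ => x (σ, r))
    (hx.comp measurable_prodMk_right) g))

theorem gZ_injRed (μ : Measure S) [IsProbabilityMeasure μ] {x : S → I → ℝ} (hx : Measurable x)
    (𝒜 𝒜' : Type) [Fintype 𝒜] [Fintype 𝒜'] (h : Fintype.card 𝒜 ≤ Fintype.card 𝒜') :
    |gZ μ x f 𝒜 - gZ μ x f 𝒜'| ≤ c * ((Fintype.card 𝒜' : ℝ) - Fintype.card 𝒜) := by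
  classical
  obtain ⟨e⟩ := Function.Embedding.nonempty_of_card_le h
  have mp : MeasurePreserving (fun (g : 𝒜' → I → ℝ) a => g (e a)) (gM 𝒜' I) (gM 𝒜 I) :=
    mp_comp (gI I) e.injective
  have h1 : gZ μ x f 𝒜 = ∫ g, LZ μ x f (fun a => g (e a)) ∂(gM 𝒜' I) := by
    change ∫ g, LZ μ x f g ∂(gM 𝒜 I) = _
    rw [← mp.map_eq, integral_map mp.aemeasurable (LZ_meas hf μ hx 𝒜).aestronglyMeasurable]
  have i1 : Integrable (fun g : 𝒜' → I → ℝ => LZ μ x f fun a => g (e a)) (gM 𝒜' I) :=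
    mp.integrable_comp_of_integrable (LZ_int hf hc μ hx 𝒜)
  rw [h1]
  change |_ - ∫ g, LZ μ x f g ∂(gM 𝒜' I)| ≤ _
  rw [← integral_sub i1 (LZ_int hf hc μ hx 𝒜')]
  have key : ∀ g : 𝒜' → I → ℝ, ‖LZ μ x f (fun a => g (e a)) - LZ μ x f g‖ ≤
      c * ((Fintype.card 𝒜' : ℝ) - Fintype.card 𝒜) := fun g => by
    have := log_int_lip (μ := μ) (u := fun σ => ∑ a, f (∑ i, g (e a) i * x σ i))
      (w := fun σ => ∑ a, f (∑ i, g a i * x σ i)) (c := c * ((Fintype.card 𝒜' : ℝ) - Fintype.card 𝒜))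
      one_pos (by simpa using H_intRed hf hc μ hx fun a => g (e a))
      (by simpa using H_intRed hf hc μ hx g) fun σ => by
        rw [← sum_map univ e fun a => f (∑ i, g a i * x σ i), abs_sub_comm,
          ← sum_sdiff_eq_sub (subset_univ _)]
        refine (abs_sum_le_sum_abs _ _).trans ((sum_le_sum fun a _ => hc _).trans (le_of_eq ?_))
        rw [sum_const, card_sdiff_of_subset (subset_univ _), card_map, card_univ, card_univ,
          nsmul_eq_mul, Nat.cast_sub h, mul_comm]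
    simpa [LZ] using this
  simpa using norm_integral_le_of_norm_le_const (μ := gM 𝒜' I) (Eventually.of_forall key)

theorem gZ_card (μ : Measure S) [IsProbabilityMeasure μ] {x : S → I → ℝ} (hx : Measurable x)
    (𝒜 𝒜' : Type) [Fintype 𝒜] [Fintype 𝒜'] :
    |gZ μ x f 𝒜 - gZ μ x f 𝒜'| ≤ c * |(Fintype.card 𝒜 : ℝ) - Fintype.card 𝒜'| := by
  rcases le_total (Fintype.card 𝒜) (Fintype.card 𝒜') with h | h
  · rw [abs_sub_comm (Fintype.card 𝒜 : ℝ), abs_of_nonneg (sub_nonneg.2 (Nat.cast_le.2 h))]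
    exact gZ_injRed hf hc μ hx _ _ h
  · rw [abs_sub_comm, abs_of_nonneg (sub_nonneg.2 (Nat.cast_le.2 h))]
    exact gZ_injRed hf hc μ hx _ _ h

theorem abs_gZ_le (μ : Measure S) [IsProbabilityMeasure μ] {x : S → I → ℝ} (hx : Measurable x)
    (𝒜 : Type) [Fintype 𝒜] : |gZ μ x f 𝒜| ≤ c * Fintype.card 𝒜 := by
  rw [gZ_eq]
  simpa using norm_integral_le_of_norm_le_const (μ := gM 𝒜 I)
    (f := LZ μ x f) (Eventually.of_forall (abs_LZ_le hf hc μ hx))

theorem gZ_index (μ : Measure S) [IsProbabilityMeasure μ] {x : S → I → ℝ} {x' : S → I' → ℝ}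
    (hx : Measurable x) {e : I → I'} (he : Function.Injective e) (h1 : ∀ σ i, x' σ (e i) = x σ i)
    (h2 : ∀ σ i', (∀ i, e i ≠ i') → x' σ i' = 0) (𝒜 : Type) [Fintype 𝒜] :
    gZ μ x' f 𝒜 = gZ μ x f 𝒜 := by
  have _ := hc
  have mp : MeasurePreserving (fun (g : 𝒜 → I' → ℝ) a i => g a (e i)) (gM 𝒜 I') (gM 𝒜 I) :=
    measurePreserving_pi _ _ fun _ => mp_comp gam he
  change _ = ∫ g, LZ μ x f g ∂(gM 𝒜 I)
  rw [← mp.map_eq, integral_map mp.aemeasurable (LZ_meas hf μ hx 𝒜).aestronglyMeasurable]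
  refine integral_congr_ae (Eventually.of_forall fun g => ?_)
  have : ∀ a σ, ∑ i, g a (e i) * x σ i = ∑ i', g a i' * x' σ i' := fun a σ =>
    Fintype.sum_of_injective e he _ _ (fun i' hi' => by
      rw [h2 σ i' fun i h => hi' ⟨i, h⟩, mul_zero]) fun i => by rw [h1]
  simp only [LZ, this]

theorem gZ_cmp {f' : ℝ → ℝ} (hf' : Measurable f') (hc' : ∀ x, |f' x| ≤ c) (μ : Measure S)
    [IsProbabilityMeasure μ] {x x' : S → I → ℝ} (hx : Measurable x) (hx' : Measurable x')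
    {t : ℝ} (h0 : 0 < t) (ht : t ≤ 1) (h : ∀ᵐ σ ∂μ, ∫ g, Real.exp
      ((f (∑ i, g i * x σ i) - f' (∑ i, g i * x' σ i)) / t) ∂(gI I) ≤ Real.exp 2)
    (𝒜 : Type) [Fintype 𝒜] :
    gZ μ x f 𝒜 ≤ gZ μ x' f' 𝒜 + t * (2 * c + 2) * Fintype.card 𝒜 := by
  obtain ⟨D, hDe⟩ : ∃ D : (𝒜 → I → ℝ) → S → ℝ, ∀ g σ, D g σ =
    (∑ a, f (∑ i, g a i * x σ i) - ∑ a, f' (∑ i, g a i * x' σ i)) / t := ⟨_, fun _ _ => rfl⟩
  have hD : Measurable fun p : (𝒜 → I → ℝ) × S => D p.1 p.2 := by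
    simp only [hDe]; fun_prop
  have bD : ∀ g σ, |D g σ| ≤ 2 * (c * Fintype.card 𝒜) / t := fun g σ => by
    rw [hDe, abs_div, abs_of_pos h0]
    gcongr
    refine (abs_sub _ _).trans ?_
    linarith [abs_H_leRed hc fun a => ∑ i, g a i * x σ i,
      abs_H_leRed hc' fun a => ∑ i, g a i * x' σ i]
  have m0 : ∀ g, Measurable (D g) := fun g => hD.comp measurable_prodMk_left
  have m1 := meas_log_int (μ := μ) (H := D) hD
  have b1 : ∀ g, |Real.log (∫ σ, Real.exp (D g σ) ∂μ)| ≤ 2 * (c * Fintype.card 𝒜) / t := fun g =>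
    abs_log_int_le (m0 g) (bD g)
  have i1 : Integrable (fun g => Real.log (∫ σ, Real.exp (D g σ) ∂μ)) (gM 𝒜 I) := int_bd m1 b1
  have i2 : Integrable (fun g => LZ μ x' f' g + 2 * t * (c * Fintype.card 𝒜)) (gM 𝒜 I) :=
    (LZ_int hf' hc' μ hx' 𝒜).add (integrable_const _)
  have h1 : ∫ g, LZ μ x f g ∂(gM 𝒜 I) ≤ ∫ g, (LZ μ x' f' g + 2 * t * (c * Fintype.card 𝒜) +
      t * Real.log (∫ σ, Real.exp (D g σ) ∂μ)) ∂(gM 𝒜 I) := by
    refine integral_mono (LZ_int hf hc μ hx 𝒜) (i2.add (i1.const_mul t)) fun g => ?_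
    simp only [hDe, LZ]
    exact trickRed (H_measRed hf hx g) (H_measRed hf' hx' g)
        (fun _ => abs_H_leRed hc _) (fun _ => abs_H_leRed hc' _) h0 ht
  rw [integral_add i2 (i1.const_mul t),
    integral_add (LZ_int hf' hc' μ hx' 𝒜) (integrable_const _), integral_const_mul t] at h1
  have h2 := int_le_log i1 (int_exp_bd m1 b1)
  obtain ⟨-, i3, e⟩ := swapRed μ (gM 𝒜 I) (L := fun g σ => Real.exp (D g σ))
    (b := Real.exp (2 * (c * Fintype.card 𝒜) / t)) hD.exp fun g σ => by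
      rw [abs_of_pos (Real.exp_pos _)]; exact Real.exp_le_exp.2 (abs_le.1 (bD g σ)).2
  have h3 : ∫ g, Real.exp (Real.log (∫ σ, Real.exp (D g σ) ∂μ)) ∂(gM 𝒜 I) ≤
      Real.exp (2 * Fintype.card 𝒜) := by
    have e1 : ∀ g, Real.exp (Real.log (∫ σ, Real.exp (D g σ) ∂μ)) = ∫ σ, Real.exp (D g σ) ∂μ :=
      fun g => Real.exp_log (int_exp_pos (int_exp_bd (m0 g) (bD g)))
    simp only [e1]
    rw [e]
    refine (integral_mono_ae i3 (integrable_const (Real.exp (2 * Fintype.card 𝒜))) ?_).trans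
      (by simp)
    filter_upwards [h] with σ hσ
    simp only [hDe, ← sum_sub_distrib, sum_div, Real.exp_sum]
    rw [gM, integral_fintype_prod_eq_prod fun (_ : 𝒜) (g : I → ℝ) =>
      Real.exp ((f (∑ i, g i * x σ i) - f' (∑ i, g i * x' σ i)) / t), prod_const, card_univ,
      mul_comm, Real.exp_nat_mul]
    exact pow_le_pow_left₀ (integral_nonneg fun _ => (Real.exp_pos _).le) hσ _
  rw [← Real.log_le_iff_le_exp (int_exp_pos (int_exp_bd m1 b1))] at h3
  have h4 := mul_le_mul_of_nonneg_left (h2.trans h3) h0.le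
  simp only [integral_const, probReal_univ, one_smul] at h1
  rw [gZ_eq, gZ_eq]
  linarith

end

theorem gZ_feat (c ε : ℝ) (hε : 0 < ε) : ∃ δ : ℝ, 0 < δ ∧
    ∀ (S I 𝒜 : Type) [MeasurableSpace S] [Fintype I] [Fintype 𝒜] (μ : Measure S)
      [IsProbabilityMeasure μ] (x x' : S → I → ℝ) (f : ℝ → ℝ), Measurable x → Measurable x' →
      (∀ y, |f y| ≤ c) → (∀ y y', |f y - f y'| ≤ c * |y - y'|) →
      (∀ᵐ σ ∂μ, ∑ i, (x σ i - x' σ i) ^ 2 ≤ δ) →
      |gZ μ x f 𝒜 - gZ μ x' f 𝒜| ≤ ε * Fintype.card 𝒜 := by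
  set t := min 1 (ε / (2 * |c| + 2)) with ht
  have h0 : 0 < t := by positivity
  refine ⟨(t / (|c| + 1)) ^ 2, by positivity, fun S I 𝒜 _ _ _ μ _ x x' f hx hx' hc hl h => ?_⟩
  have hc0 : 0 ≤ c := (abs_nonneg _).trans (hc 0)
  rw [abs_of_nonneg hc0] at h ht
  have hf : Measurable f := by
    refine Continuous.measurable (continuous_iff_continuousAt.2 fun y =>
      tendsto_iff_dist_tendsto_zero.2 ?_)
    have : Continuous fun x : ℝ => c * |x - y| := by fun_prop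
    refine squeeze_zero (fun _ => dist_nonneg) (fun x => hl x y) ?_
    simpa using this.tendsto y
  have mg : ∀ (y : I → ℝ) (s : ℝ), Integrable (fun g : I → ℝ => Real.exp (s * ∑ i, g i * y i))
      (gI I) ∧ ∫ g, Real.exp (s * ∑ i, g i * y i) ∂(gI I) = Real.exp (s ^ 2 * (∑ i, y i ^ 2) / 2) := by
    intro y s
    have e : ∀ g : I → ℝ, Real.exp (s * ∑ i, g i * y i) = ∏ i, Real.exp (s * y i * g i) := fun g => by
      rw [← Real.exp_sum, mul_sum]; congr 1; exact sum_congr rfl fun _ _ => by ring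
    simp only [e]
    refine ⟨Integrable.fintype_prod (f := fun i z => Real.exp (s * y i * z)) fun i => int_exp_gam _, ?_⟩
    rw [gI, integral_fintype_prod_eq_prod fun i (z : ℝ) => Real.exp (s * y i * z)]
    simp only [mgf_gam, ← Real.exp_sum, mul_pow, mul_sum, sum_div]
  have key : ∀ y y' : I → ℝ, ∑ i, (y i - y' i) ^ 2 ≤ (t / (c + 1)) ^ 2 →
      ∫ g, Real.exp ((f (∑ i, g i * y i) - f (∑ i, g i * y' i)) / t) ∂(gI I) ≤ Real.exp 2 := by
    intro y y' hy
    obtain ⟨i1, e1⟩ := mg (fun i => y i - y' i) (c / t)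
    obtain ⟨i2, e2⟩ := mg (fun i => y i - y' i) (-(c / t))
    refine (integral_mono_of_nonneg (Eventually.of_forall fun _ => (Real.exp_pos _).le) (i1.add i2)
      (Eventually.of_forall fun g => le_trans ?_ (exp_abs_le (c / t) _))).trans ?_
    · refine Real.exp_le_exp.2 ?_
      rw [div_mul_eq_mul_div]
      gcongr
      simpa only [mul_sub, sum_sub_distrib] using (le_abs_self _).trans (hl _ _)
    · rw [integral_add' i1 i2, e1, e2, neg_sq]
      have h1 : (c / t) ^ 2 * (∑ i, (y i - y' i) ^ 2) / 2 ≤ 1 := by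
        have h2 : (c / t) ^ 2 * (t / (c + 1)) ^ 2 ≤ 1 := by
          rw [← mul_pow, div_mul_div_cancel₀ h0.ne']
          exact pow_le_one₀ (by positivity) ((div_le_one (by positivity)).2 (by linarith))
        linarith [mul_le_mul_of_nonneg_left hy (sq_nonneg (c / t))]
      have h3 := Real.exp_le_exp.2 h1
      have h4 := Real.add_one_le_exp 1
      rw [show (2 : ℝ) = 1 + 1 by norm_num, Real.exp_add 1 1]
      rw [show (2 : ℝ) = 1 + 1 by norm_num] at h3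
      nlinarith
  have h1 := gZ_cmp hf hc hf hc μ hx hx' h0 (min_le_left _ _)
    (h.mono fun σ hσ => key _ _ hσ) 𝒜
  have h2 := gZ_cmp hf hc hf hc μ hx' hx h0 (min_le_left _ _)
    (h.mono fun σ hσ => key _ _ (by simpa only [sub_sq_comm] using hσ)) 𝒜
  have h3 : t * (2 * c + 2) ≤ ε := by
    rw [← le_div_iff₀ (by positivity), ht]; exact min_le_right _ _
  have h4 := mul_le_mul_of_nonneg_right h3 (Nat.cast_nonneg (α := ℝ) (Fintype.card 𝒜))
  rw [abs_le]; constructor <;> linarith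

end Vale.Agent.P157
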