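import Vale.Agent.P157.Red
import Vale.Agent.P157.AnL

/-!
# P157: nets on the sphere and block decomposition
-/

namespace Vale.Agent.P157

open Vale.Agent.P168 Vale.Agent.P168.PW Finset MeasureTheory Filter Topology
open scoped BigOperators

namespace SphB

theorem meas_dir {I : Type} [Fintype I] : Measurable (dir : (I → ℝ) → I → ℝ) := by
  unfold dir; fun_prop

theorem sum_dir_sq {I : Type} [Fintype I] {y : I → ℝ} (hy : ∑ k, y k ^ 2 ≠ 0) :
    ∑ i, dir y i ^ 2 = 1 := by
  have h0 : 0 ≤ ∑ k, y k ^ 2 := by positivity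
  simp only [dir, div_pow, Real.sq_sqrt h0]
  rw [← sum_div, div_self hy]

theorem sum_dir_le {I : Type} [Fintype I] (y : I → ℝ) : ∑ i, dir y i ^ 2 ≤ 1 := by
  by_cases hy : ∑ k, y k ^ 2 = 0
  · simp [dir, hy]
  · exact (sum_dir_sq hy).le

theorem ae_ne {I : Type} [Fintype I] [Nonempty I] : ∀ᵐ y ∂(gI I), ∑ k, y k ^ 2 ≠ 0 := by
  obtain ⟨i⟩ := ‹Nonempty I›
  have : NullSingletonClass gam := by
    unfold gam; exact ProbabilityTheory.nullSingletonClass_gaussianReal one_ne_zero
  have h : ∀ᵐ z ∂gam, z ≠ 0 := by simp [ae_iff]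
  have h2 := (measurePreserving_eval (fun _ : I => gam) i).quasiMeasurePreserving.ae h
  refine h2.mono fun y hy => ne_of_gt ?_
  exact lt_of_lt_of_le (by positivity)
    (single_le_sum (f := fun k => y k ^ 2) (fun _ _ => sq_nonneg _) (mem_univ i))

theorem exists_sel {X : Type} [MeasurableSpace X] {m : ℕ} (hm : 0 < m) (A : Fin m → Set X)
    (hA : ∀ a, MeasurableSet (A a)) :
    ∃ g : X → Fin m, Measurable g ∧ ∀ x a, x ∈ A a → x ∈ A (g x) := by
  classical
  let f : ℕ → Fin m := fun n => if h : n < m then ⟨n, h⟩ else ⟨0, hm⟩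
  have hp : ∀ x, ∃ n, x ∈ A (f n) ∪ (⋃ a, A a)ᶜ := fun x => by
    by_cases h : ∃ a, x ∈ A a
    · obtain ⟨a, ha⟩ := h
      exact ⟨a, Or.inl (by simpa [f] using ha)⟩
    · exact ⟨0, Or.inr (by simpa using h)⟩
  refine ⟨fun x => f (Nat.find (hp x)), (measurable_from_top (f := f)).comp (measurable_find hp fun n =>
    (hA _).union (MeasurableSet.iUnion hA).compl), fun x a ha => ?_⟩
  rcases Nat.find_spec (hp x) with h | h
  · exact h
  · exact absurd (Set.mem_iUnion.mpr ⟨a, ha⟩) h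

theorem exists_pts {d : ℕ} (hd : 0 < d) {δ : ℝ} (hδ : 0 < δ) :
    ∃ (m : ℕ) (e : Fin m → Fin d → ℝ), 0 < m ∧ (∀ a, ∑ i, e a i ^ 2 = 1) ∧
      ∀ u : Fin d → ℝ, ∑ i, u i ^ 2 = 1 → ∃ a, ∑ i, (e a i - u i) ^ 2 ≤ δ ^ 2 := by
  have hd' : (0 : ℝ) < d := by exact_mod_cast hd
  have hc : IsCompact {u : Fin d → ℝ | ∑ i, u i ^ 2 = 1} := by
    refine (isCompact_closedBall (0 : Fin d → ℝ) 1).of_isClosed_subset
      (isClosed_eq (by fun_prop) continuous_const) fun u hu => ?_
    rw [mem_closedBall_zero_iff, pi_norm_le_iff_of_nonneg zero_le_one]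
    intro i
    have := single_le_sum (f := fun k => u k ^ 2) (fun _ _ => sq_nonneg _) (mem_univ i)
    rw [show ∑ k, u k ^ 2 = 1 from hu] at this
    exact (sq_le_one_iff_abs_le_one _).mp this
  obtain ⟨t, ht, hf, hs⟩ := Metric.finite_approx_of_totallyBounded hc.totallyBounded
    (δ / Real.sqrt d) (by positivity)
  have := hf.fintype
  have key : ∀ u : Fin d → ℝ, ∑ i, u i ^ 2 = 1 → ∃ a : t, ∑ i, (a.1 i - u i) ^ 2 ≤ δ ^ 2 :=
    fun u hu => by
      obtain ⟨x, hx, hux⟩ := Set.mem_iUnion₂.mp (hs hu)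
      refine ⟨⟨x, hx⟩, (sum_le_sum (g := fun _ => δ ^ 2 / d) fun i _ => ?_).trans ?_⟩
      · have h1 := (dist_le_pi_dist u x i).trans (Metric.mem_ball.mp hux).le
        rw [Real.dist_eq, abs_sub_comm] at h1
        rw [← Real.sq_sqrt hd'.le, ← div_pow, ← sq_abs]
        exact pow_le_pow_left₀ (abs_nonneg _) h1 2
      · simp [mul_div_cancel₀ _ hd'.ne']
  have hne : Nonempty t := by
    obtain ⟨a, -⟩ := key (Pi.single ⟨0, hd⟩ 1) (by simp [Pi.single_apply])
    exact ⟨a⟩
  refine ⟨Fintype.card t, fun a => ((Fintype.equivFin t).symm a).1, Fintype.card_pos,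
    fun a => ht ((Fintype.equivFin t).symm a).2, fun u hu => ?_⟩
  obtain ⟨a, ha⟩ := key u hu
  exact ⟨Fintype.equivFin t a, by simpa using ha⟩

theorem log_int_ae {Z : Type} [MeasurableSpace Z] {μ : Measure Z} [IsProbabilityMeasure μ]
    {u w : Z → ℝ} {c : ℝ} (h1 : Integrable (fun z => Real.exp (u z)) μ)
    (h2 : Integrable (fun z => Real.exp (w z)) μ) (h : ∀ᵐ z ∂μ, u z ≤ w z + c) :
    Real.log (∫ z, Real.exp (u z) ∂μ) ≤ Real.log (∫ z, Real.exp (w z) ∂μ) + c := by
  rw [Real.log_le_iff_le_exp (AnL.int_exp_pos h1), Real.exp_add, Real.exp_log (AnL.int_exp_pos h2),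
    ← integral_mul_const]
  exact integral_mono_ae h1 (h2.mul_const _) (h.mono fun z hz => by
    simp only [← Real.exp_add]; exact Real.exp_le_exp.2 hz)

theorem abs_dot_le {I : Type} [Fintype I] (h x : I → ℝ) {s δ : ℝ} (hδ : 0 < δ)
    (hx : ∑ i, x i ^ 2 ≤ δ ^ 2) : |∑ i, h i * (s * x i)| ≤ δ * (∑ i, h i ^ 2 + s ^ 2) := by
  have h1 : ∀ i, |h i * (s * x i)| ≤ δ * h i ^ 2 + s ^ 2 * x i ^ 2 / δ := fun i => by
    have e : δ * h i ^ 2 + s ^ 2 * x i ^ 2 / δ = ((δ * h i) ^ 2 + (s * x i) ^ 2) / δ := by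
      field_simp
    rw [e, le_div_iff₀ hδ, ← abs_of_pos hδ, ← abs_mul, abs_of_pos hδ, abs_le]
    constructor <;> nlinarith [sq_nonneg (δ * h i + s * x i), sq_nonneg (δ * h i - s * x i)]
  refine (abs_sum_le_sum_abs _ _).trans ((sum_le_sum fun i _ => h1 i).trans ?_)
  rw [sum_add_distrib, ← mul_sum, ← sum_div, ← mul_sum, mul_add, add_le_add_iff_left,
    div_le_iff₀ hδ]
  nlinarith [sq_nonneg s]

theorem net_B {d : ℕ} (hd : 0 < d) {δ : ℝ} (hδ : 0 < δ) :
    ∃ (m : ℕ) (ν : PW (Fin m)) (θ : Fin m → Fin d → ℝ) (g : (Fin d → ℝ) → Fin m),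
      MeasurePreserving g (gI (Fin d)) (toM ν) ∧ (∀ a, ∑ i, θ a i ^ 2 = d) ∧
      (∀ᵐ y ∂(gI (Fin d)), ∑ i, (θ (g y) i / Real.sqrt d - dir y i) ^ 2 ≤ δ ^ 2) ∧
      ∀ h, |Real.log (ν.E fun a => Real.exp (∑ i, h i * θ a i)) - lz d h| ≤
        δ * (∑ i, h i ^ 2 + d) := by
  classical
  have hd' : (0 : ℝ) < d := by exact_mod_cast hd
  have : Nonempty (Fin d) := ⟨⟨0, hd⟩⟩
  obtain ⟨m, e, hm, he, hu⟩ := exists_pts hd hδ
  have hdi : ∀ i, Measurable fun y : Fin d → ℝ => dir y i := fun i =>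
    (measurable_pi_apply i).comp meas_dir
  obtain ⟨g, hg, hsel⟩ := exists_sel hm (fun a => {y | ∑ i, (e a i - dir y i) ^ 2 ≤ δ ^ 2})
    fun a => measurableSet_le (by fun_prop) measurable_const
  let ν : PW (Fin m) := ⟨fun a => (gI (Fin d)).real (g ⁻¹' {a}), fun _ => measureReal_nonneg, by
    rw [sum_measureReal_preimage_singleton _ fun a _ => hg (measurableSet_singleton a)]
    simp⟩
  have hmp : MeasurePreserving g (gI (Fin d)) (toM ν) := by
    refine ⟨hg, Measure.ext_of_singleton fun a => ?_⟩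
    rw [Measure.map_apply hg (measurableSet_singleton a)]
    simp [toM, Set.indicator_apply, ν]
  have hae : ∀ᵐ y ∂(gI (Fin d)), ∑ i, (e (g y) i - dir y i) ^ 2 ≤ δ ^ 2 :=
    ae_ne.mono fun y hy => by
      obtain ⟨a, ha⟩ := hu _ (sum_dir_sq hy)
      exact hsel y a ha
  have hs : 0 < Real.sqrt d := Real.sqrt_pos.mpr hd'
  refine ⟨m, ν, fun a i => Real.sqrt d * e a i, g, hmp, fun a => ?_, ?_, fun h => ?_⟩
  · simp only [mul_pow, Real.sq_sqrt hd'.le, ← mul_sum, he, mul_one]
  · simpa only [mul_div_cancel_left₀ _ hs.ne'] using hae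
  · rw [← integral_toM, ← hmp.map_eq, integral_map hg.aemeasurable
      (measurable_of_finite _).aestronglyMeasurable, lz]
    have i1 : Integrable (fun y => Real.exp (∑ i, h i * (Real.sqrt d * e (g y) i)))
        (gI (Fin d)) := AnL.int_exp_bd
      ((measurable_of_finite fun a => ∑ i, h i * (Real.sqrt d * e a i)).comp hg)
      fun y => abs_dot_le h _ one_pos (by simp [he])
    have i2 : Integrable (fun y => Real.exp (∑ i, h i * (Real.sqrt d * dir y i)))
        (gI (Fin d)) := AnL.int_exp_bd (by fun_prop)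
      fun y => abs_dot_le h _ one_pos (by simpa using sum_dir_le y)
    have hb := hae.mono fun y hy => by
      have := abs_dot_le h _ (s := Real.sqrt d) hδ hy
      simp only [mul_sub, sum_sub_distrib, Real.sq_sqrt hd'.le] at this
      exact abs_le.mp this
    have a1 := log_int_ae i1 i2 (c := δ * (∑ i, h i ^ 2 + d)) (hb.mono fun y hy => by linarith [hy.2])
    have a2 := log_int_ae i2 i1 (c := δ * (∑ i, h i ^ 2 + d)) (hb.mono fun y hy => by linarith [hy.1])
    rw [abs_le]; constructor <;> linarith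

/-- Euclidean length. -/
noncomputable def nr {I : Type} [Fintype I] (y : I → ℝ) : ℝ := Real.sqrt (∑ k, y k ^ 2)

theorem meas_nr {I : Type} [Fintype I] : Measurable (nr : (I → ℝ) → ℝ) := by
  unfold nr; fun_prop

theorem nr_dir {I : Type} [Fintype I] (y : I → ℝ) (i : I) : nr y * dir y i = y i := by
  by_cases hy : ∑ k, y k ^ 2 = 0
  · have := (sum_eq_zero_iff_of_nonneg fun k _ => sq_nonneg (y k)).mp hy i (mem_univ i)
    simp [nr, hy, pow_eq_zero_iff two_ne_zero |>.mp this]
  · have : 0 < ∑ k, y k ^ 2 := lt_of_le_of_ne (by positivity) (Ne.symm hy)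
    exact mul_div_cancel₀ _ (Real.sqrt_pos.mpr this).ne'

/-- Radial density. -/
noncomputable def rho (n : ℕ) (r : ℝ) : ENNReal :=
  ENNReal.ofReal ((Real.sqrt (2 * Real.pi))⁻¹ ^ n * Real.exp (-r ^ 2 / 2))

theorem meas_rho (n : ℕ) : Measurable (rho n) := by unfold rho; fun_prop

theorem gI_dens (I : Type) [Fintype I] :
    gI I = volume.withDensity fun y => rho (Fintype.card I) (nr y) := by
  have e : ∀ y : I → ℝ, rho (Fintype.card I) (nr y) =
      ENNReal.ofReal (∏ i, ProbabilityTheory.gaussianPDFReal 0 1 (y i)) := fun y => by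
    have h0 : 0 ≤ ∑ k, y k ^ 2 := by positivity
    simp only [rho, nr, Real.sq_sqrt h0, ProbabilityTheory.gaussianPDFReal, prod_mul_distrib,
      prod_const, card_univ, ← Real.exp_sum, ← sum_div, sum_neg_distrib, NNReal.coe_one, mul_one,
      sub_zero]
  simp only [e]
  refine Measure.pi_eq fun s hs => ?_
  have hi : ∀ i, Integrable (ProbabilityTheory.gaussianPDFReal 0 1) (volume.restrict (s i)) :=
    fun i => (ProbabilityTheory.integrable_gaussianPDFReal 0 1).integrableOn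
  rw [withDensity_apply _ (MeasurableSet.univ_pi hs), volume_pi, Measure.restrict_pi_pi,
    ← ofReal_integral_eq_lintegral_ofReal (Integrable.fintype_prod hi)
      (ae_of_all _ fun y => prod_nonneg fun i _ => ProbabilityTheory.gaussianPDFReal_nonneg _ _ _),
    integral_fintype_prod_eq_prod, ENNReal.ofReal_prod_of_nonneg fun i _ =>
      integral_nonneg fun _ => ProbabilityTheory.gaussianPDFReal_nonneg _ _ _]
  exact prod_congr rfl fun i _ =>
    (ProbabilityTheory.gaussianReal_apply_eq_integral 0 one_ne_zero _).symm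

theorem polar (I : Type) [Fintype I] [Nonempty I] : ∃ (σ : Measure (I → ℝ)) (τ : Measure ℝ),
    SFinite σ ∧ SFinite τ ∧ (gI I).map (fun y => (dir y, nr y)) = σ.prod τ := by
  let a : Metric.sphere (0 : EuclideanSpace ℝ I) 1 → I → ℝ := fun u => WithLp.ofLp u.1
  let ρ : Set.Ioi (0 : ℝ) → ENNReal := fun r => rho (Fintype.card I) r
  have ha : Measurable a := (PiLp.volume_preserving_ofLp I).measurable.comp measurable_subtype_coe
  have hρ : Measurable ρ := (meas_rho _).comp measurable_subtype_coe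
  have hm : Measurable fun y : I → ℝ => (dir y, nr y) := meas_dir.prodMk meas_nr
  have hn : ∀ x : EuclideanSpace ℝ I, nr (WithLp.ofLp x) = ‖x‖ := fun x => by
    simp [nr, EuclideanSpace.norm_eq]
  refine ⟨((volume : Measure (EuclideanSpace ℝ I)).toSphere).map a,
    ((Measure.volumeIoiPow (Module.finrank ℝ (EuclideanSpace ℝ I) - 1)).withDensity ρ).map
      Subtype.val, inferInstance, inferInstance, ?_⟩
  rw [Measure.map_prod_map _ _ ha measurable_subtype_coe, prod_withDensity_right hρ]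
  refine Measure.ext_of_lintegral _ fun F hF => ?_
  have hb := ha.prodMap (measurable_subtype_coe (p := fun r => r ∈ Set.Ioi (0 : ℝ)))
  have m1 : Measurable fun y : I → ℝ => rho (Fintype.card I) (nr y) := (meas_rho _).comp meas_nr
  have m2 : Measurable fun y : I → ℝ => F (dir y, nr y) := hF.comp hm
  have m3 : Measurable fun z : Metric.sphere (0 : EuclideanSpace ℝ I) 1 × Set.Ioi (0 : ℝ) =>
    ρ z.2 := hρ.comp measurable_snd
  have m4 : Measurable fun z => F (Prod.map a Subtype.val z) := hF.comp hb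
  rw [lintegral_map hF hm, lintegral_map hF hb, gI_dens,
    lintegral_withDensity_eq_lintegral_mul _ m1 m2, lintegral_withDensity_eq_lintegral_mul _ m3 m4,
    ← (PiLp.volume_preserving_ofLp I).lintegral_comp (m1.mul m2),
    ← (Measure.measurePreserving_homeomorphUnitSphereProd volume).lintegral_comp (m3.mul m4),
    ← restrict_compl_singleton (μ := volume) (0 : EuclideanSpace ℝ I),
    ← lintegral_subtype_comap (measurableSet_singleton _).compl, restrict_compl_singleton]
  refine lintegral_congr fun x => ?_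
  have e : dir (WithLp.ofLp x.1) = a (homeomorphUnitSphereProd _ x).1 := by
    funext i
    simp [a, dir, ← hn, nr, div_eq_inv_mul]
  simp [ρ, hn, e, Prod.map]

theorem polar' (I : Type) [Fintype I] [Nonempty I] :
    (gI I).map (fun y => (dir y, nr y)) = ((gI I).map dir).prod ((gI I).map nr) := by
  obtain ⟨σ, τ, h1, h2, h⟩ := polar I
  have hm : Measurable fun y : I → ℝ => (dir y, nr y) := meas_dir.prodMk meas_nr
  have e1 : (gI I).map dir = τ Set.univ • σ := by
    rw [← Measure.map_fst_prod, ← h, Measure.map_map measurable_fst hm]; rfl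
  have e2 : (gI I).map nr = σ Set.univ • τ := by
    rw [← Measure.map_snd_prod, ← h, Measure.map_map measurable_snd hm]; rfl
  have e3 : σ Set.univ * τ Set.univ = 1 := by
    rw [← Measure.prod_prod, ← h, Measure.map_apply hm (by simp)]; simp
  have : SFinite (σ Set.univ • τ) := e2 ▸ inferInstance
  rw [h, e1, e2, Measure.prod_smul_left, Measure.prod_smul_right, smul_smul, mul_comm, e3, one_smul]

theorem mp_polar (I : Type) [Fintype I] [Nonempty I] : MeasurePreserving
    (fun (p : (I → ℝ) × (I → ℝ)) i => nr p.2 * dir p.1 i) ((gI I).prod (gI I)) (gI I) := by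
  have hm : Measurable fun y : I → ℝ => (dir y, nr y) := meas_dir.prodMk meas_nr
  have hg : Measurable fun (p : (I → ℝ) × ℝ) i => p.2 * p.1 i := by fun_prop
  have h1 : MeasurePreserving (Prod.map dir nr) ((gI I).prod (gI I))
      ((gI I).map fun y => (dir y, nr y)) :=
    ⟨meas_dir.prodMap meas_nr, by rw [polar', Measure.map_prod_map _ _ meas_dir meas_nr]⟩
  have h2 : MeasurePreserving (fun (p : (I → ℝ) × ℝ) i => p.2 * p.1 i)
      ((gI I).map fun y => (dir y, nr y)) (gI I) := ⟨hg, by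
    rw [Measure.map_map hg hm]
    convert Measure.map_id
    funext y i
    exact nr_dir y i⟩
  exact h2.comp h1

theorem mp_uncurry (A B : Type) [Fintype A] [Fintype B] : MeasurePreserving
    (fun (y : A → B → ℝ) (p : A × B) => y p.1 p.2) (Measure.pi fun _ => gI B) (gI (A × B)) := by
  have hm : Measurable fun (y : A → B → ℝ) (p : A × B) => y p.1 p.2 := by fun_prop
  refine ⟨hm, (Measure.pi_eq fun s hs => ?_).symm⟩
  rw [Measure.map_apply hm (MeasurableSet.univ_pi hs), show (fun (y : A → B → ℝ) (p : A × B) =>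
    y p.1 p.2) ⁻¹' Set.univ.pi s = Set.univ.pi fun a => Set.univ.pi fun b => s (a, b) by
      ext y; simp, Measure.pi_pi, Fintype.prod_prod_type]
  simp only [gI, Measure.pi_pi]

theorem mp_elim (A B : Type) [Fintype A] [Fintype B] : MeasurePreserving
    (fun (p : (A → ℝ) × (B → ℝ)) => Sum.elim p.1 p.2) ((gI A).prod (gI B)) (gI (A ⊕ B)) :=
  measurePreserving_sumPiEquivProdPi_symm fun _ : A ⊕ B => gam

/-- Gluing directions, lengths and the remainder. -/
noncomputable def glue {Q D R : Type} [Fintype D] (y : Q → D → ℝ) (r : (Q → D → ℝ) × (R → ℝ)) :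
    (Q × D) ⊕ R → ℝ := Sum.elim (fun p => nr (r.1 p.1) * dir (y p.1) p.2) r.2

theorem mp_glue (Q D R : Type) [Fintype Q] [Fintype D] [Fintype R] [Nonempty D] :
    MeasurePreserving (fun p : (Q → D → ℝ) × (Q → D → ℝ) × (R → ℝ) => glue p.1 p.2)
      ((Measure.pi fun _ => gI D).prod ((Measure.pi fun _ => gI D).prod (gI R)))
      (gI ((Q × D) ⊕ R)) := by
  have h1 := (mp_uncurry Q D).comp ((measurePreserving_pi _ _ fun _ : Q => mp_polar D).comp
    (measurePreserving_arrowProdEquivProdArrow (D → ℝ) (D → ℝ) Q (fun _ => gI D)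
      fun _ => gI D).symm)
  exact (mp_elim _ _).comp ((h1.prod (MeasurePreserving.id (gI R))).comp
    (measurePreserving_prodAssoc _ _ _).symm)

theorem sq_memLp : MemLp (fun z : ℝ => z ^ 2) 2 gam := by
  have h : MemLp id 4 gam := ProbabilityTheory.memLp_id_gaussianReal' 4 (by simp)
  have : ENNReal.HolderTriple 4 4 2 := ⟨by
    rw [← two_mul, show (4 : ENNReal) = 2 * 2 by norm_num, ENNReal.mul_inv (by simp) (by simp),
      ← mul_assoc, ENNReal.mul_inv_cancel (by simp) (by simp), one_mul]⟩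
  simpa [sq] using h.mul' (r := 2) h

theorem int_sq : ∫ z, z ^ 2 ∂gam = 1 := by
  have := ProbabilityTheory.variance_fun_id_gaussianReal (μ := 0) (v := 1)
  rw [ProbabilityTheory.variance_eq_integral measurable_id'.aemeasurable] at this
  simpa [gam] using this

theorem sumsq (D : Type) [Fintype D] : MemLp (fun y : D → ℝ => ∑ k, y k ^ 2) 2 (gI D) ∧
    ∫ y, ∑ k, y k ^ 2 ∂(gI D) = Fintype.card D ∧
    ∫ y, (∑ k, y k ^ 2 - Fintype.card D) ^ 2 ∂(gI D) =
      Fintype.card D * ProbabilityTheory.variance (fun z : ℝ => z ^ 2) gam := by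
  have h1 : ∀ k, MemLp (fun y : D → ℝ => y k ^ 2) 2 (gI D) := fun k =>
    sq_memLp.comp_measurePreserving (measurePreserving_eval (fun _ : D => gam) k)
  have h2 : ∫ y, ∑ k, y k ^ 2 ∂(gI D) = Fintype.card D := by
    rw [integral_finsetSum _ fun k _ => (h1 k).integrable one_le_two]
    simp only [gI, integral_comp_eval (μ := fun _ : D => gam) sq_memLp.1, int_sq]
    simp
  refine ⟨memLp_finsetSum _ fun k _ => h1 k, h2, ?_⟩
  have := ProbabilityTheory.variance_sum_pi (μ := fun _ : D => gam) fun _ => sq_memLp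
  rw [ProbabilityTheory.variance_eq_integral (Measurable.aemeasurable (by fun_prop))] at this
  simp only [Finset.sum_apply, sum_const, card_univ, nsmul_eq_mul] at this
  rw [← this, ← h2]; rfl

theorem unit_le {J : Type} [Fintype J] {a v : J → ℝ} {ρ : ℝ} (hρ : 0 ≤ ρ) (ha : ∑ j, a j ^ 2 = 1)
    (hv : ∑ j, v j ^ 2 = 1) : ∑ j, (a j - v j) ^ 2 ≤ 4 * ∑ j, (ρ * a j - v j) ^ 2 := by
  have e : ∀ s : ℝ, ∑ j, (s * a j - v j) ^ 2 = s ^ 2 - 2 * s * ∑ j, a j * v j + 1 := fun s => by
    simp only [sub_sq, mul_pow, sum_add_distrib, sum_sub_distrib, ← mul_sum, ha, hv, mul_assoc,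
      mul_one]
  have h1 := e 1
  have h2 := e (-1)
  have p1 : 0 ≤ ∑ j, (1 * a j - v j) ^ 2 := by positivity
  have p2 : 0 ≤ ∑ j, (-1 * a j - v j) ^ 2 := by positivity
  simp only [one_mul] at h1 p1
  rw [h1] at p1
  rw [h2] at p2
  rw [h1, e]
  rcases le_total (∑ j, a j * v j) 0 with h | h
  · nlinarith [sq_nonneg ρ, mul_nonneg hρ (neg_nonneg.2 h)]
  · nlinarith [sq_nonneg (ρ - ∑ j, a j * v j), mul_nonneg p1 h]

theorem dir_le {J : Type} [Fintype J] (w : J → ℝ) {v : J → ℝ} {l : ℝ} (hl : 0 < l)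
    (hv : ∑ j, v j ^ 2 = 1) : ∑ j, (dir w j - v j) ^ 2 ≤ 4 * ∑ j, (w j / l - v j) ^ 2 := by
  have e : ∀ j, w j / l = nr w / l * dir w j := fun j => by rw [div_mul_eq_mul_div, nr_dir]
  simp only [e]
  by_cases h : ∑ k, w k ^ 2 = 0
  · simp [dir, h, hv]
  · exact unit_le (div_nonneg (Real.sqrt_nonneg _) hl.le) (sum_dir_sq h) hv

theorem gZ_equiv {J K : Type} [Fintype J] [Fintype K] (e : J ≃ K) {f : ℝ → ℝ} {c : ℝ}
    (hf : Measurable f) (hc : ∀ x, |f x| ≤ c) (𝒜 : Type) [Fintype 𝒜] :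
    gZ (gI K) dir f 𝒜 = gZ (gI J) dir f 𝒜 := by
  have h := AnL.mp_comp gam e.injective
  rw [← gZ_map hf hc (μ := gI J) (μ' := gI K) h meas_dir]
  refine gZ_index hf hc _ (meas_dir.comp h.measurable) e.injective (fun σ i => ?_)
    (fun σ k hk => absurd (e.apply_symm_apply k) (hk _)) 𝒜
  simp only [dir, Function.comp_apply, e.sum_comp fun k => σ k ^ 2]

/-- The error of the block approximation. -/
noncomputable def err {Q D R : Type} [Fintype Q] [Fintype D] [Fintype R]
    (r : (Q → D → ℝ) × (R → ℝ)) : ℝ :=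
  (∑ b, (∑ k, r.1 b k ^ 2 - Fintype.card D) ^ 2 / Fintype.card D + ∑ k, r.2 k ^ 2) /
    (Fintype.card Q * Fintype.card D)

theorem glue_le {Q D R : Type} [Fintype Q] [Fintype D] [Fintype R] [Nonempty Q] [Nonempty D]
    {y : Q → D → ℝ} (hy : ∀ b, ∑ k, y b k ^ 2 ≠ 0) (r : (Q → D → ℝ) × (R → ℝ)) :
    ∑ j, (dir (glue y r) j - Sum.elim (fun i : Q × D => dir (y i.1) i.2 /
      Real.sqrt (Fintype.card Q)) (fun _ => 0) j) ^ 2 ≤ 4 * err r := by
  have hq : (0 : ℝ) < Fintype.card Q := by exact_mod_cast Fintype.card_pos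
  have hd : (0 : ℝ) < Fintype.card D := by exact_mod_cast Fintype.card_pos
  have sq := Real.sqrt_pos.mpr hq
  have sd := Real.sqrt_pos.mpr hd
  refine (dir_le _ (mul_pos sq sd) ?_).trans ?_
  · simp [Fintype.sum_prod_type, div_pow, ← sum_div, sum_dir_sq (hy _), hq.le, hq.ne']
  refine mul_le_mul_of_nonneg_left ?_ (by norm_num)
  simp only [Fintype.sum_sum_type, Fintype.sum_prod_type, glue, Sum.elim_inl, Sum.elim_inr, err,
    sub_zero, div_pow, mul_pow, Real.sq_sqrt hq.le, Real.sq_sqrt hd.le, add_div, sum_div]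
  refine add_le_add (sum_le_sum fun b _ => ?_) le_rfl
  have e : ∀ k, (nr (r.1 b) * dir (y b) k / (Real.sqrt (Fintype.card Q) *
      Real.sqrt (Fintype.card D)) - dir (y b) k / Real.sqrt (Fintype.card Q)) ^ 2 =
      dir (y b) k ^ 2 * ((nr (r.1 b) - Real.sqrt (Fintype.card D)) ^ 2 /
        (Fintype.card Q * Fintype.card D)) := fun k => by
    rw [← Real.sq_sqrt hq.le, ← Real.sq_sqrt hd.le, Real.sqrt_sq sq.le, Real.sqrt_sq sd.le]
    field_simp
  simp only [e, ← sum_mul, sum_dir_sq (hy b), one_mul]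
  refine div_le_div_of_nonneg_right ?_ (by positivity)
  have h0 : 0 ≤ nr (r.1 b) := Real.sqrt_nonneg _
  have h1 : ∑ k, r.1 b k ^ 2 = nr (r.1 b) ^ 2 := (Real.sq_sqrt (by positivity)).symm
  rw [h1, le_div_iff₀ hd, ← Real.sq_sqrt hd.le, Real.sqrt_sq sd.le, sq_sub_sq, mul_pow, mul_comm]
  gcongr
  linarith

theorem mp_int {A B : Type}
    [MeasurableSpace A] [MeasurableSpace B] {μ : Measure A} {ν : Measure B} {g : A → B}
    (h : MeasurePreserving g μ ν) {F : B → ℝ} (hF : AEStronglyMeasurable F ν) :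
    ∫ a, F (g a) ∂μ = ∫ b, F b ∂ν := by
  rw [← h.map_eq] at hF ⊢
  exact (integral_map h.measurable.aemeasurable hF).symm

theorem err_int (Q D R : Type) [Fintype Q] [Fintype D] [Fintype R] [Nonempty Q] [Nonempty D] :
    Integrable err ((Measure.pi fun _ : Q => gI D).prod (gI R)) ∧
      ∫ r, err r ∂((Measure.pi fun _ : Q => gI D).prod (gI R)) =
        ProbabilityTheory.variance (fun z : ℝ => z ^ 2) gam / Fintype.card D +
          Fintype.card R / (Fintype.card Q * Fintype.card D) := by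
  have hq : (0 : ℝ) < Fintype.card Q := by exact_mod_cast Fintype.card_pos
  have hd : (0 : ℝ) < Fintype.card D := by exact_mod_cast Fintype.card_pos
  obtain ⟨a1, -, a3⟩ := sumsq D
  obtain ⟨b1, b2, -⟩ := sumsq R
  have m1 := fun b : Q => (measurePreserving_eval (fun _ : Q => gI D) b).comp
    (measurePreserving_fst (μ := Measure.pi fun _ : Q => gI D) (ν := gI R))
  have m2 := measurePreserving_snd (μ := Measure.pi fun _ : Q => gI D) (ν := gI R)
  have c1 := ((a1.sub (memLp_const (Fintype.card D : ℝ))).integrable_sq).div_const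
    (Fintype.card D : ℝ)
  have i1 := fun b => (m1 b).integrable_comp_of_integrable c1
  have i2 := m2.integrable_comp_of_integrable (b1.integrable one_le_two)
  have i3 := integrable_finsetSum univ fun b _ => i1 b
  refine ⟨(i3.add i2).div_const _, ?_⟩
  have e1 := fun b => mp_int (m1 b) c1.1
  have e2 := mp_int m2 b1.1
  simp only [Function.comp_def, Pi.sub_apply, Function.eval] at e1 e2 i1 i2 i3
  simp only [err]
  rw [integral_div, integral_add i3 i2, integral_finsetSum _ fun b _ => i1 b, e2, b2]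
  simp only [e1, integral_div, a3, sum_const, card_univ, nsmul_eq_mul]
  field_simp

/-- Block features, extended by zero. -/
noncomputable def ext0 {Q D : Type} (R : Type) [Fintype Q] [Fintype D] (y : Q → D → ℝ) :
    (Q × D) ⊕ R → ℝ :=
  Sum.elim (fun i : Q × D => dir (y i.1) i.2 / Real.sqrt (Fintype.card Q)) fun _ => 0

theorem blocks_gen {c ε δ : ℝ} (hδ : 0 < δ) (hε : 0 < ε) {f : ℝ → ℝ} (hf : Measurable f)
    (hc : ∀ x, |f x| ≤ c) (Q D R 𝒜 : Type) [Fintype Q] [Fintype D] [Fintype R] [Nonempty Q]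
    [Nonempty D] [Fintype 𝒜]
    (H : ∀ x x' : (Q → D → ℝ) → (Q × D) ⊕ R → ℝ, Measurable x → Measurable x' →
      (∀ᵐ σ ∂(Measure.pi fun _ : Q => gI D), ∑ i, (x σ i - x' σ i) ^ 2 ≤ δ) →
      |gZ (Measure.pi fun _ : Q => gI D) x f 𝒜 - gZ (Measure.pi fun _ : Q => gI D) x' f 𝒜| ≤
        ε * Fintype.card 𝒜) :
    gZ (Measure.pi fun _ : Q => gI D)
        (fun y (i : Q × D) => dir (y i.1) i.2 / Real.sqrt (Fintype.card Q)) f 𝒜 -
      (ε + 8 * c / δ * ∫ r, err r ∂((Measure.pi fun _ : Q => gI D).prod (gI R))) *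
        Fintype.card 𝒜 ≤ gZ (gI ((Q × D) ⊕ R)) dir f 𝒜 := by
  have hg := mp_glue Q D R
  have c0 : 0 ≤ c := (abs_nonneg _).trans (hc 0)
  have hx : Measurable fun (y : Q → D → ℝ) (i : Q × D) =>
      dir (y i.1) i.2 / Real.sqrt (Fintype.card Q) := by unfold dir; fun_prop
  have hx' : Measurable (ext0 R : (Q → D → ℝ) → _) :=
    measurable_pi_lambda _ fun j => by
      cases j with
      | inl j => exact (measurable_pi_apply j).comp hx
      | inr j => exact measurable_const
  have hA : (0 : ℝ) ≤ Fintype.card 𝒜 := by positivity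
  have hm : Measurable fun p : (Q → D → ℝ) × (Q → D → ℝ) × (R → ℝ) => dir (glue p.1 p.2) :=
    meas_dir.comp hg.measurable
  have pt : ∀ r : (Q → D → ℝ) × (R → ℝ), gZ (Measure.pi fun _ : Q => gI D) (ext0 R) f 𝒜 -
      (ε + 8 * c / δ * err r) * Fintype.card 𝒜 ≤
      gZ (Measure.pi fun _ : Q => gI D) (fun σ => dir (glue σ r)) f 𝒜 := fun r => by
    have hr : Measurable fun σ : Q → D → ℝ => dir (glue σ r) :=
      Measurable.of_uncurry_right (f := fun σ r => dir (glue σ r)) hm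
    have e0 : 0 ≤ err r := by unfold err; positivity
    rw [add_mul]
    rcases le_total (4 * err r) δ with h | h
    · have := H _ _ hr hx' ((ae_all_iff.mpr fun b =>
        (measurePreserving_eval (fun _ : Q => gI D) b).quasiMeasurePreserving.ae ae_ne).mono
          fun y hy => (glue_le hy r).trans h)
      have p : 0 ≤ 8 * c / δ * err r * Fintype.card 𝒜 := by positivity
      linarith [(abs_le.mp this).1]
    · have b1 := abs_gZ_le hf hc (Measure.pi fun _ : Q => gI D) hr 𝒜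
      have b2 := abs_gZ_le hf hc (Measure.pi fun _ : Q => gI D) hx' 𝒜
      have p : 2 * c ≤ 8 * c / δ * err r := by
        rw [div_mul_eq_mul_div, le_div_iff₀ hδ]; nlinarith
      linarith [(abs_le.mp b1).1, (abs_le.mp b2).2, mul_le_mul_of_nonneg_right p hA,
        mul_nonneg hε.le hA]
  obtain ⟨j1, j2⟩ := gZ_jensen hf hc (Measure.pi fun _ : Q => gI D)
    ((Measure.pi fun _ : Q => gI D).prod (gI R)) hm 𝒜
  rw [← gZ_map hf hc hg meas_dir, ← gZ_index hf hc _ hx Sum.inl_injective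
    (x' := ext0 R) (fun _ _ => rfl) (fun σ j hj => by
        cases j with
        | inl j => exact absurd rfl (hj j)
        | inr j => rfl)]
  refine le_trans ?_ j2
  have i0 := (err_int Q D R).1
  have i1 : Integrable (fun r => (ε + 8 * c / δ * err r) * Fintype.card 𝒜)
      ((Measure.pi fun _ : Q => gI D).prod (gI R)) :=
    ((integrable_const ε).add (i0.const_mul _)).mul_const _
  refine le_trans (le_of_eq ?_) (integral_mono ((integrable_const _).sub' i1) j1 pt)
  rw [integral_sub (integrable_const _) i1, integral_mul_const,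
    integral_add (integrable_const _) (i0.const_mul _), integral_const_mul]
  simp

theorem blocks_B (c ε : ℝ) (hε : 0 < ε) : ∃ d0 : ℕ, ∀ d, d0 ≤ d → ∀ᶠ N : ℕ in atTop,
    ∀ (𝒜 : Type) [Fintype 𝒜] (f : ℝ → ℝ), (∀ y, |f y| ≤ c) →
      (∀ y y', |f y - f y'| ≤ c * |y - y'|) →
      gZ (Measure.pi fun _ : Fin (N / d) => gI (Fin d))
        (fun y (i : Fin (N / d) × Fin d) => dir (y i.1) i.2 / Real.sqrt (N / d : ℕ)) f 𝒜 -
        ε * Fintype.card 𝒜 ≤ gZ (gI (Fin N)) dir f 𝒜 := by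
  obtain ⟨δ, hδ, H⟩ := gZ_feat c (ε / 3) (by positivity)
  set v := ProbabilityTheory.variance (fun z : ℝ => z ^ 2) gam
  have hv : 0 ≤ v := ProbabilityTheory.variance_nonneg _ _
  obtain ⟨M, hM⟩ := exists_nat_gt (8 * c / δ * (v + 1) / (ε / 3))
  refine ⟨M + 1, fun d hd => (eventually_ge_atTop ((M + 1) * d)).mono fun N hN 𝒜 _ f hc hl => ?_⟩
  have d0 : 0 < d := by omega
  have hq : M + 1 ≤ N / d := (Nat.le_div_iff_mul_le d0).mpr hN
  have : Nonempty (Fin d) := ⟨⟨0, d0⟩⟩
  have : Nonempty (Fin (N / d)) := ⟨⟨0, by omega⟩⟩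
  have c0 : 0 ≤ c := (abs_nonneg _).trans (hc 0)
  have hf : Measurable f := (LipschitzWith.of_dist_le_mul (K := ⟨c, c0⟩) hl).continuous.measurable
  have e : (Fin (N / d) × Fin d) ⊕ Fin (N % d) ≃ Fin N :=
    Fintype.equivFinOfCardEq (by simp [Nat.div_add_mod'])
  have := blocks_gen hδ (by positivity) hf hc (Fin (N / d)) (Fin d) (Fin (N % d)) 𝒜
    fun x x' hx hx' => H _ _ _ _ x x' f hx hx' hc hl
  rw [(err_int _ _ _).2, ← gZ_equiv e hf hc] at this
  simp only [Fintype.card_fin] at this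
  refine le_trans (sub_le_sub_left (mul_le_mul_of_nonneg_right ?_ (by positivity)) _) this
  have hM1 : (0 : ℝ) < M + 1 := by positivity
  have h1 : v / d ≤ (v + 1) / (M + 1) := by
    gcongr
    · linarith
    · exact_mod_cast hd
  have h2 : ((N % d : ℕ) : ℝ) / (((N / d : ℕ) : ℝ) * d) ≤ (v + 1) / (M + 1) := by
    have a1 : ((N % d : ℕ) : ℝ) ≤ d := by exact_mod_cast (Nat.mod_lt N d0).le
    have a2 : (M + 1 : ℝ) ≤ ((N / d : ℕ) : ℝ) := by exact_mod_cast hq
    have a3 : (0 : ℝ) < d := by exact_mod_cast d0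
    rw [div_le_div_iff₀ (mul_pos (hM1.trans_le a2) a3) hM1]
    calc ((N % d : ℕ) : ℝ) * (M + 1) ≤ 1 * (((N / d : ℕ) : ℝ) * d) := by
          rw [one_mul, mul_comm]; gcongr
      _ ≤ _ := by gcongr; linarith
  have h3 : 8 * c / δ * ((v + 1) / (M + 1)) ≤ ε / 3 := by
    rw [div_lt_iff₀ (by positivity)] at hM
    rw [← mul_div_assoc, div_le_iff₀ hM1]; nlinarith
  have h4 : 0 ≤ 8 * c / δ := by positivity
  nlinarith [mul_le_mul_of_nonneg_left h1 h4, mul_le_mul_of_nonneg_left h2 h4]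

end SphB

end Vale.Agent.P157
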