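import Vale.Agent.P157.Base

/-!
# P157: Gaussian toolkit for the spherical model
-/

namespace Vale.Agent.P157

open Finset MeasureTheory ProbabilityTheory
open scoped BigOperators

variable {I : Type} [Fintype I]

/-- Squared length. -/
def sqn (y : I → ℝ) : ℝ := ∑ i, y i ^ 2

lemma sqn_nonneg (y : I → ℝ) : 0 ≤ sqn y := sum_nonneg fun _ _ => sq_nonneg _

@[fun_prop] lemma continuous_sqn : Continuous (sqn : (I → ℝ) → ℝ) := by unfold sqn; fun_prop

@[fun_prop] lemma measurable_sqn : Measurable (sqn : (I → ℝ) → ℝ) := continuous_sqn.measurable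

lemma sqn_mul (c : ℝ) (y : I → ℝ) : sqn (fun i => c * y i) = c ^ 2 * sqn y := by
  simp only [sqn, mul_pow, mul_sum]

/-- The Gaussian density as a function of the squared length. -/
noncomputable def gdn (k : ℕ) (s : ℝ) : ℝ := (√(2 * Real.pi))⁻¹ ^ k * Real.exp (-s / 2)

lemma gdn_pos (k s) : 0 < gdn k s := by unfold gdn; positivity

@[fun_prop] lemma measurable_gdn (k) : Measurable (gdn k) := by unfold gdn; fun_prop

lemma gI_eq : gI I = volume.withDensity
    fun z => ENNReal.ofReal (gdn (Fintype.card I) (sqn z)) := by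
  have e : ∀ z : I → ℝ, gdn (Fintype.card I) (sqn z) = ∏ i, gaussianPDFReal 0 1 (z i) := fun z => by
    simp [gdn, sqn, gaussianPDFReal, prod_mul_distrib, ← Real.exp_sum, ← sum_div]
  simp only [e]
  refine Measure.pi_eq fun s hs => ?_
  rw [withDensity_apply _ (MeasurableSet.univ_pi hs), volume_pi,
    ← ofReal_integral_eq_lintegral_ofReal
    (Integrable.fintype_prod fun _ => integrable_gaussianPDFReal 0 1).restrict
    (ae_of_all _ fun z => prod_nonneg fun i _ => gaussianPDFReal_nonneg _ _ _),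
    Measure.restrict_pi_pi, integral_fintype_prod_eq_prod fun _ => gaussianPDFReal 0 1,
    ENNReal.ofReal_prod_of_nonneg fun i _ => integral_nonneg (gaussianPDFReal_nonneg _ _)]
  exact prod_congr rfl fun i _ => (gaussianReal_apply_eq_integral 0 one_ne_zero _).symm

lemma integral_gI (F : (I → ℝ) → ℝ) :
    ∫ z, F z ∂(gI I) = ∫ z, gdn (Fintype.card I) (sqn z) * F z := by
  rw [gI_eq, integral_withDensity_eq_integral_toReal_smul (by fun_prop) (by simp)]
  simp only [ENNReal.toReal_ofReal (gdn_pos _ _).le, smul_eq_mul]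

lemma tiltG {b : ℝ} (hb : 0 < b) (h : I → ℝ) (F : (I → ℝ) → ℝ) :
    ∫ z, Real.exp (∑ i, h i * z i + (1 - b) * sqn z / 2) * F z ∂(gI I) =
      Real.exp (sqn h / (2 * b) - Fintype.card I / 2 * Real.log b) *
        ∫ z, F (fun i => h i / b + (√b)⁻¹ * z i) ∂(gI I) := by
  rw [integral_gI, integral_gI, ← integral_add_left_eq_self _ fun i => h i / b]
  have hs := Real.sqrt_pos.2 hb
  have h1 := Measure.integral_comp_inv_smul (volume : Measure (I → ℝ)) (fun w =>
    gdn (Fintype.card I) (sqn ((fun i => h i / b) + w)) * (Real.exp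
      (∑ i, h i * ((fun i => h i / b) + w) i + (1 - b) * sqn ((fun i => h i / b) + w) / 2) *
        F ((fun i => h i / b) + w))) √b
  have h2 : Real.exp (Fintype.card I / 2 * Real.log b) = √b ^ Fintype.card I := by
    rw [div_mul_eq_mul_div, mul_div_assoc, Real.exp_nat_mul, ← Real.log_sqrt hb.le,
      Real.exp_log hs]
  rw [Module.finrank_fintype_fun_eq_card, abs_of_pos (by positivity), smul_eq_mul] at h1
  rw [Real.exp_sub, h2, div_mul_eq_mul_div, eq_div_iff (by positivity), mul_comm, ← h1,
    ← integral_const_mul]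
  congr 1
  funext u
  have e : -sqn ((fun i => h i / b) + (√b)⁻¹ • u) / 2 + (∑ i, h i * ((fun i => h i / b) +
      (√b)⁻¹ • u) i + (1 - b) * sqn ((fun i => h i / b) + (√b)⁻¹ • u) / 2) =
      sqn h / (2 * b) + -sqn u / 2 := by
    simp only [sqn, Pi.add_apply, Pi.smul_apply, smul_eq_mul, mul_sum, sum_div, ← sum_neg_distrib,
      ← sum_add_distrib]
    refine sum_congr rfl fun i _ => ?_
    have := Real.mul_self_sqrt hb.le
    generalize √b = s at *
    subst this
    field_simp
    ring
  unfold gdn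
  rw [mul_assoc, ← mul_assoc (Real.exp _), ← Real.exp_add, e, Real.exp_add]
  change _ * (_ * F fun i => h i / b + (√b)⁻¹ * u i) = _
  ring

lemma exp_le_integral {α : Type*} [MeasurableSpace α] {μ : Measure α} [IsProbabilityMeasure μ]
    {X Y : α → ℝ} (hX : Integrable X μ) (hY : Integrable Y μ)
    (h : ∀ᵐ a ∂μ, Real.exp (X a) ≤ Y a) : Real.exp (∫ a, X a ∂μ) ≤ ∫ a, Y a ∂μ := by
  set m := ∫ a, X a ∂μ with hm
  have h1 : ∫ a, Real.exp m * (X a - m + 1) ∂μ = Real.exp m := by
    rw [integral_const_mul, integral_add (f := fun a => X a - m) (hX.sub (integrable_const _))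
      (integrable_const _),
      integral_sub hX (integrable_const _)]
    simp [← hm]
  rw [← h1]
  refine integral_mono_ae (((hX.sub (integrable_const _)).add (integrable_const _)).const_mul _) hY
    (h.mono fun a ha => le_trans ?_ ha)
  rw [show Real.exp (X a) = Real.exp m * Real.exp (X a - m) by rw [← Real.exp_add]; ring_nf]
  exact mul_le_mul_of_nonneg_left (Real.add_one_le_exp _) (Real.exp_pos _).le

/-- A constant of fourth moment type. -/
noncomputable def K4 : ℝ := 4 + 2 * ∫ z, z ^ 4 ∂gam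

lemma four_le_K4 : 4 ≤ K4 := le_add_of_nonneg_right
  (mul_nonneg two_pos.le (integral_nonneg fun z => by positivity))

lemma mom_one (m s : ℝ) : MemLp (fun z => (m + s * z) ^ 2) 2 gam ∧
    ∫ z, (m + s * z) ^ 2 ∂gam = m ^ 2 + s ^ 2 ∧
    Var[fun z => (m + s * z) ^ 2; gam] ≤ 8 * s ^ 2 * m ^ 2 + K4 * s ^ 4 := by
  have hp : ∀ k : ℕ, Integrable (fun z : ℝ => z ^ k) gam := fun k =>
    integrable_pow_of_mem_interior_integrableExpSet (X := fun z => z) (μ := gaussianReal 0 1)
      (by simp) k
  have h1 : ∫ z, z ∂gam = 0 := integral_id_gaussianReal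
  have h2 : ∫ z, z ^ 2 ∂gam = 1 := by
    have := variance_fun_id_gaussianReal (μ := 0) (v := 1)
    rw [variance_eq_integral measurable_id'.aemeasurable] at this
    simpa [gam] using this
  have h3 : ∀ z : ℝ, (2 * m * s * z + s ^ 2 * z ^ 2) ^ 2 ≤
      8 * s ^ 2 * m ^ 2 * z ^ 2 + 2 * s ^ 4 * z ^ 4 := fun z => by
    nlinarith [sq_nonneg (2 * m * s * z - s ^ 2 * z ^ 2)]
  have h4 := ((hp 2).const_mul (8 * s ^ 2 * m ^ 2)).add ((hp 4).const_mul (2 * s ^ 4))
  have h5 : Integrable (fun z => (2 * m * s * z + s ^ 2 * z ^ 2) ^ 2) gam :=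
    h4.mono' (by fun_prop) (ae_of_all _ fun z => (abs_of_nonneg (sq_nonneg _)).trans_le (h3 z))
  have e : (fun z => (m + s * z) ^ 2) = fun z => 2 * m * s * z + s ^ 2 * z ^ 2 + m ^ 2 := by
    funext z; ring
  have h6 : Integrable (fun z => 2 * m * s * z) gam := by simpa using (hp 1).const_mul (2 * m * s)
  rw [e]
  refine ⟨((memLp_two_iff_integrable_sq (by fun_prop)).2 h5).add (memLp_const _), ?_, ?_⟩
  · rw [integral_add (f := fun z => 2 * m * s * z + s ^ 2 * z ^ 2) (h6.add ((hp 2).const_mul _))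
      (integrable_const _),
      integral_add h6 ((hp 2).const_mul _), integral_const_mul, integral_const_mul, h1, h2]
    simp [add_comm]
  · rw [variance_add_const (by fun_prop)]
    refine (variance_le_expectation_sq (by fun_prop)).trans ((integral_mono h5 h4 h3).trans ?_)
    simp only [Pi.add_apply]
    rw [integral_add ((hp 2).const_mul _) ((hp 4).const_mul _), integral_const_mul,
      integral_const_mul, h2, K4]
    nlinarith [sq_nonneg (s ^ 2)]

lemma mom_sqn (m : I → ℝ) (s A : ℝ) : Integrable (fun z => sqn fun i => m i + s * z i) (gI I) ∧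
    ∫ z, sqn (fun i => m i + s * z i) ∂(gI I) = sqn m + s ^ 2 * Fintype.card I ∧
    Integrable (fun z => (sqn (fun i => m i + s * z i) - A) ^ 2) (gI I) ∧
    ∫ z, (sqn (fun i => m i + s * z i) - A) ^ 2 ∂(gI I) ≤
      (sqn m + s ^ 2 * Fintype.card I - A) ^ 2 + 8 * s ^ 2 * sqn m +
        K4 * s ^ 4 * Fintype.card I := by
  have h1 : ∀ i, MemLp (fun z : I → ℝ => (m i + s * z i) ^ 2) 2 (gI I) := fun i =>
    (mom_one (m i) s).1.comp_measurePreserving (measurePreserving_eval (fun _ => gam) i)
  have h2 : MemLp (fun z => sqn fun i => m i + s * z i) 2 (gI I) :=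
    memLp_finsetSum _ fun i _ => h1 i
  have h3 : ∫ z, sqn (fun i => m i + s * z i) ∂(gI I) = sqn m + s ^ 2 * Fintype.card I := by
    simp only [sqn]
    rw [integral_finsetSum _ fun i _ => (h1 i).integrable one_le_two,
      gI, sum_congr rfl fun i _ => (integral_comp_eval (μ := fun _ => gam) (i := i)
        (f := fun z => (m i + s * z) ^ 2) (by fun_prop)).trans (mom_one (m i) s).2.1]
    simp [sum_add_distrib, mul_comm]
  have h4 := h2.sub (memLp_const A)
  refine ⟨h2.integrable one_le_two, h3, h4.integrable_sq, ?_⟩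
  have h5 := variance_eq_sub h4
  have h6 : Var[fun z => sqn fun i => m i + s * z i; gI I] ≤
      8 * s ^ 2 * sqn m + K4 * s ^ 4 * Fintype.card I := by
    have := variance_sum_pi (μ := fun _ : I => gam) fun i => (mom_one (m i) s).1
    rw [show (∑ i, fun ω : I → ℝ => (m i + s * ω i) ^ 2) = fun z => sqn fun i => m i + s * z i by
      funext z; simp [sqn]] at this
    refine (this.trans_le (sum_le_sum fun i _ => (mom_one (m i) s).2.2)).trans_eq ?_
    simp [sqn, sum_add_distrib, mul_sum, mul_comm]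
  rw [← variance_sub_const h2.1 A] at h6
  simp only [Pi.sub_apply, Pi.pow_apply] at h5
  rw [integral_sub (h2.integrable one_le_two) (integrable_const _), h3] at h5
  simp only [integral_const, probReal_univ, one_smul] at h5
  change Var[fun z => (sqn fun i => m i + s * z i) - A; gI I] = _ at h5
  linarith

lemma mom_sqn0 : Integrable sqn (gI I) ∧ ∫ z, sqn z ∂(gI I) = Fintype.card I ∧
    Integrable (fun z => (sqn z - Fintype.card I) ^ 2) (gI I) ∧
    ∫ z, (sqn z - Fintype.card I) ^ 2 ∂(gI I) ≤ K4 * Fintype.card I := by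
  simpa [show sqn (0 : I → ℝ) = 0 by simp [sqn]] using mom_sqn (I := I) 0 1 (Fintype.card I)

@[fun_prop] lemma measurable_dir' : Measurable (dir : (I → ℝ) → I → ℝ) := by unfold dir; fun_prop

lemma dir_eq (y : I → ℝ) (i : I) : dir y i = (√(sqn y))⁻¹ * y i := div_eq_inv_mul _ _

lemma sqn_dir {y : I → ℝ} (h : y ≠ 0) : sqn (dir y) = 1 := by
  have h1 : sqn y ≠ 0 := fun e => h (funext fun i => pow_eq_zero_iff two_ne_zero |>.1
    ((sum_eq_zero_iff_of_nonneg fun _ _ => sq_nonneg _).1 e i (mem_univ i)))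
  rw [funext (dir_eq y), sqn_mul, inv_pow, Real.sq_sqrt (sqn_nonneg y), inv_mul_cancel₀ h1]

lemma ae_sqn_dir [Nonempty I] : ∀ᵐ y ∂(gI I), sqn (dir y) = 1 := by
  have : NullSingletonClass gam := nullSingletonClass_gaussianReal one_ne_zero
  have : NullSingletonClass (gI I) := Measure.pi_nullSingletonClass'
  exact (Measure.ae_ne (gI I) 0).mono fun y => sqn_dir

lemma abs_dir_le (y : I → ℝ) (i : I) : |dir y i| ≤ 1 := by
  by_cases h : y = 0
  · simp [h, dir]
  · exact (sq_le_one_iff_abs_le_one _).1 ((single_le_sum (f := fun i => dir y i ^ 2)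
      (fun _ _ => sq_nonneg _) (mem_univ i)).trans_eq (sqn_dir h))

section polar

open Metric Set

/-- The unit sphere. -/
abbrev SpI (I : Type) [Fintype I] := sphere (0 : EuclideanSpace ℝ I) 1

/-- The uniform law on the unit sphere. -/
noncomputable def unS (I : Type) [Fintype I] : Measure (SpI I) :=
  ((volume : Measure (EuclideanSpace ℝ I)).toSphere univ)⁻¹ • volume.toSphere

/-- Polar coordinates. -/
def pol (p : SpI I × Ioi (0 : ℝ)) (i : I) : ℝ := p.2.1 * p.1.1 i

@[fun_prop] lemma measurable_pol : Measurable (pol : _ → I → ℝ) := by unfold pol; fun_prop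

lemma sqrt_pol (p : SpI I × Ioi (0 : ℝ)) : √(sqn (pol p)) = p.2.1 := by
  have h : sqn p.1.1.ofLp = 1 := by
    rw [sqn, ← EuclideanSpace.real_norm_sq_eq, mem_sphere_zero_iff_norm.1 p.1.2, one_pow]
  rw [show pol p = fun i => p.2.1 * p.1.1.ofLp i from rfl, sqn_mul, h, mul_one,
    Real.sqrt_sq (le_of_lt p.2.2)]

lemma dir_pol (p : SpI I × Ioi (0 : ℝ)) : dir (pol p) = p.1.1.ofLp := by
  funext i
  rw [dir_eq, sqrt_pol, pol, inv_mul_cancel_left₀ (ne_of_gt p.2.2)]

lemma exists_polar [Nonempty I] : ∃ ν : Measure (Ioi (0 : ℝ)), IsProbabilityMeasure ν ∧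
    IsProbabilityMeasure (unS I) ∧ MeasurePreserving pol ((unS I).prod ν) (gI I) := by
  set σ := (volume : Measure (EuclideanSpace ℝ I)).toSphere with hσ
  set ν := Measure.volumeIoiPow (Module.finrank ℝ (EuclideanSpace ℝ I) - 1) with hν
  have h0 : σ univ ≠ 0 := Measure.measure_univ_ne_zero.2 (Measure.toSphere_ne_zero _)
  have h1 : MeasurePreserving pol (σ.prod ν) volume := by
    have e1 := MeasurePreserving.symm (homeomorphUnitSphereProd _).toMeasurableEquiv
      (volume : Measure (EuclideanSpace ℝ I)).measurePreserving_homeomorphUnitSphereProd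
    have e2 : MeasurePreserving (Subtype.val : ({0}ᶜ : Set (EuclideanSpace ℝ I)) → _)
        (Measure.comap Subtype.val volume) volume :=
      ⟨measurable_subtype_coe, by
        rw [map_comap_subtype_coe (measurableSet_singleton _).compl, restrict_compl_singleton]⟩
    exact (PiLp.volume_preserving_ofLp I).comp (e2.comp e1)
  have hm : Measurable fun r : Ioi (0 : ℝ) => ENNReal.ofReal (gdn (Fintype.card I) (r.1 ^ 2)) := by
    fun_prop
  have h2 : MeasurePreserving pol ((unS I).prod (σ univ • ν.withDensity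
      fun r => ENNReal.ofReal (gdn (Fintype.card I) (r.1 ^ 2)))) (gI I) := by
    rw [unS, Measure.prod_smul_left, Measure.prod_smul_right, smul_smul,
      ENNReal.inv_mul_cancel h0 (measure_ne_top _ _), one_smul, prod_withDensity_right hm, gI_eq]
    refine ⟨measurable_pol, Measure.ext fun s hs => ?_⟩
    rw [Measure.map_apply measurable_pol hs, withDensity_apply _ hs,
      withDensity_apply _ (measurable_pol hs), ← h1.setLIntegral_comp_preimage hs (by fun_prop)]
    simp only [← sqrt_pol, Real.sq_sqrt (sqn_nonneg _), hσ]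
  have h3 : IsProbabilityMeasure (unS I) :=
    ⟨by rw [unS, Measure.smul_apply, smul_eq_mul, ENNReal.inv_mul_cancel h0 (measure_ne_top _ _)]⟩
  refine ⟨_, ⟨?_⟩, h3, h2⟩
  have := h2.measure_preimage (s := univ) MeasurableSet.univ.nullMeasurableSet
  rwa [Set.preimage_univ, ← univ_prod_univ, Measure.prod_prod, measure_univ (μ := unS I), one_mul,
    measure_univ (μ := gI I)] at this

lemma polar_dir [Nonempty I] : MeasurePreserving (fun u : SpI I => u.1.ofLp) (unS I)
    ((gI I).map dir) := by
  obtain ⟨ν, _, _, h⟩ := exists_polar (I := I)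
  refine ⟨by fun_prop, ?_⟩
  rw [← h.map_eq, Measure.map_map measurable_dir' measurable_pol,
    ← (measurePreserving_fst (μ := unS I) (ν := ν)).map_eq, Measure.map_map (by fun_prop)
      measurable_fst, (measurePreserving_fst (μ := unS I) (ν := ν)).map_eq]
  exact congrArg (Measure.map · _) (funext fun p => (dir_pol p).symm)

lemma polar_mix [Nonempty I] : MeasurePreserving
    (fun (p : (I → ℝ) × (I → ℝ)) i => √(sqn p.2) * dir p.1 i) ((gI I).prod (gI I)) (gI I) := by
  obtain ⟨ν, _, _, h⟩ := exists_polar (I := I)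
  have hm : Measurable fun (p : (I → ℝ) × (I → ℝ)) i => √(sqn p.2) * dir p.1 i := by fun_prop
  refine ⟨hm, ?_⟩
  rw [← (h.prod h).map_eq, Measure.map_map hm (h.prod h).measurable,
    ← (h.comp ((measurePreserving_fst (μ := unS I) (ν := ν)).prod
      (measurePreserving_snd (μ := unS I) (ν := ν)))).map_eq]
  refine congrArg (Measure.map · _) (funext fun p => funext fun i => ?_)
  simp only [Function.comp, Prod.map, sqrt_pol, dir_pol, pol]

end polar

end Vale.Agent.P157
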