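import Vale.Agent.P157.Clt
import Vale.Agent.P157.SphG

/-!
# P157: the quadratic recursion
-/

namespace Vale.Agent.P157

open Finset MeasureTheory ProbabilityTheory
open scoped BigOperators

variable {n : ℕ} {p v b : ℕ → ℝ}

lemma ze_zeroQ (n) : ze n 0 = 1 := by simp [ze]
lemma ze_succQ (n l) : ze n (l + 1) = ze n l - wt n := by simp only [ze, wt]; push_cast; ring
lemma ze_topQ (n) : ze n (n + 1) = 0 := by
  simp only [ze]; push_cast; rw [div_self (by positivity), sub_self]
lemma ze_posQ {l} (h : l ≤ n) : 0 < ze n l :=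
  sub_pos.2 ((div_lt_one (by positivity)).2 (by exact_mod_cast Nat.lt_succ_of_le h))
lemma ze_leQ (n l) : ze n l ≤ 1 := sub_le_self _ (by positivity)
lemma chi_succQ (n p j) : chi n p (j + 1) = chi n p j + ze n j * (p j - p (j + 1)) :=
  sum_range_succ _ _

lemma one_sub_cumQ (hp : p 0 = 1) (l) : 1 - cum n p l = chi n p l + ze n l * p l := by
  induction l with
  | zero => simp [cum, chi, ze_zeroQ, hp]
  | succ l ih =>
    rw [chi_succQ, ze_succQ, cum, sum_Icc_succ_top (by omega), mul_add]
    rw [cum] at ih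
    linarith

/-- The value of the quadratic recursion. -/
noncomputable def qv (n : ℕ) (v b : ℕ → ℝ) : ℝ :=
  ∑ l ∈ range (n + 1), Real.log (b l / b (l + 1)) / ze n l + v (n + 1) / b (n + 1)

lemma qv_eq (hp : p 0 = 1) (hχ : ∀ l, 1 ≤ l → l ≤ n + 1 → 0 < chi n p l)
    (hb : ∀ l ≤ n + 1, 0 < b l) (hs : ∀ l ≤ n, b (l + 1) = b l - ze n l * v l)
    (ht : b (n + 1) * chi n p (n + 1) = 1) :
    -Real.log (b 0) + b 0 - 1 + qv n v b = 2 * (cs n p + pen n p v) + ∑ l ∈ Icc 1 n,
      (Real.log (b l * chi n p l) - b l * chi n p l + 1) * (1 / ze n l - 1 / ze n (l - 1)) := by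
  have key : ∀ k ≤ n, -Real.log (b 0) + b 0 - 1 +
      ∑ l ∈ range (k + 1), Real.log (b l / b (l + 1)) / ze n l +
      (Real.log (b (k + 1) * chi n p (k + 1)) - b (k + 1) * chi n p (k + 1) + 1) / ze n k =
      Real.log (chi n p 1) + ∑ l ∈ Icc 1 k, Real.log (chi n p (l + 1) / chi n p l) / ze n l +
      p (k + 1) * b (k + 1) + ∑ l ∈ range (k + 1), v l * (1 - cum n p l) + ∑ l ∈ Icc 1 k,
      (Real.log (b l * chi n p l) - b l * chi n p l + 1) * (1 / ze n l - 1 / ze n (l - 1)) := by
    intro k hk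
    induction k with
    | zero =>
      have h1 := hs 0 hk
      have h2 : chi n p 1 = 1 - p 1 := by simp [chi, ze_zeroQ, hp]
      simp only [zero_add, range_one, sum_singleton, ze_zeroQ, div_one, one_mul] at h1 ⊢
      rw [Real.log_div (hb 0 (by omega)).ne' (hb 1 (by omega)).ne', Real.log_mul
        (hb 1 (by omega)).ne' (hχ 1 le_rfl (by omega)).ne']
      simp only [show Icc 1 0 = ∅ from rfl, sum_empty, cum, h2, h1]
      ring
    | succ k ih =>
      have h1 := ih (by omega)
      have b1 := (hb (k + 1) (by omega)).ne'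
      have b2 := (hb (k + 1 + 1) (by omega)).ne'
      have c1 := (hχ (k + 1) (by omega) (by omega)).ne'
      have c2 := (hχ (k + 1 + 1) (by omega) (by omega)).ne'
      have a1 := (ze_posQ hk).ne'
      rw [sum_range_succ _ (k + 1), sum_range_succ _ (k + 1), sum_Icc_succ_top (by omega),
        sum_Icc_succ_top (by omega), one_sub_cumQ hp (k + 1), Real.log_div b1 b2,
        Real.log_div c2 c1, Real.log_mul b2 c2, Nat.add_sub_cancel]
      rw [Real.log_mul b1 c1] at h1 ⊢
      have e : (b (k + 1) * chi n p (k + 1) - b (k + 1 + 1) * chi n p (k + 1 + 1)) / ze n (k + 1) =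
          v (k + 1) * chi n p (k + 1) - b (k + 1 + 1) * (p (k + 1) - p (k + 1 + 1)) := by
        rw [div_eq_iff a1, chi_succQ n p (k + 1), hs (k + 1) hk]; ring
      have e2 := hs (k + 1) hk
      linear_combination h1 + e + p (k + 1) * (-1) * e2
  have h1 := key n le_rfl
  have c1 := (hχ (n + 1) (by omega) le_rfl).ne'
  have e : b (n + 1) = 1 / chi n p (n + 1) := by rw [eq_div_iff c1, ht]
  rw [ht, Real.log_one] at h1
  rw [cs, pen, qv, sum_range_succ _ (n + 1), one_sub_cumQ hp (n + 1), ze_topQ]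
  rw [e] at h1 ⊢
  rw [div_div_eq_mul_div, div_one]
  linear_combination h1

/-- The inverse curvatures. -/
noncomputable def bb (n : ℕ) (v : ℕ → ℝ) (y : ℝ) (l : ℕ) : ℝ :=
  y + ∑ k ∈ Ico l (n + 1), ze n k * v k

lemma bb_succ (y : ℝ) : ∀ l ≤ n, bb n v y (l + 1) = bb n v y l - ze n l * v l := fun l hl => by
  rw [bb, bb, sum_eq_sum_Ico_succ_bot (show l < n + 1 by omega)]; ring

lemma bb_top (y : ℝ) : bb n v y (n + 1) = y := by simp [bb]

lemma le_bb (hv : ∀ l, l ≤ n + 1 → 0 ≤ v l) (y : ℝ) (l) : y ≤ bb n v y l :=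
  le_add_of_nonneg_right (sum_nonneg fun k hk => by
    have := (mem_Ico.1 hk).2
    exact mul_nonneg (ze_posQ (by omega)).le (hv k this.le))

lemma bb_le (hv : ∀ l, l ≤ n + 1 → 0 ≤ v l) (y : ℝ) (l) :
    bb n v y l ≤ y + ∑ l ∈ range (n + 2), v l :=
  add_le_add le_rfl ((sum_le_sum fun k hk =>
    mul_le_of_le_one_left (hv k (mem_Ico.1 hk).2.le) (ze_leQ n k)).trans
    (sum_le_sum_of_subset_of_nonneg (fun k hk => mem_range.2 (by have := mem_Ico.1 hk; omega))
      fun k hk _ => hv k (by have := mem_range.1 hk; omega)))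

variable {I : Type} [Fintype I] {L : ℝ} {G : (I → ℝ) → ℝ}

lemma integrable_casQ (hG : ∀ x y, |G x - G y| ≤ L * ∑ i, |x i - y i|) {l : ℕ} (hl : l ≤ n + 1)
    (x : I → ℝ) (s : ℝ) : Integrable (fun z => casI n v G l fun i => x i + s * z i) (gI I) ∧
      ∀ a, Integrable (fun z => Real.exp (a * casI n v G l fun i => x i + s * z i)) (gI I) :=
  integrable_lipI (L := L * |s|) fun z z' => (casI_lip hG n v hl _ _).trans_eq (by
    simp only [add_sub_add_left_eq_sub, ← mul_sub, abs_mul, ← mul_sum, mul_assoc])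

lemma cas_step (hG : ∀ x y, |G x - G y| ≤ L * ∑ i, |x i - y i|) {l : ℕ} (hl : l ≤ n)
    (hv : 0 ≤ v l) {b b' : ℝ} (hb : 0 < b) (hb' : 0 < b') (e : b' = b - ze n l * v l) (x : I → ℝ)
    {R : (I → ℝ) → ℝ} (hR : R = fun z => casI n v G l (fun i => b * (x i / b' +
      √(v l / (b * b')) * z i)) - b * sqn (fun i => x i / b' + √(v l / (b * b')) * z i) / 2) :
    Integrable (fun z => Real.exp (ze n l * R z)) (gI I) ∧ casI n v G (l + 1) x =
      sqn x / (2 * b') + Fintype.card I / 2 * (Real.log (b / b') / ze n l) +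
        Real.log (∫ z, Real.exp (ze n l * R z) ∂(gI I)) / ze n l := by
  have ha := ze_posQ hl
  have h1 := integral_exp_pos ((integrable_casQ (n := n) (v := v) hG (hl.trans n.le_succ) x
    √(v l)).2 (ze n l))
  have h2 := tiltG (div_pos hb' hb) (fun i => ze n l * √(v l) / b * x i) fun z => Real.exp
    (ze n l * (casI n v G l (fun i => x i + √(v l) * z i) -
      sqn (fun i => x i + √(v l) * z i) / (2 * b)))
  have hs := Real.sq_sqrt hv
  have e1 : ∀ z : I → ℝ, (fun i => x i + √(v l) * (ze n l * √(v l) / b * x i / (b' / b) +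
      (√(b' / b))⁻¹ * z i)) = fun i => b * (x i / b' + √(v l / (b * b')) * z i) := fun z => by
    funext i
    have e2 : √(v l) * (√(b' / b))⁻¹ = b * √(v l / (b * b')) := by
      rw [← Real.sqrt_inv, ← Real.sqrt_mul hv, ← Real.sqrt_sq hb.le, ← Real.sqrt_mul (sq_nonneg _),
        Real.sqrt_sq hb.le]
      congr 1; field_simp
    have e3 : √(v l) * (ze n l * √(v l) / b * x i / (b' / b)) = b * (x i / b') - x i := by
      field_simp
      rw [hs, e]; ring
    rw [mul_add, e3, ← mul_assoc, e2]; ring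
  have e4 : ∀ z : I → ℝ, Real.exp (ze n l * casI n v G l fun i => x i + √(v l) * z i) =
      Real.exp (ze n l * sqn x / (2 * b)) * (Real.exp (∑ i, ze n l * √(v l) / b * x i * z i +
        (1 - b' / b) * sqn z / 2) * Real.exp (ze n l * (casI n v G l (fun i => x i + √(v l) * z i)
          - sqn (fun i => x i + √(v l) * z i) / (2 * b)))) := fun z => by
    rw [← Real.exp_add, ← Real.exp_add]
    congr 1
    have : ze n l * (sqn (fun i => x i + √(v l) * z i) / (2 * b)) = ze n l * sqn x / (2 * b) +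
        (∑ i, ze n l * √(v l) / b * x i * z i + (1 - b' / b) * sqn z / 2) := by
      simp only [sqn, mul_sum, sum_div, ← sum_add_distrib]
      refine sum_congr rfl fun i _ => ?_
      rw [e, add_sq, mul_pow, hs]
      field_simp
      ring
    linarith
  have e5 : ∀ w : I → ℝ, sqn (fun i => b * w i) / (2 * b) = b * sqn w / 2 := fun w => by
    rw [sqn_mul]; field_simp
  simp only [e1, e5] at h2
  rw [casI]
  simp only [e4] at h1 ⊢
  rw [integral_const_mul, h2] at h1 ⊢
  subst hR
  have h3 := right_ne_zero_of_mul (right_ne_zero_of_mul h1.ne')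
  refine ⟨.of_integral_ne_zero h3, ?_⟩
  rw [Real.log_mul (Real.exp_pos _).ne' (mul_ne_zero (Real.exp_pos _).ne' h3),
    Real.log_mul (Real.exp_pos _).ne' h3, Real.log_exp, Real.log_exp, sqn_mul, div_pow,
    mul_pow, hs, Real.log_div hb.ne' hb'.ne', Real.log_div hb'.ne' hb.ne']
  have e6 : b = b' + ze n l * v l := by linarith
  generalize Real.log (∫ z, _ ∂_) = J
  generalize Real.log b = lb
  field_simp
  rw [e6]
  ring

lemma cas_up (hG : ∀ x y, |G x - G y| ≤ L * ∑ i, |x i - y i|) (hv : ∀ l, l ≤ n + 1 → 0 ≤ v l)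
    (hb : ∀ l ≤ n + 1, 0 < b l) (hs : ∀ l ≤ n, b (l + 1) = b l - ze n l * v l) {c : ℝ}
    (h0 : ∀ h, G h ≤ sqn h / (2 * b 0) + c) :
    CasI n v G ≤ c + Fintype.card I / 2 * qv n v b := by
  have key : ∀ l ≤ n + 1, ∀ h, casI n v G l h ≤ sqn h / (2 * b l) + (c + Fintype.card I / 2 *
      ∑ k ∈ range l, Real.log (b k / b (k + 1)) / ze n k) := by
    intro l hl
    induction l with
    | zero => simpa [casI] using h0
    | succ l ih =>
      intro x
      have hl' : l ≤ n := by omega
      have b1 := hb l (by omega)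
      obtain ⟨h1, h2⟩ := cas_step hG hl' (hv l (by omega)) b1 (hb _ hl) (hs l hl') x rfl
      rw [h2, sum_range_succ, mul_add, ← add_assoc c, add_assoc, add_comm (_ + _)]
      refine add_le_add le_rfl (add_le_add le_rfl ?_)
      rw [div_le_iff₀' (ze_posQ hl'), Real.log_le_iff_le_exp (integral_exp_pos h1)]
      refine le_trans (integral_mono h1 (integrable_const _) fun z => Real.exp_le_exp.2
        (mul_le_mul_of_nonneg_left (sub_le_iff_le_add'.2 ((ih (by omega) _).trans_eq
          (congrArg (· + _) ?_))) (ze_posQ hl').le)) (by simp)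
      rw [sqn_mul]; field_simp
  obtain ⟨h1, h2, -⟩ := mom_sqn0 (I := I)
  have h3 := (integrable_casQ (n := n) (v := v) hG le_rfl 0 √(v (n + 1))).1
  simp only [Pi.zero_apply, zero_add] at h3
  have h4 := (h1.const_mul (v (n + 1))).div_const (2 * b (n + 1))
  refine (integral_mono h3 (h4.add (integrable_const _)) fun z => (key _ le_rfl _).trans_eq (by
    rw [sqn_mul, Real.sq_sqrt (hv _ le_rfl)]; rfl)).trans_eq ?_
  simp only [Pi.add_apply]
  rw [integral_add h4 (integrable_const _), integral_div, integral_const_mul, h2, qv]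
  simp only [integral_const, probReal_univ, one_smul]
  ring

/-- The error polynomial. -/
noncomputable def PP (A B d u τ : ℝ) : ℝ :=
  A * (u + τ * d) + B * ((u + τ * d - d) ^ 2 + 8 * τ * u + K4 * τ ^ 2 * d)

lemma PP_step (A : ℝ) {B τ : ℝ} (hB : 0 ≤ B) (hτ : 0 ≤ τ) (m : I → ℝ) (s : ℝ) :
    Integrable (fun z => PP A B (Fintype.card I) (sqn fun i => m i + s * z i) τ) (gI I) ∧
      ∫ z, PP A B (Fintype.card I) (sqn fun i => m i + s * z i) τ ∂(gI I) ≤
        PP A B (Fintype.card I) (sqn m) (τ + s ^ 2) := by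
  obtain ⟨h1, h2, h3, h4⟩ := mom_sqn m s (Fintype.card I - τ * Fintype.card I)
  have e : ∀ u, PP A B (Fintype.card I) u τ = (A + 8 * B * τ) * u + B * (u - (Fintype.card I -
      τ * Fintype.card I)) ^ 2 + (A * τ + B * K4 * τ ^ 2) * Fintype.card I := fun u => by
    unfold PP; ring
  simp only [e]
  have h5 := (h1.const_mul (A + 8 * B * τ)).add (h3.const_mul B)
  refine ⟨h5.add (integrable_const _), ?_⟩
  rw [integral_add (by exact h5) (integrable_const _), integral_add (h1.const_mul _)
    (h3.const_mul _), integral_const_mul, integral_const_mul, h2]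
  simp only [integral_const, probReal_univ, one_smul, PP]
  have h6 : 0 ≤ B * ((K4 - 4) * τ * s ^ 2 * Fintype.card I) := by
    have := sub_nonneg.2 four_le_K4; positivity
  nlinarith [mul_le_mul_of_nonneg_left h4 hB]

/-- Accumulated variances. -/
noncomputable def ta (v b : ℕ → ℝ) (l : ℕ) : ℝ :=
  1 / b 0 + ∑ k ∈ range l, v k / (b k * b (k + 1))

lemma ta_succ (l) : ta v b (l + 1) = ta v b l + v l / (b l * b (l + 1)) := by
  rw [ta, sum_range_succ, ← add_assoc]; rfl

lemma cas_lo (hG : ∀ x y, |G x - G y| ≤ L * ∑ i, |x i - y i|) (hv : ∀ l, l ≤ n + 1 → 0 ≤ v l)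
    (hb : ∀ l ≤ n + 1, 0 < b l) (hs : ∀ l ≤ n, b (l + 1) = b l - ze n l * v l) {c A B : ℝ}
    (hB : 0 ≤ B) (h0 : ∀ h, sqn h / (2 * b 0) + c -
      PP A B (Fintype.card I) (sqn h / b 0 ^ 2) (1 / b 0) ≤ G h) :
    c + Fintype.card I / 2 * qv n v b -
      PP A B (Fintype.card I) 0 (ta v b (n + 1) + v (n + 1) / b (n + 1) ^ 2) ≤ CasI n v G := by
  have hτ : ∀ l ≤ n + 1, 0 ≤ ta v b l := fun l hl => add_nonneg (by have := hb 0 (by omega); positivity)
    (sum_nonneg fun k hk => by
      have := mem_range.1 hk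
      exact div_nonneg (hv k (by omega)) (mul_pos (hb k (by omega)) (hb _ (by omega))).le)
  have key : ∀ l ≤ n + 1, ∀ h, sqn h / (2 * b l) + (c + Fintype.card I / 2 *
      ∑ k ∈ range l, Real.log (b k / b (k + 1)) / ze n k) -
        PP A B (Fintype.card I) (sqn h / b l ^ 2) (ta v b l) ≤ casI n v G l h := by
    intro l hl
    induction l with
    | zero => simpa [ta, casI] using h0
    | succ l ih =>
      intro x
      have hl' : l ≤ n := by omega
      have b1 := hb l (by omega)
      have b2 := hb _ hl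
      obtain ⟨h1, h2⟩ := cas_step hG hl' (hv l (by omega)) b1 b2 (hs l hl') x rfl
      obtain ⟨h3, h4⟩ := PP_step A hB (hτ l (by omega)) (fun i => x i / b (l + 1))
        √(v l / (b l * b (l + 1)))
      have h5 := exp_le_integral (((integrable_const (c + Fintype.card I / 2 * ∑ k ∈ range l,
        Real.log (b k / b (k + 1)) / ze n k)).sub h3).const_mul (ze n l)) h1
        (ae_of_all _ fun z => Real.exp_le_exp.2 (mul_le_mul_of_nonneg_left (le_sub_iff_add_le'.2
          (le_trans (le_of_eq ?_) (ih (by omega) _))) (ze_posQ hl').le))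
      · rw [← Real.le_log_iff_exp_le (integral_exp_pos h1), integral_const_mul,
          ← le_div_iff₀' (ze_posQ hl')] at h5
        simp only [Pi.sub_apply] at h5
        rw [integral_sub (integrable_const _) h3] at h5
        simp only [integral_const, probReal_univ, one_smul] at h5
        rw [Real.sq_sqrt (div_nonneg (hv l (by omega)) (by positivity)), ← ta_succ,
          show sqn (fun i => x i / b (l + 1)) = sqn x / b (l + 1) ^ 2 by
            simp only [sqn, div_pow, sum_div]] at h4
        rw [h2, sum_range_succ]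
        linarith
      · rw [sqn_mul, mul_div_cancel_left₀ _ (by positivity), Pi.sub_apply]
        field_simp
        ring
  obtain ⟨h1, h2, -⟩ := mom_sqn0 (I := I)
  have b1 := hb _ le_rfl
  have h3 := (integrable_casQ (n := n) (v := v) hG le_rfl 0 √(v (n + 1))).1
  obtain ⟨h5, h6⟩ := PP_step (I := I) A hB (hτ _ le_rfl) 0 (√(v (n + 1)) / b (n + 1))
  simp only [Pi.zero_apply, zero_add] at h3 h5 h6
  have h4 := (h1.const_mul (v (n + 1))).div_const (2 * b (n + 1))
  refine le_trans ?_ (integral_mono ((h4.add (integrable_const (c + Fintype.card I / 2 *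
    ∑ k ∈ range (n + 1), Real.log (b k / b (k + 1)) / ze n k))).sub h5) h3
    fun z => le_trans (le_of_eq ?_) (key _ le_rfl _))
  · simp only [Pi.add_apply, Pi.sub_apply]
    rw [integral_sub (by exact h4.add (integrable_const _)) h5, integral_add h4
      (integrable_const _), integral_div, integral_const_mul, h2, qv]
    rw [div_pow, Real.sq_sqrt (hv _ le_rfl), show sqn (0 : I → ℝ) = 0 by simp [sqn]] at h6
    simp only [integral_const, probReal_univ, one_smul]
    refine sub_le_sub (le_of_eq ?_) h6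
    ring
  · simp only [Pi.add_apply, Pi.sub_apply, sqn_mul, div_pow, Real.sq_sqrt (hv _ le_rfl)]
    rw [div_mul_eq_mul_div (v _) _ (sqn z)]

end Vale.Agent.P157
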