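import Vale.Agent.P157.UBB

/-!
# P157: specialised estimates for the upper bound
-/

namespace Vale.Agent.P157

open Vale.Agent.P168 Vale.Agent.P168.PW Finset MeasureTheory Filter Topology
open scoped BigOperators

set_option synthInstance.maxSize 4096

namespace UBB

theorem numUB {h β β' N x a e E η δ El : ℝ} (hh : 0 < h) (hN : 0 < N) (hη : 0 < η) (hβ : η ≤ β)
    (hβ' : β ≤ β') (hx : 0 ≤ x) (ha : a ≤ 1) (he1 : e ≤ 1) (he : 2 * e ≤ δ / 4)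
    (h1 : 3 / 2 * h ≤ δ / 4 * η) (h2 : h + E ≤ δ / 2 * (η * h) * N)
    (h3 : β' * (N * x) - 1 ≤ El) (h4 : h * El ≤ N * ((β * h + h ^ 2 / 2) * (a + 2 * e)) + E) :
    x ≤ a + δ := by
  have hδ : 0 ≤ δ := by
    by_contra hd
    push Not at hd
    nlinarith
  have hβ0 : 0 < β := hη.trans_le hβ
  refine le_of_mul_le_mul_left ?_ (by positivity : 0 < N * (β * h))
  have a1 : β * (N * x) ≤ β' * (N * x) := mul_le_mul_of_nonneg_right hβ' (by positivity)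
  have a2 : h * (β * (N * x) - 1) ≤ h * El := mul_le_mul_of_nonneg_left (by linarith) hh.le
  have a3 : h ^ 2 / 2 * (a + 2 * e) ≤ h ^ 2 / 2 * 3 := by gcongr; linarith
  have a4 : h * (3 / 2 * h) ≤ h * (δ / 4 * β) :=
    mul_le_mul_of_nonneg_left (h1.trans (by gcongr)) hh.le
  have a5 : β * h * (2 * e) ≤ β * h * (δ / 4) := by gcongr
  have a6 : δ / 2 * (η * h) * N ≤ δ / 2 * (β * h) * N := by gcongr
  have a7 : (β * h + h ^ 2 / 2) * (a + 2 * e) ≤ β * h * (a + δ / 2) := by nlinarith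
  have a8 := mul_le_mul_of_nonneg_left a7 hN.le
  nlinarith

theorem constUB (n : ℕ) (ε δ t C : ℝ) (hε : 0 < ε) (hδ : 0 < δ) (hC : 0 ≤ C) :
    ∃ (e η B h w : ℝ) (R : ℕ), (0 < e ∧ e ≤ 1 ∧ 2 * e ≤ δ / 4) ∧
      (0 < η ∧ η ≤ 1 ∧ (n + 1) * (3 / 2 * η ^ 2) ≤ ε / 3) ∧ (2 ≤ B ∧ t ≤ e * (B - 1) ^ 2) ∧
      (0 < h ∧ h ≤ 1 ∧ 3 / 2 * h ≤ δ / 4 * η) ∧
      (0 < w ∧ w ≤ η ∧ (n + 1) * (B * w + w ^ 2 / 2) ≤ ε / 3 ∧
        2 * ((B + 2) * ((n + 1) * w)) ≤ δ / 4 * (η * h)) ∧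
      0 < R ∧ C * ((n + 1) * (4 * (B + 2))) / η / R ≤ δ / 3 := by
  obtain ⟨e, he0, he1, he⟩ : ∃ e : ℝ, 0 < e ∧ e ≤ 1 ∧ 2 * e ≤ δ / 4 :=
    ⟨min 1 (δ / 8), by positivity, min_le_left _ _, by linarith [min_le_right 1 (δ / 8)]⟩
  obtain ⟨η, hη, hη1, hη2⟩ : ∃ η : ℝ, 0 < η ∧ η ≤ 1 ∧ (n + 1) * (3 / 2 * η ^ 2) ≤ ε / 3 := by
    obtain ⟨x, hx, h⟩ := smallUB ((n + 1) * (3 / 2)) (ε / 3) (by positivity)
    refine ⟨min 1 x, by positivity, min_le_left _ _, ?_⟩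
    rw [← mul_assoc]
    refine h _ (by positivity) (le_trans ?_ (min_le_right 1 x))
    exact pow_le_of_le_one (by positivity) (min_le_left _ _) two_ne_zero
  obtain ⟨B, hB, hB2⟩ : ∃ B : ℝ, 2 ≤ B ∧ t ≤ e * (B - 1) ^ 2 := by
    refine ⟨max 1 (t / e) + 1, by linarith [le_max_left 1 (t / e)], ?_⟩
    rw [add_sub_cancel_right, ← div_le_iff₀' he0]
    exact (le_max_right 1 _).trans (le_self_pow₀ (le_max_left _ _) two_ne_zero)
  obtain ⟨h, hh, hh1, hh2⟩ : ∃ h : ℝ, 0 < h ∧ h ≤ 1 ∧ 3 / 2 * h ≤ δ / 4 * η := by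
    obtain ⟨x, hx, h⟩ := smallUB (3 / 2) (δ / 4 * η) (by positivity)
    exact ⟨min 1 x, by positivity, min_le_left _ _, h _ (by positivity) (min_le_right _ _)⟩
  obtain ⟨w, hw, hw1, hw2, hw3⟩ : ∃ w : ℝ, 0 < w ∧ w ≤ η ∧ (n + 1) * (B * w + w ^ 2 / 2) ≤ ε / 3 ∧
      2 * ((B + 2) * ((n + 1) * w)) ≤ δ / 4 * (η * h) := by
    obtain ⟨x, hx, h1⟩ := smallUB ((n + 1) * (B + 1)) (ε / 3) (by positivity)
    obtain ⟨y, hy, h2⟩ := smallUB (2 * ((B + 2) * (n + 1))) (δ / 4 * (η * h)) (by positivity)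
    have hw : 0 < min η (min x y) := by positivity
    have h3 := h1 _ hw.le ((min_le_right _ _).trans (min_le_left _ _))
    have h4 := h2 _ hw.le ((min_le_right _ _).trans (min_le_right _ _))
    have h5 := (min_le_left η (min x y)).trans hη1
    refine ⟨_, hw, min_le_left _ _, le_trans ?_ h3, by linarith⟩
    rw [mul_assoc]
    gcongr
    nlinarith
  obtain ⟨R, hR⟩ := exists_nat_gt (C * ((n + 1) * (4 * (B + 2))) / η / (δ / 3))
  have : (0 : ℝ) < R := lt_of_le_of_lt (by positivity) hR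
  refine ⟨e, η, B, h, w, R, ⟨he0, he1, he⟩, ⟨hη, hη1, hη2⟩, ⟨hB, hB2⟩, ⟨hh, hh1, hh2⟩,
    ⟨hw, hw1, hw2, hw3⟩, by exact_mod_cast this, ?_⟩
  rw [div_le_iff₀ this, ← div_le_iff₀' (by positivity)]
  exact hR.le

theorem topU (M : ℕ) (I : Type) [Fintype I] [DecidableEq I] (c ε : ℝ) (hε : 0 < ε) :
    ∃ K0 : ℕ, ∀ K, K0 ≤ K → ∀ (n : ℕ) (S : Type) [Fintype S] (μ : PW S) (θ : S → I → ℝ)
      (F : ℕ → ℝ → ℝ) (N : ℝ), 0 < N → (∀ σ, ∑ i, θ σ i ^ 2 = N) → Sm c 3 F → 0 ≤ c →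
      fZ μ (fun σ i => θ σ i / Real.sqrt N) (F 0) (Fin M) ≤ Phi (n := n) K M μ θ F N M 0 + ε := by
  obtain ⟨K4, hK4⟩ := lip_clt (Fin M) I c ε hε
  refine ⟨K4, fun K k4 n S _ μ θ F N hN0 hθ hF hc0 => ?_⟩
  have hx : ∀ σ i, |θ σ i / Real.sqrt N| ≤ 1 := fun σ i => by
    rw [abs_div, abs_of_nonneg (Real.sqrt_nonneg _), div_le_one (Real.sqrt_pos.mpr hN0)]
    exact abs_le_sqrt (hθ σ) i
  have top := hK4 (Fin K) (by simpa using k4) (fun g => Real.log (μ.E fun σ =>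
    Real.exp (∑ a, F 0 (∑ i, g a i * (θ σ i / Real.sqrt N))))) fun g g' => by
      have := abs_lam_sub_le one_pos μ (Y := fun σ => ∑ a, F 0 (∑ i, g a i * (θ σ i / Real.sqrt N)))
        (Y' := fun σ => ∑ a, F 0 (∑ i, g' a i * (θ σ i / Real.sqrt N)))
        (c := c * ∑ a, ∑ i, |g a i - g' a i|) fun σ => by
          rw [← sum_sub_distrib, mul_sum]
          refine (abs_sum_le_sum_abs _ _).trans (sum_le_sum fun a _ => (lip0 hF _ _).trans ?_)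
          gcongr
          rw [← sum_sub_distrib]
          refine (abs_sum_le_sum_abs _ _).trans (sum_le_sum fun i _ => ?_)
          rw [← sub_mul, abs_mul]
          exact mul_le_of_le_one_right (abs_nonneg _) (hx σ i)
      simpa only [lam, one_mul, div_one] using this
  rw [← Phi_top (n := n)] at top
  rw [fZ]
  linarith [(abs_le.mp top).2]

/-- the overlap fluctuation -/
noncomputable def Dv {n : ℕ} (K M : ℕ) {S I : Type} [Fintype S] [Fintype I] [DecidableEq I]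
    (μ : PW S) (θ : S → I → ℝ) (F : ℕ → ℝ → ℝ) (N : ℝ) (m : ℕ) (β : Fin (n + 1) → ℝ) : ℝ :=
  dev n (Tn n (Pu n K M I μ) (Gu θ F N m β)) (ru n K M I μ)
    fun j x y => ov (uu θ) N x y - rp K M μ θ F N m β j

theorem cmpU (c t : ℝ) (ht : 0 < t) : ∃ C : ℝ, 0 ≤ C ∧ ∀ n d : ℕ, ∃ K0 : ℕ, ∀ K, K0 ≤ K →
    ∀ (M : ℕ) (S I : Type) [Fintype S] [Fintype I] [DecidableEq I] (μ : PW S) (θ : S → I → ℝ)
      (F : ℕ → ℝ → ℝ) (N : ℝ) (p : ℕ → ℝ) (δ : ℝ), Fintype.card I ≤ d → 0 < K → 0 < N →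
      (∀ σ, ∑ i, θ σ i ^ 2 = N) → Sm c 3 F → Adm n p → wt n ≤ δ → ∀ m < M,
      ∀ β : Fin (n + 1) → ℝ, (∀ l, l ≤ n → cum n p l - δ ≤ cum n (rp K M μ θ F N m β) l) →
      Phi K M μ θ F N (m + 1) β ≤ Phi K M μ θ F N m β +
        (phiK n K (vr n p) (F 0) + (t + C * (2 * δ + Dv K M μ θ F N m β))) := by
  obtain ⟨C, hC, hcmp⟩ := cmp c t ht
  refine ⟨C, hC, fun n d => ?_⟩
  obtain ⟨K2, hK2⟩ := hcmp n d
  refine ⟨K2, fun K k2 M S I _ _ _ μ θ F N p δ hd hK hN0 hθ hF hp hwt m hm β c1 => ?_⟩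
  have hδ := (wt_pos n).trans_le hwt
  have q1 := (cum_rp (M := M) (μ := μ) (F := F) hK hN0 hθ m β).1
  have k := (hK2 K k2 _ I _ _ _ (fun i ω => θ ω.1 i / Real.sqrt N) F p
    (rp K M μ θ F N m β) (2 * δ) hd
    (ok_c (μ := μ) (θ := θ) (F := F) (N := N) ⟨m, hm⟩ β) (fun _ _ => rfl)
    (fun _ _ => rfl) (fun _ _ _ => rfl)
    (fun ω => by simp only [div_pow, ← sum_div, hθ, Real.sq_sqrt hN0.le, div_self hN0.ne'])
    hF hp (fun j _ _ => by rw [abs_of_nonneg (q1 j).1]; exact (q1 j).2)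
    (by positivity)).1 fun l _ hl => by
      rcases Nat.lt_or_ge n l with h1 | h1
      · obtain rfl : l = n + 1 := by omega
        rw [cum_succ, cum_succ]
        have h2 : wt n * p (n + 1) ≤ wt n * 1 :=
          mul_le_mul_of_nonneg_left (hp.le_one le_rfl) (wt_pos n).le
        linarith [c1 n le_rfl, mul_nonneg (wt_pos n).le (q1 (n + 1)).1]
      · linarith [c1 l h1]
  have e1 : ov (fun i (ω : Uu n K M S I) => θ ω.1 i / Real.sqrt N) 1 = ov (uu θ) N := by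
    funext x y
    simp only [ov, ov_uu hK, div_mul_div_comm, Real.mul_self_sqrt hN0.le, div_one, sum_div]
  rw [e1] at k
  rw [← Fr_casc (M := M) (μ := μ) (θ := θ) (N := N) m β]
  exact (Phi_succ ⟨m, hm⟩ _).le.trans (add_le_add le_rfl k)

variable {n K M : ℕ} {S I : Type} [Fintype S] [Fintype I] [DecidableEq I] {μ : PW S}
  {θ : S → I → ℝ} {F : ℕ → ℝ → ℝ} {N B : ℝ}

theorem hLpU (hK : 0 < K) (hN : 1 ≤ N) (hθ : ∀ σ, ∑ i, θ σ i ^ 2 = N)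
    (k1 : (B + 1) * (Real.sqrt N / Real.sqrt K) ≤ 1 / 2)
    (k2 : 100 * (B + 1) ^ 2 * N * Fintype.card I * Real.sqrt N / Real.sqrt K ≤ 1) (m : ℕ)
    (β : Fin (n + 1) → ℝ) (hβ : ∀ l, 0 ≤ β l ∧ β l ≤ B + 1) (l : Fin (n + 1)) :
    |El K M μ θ F N m β l| ≤ N * (B + 2) := by
  have hN0 : 0 < N := by positivity
  have h1 := abs_le.mp (ibp_u (M := M) (μ := μ) (F := F) hK hN0 hθ m β l
      (by rw [abs_of_nonneg (hβ l).1]; exact (hβ l).2) k1 k2)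
  have h2 := (cum_rp (M := M) (μ := μ) (F := F) hK hN0 hθ m β).2 l (by omega)
  have h3 : 0 ≤ β l * (N * (1 - cum n (rp K M μ θ F N m β) l)) :=
    mul_nonneg (hβ l).1 (mul_nonneg hN0.le (by linarith [h2.2]))
  have h4 : β l * (N * (1 - cum n (rp K M μ θ F N m β) l)) ≤ (B + 1) * (N * 1) :=
    mul_le_mul (hβ l).2 (mul_le_mul_of_nonneg_left (by linarith [h2.1]) hN0.le)
      (mul_nonneg hN0.le (by linarith [h2.2])) ((hβ l).1.trans (hβ l).2)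
  have h5 : 0 ≤ N * (B + 1) := mul_nonneg hN0.le ((hβ l).1.trans (hβ l).2)
  rw [abs_le]
  constructor <;> linarith [h1.1, h1.2]

theorem P5 {L : ℝ} (m : ℕ) (β β' : Fin (n + 1) → ℝ) (h : ∀ l, |El K M μ θ F N m β l| ≤ L) :
    Phi K M μ θ F N m β - Phi K M μ θ F N m β' ≤ L * ∑ l, |β l - β' l| := by
  have h1 := cvx (K := K) (M := M) (μ := μ) (θ := θ) (F := F) (N := N) m β (β' - β)
  rw [add_sub_cancel] at h1
  have h2 : -∑ l, (β' - β) l * El K M μ θ F N m β l ≤ L * ∑ l, |β l - β' l| := by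
    rw [← sum_neg_distrib, mul_sum]
    refine sum_le_sum fun l _ => (neg_le_abs _).trans ?_
    rw [abs_mul, Pi.sub_apply, abs_sub_comm, mul_comm]
    exact mul_le_mul_of_nonneg_right (h l) (abs_nonneg _)
  linarith

theorem cumU {h η δ e E a b : ℝ} (hK : 0 < K) (hN : 0 < N) (hθ : ∀ σ, ∑ i, θ σ i ^ 2 = N)
    (k1 : (B + 1) * (Real.sqrt N / Real.sqrt K) ≤ 1 / 2)
    (k2 : 100 * (B + 1) ^ 2 * N * Fintype.card I * Real.sqrt N / Real.sqrt K ≤ 1) (m : ℕ)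
    (β : Fin (n + 1) → ℝ) (l : Fin (n + 1)) (hβ : β l ≤ B + 1) (hh : 0 < h) (hη : 0 < η)
    (hb : η ≤ b) (hb' : b ≤ β l) (ha : 0 ≤ a) (he1 : e ≤ 1) (he : 2 * e ≤ δ / 4)
    (h1 : 3 / 2 * h ≤ δ / 4 * η) (h2 : h + E ≤ δ / 2 * (η * h) * N)
    (H : Phi K M μ θ F N m (β + Pi.single l h) - Phi K M μ θ F N m β ≤
      N * ((b * h + h ^ 2 / 2) * (1 - a + 2 * e)) + E) :
    a - δ ≤ cum n (rp K M μ θ F N m β) l := by
  have i1 := abs_le.mp (ibp_u (M := M) (μ := μ) (F := F) hK hN hθ m β l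
      (by rw [abs_of_nonneg (by linarith)]; exact hβ) k1 k2)
  have q2 := (cum_rp (M := M) (μ := μ) (F := F) hK hN hθ m β).2 l (by omega)
  have h3 := cvx (K := K) (M := M) (μ := μ) (θ := θ) (F := F) (N := N) m β (Pi.single l h)
  simp only [Pi.single_apply, ite_mul, zero_mul, sum_ite_eq', mem_univ, if_true] at h3
  have := numUB (x := 1 - cum n (rp K M μ θ F N m β) l) (a := 1 - a) (E := E)
    (El := El K M μ θ F N m β l) hh hN hη hb hb' (by linarith [q2.2]) (by linarith) he1 he h1 h2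
    (by linarith [i1.1]) (le_trans (by linarith) H)
  linarith

theorem ocU (δ : ℝ) (hδ : 0 < δ) : ∃ n0 : ℕ, ∀ n, n0 ≤ n → ∃ C : ℝ, 0 ≤ C ∧
    ∀ (K M : ℕ) (S I : Type) [Fintype S] [Fintype I] [DecidableEq I] (μ : PW S) (θ : S → I → ℝ)
      (F : ℕ → ℝ → ℝ) (N c η B g : ℝ) (R : ℕ) [NeZero R] (m : ℕ) (β : Fin (n + 1) → ℝ),
      0 < K → 1 ≤ N → (∀ σ, ∑ i, θ σ i ^ 2 = N) → (∀ x, |F 0 x| ≤ c) → 0 < η → 0 < g → g ≤ η →
      g * R ≤ 1 → (∀ l, η ≤ β l ∧ β l ≤ B) →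
      (B + 1) * (Real.sqrt N / Real.sqrt K) ≤ 1 / 2 →
      100 * (B + 1) ^ 2 * N * Fintype.card I * Real.sqrt N / Real.sqrt K ≤ 1 →
      (unif (Fin (n + 1) → Fin R)).E (fun z => Dv K M μ θ F N m (win β g z)) ≤
        δ + (C * ((n + 1) * (4 * (B + 2))) / η / R + (C * (n + 1) / g / η * (8 * c) *
          Real.sqrt M + C * (n + 1) / g / η * (n + 1)) / N +
        C * ((B + 1) * Real.sqrt N * (1 + Fintype.card I) ^ 2) / Real.sqrt K) := by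
  obtain ⟨n1, hoc⟩ := oc_win 1 δ hδ
  refine ⟨n1, fun n hn => ?_⟩
  obtain ⟨C, hC, hoc⟩ := hoc n hn
  refine ⟨C, hC, fun K M S I _ _ _ μ θ F N c η B g R _ m β hK hN hθ hc hη hg hg1 hg2 hβ k1 k2 => ?_⟩
  have hN0 : 0 < N := by positivity
  have hK' : (0 : ℝ) < K := by exact_mod_cast hK
  have hR : (0 : ℝ) < R := by exact_mod_cast Nat.pos_of_ne_zero (NeZero.ne R)
  have o := hoc _ _ (Pu n K M I μ) (ru n K M I μ) (Hu θ F N m) (su n K M S I) (uu θ)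
    (Real.sqrt N / Real.sqrt K) N η (B + 1) (Fintype.card I) g (N * (B + 2))
    (2 * c * Real.sqrt M) β R (fs_u hθ m) (by positivity) hN0 hη hg
    (fun ω => by rw [sum_uu hK hθ, one_mul])
    (fun l => by constructor <;> linarith [hβ l]) k1
    (le_of_eq (by
      rw [Fintype.card_prod, Fintype.card_fin, div_pow, Real.sq_sqrt hN0.le,
        Real.sq_sqrt hK'.le]
      push_cast
      field_simp))
    (fun β' h' => hLpU hK hN hθ k1 k2 m β' fun l => by constructor <;> linarith [h' l, hβ l])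
    fun β' _ => es_u hc m β'
  refine o.trans (add_le_add le_rfl (le_of_eq ?_))
  field_simp
  ring

end UBB

end Vale.Agent.P157
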