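import Vale.Agent.P157.Ovl
import Vale.Agent.P157.Cmp
import Vale.Agent.P157.Gau
import Vale.Agent.P157.UBC

/-!
# P157: the upper bound
-/

namespace Vale.Agent.P157

open Vale.Agent.P168 Vale.Agent.P168.PW Finset MeasureTheory Filter Topology
open scoped BigOperators

set_option synthInstance.maxSize 4096

open UBB in
theorem ub (c α ε : ℝ) (hε : 0 < ε) : ∃ n0 : ℕ, ∀ n, n0 ≤ n → ∀ F : ℕ → ℝ → ℝ, Sm c 3 F →
    (∀ x, |F 0 x| ≤ c) → ∀ (p : ℕ → ℝ) (s : ℝ), Adm n p → ∃ V N0 : ℝ, ∀ N : ℝ, N0 ≤ N →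
    ∀ (S I : Type) [Fintype S] [Fintype I] [DecidableEq I] (μ : PW S) (θ : S → I → ℝ) (M : ℕ),
      (∀ σ, ∑ i, θ σ i ^ 2 = N) → M ≤ α * N →
      (∃ K0 : ℕ, ∀ K, K0 ≤ K → ∀ β : ℕ → ℝ, ∑ l ∈ range (n + 2), tv n (fun _ => 0) β l ≤ V →
        psi2 n μ θ K K (fun _ => 0) β ≤ N * (s + pen n p (tv n (fun _ => 0) β) + ε)) →
      fZ μ (fun σ i => θ σ i / Real.sqrt N) (F 0) (Fin M) ≤
        N * (s + 2 * ε) + M * (Cas n (vr n p) (F 0) + ε) := by
  obtain ⟨C1, hC1, hcmp⟩ := cmpU c (ε / 8) (by positivity)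
  obtain ⟨δ, hδ, hδ1⟩ := smallUB C1 (ε / 8) (by positivity)
  replace hδ1 := hδ1 δ hδ.le le_rfl
  obtain ⟨n1, hoc⟩ := ocU δ hδ
  obtain ⟨n2, hn2⟩ := exists_nat_gt (1 / δ)
  refine ⟨max n1 n2, fun n hn F hF hc p s hp => ?_⟩
  have hwt : wt n ≤ δ := by
    have : (n2 : ℝ) ≤ n := by exact_mod_cast le_of_max_le_right hn
    rw [div_lt_iff₀ hδ] at hn2
    rw [wt, div_le_iff₀ (by positivity)]
    nlinarith
  obtain ⟨C2, hC2, hoc⟩ := hoc n (le_of_max_le_left hn)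
  have hc0 : 0 ≤ c := (abs_nonneg _).trans (hc 0)
  obtain ⟨e, η, B, h, w, R, ⟨he0, he1, he⟩, ⟨hη, hη1, hη2⟩, ⟨hB, hB2⟩, ⟨hh, hh1, hh2⟩,
    ⟨hw, hw1, hw2, hw3⟩, hR, hR1⟩ :=
    constUB n ε δ (s + 2 * ε + 2 * (|α| * c) + 2 * c) C2 hε hδ hC2
  have : NeZero R := ⟨hR.ne'⟩
  have hR' : (1 : ℝ) ≤ R := by exact_mod_cast hR
  have hwR : w / R * R = w := div_mul_cancel₀ _ (by positivity)
  have hg : 0 < w / R := by positivity
  obtain ⟨N1, hN1⟩ := largeNUB 0 (h + 2 * c) α (δ / 4 * (η * h)) le_rfl (by positivity)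
  obtain ⟨N2, hN2⟩ := largeNUB (C2 * (n + 1) / (w / R) / η * (8 * c))
    (C2 * (n + 1) / (w / R) / η * (n + 1)) α (δ / 3) (by positivity) (by positivity)
  refine ⟨(n + 1) * (B + 1) ^ 2, max 1 (max N1 N2), fun N hN S I _ _ _ μ θ M hθ hM ⟨K1, hK1⟩ => ?_⟩
  have hN1' : 1 ≤ N := le_of_max_le_left hN
  have hN0 : 0 < N := by positivity
  replace hN1 := hN1 N (le_of_max_le_left (le_of_max_le_right hN)) M (Nat.cast_nonneg _) hM
  replace hN2 := hN2 N (le_of_max_le_right (le_of_max_le_right hN)) M (Nat.cast_nonneg _) hM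
  obtain ⟨K2, hK2⟩ := hcmp n (Fintype.card I)
  obtain ⟨K3, hK3⟩ := phiK_lim n c (ε / 8) (by positivity)
  obtain ⟨K4, hK4⟩ := topU M I c (ε / 3) (by positivity)
  obtain ⟨K5, hK5⟩ := largeKUB ((B + 1) * Real.sqrt N) (1 / 2) (by positivity)
  obtain ⟨K6, hK6⟩ := largeKUB (100 * (B + 1) ^ 2 * N * Fintype.card I * Real.sqrt N) 1 one_pos
  obtain ⟨K7, hK7⟩ := largeKUB (C2 * ((B + 1) * Real.sqrt N * (1 + Fintype.card I) ^ 2)) (δ / 3)
    (by positivity)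
  obtain ⟨K, k1, k2, k3, k4, k5, k6, k7⟩ : ∃ K, K1 ≤ K ∧ K2 ≤ K ∧ K3 ≤ K ∧ K4 ≤ K ∧ K5 ≤ K ∧
      K6 ≤ K ∧ K7 ≤ K := ⟨K1 + K2 + K3 + K4 + K5 + K6 + K7, by omega⟩
  obtain ⟨hK, hK5⟩ := hK5 K k5
  rw [mul_div_assoc] at hK5
  replace hK6 := (hK6 K k6).2
  replace hK7 := (hK7 K k7).2
  replace hK3 := abs_le.mp (hK3 K k3 p (F 0) hp (lip0 hF))
  have top := hK4 K k4 n S μ θ F N hN0 hθ hF hc0
  have cp : ∀ l, l ≤ n + 1 → 0 ≤ cum n p l ∧ cum n p l ≤ 1 := fun l hl =>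
    ⟨cum_nonnegUB fun j _ hj => hp.2.nonneg (hj.trans hl),
      cum_le_oneUB hl fun j _ hj => hp.le_one (hj.trans hl)⟩
  have hs : N * ((n + 1) * (B * w + w ^ 2 / 2) + (n + 1) * (3 / 2 * η ^ 2)) ≤
      N * (ε / 3 + ε / 3) := mul_le_mul_of_nonneg_left (add_le_add hw2 hη2) hN0.le
  have main := optUB (R := R) (Phi (n := n) K M μ θ F N) (fun l => 1 - cum n p l) M (c := c)
    (A := N * (s + ε)) (N := N) (e := e) (η := η) (B := B) (h := h) (g := w / R)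
    (Lp := N * (B + 2)) (φ := Cas n (vr n p) (F 0) + ε) hN0.le
    (fun l => by constructor <;> linarith only [cp l l.2.le]) he0.le he1 hη.le
    (by linarith only [hη1, hB]) (by linarith only [hB]) hh.le hh1 hg.le
    (by linarith only [hwR, hw1, hη1]) (by positivity)
    (by
      have : |phiK n K (vr n p) (F 0)| ≤ c := abs_Fr_le fun _ => hc _
      linarith only [(abs_le.mp this).1, hK3.2, hε])
    (P1 hc) (P2 hθ) (fun β hβ => ?_) (P4 hθ M)
    (fun m β β' hβ => P5 m β β' (hLpU hK hN1' hθ hK5 hK6 m β hβ)) ?_ fun m hm β hβ H => ?_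
  · rw [hwR, Fintype.card_fin] at main
    push_cast at main
    have h2 : ε / 3 * 1 ≤ ε / 3 * N := by gcongr
    linarith only [top, main, hs, h2]
  · rw [Phi_zero]
    refine (hK1 K k1 _ ?_).trans (le_of_eq ?_)
    · have := sum_tv β fun _ => 1
      simp only [mul_one] at this
      rw [this]
      refine (sum_le_sum fun l _ => pow_le_pow_left₀ (hβ l).1 (hβ l).2 2).trans (le_of_eq ?_)
      simp
    · rw [pen, sum_tv β fun l => 1 - cum n p l]
      ring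
  · rw [hwR, Fintype.card_fin]
    push_cast
    have h2 := mul_le_mul_of_nonneg_left hB2 hN0.le
    have h3 : M * c ≤ |α| * N * c :=
      mul_le_mul_of_nonneg_right (hM.trans (mul_le_mul_of_nonneg_right (le_abs_self α) hN0.le)) hc0
    have h4 : c * 1 ≤ c * N := by gcongr
    have h5 : 0 ≤ N * ε := by positivity
    linarith only [hs, h2, h3, h4, h5]
  · rw [hwR, Fintype.card_fin] at H
    push_cast at H
    have o := hoc K M S I μ θ F N c η B (w / R) R m β hK hN1' hθ hc hη hg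
      ((div_le_self hw.le hR').trans hw1) (by linarith only [hwR, hw1, hη1]) hβ hK5 hK6
    rw [← div_le_iff₀ hN0] at hN2
    replace o := o.trans (add_le_add le_rfl (add_le_add (add_le_add hR1 hN2) hK7))
    have h3 := mul_le_mul_of_nonneg_left hw3 hN0.le
    have key := fun z : Fin (n + 1) → Fin R => hK2 K k2 M S I μ θ F N p δ le_rfl hK hN0 hθ hF hp
      hwt m hm (win β (w / R) z) fun l hl =>
        cumU hK hN0 hθ hK5 hK6 m _ ⟨l, Nat.lt_succ_of_le hl⟩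
          (by linarith only [(win_mem β hg.le z ⟨l, Nat.lt_succ_of_le hl⟩).2, hwR, hw1, hη1,
            (hβ ⟨l, Nat.lt_succ_of_le hl⟩).2])
          hh hη (hβ _).1 (win_mem β hg.le z _).1 (cp l (by omega)).1 he1 he hh2
          (by linarith only [h3, hN1]) (H z ⟨l, Nat.lt_succ_of_le hl⟩)
    refine (E_mono _ key).trans ?_
    simp only [E_add, E_const, E_const_mul]
    have := mul_le_mul_of_nonneg_left (add_le_add (le_refl (2 * δ)) o) hC1
    refine add_le_add le_rfl (le_trans (add_le_add le_rfl (add_le_add le_rfl this)) ?_)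
    linarith only [hδ1, hK3.2, hε]

end Vale.Agent.P157
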