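import Vale.Agent.P157.OcW

/-!
# P157: the optimisation argument of the upper bound
-/

namespace Vale.Agent.P157

open Vale.Agent.P168 Vale.Agent.P168.PW Finset MeasureTheory Filter Topology
open scoped BigOperators

theorem optUB {J : Type} [Fintype J] [DecidableEq J] {R : ℕ} [NeZero R] (Φ : ℕ → (J → ℝ) → ℝ)
    (a : J → ℝ) (M : ℕ) {c A N e η B h g Lp φ : ℝ} (hN : 0 ≤ N) (ha : ∀ l, 0 ≤ a l ∧ a l ≤ 1)
    (he : 0 ≤ e) (he1 : e ≤ 1) (hη : 0 ≤ η) (hB : η ≤ B) (hB1 : 1 ≤ B) (hh : 0 ≤ h) (hh1 : h ≤ 1)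
    (hg : 0 ≤ g) (hg1 : g * R ≤ 1) (hLp : 0 ≤ Lp) (hφ : -c ≤ φ)
    (P1 : ∀ m β, |Φ (m + 1) β - Φ m β| ≤ c) (P2 : ∀ β, 0 ≤ Φ 0 β)
    (P3 : ∀ β, (∀ l, 0 ≤ β l ∧ β l ≤ B + 1) → Φ 0 β ≤ A + N / 2 * ∑ l, β l ^ 2 * a l)
    (P4 : ∀ β, Φ M 0 ≤ Φ M β)
    (P5 : ∀ m β β', (∀ l, 0 ≤ β l ∧ β l ≤ B + 1) → Φ m β - Φ m β' ≤ Lp * ∑ l, |β l - β' l|)
    (co : A + 2 * M * c + 2 * c + N * (Fintype.card J * (B * (g * R) + (g * R) ^ 2 / 2) +
      Fintype.card J * (3 / 2 * η ^ 2)) ≤ N * (e * (B - 1) ^ 2))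
    (P6 : ∀ m < M, ∀ β : J → ℝ, (∀ l, η ≤ β l ∧ β l ≤ B) →
      (∀ (z : J → Fin R) l, Φ m (win β g z + Pi.single l h) - Φ m (win β g z) ≤
        N * ((β l * h + h ^ 2 / 2) * (a l + 2 * e)) +
          (2 * c + 2 * (Lp * (Fintype.card J * (g * R))))) →
      (unif (J → Fin R)).E (fun z => Φ (m + 1) (win β g z)) ≤
        (unif (J → Fin R)).E (fun z => Φ m (win β g z)) + φ) :
    Φ M 0 ≤ A + N * (Fintype.card J * (B * (g * R) + (g * R) ^ 2 / 2) +
      Fintype.card J * (3 / 2 * η ^ 2)) + M * φ := by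
  have hc : 0 ≤ c := (abs_nonneg _).trans (P1 0 0)
  set w := g * R with hw
  have hw0 : 0 ≤ w := by positivity
  set pn : (J → ℝ) → ℝ := fun β => N / 2 * ∑ l, β l ^ 2 * (a l + 2 * e) with hpn
  set val : ℕ → (J → ℝ) → ℝ := fun m β => (unif (J → Fin R)).E (fun z => Φ m (win β g z)) - pn β
    with hval
  set box : Set (J → ℝ) := {β | ∀ l, η ≤ β l ∧ β l ≤ B} with hbox
  have wbox : ∀ β ∈ box, ∀ (z : J → Fin R) l, 0 ≤ win β g z l ∧ win β g z l ≤ B + 1 :=
    fun β hβ z l => by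
      have := win_mem β hg z l
      constructor <;> linarith [(hβ l).1, (hβ l).2, this.1, this.2]
  have Pm : ∀ (m : ℕ) β, |Φ m β - Φ 0 β| ≤ m * c := fun m β => by
    induction m with
    | zero => simp
    | succ m ih =>
      have := abs_sub_le (Φ (m + 1) β) (Φ m β) (Φ 0 β)
      push_cast
      linarith [P1 m β]
  have up : ∀ (m : ℕ), ∀ β ∈ box, val m β ≤ A + m * c +
      N * (Fintype.card J * (B * w + w ^ 2 / 2)) - N * (e * ∑ l, β l ^ 2) := fun m β hβ => by
    have h1 : ∀ z : J → Fin R, Φ m (win β g z) ≤ A + m * c +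
        N / 2 * ∑ l, (β l ^ 2 * a l + (2 * (B * w) + w ^ 2)) := fun z => by
      have h2 : ∑ l, win β g z l ^ 2 * a l ≤ ∑ l, (β l ^ 2 * a l + (2 * (B * w) + w ^ 2)) :=
        sum_le_sum fun l _ => by
          have h3 := win_mem β hg z l
          have h4 : win β g z l ^ 2 ≤ (β l + w) ^ 2 :=
            pow_le_pow_left₀ (wbox β hβ z l).1 h3.2 2
          have h5 : β l * w ≤ B * w := mul_le_mul_of_nonneg_right (hβ l).2 hw0
          have h6 : 0 ≤ 2 * (B * w) + w ^ 2 := by positivity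
          nlinarith [(ha l).1, (ha l).2, mul_le_mul_of_nonneg_right h4 (ha l).1,
            mul_le_mul_of_nonneg_right h5 (ha l).1]
      have h3 := P3 _ (wbox β hβ z)
      have h4 := mul_le_mul_of_nonneg_left h2 (by positivity : 0 ≤ N / 2)
      linarith [(abs_le.mp (Pm m (win β g z))).2]
    have h2 := E_le_const (unif (J → Fin R)) h1
    simp only [hval, hpn, mul_add, sum_add_distrib, sum_const, card_univ, nsmul_eq_mul,
      ← sum_mul] at h2 ⊢
    nlinarith
  have bdd : ∀ m, BddAbove (val m '' box) := fun m => ⟨_, by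
    rintro _ ⟨β, hβ, rfl⟩
    refine (up m β hβ).trans (sub_le_self _ ?_)
    have : 0 ≤ ∑ l, β l ^ 2 := sum_nonneg fun _ _ => sq_nonneg _
    positivity⟩
  have ηbox : (fun _ => η) ∈ box := fun _ => ⟨le_rfl, hB⟩
  have ne : ∀ m, (val m '' box).Nonempty := fun m => ⟨_, _, ηbox, rfl⟩
  have leG : ∀ m, ∀ β ∈ box, val m β ≤ sSup (val m '' box) := fun m β hβ =>
    le_csSup (bdd m) ⟨β, hβ, rfl⟩
  have pη : pn (fun _ => η) ≤ N * (Fintype.card J * (3 / 2 * η ^ 2)) := by
    have : ∑ l, η ^ 2 * (a l + 2 * e) ≤ ∑ _l : J, 3 * η ^ 2 := sum_le_sum fun l _ => by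
      nlinarith [(ha l).2, sq_nonneg η]
    rw [sum_const, card_univ, nsmul_eq_mul] at this
    have := mul_le_mul_of_nonneg_left this (by positivity : 0 ≤ N / 2)
    simp only [hpn]
    linarith
  have step : ∀ m < M, sSup (val (m + 1) '' box) ≤ sSup (val m '' box) + φ := fun m hm => by
    refine csSup_le (ne _) ?_
    rintro _ ⟨β, hβ, rfl⟩
    by_cases hfar : val m β ≤ sSup (val m '' box) - 2 * c
    · have := (abs_le.mp (abs_E_sub_le_const (unif (J → Fin R)) fun z => P1 m (win β g z))).2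
      simp only [hval] at hfar ⊢
      linarith
    push Not at hfar
    have hmM : (m : ℝ) * c ≤ M * c := by gcongr
    have lo : -(m * c) - N * (Fintype.card J * (3 / 2 * η ^ 2)) ≤ sSup (val m '' box) := by
      refine le_trans ?_ (leG m _ ηbox)
      have := const_le_E (unif (J → Fin R)) (c := -(m * c))
        (F := fun z => Φ m (win (fun _ => η) g z)) fun z => by
          linarith [(abs_le.mp (Pm m (win (fun _ => η) g z))).1, P2 (win (fun _ => η) g z)]
      simp only [hval]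
      linarith
    have hβ1 : ∀ l, β l ≤ B - 1 := fun l => by
      by_contra hl
      push Not at hl
      have h1 : (B - 1) ^ 2 ≤ ∑ l, β l ^ 2 :=
        (pow_le_pow_left₀ (by linarith) hl.le 2).trans
          (single_le_sum (f := fun l => β l ^ 2) (fun _ _ => sq_nonneg _) (mem_univ l))
      have h2 : N * (e * (B - 1) ^ 2) ≤ N * (e * ∑ l, β l ^ 2) := by gcongr
      linarith [up m β hβ]
    have := P6 m hm β hβ fun z l => by
      have b2 : β + Pi.single l h ∈ box := fun j => by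
        by_cases hj : j = l
        · subst hj
          simp only [Pi.add_apply, Pi.single_eq_same]
          constructor <;> linarith [(hβ j).1, hβ1 j]
        · simpa [Pi.single_eq_of_ne hj] using hβ j
      have e1 : ∀ z : J → Fin R, win (β + Pi.single l h) g z = win β g z + Pi.single l h :=
        fun z => funext fun j => by simp only [win, Pi.add_apply]; ring
      have lip : ∀ β ∈ box, ∀ z z' : J → Fin R,
          Φ m (win β g z) - Φ m (win β g z') ≤ Lp * (Fintype.card J * w) := fun β hβ z z' => by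
        refine (P5 m _ _ (wbox β hβ z)).trans (mul_le_mul_of_nonneg_left ?_ hLp)
        rw [← nsmul_eq_mul, ← card_univ, ← sum_const]
        refine sum_le_sum fun j _ => abs_le.mpr ?_
        have h1 := win_mem β hg z j
        have h2 := win_mem β hg z' j
        constructor <;> linarith [h1.1, h1.2, h2.1, h2.2]
      have h1 := const_le_E (unif (J → Fin R))
        (c := Φ m (win (β + Pi.single l h) g z) - Lp * (Fintype.card J * w))
        (F := fun z => Φ m (win (β + Pi.single l h) g z)) fun z' => by linarith [lip _ b2 z z']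
      have h2 := E_le_const (unif (J → Fin R)) (c := Φ m (win β g z) + Lp * (Fintype.card J * w))
        (F := fun z => Φ m (win β g z)) fun z' => by linarith [lip _ hβ z' z]
      have h3 := leG m _ b2
      have h4 : pn (β + Pi.single l h) = pn β + N * ((β l * h + h ^ 2 / 2) * (a l + 2 * e)) := by
        have : ∑ j, (β + Pi.single l h : J → ℝ) j ^ 2 * (a j + 2 * e) =
            ∑ j, (β j ^ 2 * (a j + 2 * e) +
              if j = l then (2 * (β l * h) + h ^ 2) * (a l + 2 * e) else 0) :=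
          sum_congr rfl fun j _ => by
            by_cases hj : j = l
            · subst hj; simp only [Pi.add_apply, Pi.single_eq_same, if_true]; ring
            · simp [hj]
        simp only [hpn]
        rw [this, sum_add_distrib, sum_ite_eq' univ l, if_pos (mem_univ l)]
        ring
      rw [← e1]
      simp only [hval] at hfar h3
      linarith
    have h5 := leG m β hβ
    simp only [hval] at h5 ⊢
    linarith
  have tel : ∀ m ≤ M, sSup (val m '' box) ≤ sSup (val 0 '' box) + m * φ := fun m hm => by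
    induction m with
    | zero => simp
    | succ m ih =>
      have := step m hm
      push_cast
      linarith [ih (by omega)]
  have g0 : sSup (val 0 '' box) ≤ A + N * (Fintype.card J * (B * w + w ^ 2 / 2)) := by
    refine csSup_le (ne _) ?_
    rintro _ ⟨β, hβ, rfl⟩
    have h1 := up 0 β hβ
    have : 0 ≤ ∑ l, β l ^ 2 := sum_nonneg fun _ _ => sq_nonneg _
    have : 0 ≤ N * (e * ∑ l, β l ^ 2) := by positivity
    simp only [Nat.cast_zero, zero_mul, add_zero] at h1
    linarith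
  have h1 := leG M _ ηbox
  have h2 := const_le_E (unif (J → Fin R)) (F := fun z => Φ M (win (fun _ => η) g z))
    fun z => P4 _
  simp only [hval] at h1
  linarith [tel M le_rfl]

theorem cum_nonnegUB {n l : ℕ} {q : ℕ → ℝ} (h : ∀ j, 1 ≤ j → j ≤ l → 0 ≤ q j) : 0 ≤ cum n q l :=
  mul_nonneg (wt_pos n).le (sum_nonneg fun j hj => h j (mem_Icc.mp hj).1 (mem_Icc.mp hj).2)

theorem cum_le_oneUB {n l : ℕ} {q : ℕ → ℝ} (hl : l ≤ n + 1) (h : ∀ j, 1 ≤ j → j ≤ l → q j ≤ 1) :
    cum n q l ≤ 1 := by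
  have h1 : ∑ j ∈ Icc 1 l, q j ≤ ∑ _j ∈ Icc 1 (n + 1), (1 : ℝ) :=
    (sum_le_sum fun j hj => h j (mem_Icc.mp hj).1 (mem_Icc.mp hj).2).trans
      (sum_le_sum_of_subset_of_nonneg (Icc_subset_Icc_right hl) fun _ _ _ => zero_le_one)
  exact (mul_le_mul_of_nonneg_left h1 (wt_pos n).le).trans (wt_sum n 1).le

theorem smallUB (a t : ℝ) (ht : 0 < t) : ∃ x : ℝ, 0 < x ∧ ∀ y, 0 ≤ y → y ≤ x → a * y ≤ t := by
  refine ⟨t / (|a| + 1), by positivity, fun y hy h => ?_⟩
  rw [le_div_iff₀ (by positivity)] at h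
  nlinarith [le_abs_self a, abs_nonneg a]

theorem largeNUB (a b α t : ℝ) (ha : 0 ≤ a) (ht : 0 < t) : ∃ N0 : ℝ, ∀ N, N0 ≤ N → ∀ M : ℝ,
    0 ≤ M → M ≤ α * N → a * Real.sqrt M + b ≤ t * N := by
  obtain ⟨τ, hτ, h⟩ := smallUB (a * α) (t / 2) (by positivity)
  refine ⟨max 0 (2 * (a / τ + b) / t), fun N hN M hM hα => ?_⟩
  have hN0 : 0 ≤ N := le_of_max_le_left hN
  have h1 : 2 * (a / τ + b) ≤ N * t := (div_le_iff₀ ht).mp (le_of_max_le_right hN)
  have h2 : Real.sqrt M ≤ τ * M + 1 / τ := by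
    have h3 := Real.sq_sqrt hM
    have h4 : τ * (1 / τ) = 1 := mul_one_div_cancel hτ.ne'
    refine le_of_mul_le_mul_left ?_ hτ
    have h6 : 0 ≤ τ * Real.sqrt M := by positivity
    have h7 : τ * (τ * M + 1 / τ) = (τ * Real.sqrt M) ^ 2 + 1 := by
      rw [mul_add, h4, mul_pow, h3]; ring
    nlinarith [sq_nonneg (τ * Real.sqrt M - 1)]
  have h6 := h τ hτ.le le_rfl
  have h7 : a * (τ * M) ≤ a * (τ * (α * N)) := by gcongr
  have h8 := mul_le_mul_of_nonneg_left h2 ha
  have h9 := mul_le_mul_of_nonneg_right h6 hN0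
  rw [mul_add, mul_one_div] at h8
  nlinarith

theorem largeKUB (a t : ℝ) (ht : 0 < t) : ∃ K0 : ℕ, ∀ K : ℕ, K0 ≤ K →
    0 < K ∧ a / Real.sqrt K ≤ t := by
  obtain ⟨K0, hK0⟩ := exists_nat_gt ((a / t) ^ 2)
  refine ⟨K0 + 1, fun K hK => ⟨by omega, ?_⟩⟩
  have h1 : (a / t) ^ 2 ≤ K := hK0.le.trans (by exact_mod_cast (by omega : K0 ≤ K))
  have h2 : (0 : ℝ) < K := by exact_mod_cast (by omega : 0 < K)
  rw [div_le_iff₀ (Real.sqrt_pos.mpr h2), ← div_le_iff₀' ht]
  exact (le_abs_self _).trans (Real.abs_le_sqrt h1)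

end Vale.Agent.P157
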