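import Vale.Agent.P157.UBA
import Vale.Agent.P157.Cmp
import Vale.Agent.P157.Gau

/-!
# P157: the enriched model of the upper bound
-/

namespace Vale.Agent.P157

open Vale.Agent.P168 Vale.Agent.P168.PW Finset MeasureTheory Filter Topology
open scoped BigOperators

set_option synthInstance.maxSize 4096

namespace UBB

theorem lip0 {c : ℝ} {F : ℕ → ℝ → ℝ} (h : Sm c 3 F) (x y : ℝ) : |F 0 x - F 0 y| ≤ c * |x - y| := by
  have := Convex.norm_image_sub_le_of_norm_hasDerivWithin_le (f := F 0) (f' := F 1)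
    (s := Set.univ) (C := c) (fun z _ => (h.1 0 (by omega) z).hasDerivWithinAt)
    (fun z _ => h.2 1 (by omega) (by omega) z) convex_univ (Set.mem_univ y) (Set.mem_univ x)
  simpa using this

theorem abs_le_sqrt {J : Type} [Fintype J] {x : J → ℝ} {d : ℝ} (h : ∑ i, x i ^ 2 = d)
    (i : J) : |x i| ≤ Real.sqrt d :=
  Real.abs_le_sqrt (h ▸ single_le_sum (f := fun i => x i ^ 2) (fun _ _ => sq_nonneg _) (mem_univ i))

abbrev Lw (n K : ℕ) (I : Type) := (Fin (n + 1) × (I × Fin K)) ⊕ (Fin K × Fin (n + 2))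
abbrev Lu (n K M : ℕ) (I : Type) := (Fin M × I × Fin K) ⊕ Lw n K I
abbrev Uu (n K M : ℕ) (S I : Type) := U S (Lu n K M I)

variable {n K M : ℕ} {S I : Type}

def lvw : Lw n K I → ℕ := Sum.elim (fun l => l.1) fun l => l.2
def lvu : Lu n K M I → ℕ := Sum.elim (fun _ => n + 1) lvw

variable [Fintype S] [Fintype I] [DecidableEq I] (μ : PW S) (θ : S → I → ℝ) (F : ℕ → ℝ → ℝ) (N : ℝ)

noncomputable def Su (a : Fin M) (ω : Uu n K M S I) : ℝ :=
  ∑ i, Wk (fun k => ω.2 (Sum.inl (a, i, k))) * (θ ω.1 i / Real.sqrt N)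

noncomputable def Hu (m : ℕ) (ω : Uu n K M S I) : ℝ :=
  ∑ a : Fin M, if (a : ℕ) < m then F 0 (Su θ N a ω) else 0

variable (n K M S I) in
def su : Fam (Fin (n + 1) × (I × Fin K)) (Uu n K M S I) :=
  (famU S lvu).comap fun l => Sum.inr (Sum.inl l)

noncomputable def uu (j : I × Fin K) (ω : Uu n K M S I) : ℝ := θ ω.1 j.1 / Real.sqrt K

noncomputable def Gu (m : ℕ) (β : Fin (n + 1) → ℝ) (ω : Uu n K M S I) : ℝ :=
  Hu θ F N m ω + tot (fld (su n K M S I) (uu θ)) β ω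

variable (n K M I) in
noncomputable def Pu : Ch (Uu n K M S I) := PU μ lvu

variable (n K M I) in
noncomputable def ru : PW (Uu n K M S I) := ρU μ _

variable (K M) in
noncomputable def Phi (m : ℕ) (β : Fin (n + 1) → ℝ) : ℝ :=
  Fr n (Pu n K M I μ) (ru n K M I μ) (Gu θ F N m β)

variable (K M) in
/-- the overlap profile -/
noncomputable def rp (m : ℕ) (β : Fin (n + 1) → ℝ) : ℕ → ℝ :=
  prof n (Tn n (Pu n K M I μ) (Gu θ F N m β)) (ru n K M I μ) (ov (uu θ) N)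

variable (K M) in
/-- the mean field energy -/
noncomputable def El (m : ℕ) (β : Fin (n + 1) → ℝ) (l : Fin (n + 1)) : ℝ :=
  Eh n (Tn n (Pu n K M I μ) (Gu θ F N m β)) (ru n K M I μ) 0 (fld (su n K M S I) (uu θ) l)

variable {μ θ F N} {c : ℝ}

omit [Fintype S] [DecidableEq I] in
theorem Hu_succ (m : ℕ) (ω : Uu n K M S I) :
    Hu θ F N (m + 1) ω = Hu θ F N m ω + if h : m < M then F 0 (Su θ N ⟨m, h⟩ ω) else 0 := by
  have : ∀ a : Fin M, (if (a : ℕ) < m + 1 then F 0 (Su θ N a ω) else 0) =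
      (if (a : ℕ) < m then F 0 (Su θ N a ω) else 0) +
        if (a : ℕ) = m then F 0 (Su θ N a ω) else 0 := fun a => by
    split_ifs <;> first | omega | simp
  simp only [Hu, this, sum_add_distrib]
  congr 1
  split_ifs with h
  · rw [sum_eq_single ⟨m, h⟩ (fun b _ hb => if_neg fun e => hb (Fin.ext e)) (by simp), if_pos rfl]
  · exact sum_eq_zero fun a _ => if_neg (by omega)

theorem P1 (hc : ∀ x, |F 0 x| ≤ c) (m : ℕ) (β : Fin (n + 1) → ℝ) :
    |Phi K M μ θ F N (m + 1) β - Phi K M μ θ F N m β| ≤ c := by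
  refine abs_Fr_sub_le fun ω => ?_
  rw [Gu, Gu, Hu_succ, add_sub_add_right_eq_sub, add_sub_cancel_left]
  split_ifs
  · exact hc _
  · simpa using (abs_nonneg _).trans (hc 0)

omit [Fintype S] [DecidableEq I] in
theorem ov_uu (hK : 0 < K) (x y : Uu n K M S I) :
    ∑ j, uu θ j x * uu θ j y = ∑ i, θ x.1 i * θ y.1 i := by
  have h : (0 : ℝ) < K := by exact_mod_cast hK
  simp only [uu, Fintype.sum_prod_type, div_mul_div_comm, Real.mul_self_sqrt h.le,
    sum_const, card_univ, Fintype.card_fin, nsmul_eq_mul, mul_div_cancel₀ _ h.ne']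

omit [Fintype S] [DecidableEq I] in
theorem sum_uu (hK : 0 < K) (hθ : ∀ σ, ∑ i, θ σ i ^ 2 = N) (x : Uu n K M S I) :
    ∑ j, uu θ j x ^ 2 = N := by
  have := ov_uu (θ := θ) hK x x
  simpa only [← sq, hθ] using this

theorem ok_u : (famU S lvu).Ok (Pu n K M I μ) (ru n K M I μ) := ok_famU _ _

theorem fs_u (hθ : ∀ σ, ∑ i, θ σ i ^ 2 = N) (m : ℕ) :
    FS (su n K M S I) (uu θ) (Real.sqrt N / Real.sqrt K) (Tn n (Pu n K M I μ) (Hu θ F N m))
      (ru n K M I μ) where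
  ok := (ok_u.comap fun a b h => by simpa using h).Tn fun l ω => by
    simp [Fam.comap, famU, Hu, Su]
  lv := fun _ _ => rfl
  inv := fun _ _ _ => rfl
  bd := fun j x => by
    rw [uu, abs_div, abs_of_nonneg (Real.sqrt_nonneg _)]
    exact div_le_div_of_nonneg_right (abs_le_sqrt (hθ _) _) (Real.sqrt_nonneg _)

theorem cvx (m : ℕ) (β d : Fin (n + 1) → ℝ) :
    Phi K M μ θ F N m β + ∑ l, d l * El K M μ θ F N m β l ≤ Phi K M μ θ F N m (β + d) := by
  have e : Gu θ F N m (β + d) = fun ω : Uu n K M S I =>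
      Gu θ F N m β ω + tot (fld (su n K M S I) (uu θ)) d ω := funext fun ω => by
    simp only [Gu, tot, Pi.add_apply, add_mul, sum_add_distrib, add_assoc]
  rw [Phi, Phi, e, Fr_add]
  refine add_le_add le_rfl (le_trans (le_of_eq ?_) (Eh_le_Fr _))
  simp only [El, ← Eh_const_mul, ← Eh_sum]
  rfl

omit [Fintype S] in
theorem Gu_zero (m : ℕ) : Gu θ F N m (0 : Fin (n + 1) → ℝ) = (Hu θ F N m : Uu n K M S I → ℝ) :=
  funext fun ω => by simp [Gu, tot]

theorem P4 (hθ : ∀ σ, ∑ i, θ σ i ^ 2 = N) (m : ℕ) (β : Fin (n + 1) → ℝ) :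
    Phi (n := n) K M μ θ F N m 0 ≤ Phi K M μ θ F N m β := by
  have h := cvx (K := K) (M := M) (μ := μ) (θ := θ) (F := F) (N := N) m 0 β
  have : ∀ l : Fin (n + 1), El K M μ θ F N m 0 l = 0 := fun l => by
    rw [El, Gu_zero]
    exact Eh_lin_zero ((fs_u hθ m).ok.comap (e := fun j => (l, j)) fun a b h => by simpa using h)
      (fun _ _ _ => rfl) 0
  simpa [this] using h

theorem P2 (hθ : ∀ σ, ∑ i, θ σ i ^ 2 = N) (β : Fin (n + 1) → ℝ) : 0 ≤ Phi K M μ θ F N 0 β := by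
  refine le_trans (le_of_eq ?_) (P4 hθ 0 β)
  rw [Phi, Gu_zero, show (Hu θ F N 0 : Uu n K M S I → ℝ) = fun _ => 0 from
    funext fun ω => by simp [Hu], Fr_const]

theorem cum_rp (hK : 0 < K) (hN : 0 < N) (hθ : ∀ σ, ∑ i, θ σ i ^ 2 = N) (m : ℕ)
    (β : Fin (n + 1) → ℝ) :
    (∀ j, 0 ≤ rp K M μ θ F N m β j ∧ rp K M μ θ F N m β j ≤ 1) ∧ ∀ l, l ≤ n + 1 →
      0 ≤ cum n (rp K M μ θ F N m β) l ∧ cum n (rp K M μ θ F N m β) l ≤ 1 := by
  have h : ∀ j, 0 ≤ rp K M μ θ F N m β j ∧ rp K M μ θ F N m β j ≤ 1 := fun j =>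
    ⟨prof_nonneg hN.le j, prof_le hN (fun ω => by rw [sum_uu hK hθ, one_mul]) j⟩
  exact ⟨h, fun l hl => ⟨cum_nonnegUB fun j _ _ => (h j).1, cum_le_oneUB hl fun j _ _ => (h j).2⟩⟩

theorem ibp_u (hK : 0 < K) (hN : 0 < N) (hθ : ∀ σ, ∑ i, θ σ i ^ 2 = N) (m : ℕ)
    (β : Fin (n + 1) → ℝ) (l : Fin (n + 1)) {B : ℝ} (hβ : |β l| ≤ B)
    (h1 : B * (Real.sqrt N / Real.sqrt K) ≤ 1 / 2)
    (h2 : 100 * B ^ 2 * N * Fintype.card I * Real.sqrt N / Real.sqrt K ≤ 1) :
    |El K M μ θ F N m β l - β l * (N * (1 - cum n (rp K M μ θ F N m β) l))| ≤ 1 := by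
  have hK' : (0 : ℝ) < K := by exact_mod_cast hK
  have h := ibp_avg (fs_u (K := K) (M := M) (μ := μ) (F := F) hθ m) β l
    ((mul_le_mul_of_nonneg_right hβ (by positivity)).trans h1) hN
  rw [Tn_Tn, Eh_congr (sum_uu hK hθ), Eh_const] at h
  rw [mul_sub, mul_one]
  refine h.trans (le_trans ?_ h2)
  have h3 : β l ^ 2 ≤ B ^ 2 := by rw [← sq_abs]; exact pow_le_pow_left₀ (abs_nonneg _) hβ 2
  have h4 : (Real.sqrt N / Real.sqrt K) ^ 2 * K = N := by
    rw [div_pow, Real.sq_sqrt hN.le, Real.sq_sqrt hK'.le, div_mul_cancel₀ _ hK'.ne']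
  simp only [Fintype.card_prod, Fintype.card_fin]
  push_cast
  rw [mul_div_assoc]
  set cu := Real.sqrt N / Real.sqrt K
  have : 0 ≤ cu := by positivity
  calc _ = 100 * β l ^ 2 * (cu ^ 2 * K) * Fintype.card I * cu := by ring
    _ ≤ 100 * B ^ 2 * (cu ^ 2 * K) * Fintype.card I * cu := by gcongr
    _ = _ := by rw [h4]

/-- extension by zero -/
noncomputable def ext0 (β : Fin (n + 1) → ℝ) (l : ℕ) : ℝ := if h : l < n + 1 then β ⟨l, h⟩ else 0

theorem sum_tv (β : Fin (n + 1) → ℝ) (a : ℕ → ℝ) :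
    ∑ l ∈ range (n + 2), tv n (fun _ => 0) (ext0 β) l * a l = ∑ l, β l ^ 2 * a l := by
  rw [sum_range_succ, ← Fin.sum_univ_eq_sum_range (fun l => tv n (fun _ => 0) (ext0 β) l * a l)]
  simp only [tv, zero_add, if_neg (Nat.not_succ_le_self n), zero_mul, add_zero]
  exact sum_congr rfl fun l _ => by rw [if_pos (Nat.lt_succ_iff.mp l.2), ext0, dif_pos l.2]

theorem Phi_zero (β : Fin (n + 1) → ℝ) :
    Phi K M μ θ F N 0 β = psi2 n μ θ K K (fun _ => 0) (ext0 β) := by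
  let G : U S (Fin (n + 1) × I × Fin K) → ℝ := fun ω =>
    ∑ l, β l * ∑ j : I × Fin K, sp (ω.2 (l, j)) * (θ ω.1 j.1 / Real.sqrt K)
  have h1 := FU_pull (n := n) (μ := μ) (μ' := μ) (lv := fun l : Fin (n + 1) × I × Fin K => l.1)
    (lv' := (lvu : Lu n K M I → ℕ)) (g := id) (e := fun l => Sum.inr (Sum.inl l)) (fun _ => rfl)
    (fun a b h => by simpa using h) (fun _ => rfl) G
  have h2 := FU_pull (n := n) (μ := μ) (μ' := μ) (lv := fun l : Fin (n + 1) × I × Fin K => l.1)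
    (lv' := (lv2 : L2 n I (Fin K) (Fin K) → ℕ)) (g := id) (e := Sum.inr) (fun _ => rfl)
    Sum.inr_injective (fun _ => rfl) G
  rw [← h2] at h1
  refine Eq.trans (congrArg (FU n μ lvu) (funext fun ω => ?_))
    (h1.trans (congrArg (FU n μ lv2) (funext fun ω => ?_)))
  · simp only [Gu, Hu, Nat.not_lt_zero, if_false, sum_const_zero, zero_add]
    rfl
  · simp only [G, pull, hh, Real.sqrt_zero, zero_mul, sum_const_zero, zero_add, Wk, id,
      Fintype.card_fin, Fintype.sum_prod_type, sum_mul, mul_sum, sum_div]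
    rw [sum_comm]
    refine sum_congr rfl fun i _ => sum_congr rfl fun l _ => sum_congr rfl fun k _ => ?_
    rw [ext0, dif_pos l.2]
    ring

theorem es_u (hc : ∀ x, |F 0 x| ≤ c) (m : ℕ) (β : Fin (n + 1) → ℝ) :
    (ru n K M I μ).E (fun ω => |Xn n (Pu n K M I μ) (Gu θ F N m β) ω -
      Fr n (Pu n K M I μ) (ru n K M I μ) (Gu θ F N m β)|) ≤ 2 * c * Real.sqrt M := by
  have := es (n := n) (𝒜 := Fin M) μ (lvu : Lu n K M I → ℕ)
    (Sum.elim (fun l => some l.1) fun _ => none) (Gu θ F N m β) (c := 2 * c)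
    (fun a σ ξ ξ' h => ?_) fun l hl => ?_
  · rw [Fintype.card_fin] at this
    exact this
  · have h1 : ∀ l, ξ (Sum.inr l) = ξ' (Sum.inr l) := fun l => h _ (by simp)
    have h2 : ∀ a', a' ≠ a → Su θ N a' ((σ, ξ) : Uu n K M S I) = Su θ N a' (σ, ξ') :=
      fun a' ha => by
        simp only [Su]
        refine sum_congr rfl fun i _ => ?_
        rw [show (fun k => ξ (Sum.inl (a', i, k))) = fun k => ξ' (Sum.inl (a', i, k)) from
          funext fun k => h _ (by simpa using ha)]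
    have h3 : tot (fld (su n K M S I) (uu θ)) β (σ, ξ) =
        tot (fld (su n K M S I) (uu θ)) β (σ, ξ') := by
      simp only [tot, fld, su, Fam.comap, famU, uu, h1]
    rw [Gu, Gu, h3, add_sub_add_right_eq_sub, Hu, Hu, ← sum_sub_distrib,
      sum_eq_single a (fun a' _ ha => by rw [h2 a' ha, sub_self]) (by simp)]
    have := (abs_nonneg _).trans (hc 0)
    split_ifs
    · exact (abs_sub _ _).trans ((add_le_add (hc _) (hc _)).trans (two_mul c).ge)
    · simpa using this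
  · rcases l with l | l | l
    · simp at hl
    · exact Or.inl (Nat.lt_succ_iff.mp l.1.2)
    · exact Or.inr fun ω => by simp [Gu, Hu, Su, tot, fld, su, uu, Fam.comap, famU]

theorem Fr_casc (m : ℕ) (β : Fin (n + 1) → ℝ) (v : ℕ → ℝ) :
    Fr n (Tn n (Pu n K M I μ) (Gu θ F N m β)) (ru n K M I μ) (fun ω => F 0 (∑ l : Fin (n + 2),
      Real.sqrt (v l) * Wk fun k => ω.2 (Sum.inr (Sum.inr (k, l))))) = phiK n K v (F 0) := by
  have := FU_add_ind (n := n) (μ := μ) (lv := (lvu : Lu n K M I → ℕ))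
    (lv' := fun l : Fin K × Fin (n + 2) => (l.2 : ℕ)) (e := fun l => Sum.inr (Sum.inr l))
    (fun a b h => by simpa using h) (fun _ => rfl) (H := Gu θ F N m β)
    (fun l ω => by simp [Gu, Hu, Su, tot, fld, su, uu, Fam.comap, famU])
    fun ω => F 0 (∑ l : Fin (n + 2), Real.sqrt (v l) * Wk fun k => ω.2 (k, l))
  rw [FU, Fr_add] at this
  exact add_left_cancel this

theorem Phi_top : Phi (n := n) K M μ θ F N M 0 = (unif (Fin M × I × Fin K → Bool)).E fun ξ =>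
    Real.log (μ.E fun σ => Real.exp (∑ a, F 0 (∑ i, (Wk fun k => ξ (a, i, k)) *
      (θ σ i / Real.sqrt N)))) := by
  rw [Phi, Gu_zero]
  refine (FU_top μ lvw (Hu θ F N M)).trans (E_congr _ fun ξ => ?_)
  rw [← FU_nosign (n := n) μ (lvw : Lw n K I → ℕ)]
  refine congrArg _ (funext fun ω => ?_)
  simp only [Hu, Su, Fin.is_lt, if_true, Sum.elim_inl]

/-- the signs of one pattern together with the cascade signs -/
def ec (a : Fin M) : Fin K × (I ⊕ Fin (n + 2)) → Lu n K M I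
  | (k, Sum.inl i) => Sum.inl (a, i, k)
  | (k, Sum.inr l) => Sum.inr (Sum.inr (k, l))

theorem ok_c (a : Fin M) (β : Fin (n + 1) → ℝ) :
    ((famU S lvu).comap (ec a)).Ok (Tn n (Pu n K M I μ) (Gu θ F N a β)) (ru n K M I μ) := by
  refine (ok_u.comap ?_).Tn ?_
  · rintro ⟨k, i | l⟩ ⟨k', i' | l'⟩ h <;> simp_all [ec]
  · rintro ⟨k, i | l⟩ ω
    · simp only [Gu, Hu, tot, fld, su, uu, Fam.comap, famU, ec]
      congr 1
      refine sum_congr rfl fun b _ => ?_
      split_ifs with h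
      · have : b ≠ a := fun e => by simp [e] at h
        simp [Su, this]
      · rfl
    · simp [Gu, Hu, Su, tot, fld, su, uu, Fam.comap, famU, ec]

theorem Phi_succ (a : Fin M) (β : Fin (n + 1) → ℝ) :
    Phi K M μ θ F N (a + 1) β = Phi K M μ θ F N a β +
      Fr n (Tn n (Pu n K M I μ) (Gu θ F N a β)) (ru n K M I μ) fun ω => F 0 (Su θ N a ω) := by
  rw [Phi, Phi, ← Fr_add]
  refine congrArg _ (funext fun ω => ?_)
  rw [Gu, Gu, Hu_succ, dif_pos a.2]
  ring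

end UBB

end Vale.Agent.P157
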