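import Vale.Agent.P157.Smooth

/-!
# P157: from the two bounds to the limit
-/

namespace Vale.Agent.P157

open Vale.Agent.P168 Vale.Agent.P168.PW Finset MeasureTheory Filter Topology
open scoped BigOperators

theorem wrap (pr : ℕ → ℝ) (𝒯 : ℕ → Set ℝ) (hne : ∀ n, (𝒯 n).Nonempty) (hbd : ∀ n, BddBelow (𝒯 n))
    (up : ∀ ε : ℝ, 0 < ε → ∃ n0 : ℕ, ∀ n, n0 ≤ n → ∀ t ∈ 𝒯 n, ∀ᶠ N in atTop, pr N ≤ t + ε)
    (lo : ∀ ε : ℝ, 0 < ε → ∃ n0 : ℕ, ∀ n, n0 ≤ n → ∀ L ∈ lowerBounds (𝒯 n),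
      ∀ᶠ N in atTop, L - ε ≤ pr N) :
    ∃ (V : ℕ → ℝ) (L : ℝ), (∀ n, IsGLB (𝒯 n) (V n)) ∧ Tendsto V atTop (𝓝 L) ∧
      Tendsto pr atTop (𝓝 L) := by
  have hV : ∀ n, IsGLB (𝒯 n) (sInf (𝒯 n)) := fun n => isGLB_csInf (hne n) (hbd n)
  have key : ∀ ε : ℝ, 0 < ε → ∃ n0 : ℕ, ∀ n, n0 ≤ n → ∀ᶠ N in atTop, |pr N - sInf (𝒯 n)| ≤ ε := by
    intro ε hε
    obtain ⟨n1, h1⟩ := up (ε / 2) (by positivity)
    obtain ⟨n2, h2⟩ := lo ε hε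
    refine ⟨max n1 n2, fun n hn => ?_⟩
    obtain ⟨t, ht, htl⟩ := exists_lt_of_csInf_lt (hne n)
      (show sInf (𝒯 n) < sInf (𝒯 n) + ε / 2 by linarith)
    filter_upwards [h1 n (le_of_max_le_left hn) t ht, h2 n (le_of_max_le_right hn) _ (hV n).1]
      with N a b
    rw [abs_le]; constructor <;> linarith
  have hc : CauchySeq pr := by
    rw [Metric.cauchySeq_iff]
    intro ε hε
    obtain ⟨n0, h⟩ := key (ε / 3) (by positivity)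
    obtain ⟨N0, hN⟩ := eventually_atTop.mp (h n0 le_rfl)
    refine ⟨N0, fun a ha b hb => ?_⟩
    have h1 := abs_le.mp (hN a ha)
    have h2 := abs_le.mp (hN b hb)
    rw [Real.dist_eq, abs_lt]; constructor <;> linarith
  obtain ⟨L, hL⟩ := cauchySeq_tendsto_of_complete hc
  refine ⟨fun n => sInf (𝒯 n), L, hV, ?_, hL⟩
  rw [Metric.tendsto_atTop]
  intro ε hε
  obtain ⟨n0, h⟩ := key (ε / 2) (by positivity)
  refine ⟨n0, fun n hn => ?_⟩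
  have : |L - sInf (𝒯 n)| ≤ ε / 2 := le_of_tendsto ((hL.sub_const _).abs) (h n hn)
  rw [Real.dist_eq, abs_sub_comm]; linarith

/-- Passing from smooth to Borel potentials. -/
theorem wrap_borel {α : ℝ} (hα : 0 < α) {f : ℝ → ℝ} {B : ℝ} (hf : Measurable f)
    (hB : ∀ x, |f x| ≤ B) (pr : (ℝ → ℝ) → ℕ → ℝ) (𝒮 : ℕ → (ℕ → ℝ) → ℝ → Prop)
    (𝒯 : (ℝ → ℝ) → ℕ → Set ℝ)
    (h𝒯 : ∀ g n t, t ∈ 𝒯 g n ↔ ∃ p s, Adm n p ∧ 𝒮 n p s ∧ t = α * Cas n (vr n p) g + s)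
    (hne : ∀ n, ∃ p s, Adm n p ∧ 𝒮 n p s) (hbd : ∀ n, ∃ b, ∀ p s, Adm n p → 𝒮 n p s → b ≤ s)
    (hpr : ∀ (ε : ℝ) (g : ℝ → ℝ) (c : ℝ), 0 < ε → Measurable g → (∀ x, |g x| ≤ c) →
      (∀ (S I 𝒜 : Type) [MeasurableSpace S] [Fintype I] [Fintype 𝒜] (μ : Measure S)
        [IsProbabilityMeasure μ] (x : S → I → ℝ), Measurable x → (∀ᵐ σ ∂μ, ∑ i, x σ i ^ 2 = 1) →
        |gZ μ x f 𝒜 - gZ μ x g 𝒜| ≤ ε * Fintype.card 𝒜) →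
      ∀ᶠ N in atTop, |pr f N - pr g N| ≤ ε * α)
    (up : ∀ (c : ℝ) (F : ℕ → ℝ → ℝ), Sm c 4 F → (∀ x, |F 0 x| ≤ c) → ∀ ε : ℝ, 0 < ε →
      ∃ n0 : ℕ, ∀ n, n0 ≤ n → ∀ t ∈ 𝒯 (F 0) n, ∀ᶠ N in atTop, pr (F 0) N ≤ t + ε)
    (lo : ∀ (c : ℝ) (F : ℕ → ℝ → ℝ), Sm c 4 F → (∀ x, |F 0 x| ≤ c) → ∀ ε : ℝ, 0 < ε →
      ∃ n0 : ℕ, ∀ n, n0 ≤ n → ∀ L ∈ lowerBounds (𝒯 (F 0) n), ∀ᶠ N in atTop, L - ε ≤ pr (F 0) N) :
    ∃ (V : ℕ → ℝ) (L : ℝ), (∀ n, IsGLB (𝒯 f n) (V n)) ∧ Tendsto V atTop (𝓝 L) ∧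
      Tendsto (pr f) atTop (𝓝 L) := by
  have app : ∀ ε : ℝ, 0 < ε → ∃ (F : ℕ → ℝ → ℝ) (c : ℝ), Sm c 4 F ∧ (∀ x, |F 0 x| ≤ c) ∧
      (∀ n p, Adm n p → |α * Cas n (vr n p) f - α * Cas n (vr n p) (F 0)| ≤ ε) ∧
      ∀ᶠ N in atTop, |pr f N - pr (F 0) N| ≤ ε := by
    intro ε hε
    obtain ⟨F, c, h1, h2, h3, h4⟩ := smooth_approx hf hB (ε := ε / α) (by positivity)
    have hm : Measurable (F 0) :=
      (continuous_iff_continuousAt.mpr fun x => (h1.1 0 (by norm_num) x).continuousAt).measurable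
    refine ⟨F, c, h1, h2, fun n p hp => ?_, ?_⟩
    · rw [← mul_sub, abs_mul, abs_of_pos hα, ← le_div_iff₀' hα]; exact h3 n p hp
    · simpa [hα.ne'] using hpr (ε / α) (F 0) c (by positivity) hm h2 h4
  refine wrap (pr f) (𝒯 f) (fun n => ?_) (fun n => ?_) (fun ε hε => ?_) fun ε hε => ?_
  · obtain ⟨p, s, h1, h2⟩ := hne n
    exact ⟨_, (h𝒯 f n _).mpr ⟨p, s, h1, h2, rfl⟩⟩
  · obtain ⟨b, hb⟩ := hbd n
    refine ⟨α * -B + b, fun t ht => ?_⟩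
    obtain ⟨p, s, h1, h2, rfl⟩ := (h𝒯 f n t).mp ht
    have := (abs_le.mp (abs_Cas_le hf hB n (vr n p))).1
    have := hb p s h1 h2
    gcongr
  · obtain ⟨F, c, h1, h2, h3, h4⟩ := app (ε / 3) (by positivity)
    obtain ⟨n0, h⟩ := up c F h1 h2 (ε / 3) (by positivity)
    refine ⟨n0, fun n hn t ht => ?_⟩
    obtain ⟨p, s, a1, a2, rfl⟩ := (h𝒯 f n t).mp ht
    filter_upwards [h n hn _ ((h𝒯 (F 0) n _).mpr ⟨p, s, a1, a2, rfl⟩), h4] with N b1 b2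
    linarith [(abs_le.mp b2).2, (abs_le.mp (h3 n p a1)).1]
  · obtain ⟨F, c, h1, h2, h3, h4⟩ := app (ε / 3) (by positivity)
    obtain ⟨n0, h⟩ := lo c F h1 h2 (ε / 3) (by positivity)
    refine ⟨n0, fun n hn L hL => ?_⟩
    have : L - ε / 3 ∈ lowerBounds (𝒯 (F 0) n) := fun t ht => by
      obtain ⟨p, s, a1, a2, rfl⟩ := (h𝒯 (F 0) n t).mp ht
      have := hL ((h𝒯 f n _).mpr ⟨p, s, a1, a2, rfl⟩)
      linarith [(abs_le.mp (h3 n p a1)).2]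
    filter_upwards [h n hn _ this, h4] with N b1 b2
    linarith [(abs_le.mp b2).1]

theorem press_close {α ε a b : ℝ} (hα : 0 < α) (hε : 0 < ε) {N : ℕ} (hN : 0 < N)
    (h : |a - b| ≤ ε * Fintype.card (Fin ⌊α * N⌋₊)) :
    |1 / (N : ℝ) * a - 1 / (N : ℝ) * b| ≤ ε * α := by
  have hN' : (0 : ℝ) < N := by exact_mod_cast hN
  rw [← mul_sub, abs_mul, abs_of_pos (by positivity), one_div, inv_mul_le_iff₀ hN']
  refine h.trans ?_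
  rw [Fintype.card_fin]
  have := Nat.floor_le (show 0 ≤ α * N by positivity)
  nlinarith

end Vale.Agent.P157
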